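import Vale.Agent.P200.V.Defs

set_option linter.all false

/-! The Koszul complexes of the variables and of the forms `ξ_i` are isomorphic. -/

namespace Vale.Agent.P200.V

open MvPolynomial Module
open Vale.Agent.P200.B Vale.Agent.P200.G Vale.Agent.P200.L Vale.Agent.P200.M

variable {K : Type*} [Field K] {A : Type*} [Ring A] [Algebra K A] {n : ℕ}

/-- the commuting forms -/
theorem linA_comm (E : Fin n → Fin n → A)
    (hrow : ∀ i j, i ≠ j → ∀ k l, E i k * E j l = E j l * E i k) (i j : Fin n) :
    linA (E i) * linA (E j) = linA (E j) * linA (E i) := by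
  by_cases hij : i = j
  · rw [hij]
  · have h : ∀ (a b : Fin n → A), linA a * linA b = ∑ k, ∑ l,
        AddMonoidAlgebra.single (Finsupp.single k 1 + Finsupp.single l 1) (a k * b l) := by
      intro a b
      rw [linA, linA, Finset.sum_mul_sum]
      refine Finset.sum_congr rfl fun k _ => Finset.sum_congr rfl fun l _ => ?_
      rw [AddMonoidAlgebra.single_mul_single]
    rw [h, h, Finset.sum_comm]
    refine Finset.sum_congr rfl fun k _ => Finset.sum_congr rfl fun l _ => ?_
    rw [hrow i j hij, add_comm]

theorem finite_YA [Module.Finite K A] (d : ℕ) : Module.Finite K (YA K A n d) := by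
  classical
  let f : YA K A n d →ₗ[K] (Finset.finsuppAntidiag (Finset.univ : Finset (Fin n)) d → A) :=
    { toFun := fun u m => (u : AR A n).coeff m.1
      map_add' := fun u v => rfl
      map_smul' := fun c u => rfl }
  refine Module.Finite.of_injective f fun u v huv => ?_
  apply Subtype.ext
  ext m
  by_cases hm : ∑ i, m i = d
  · have hm' : m ∈ Finset.finsuppAntidiag (Finset.univ : Finset (Fin n)) d :=
      Finset.mem_finsuppAntidiag.2 ⟨hm, Finset.subset_univ _⟩
    exact congrFun huv ⟨m, hm'⟩
  · have h1 : ∀ w : YA K A n d, (w : AR A n).coeff m = 0 := by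
      intro w
      by_contra h
      exact hm (w.2 m h)
    rw [h1, h1]

/-- injectivity on constants -/
theorem v4_inj_const (E : Fin n → Fin n → A)
    (hrow : ∀ i j, i ≠ j → ∀ k l, E i k * E j l = E j l * E i k)
    (hind : ∀ c : Fin n → A, (∀ k, ∑ i, c i * E i k = 0) → c = 0) (p : ℕ) :
    ∀ c : Finset (Fin n) → A, (∀ s, s.card ≠ p → c s = 0) → cpL E c = 0 → c = 0 := by
  induction p with
  | zero =>
    intro c hc h
    have h1 : cpL E c ∅ = c ∅ := by
      rw [cpL_apply, Finset.sum_eq_single ∅]
      · rw [cpW_empty, cp0, if_pos rfl]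
      · intro I _ hI
        rw [hc I (by simpa using hI), ← cpWH_apply, map_zero]
        rfl
      · simp
    funext s
    by_cases hs : s = ∅
    · rw [hs, ← h1, h]
    · exact hc s (by simpa using hs)
  | succ p ih =>
    intro c hc h
    have h1 : ∀ k : Fin n, kr (fun i => E i k) c = 0 := by
      intro k
      apply ih
      · intro s hs
        rw [cp_kr]
        refine Finset.sum_eq_zero fun i hi => ?_
        rw [hc, zero_mul, smul_zero]
        rw [Finset.card_insert_of_notMem (Finset.mem_compl.1 hi)]
        omega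
      · have h2 := kr_cpL (fun j : Fin n => if j = k then (1 : A) else 0) E
          (fun j i l => by split_ifs <;> simp) hrow c
        have h3 : (fun i => ∑ j, E i j * if j = k then (1 : A) else 0) = fun i => E i k := by
          funext i
          simp
        rw [h3] at h2
        rw [← h2, h]
        exact map_zero (krH _)
    funext s
    by_cases hs : s.card = p + 1
    · obtain ⟨i₀, hi₀⟩ : s.Nonempty := Finset.card_pos.1 (by omega)
      have hi₁ : i₀ ∉ s.erase i₀ := Finset.notMem_erase _ _
      have h4 : ∀ k, ∑ i, (if i ∈ s.erase i₀ then (0 : A) else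
          ((-1 : ℤ) ^ ((s.erase i₀).filter fun k => k < i).card) • c (insert i (s.erase i₀))) *
          E i k = 0 := by
        intro k
        have h5 := congrFun (h1 k) (s.erase i₀)
        rw [cp_kr, Pi.zero_apply] at h5
        refine Eq.trans ?_ h5
        rw [← Finset.sum_compl_add_sum (s.erase i₀)]
        rw [Finset.sum_eq_zero (s := s.erase i₀)]
        · rw [add_zero]
          refine Finset.sum_congr rfl fun i hi => ?_
          rw [if_neg (Finset.mem_compl.1 hi), smul_mul_assoc]
        · intro i hi
          rw [if_pos hi, zero_mul]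
      have h6 := congrFun (hind _ h4) i₀
      simp only [Pi.zero_apply] at h6
      rw [if_neg hi₁, Finset.insert_erase hi₀] at h6
      rcases neg_one_pow_eq_or ℤ ((s.erase i₀).filter fun k => k < i₀).card with h7 | h7
      · rw [h7, one_smul] at h6
        exact h6
      · rw [h7, neg_one_smul, neg_eq_zero] at h6
        exact h6
    · exact hc s hs

/-- right multiplication by constants, on coefficients -/
theorem v4_coeff_mul (u : AR A n) (a : A) (m : Fin n →₀ ℕ) :
    (u * AddMonoidAlgebra.single 0 a).coeff m = u.coeff m * a :=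
  AddMonoidAlgebra.coeff_mul_single_zero u a m

/-- injectivity -/
theorem v4_inj (E : Fin n → Fin n → A)
    (hrow : ∀ i j, i ≠ j → ∀ k l, E i k * E j l = E j l * E i k)
    (hind : ∀ c : Fin n → A, (∀ k, ∑ i, c i * E i k = 0) → c = 0) (p : ℕ)
    (c : Finset (Fin n) → AR A n)
    (hc : ∀ s, s.card ≠ p → c s = 0)
    (h : cpL (fun i k => (AddMonoidAlgebra.single 0 (E i k) : AR A n)) c = 0) : c = 0 := by
  funext s
  ext m
  let φ : AR A n →+ A := AddMonoidHom.mk' (fun u => u.coeff m) (fun u v => by
    rw [AddMonoidAlgebra.coeff_add, Finsupp.add_apply])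
  have h1 : (fun t => φ (c t)) = 0 := by
    apply v4_inj_const E hrow hind p
    · intro t ht
      change φ (c t) = 0
      rw [hc t ht, map_zero]
    · funext t
      rw [← cpL_nat φ (fun i k => (AddMonoidAlgebra.single 0 (E i k) : AR A n)) E
        (fun u i k => v4_coeff_mul u _ m), h]
      exact map_zero φ
  have h2 := congrFun h1 s
  exact h2

theorem v4_finite_chD (p : ℕ) (W : Submodule K (AR A n)) [Module.Finite K W] :
    Module.Finite K (chD n p W) := by
  let f : chD n p W →ₗ[K] (Finset (Fin n) → W) :=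
    { toFun := fun c s => ⟨c.1 s, c.2.2 s⟩
      map_add' := fun a b => rfl
      map_smul' := fun a b => rfl }
  refine Module.Finite.of_injective f fun a b h => ?_
  apply Subtype.ext
  funext s
  exact congrArg Subtype.val (congrFun h s)

theorem v4_rd_zero (x : Fin n → AR A n) (U W : Submodule K (AR A n)) :
    rd x U W 0 = chD n 0 W := by
  ext c
  rw [mem_rd]
  refine ⟨fun h => h.1, fun h => ⟨h, fun t => ?_⟩⟩
  have : kr x c t = 0 := by
    rw [cp_kr]
    refine Finset.sum_eq_zero fun i hi => ?_
    rw [h.1, zero_mul, smul_zero]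
    rw [Finset.card_insert_of_notMem (Finset.mem_compl.1 hi)]
    omega
  rw [this]
  exact U.zero_mem

theorem v4_kr_card (x : Fin n → AR A n) {c : Finset (Fin n) → AR A n} {q : ℕ}
    (hc : ∀ s, s.card ≠ q + 1 → c s = 0) (t : Finset (Fin n)) (ht : t.card ≠ q) :
    kr x c t = 0 := by
  rw [cp_kr]
  refine Finset.sum_eq_zero fun i hi => ?_
  rw [hc, zero_mul, smul_zero]
  rw [Finset.card_insert_of_notMem (Finset.mem_compl.1 hi)]
  omega

theorem compoundA [Module.Finite K A] (E : Fin n → Fin n → A)
    (hrow : ∀ i j, i ≠ j → ∀ k l, E i k * E j l = E j l * E i k)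
    (hind : ∀ c : Fin n → A, (∀ k, ∑ i, c i * E i k = 0) → c = 0) {d p : ℕ}
    (V : Submodule K (AR A n)) (hV : V ≤ YA K A n (d + 1))
    (hVr : ∀ u ∈ V, ∀ a : A, u * AddMonoidAlgebra.single 0 a ∈ V) :
    finrank K (rd (zA A n) V (YA K A n d) p) =
      finrank K (rd (fun i => linA (E i)) V (YA K A n d) p) := by
  classical
  rcases p with _ | q
  · rw [v4_rd_zero, v4_rd_zero]
  let B : Fin n → Fin n → AR A n := fun i k => AddMonoidAlgebra.single 0 (E i k)
  have hxi : (fun i => ∑ k, B i k * zA A n k) = fun i => linA (E i) := by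
    funext i
    rw [linA]
    refine Finset.sum_congr rfl fun k _ => ?_
    simp only [B, zA]
    rw [AddMonoidAlgebra.single_mul_single, zero_add, mul_one]
  have hx : ∀ j i k, B j k * zA A n i = zA A n i * B j k := by
    intro j i k
    simp only [B, zA]
    rw [AddMonoidAlgebra.single_mul_single, AddMonoidAlgebra.single_mul_single, zero_add, mul_one,
      add_zero, one_mul]
  have hrow' : ∀ i j, i ≠ j → ∀ k l, B i k * B j l = B j l * B i k := by
    intro i j hij k l
    simp only [B]
    rw [AddMonoidAlgebra.single_mul_single, AddMonoidAlgebra.single_mul_single, hrow i j hij]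
  have hchain : ∀ c, kr (zA A n) (cpL B c) = cpL B (kr (fun i => linA (E i)) c) := by
    intro c
    rw [kr_cpL (zA A n) B hx hrow' c, hxi]
  have hinj : ∀ (r : ℕ) (c : Finset (Fin n) → AR A n), (∀ s, s.card ≠ r → c s = 0) →
      cpL B c = 0 → c = 0 := fun r c hc h => v4_inj E hrow hind r c hc h
  -- surjectivity
  have hsurj : ∀ (r : ℕ) (W : Submodule K (AR A n)) [Module.Finite K W],
      (∀ u ∈ W, ∀ i k, u * B i k ∈ W) → ∀ c ∈ chD n r W, ∃ c' ∈ chD n r W, cpL B c' = c := by
    intro r W _ hW c hc
    have := v4_finite_chD r W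
    let g : chD n r W →ₗ[K] chD n r W := (cpLL K B).restrict fun c hc =>
      ⟨fun s hs => cpL_card B hc.1 s hs, fun s => cpL_mem B hW hc.2 s⟩
    have hg : Function.Injective g := by
      rw [← LinearMap.ker_eq_bot, LinearMap.ker_eq_bot']
      intro c hc
      apply Subtype.ext
      exact hinj r c.1 c.2.1 (congrArg Subtype.val hc)
    obtain ⟨c', hc'⟩ := (LinearMap.injective_iff_surjective.1 hg) ⟨c, hc⟩
    exact ⟨c'.1, c'.2, congrArg Subtype.val hc'⟩
  have hVA : ∀ u ∈ V, ∀ i k, u * B i k ∈ V := fun u hu i k => hVr u hu _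
  have hYA : ∀ u ∈ YA K A n d, ∀ i k, u * B i k ∈ YA K A n d := by
    intro u hu i k m hm
    refine hu m fun h => hm ?_
    simp only [B]
    rw [v4_coeff_mul, h, zero_mul]
  have hfY : Module.Finite K (YA K A n d) := finite_YA d
  have hfV : Module.Finite K V := by
    have := finite_YA (K := K) (A := A) (n := n) (d + 1)
    exact Module.Finite.of_injective (Submodule.inclusion hV) (Submodule.inclusion_injective hV)
  have hmap : (rd (fun i => linA (E i)) V (YA K A n d) (q + 1)).map (cpLL K B) =
      rd (zA A n) V (YA K A n d) (q + 1) := by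
    ext c
    rw [Submodule.mem_map]
    constructor
    · rintro ⟨c, hc, rfl⟩
      rw [cpLL_apply, mem_rd]
      refine ⟨⟨fun s hs => cpL_card B hc.1.1 s hs, fun s => cpL_mem B hYA hc.1.2 s⟩, ?_⟩
      intro t
      rw [hchain]
      exact cpL_mem B hVA hc.2 t
    · intro hc
      obtain ⟨c', hc', rfl⟩ := hsurj (q + 1) (YA K A n d) hYA c hc.1
      refine ⟨c', ⟨hc', ?_⟩, rfl⟩
      have h1 : kr (zA A n) (cpL B c') ∈ chD n q V :=
        ⟨fun t ht => v4_kr_card _ hc.1.1 t ht, hc.2⟩
      obtain ⟨w, hw, hw'⟩ := hsurj q V hVA _ h1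
      rw [hchain] at hw'
      have h2 : kr (fun i => linA (E i)) c' - w = 0 := by
        apply hinj q
        · intro s hs
          rw [Pi.sub_apply, v4_kr_card _ hc'.1 s hs, hw.1 s hs, sub_zero]
        · have h3 : cpL B (kr (fun i => linA (E i)) c' - w) =
              cpL B (kr (fun i => linA (E i)) c') - cpL B w := map_sub (cpLL K B) _ _
          rw [h3, hw', sub_self]
      rw [sub_eq_zero] at h2
      rw [h2]
      exact hw.2
  rw [← hmap, ← LinearMap.range_domRestrict]
  refine LinearMap.finrank_range_of_inj ?_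
  rw [← LinearMap.ker_eq_bot, LinearMap.ker_eq_bot']
  intro c hc
  apply Subtype.ext
  exact hinj (q + 1) c.1 c.2.1.1 hc

end Vale.Agent.P200.V
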