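import Vale.Agent.P200.V.Base
import Vale.Agent.P200.V.Comp
import Vale.Agent.P200.M.Degen

/-! Splitting a space of polynomials over `A` along a flag of `A`. -/

namespace Vale.Agent.P200.V

open MvPolynomial Module
open Vale.Agent.P200.B Vale.Agent.P200.G Vale.Agent.P200.L Vale.Agent.P200.M

variable {K : Type*} [Field K] {A : Type*} [Ring A] [Algebra K A] {n r : ℕ}

/-- the `t`-th coordinates of the elements of `N` whose earlier coordinates vanish -/
noncomputable def flag (β : Module.Basis (Fin r) K A) (N : Submodule K (AR A n)) (t : Fin r) :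
    Submodule K (MvPolynomial (Fin n) K) :=
  (N ⊓ ⨅ s : {s : Fin r // s < t}, LinearMap.ker (co (n := n) (β.coord s.1))).map
    (co (β.coord t))

theorem mem_flag {β : Module.Basis (Fin r) K A} {N : Submodule K (AR A n)} {t : Fin r}
    {v : MvPolynomial (Fin n) K} :
    v ∈ flag β N t ↔ ∃ u ∈ N, (∀ s < t, co (β.coord s) u = 0) ∧ co (β.coord t) u = v := by
  rw [flag, Submodule.mem_map]
  constructor
  · rintro ⟨u, hu, rfl⟩
    rw [Submodule.mem_inf, Submodule.mem_iInf] at hu
    exact ⟨u, hu.1, fun s hs => LinearMap.mem_ker.1 (hu.2 ⟨s, hs⟩), rfl⟩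
  · rintro ⟨u, hu, h1, rfl⟩
    refine ⟨u, ?_, rfl⟩
    rw [Submodule.mem_inf, Submodule.mem_iInf]
    exact ⟨hu, fun s => LinearMap.mem_ker.2 (h1 s.1 s.2)⟩

/-- an element with vanishing coordinates is zero -/
theorem v6_eq_zero (β : Module.Basis (Fin r) K A) {u : AR A n}
    (h : ∀ s, co (β.coord s) u = 0) : u = 0 := by
  apply AddMonoidAlgebra.coeff_injective
  apply Finsupp.ext
  intro m
  rw [AddMonoidAlgebra.coeff_zero, Finsupp.zero_apply]
  apply β.ext_elem
  intro s
  have h1 : β.coord s (u.coeff m) = 0 := by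
    rw [← co_coeff, h s, MvPolynomial.coeff_zero]
  rw [Module.Basis.coord_apply] at h1
  rw [h1, map_zero, Finsupp.zero_apply]

/-- the coordinate maps, indexed by natural numbers -/
noncomputable def v6_pi (β : Module.Basis (Fin r) K A) (n i : ℕ) :
    AR A n →ₗ[K] MvPolynomial (Fin n) K :=
  if h : i < r then co (β.coord ⟨i, h⟩) else 0

theorem v6_pi_eq (β : Module.Basis (Fin r) K A) (t : Fin r) :
    v6_pi β n t = co (β.coord t) := by
  rw [v6_pi, dif_pos t.2]

theorem v6_flag_eq (β : Module.Basis (Fin r) K A) (N : Submodule K (AR A n)) (t : Fin r) :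
    flag β N t = (degCut N (v6_pi β n) t).map (co (β.coord t)) := by
  ext v
  rw [mem_flag, Submodule.mem_map]
  constructor
  · rintro ⟨u, hu, h1, rfl⟩
    refine ⟨u, ⟨hu, fun j hj => ?_⟩, rfl⟩
    have := h1 ⟨j, hj.trans t.2⟩ (Fin.lt_def.2 hj)
    rwa [← v6_pi_eq] at this
  · rintro ⟨u, ⟨hu, h1⟩, rfl⟩
    refine ⟨u, hu, fun s hs => ?_, rfl⟩
    have := h1 s (Fin.lt_def.1 hs)
    rwa [v6_pi_eq] at this

theorem sum_finrank_flag (β : Module.Basis (Fin r) K A) (N : Submodule K (AR A n))
    [Module.Finite K N] : ∑ t, finrank K (flag β N t) = finrank K N := by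
  rw [finrank_degCut N (v6_pi β n) r]
  have h0 : degCut N (v6_pi β n) r = ⊥ := by
    rw [eq_bot_iff]
    rintro u ⟨_, hu⟩
    rw [Submodule.mem_bot]
    apply v6_eq_zero β
    intro s
    have := hu s s.2
    rwa [v6_pi_eq] at this
  rw [h0, finrank_bot, add_zero, Finset.sum_range]
  refine Finset.sum_congr rfl fun t _ => ?_
  have h1 : flag β N t = (degCut N (v6_pi β n) t).map (v6_pi β n t) := by
    rw [v6_pi_eq]
    exact v6_flag_eq β N t
  rw [h1]

theorem v6_hom (φ : A →ₗ[K] K) {e : ℕ} {u : AR A n} (hu : u ∈ YA K A n e) :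
    co φ u ∈ homogeneousSubmodule (Fin n) K e := by
  rw [mem_homogeneousSubmodule, isHomogeneous_iff_sum]
  intro m hm
  rw [co_coeff] at hm
  exact hu m fun h => hm (by rw [h, map_zero])

theorem flag_le (β : Module.Basis (Fin r) K A) {N : Submodule K (AR A n)} {e : ℕ}
    (hN : N ≤ YA K A n e) (t : Fin r) : flag β N t ≤ homogeneousSubmodule (Fin n) K e := by
  intro v hv
  obtain ⟨u, hu, _, rfl⟩ := mem_flag.1 hv
  exact v6_hom _ (hN hu)

theorem v6_co_mul_zA (φ : A →ₗ[K] K) (u : AR A n) (i : Fin n) :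
    co φ (u * zA A n i) = co φ u * X i := by
  rw [← bA_X (K := K), co_mul_bA]

theorem flag_mul (β : Module.Basis (Fin r) K A) {N N' : Submodule K (AR A n)} (i : Fin n)
    (h : ∀ u ∈ N, u * zA A n i ∈ N') (t : Fin r) (v : MvPolynomial (Fin n) K)
    (hv : v ∈ flag β N t) : v * X i ∈ flag β N' t := by
  obtain ⟨u, hu, h1, rfl⟩ := mem_flag.1 hv
  refine mem_flag.2 ⟨u * zA A n i, h u hu, fun s hs => ?_, v6_co_mul_zA _ _ _⟩
  rw [v6_co_mul_zA, h1 s hs, zero_mul]

theorem v6_co_single (φ : A →ₗ[K] K) (m : Fin n →₀ ℕ) (a : A) :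
    co φ (AddMonoidAlgebra.single m a) = monomial m (φ a) := by
  classical
  refine MvPolynomial.ext _ _ fun m' => ?_
  rw [co_coeff, AddMonoidAlgebra.coeff_single, coeff_monomial, Finsupp.single_apply]
  split_ifs
  · rfl
  · exact map_zero _

theorem monomial_mem_flag (β : Module.Basis (Fin r) K A) {N : Submodule K (AR A n)} {t : Fin r}
    {m : Fin n →₀ ℕ} (h : AddMonoidAlgebra.single m (β t) ∈ N) :
    monomial m 1 ∈ flag β N t := by
  refine mem_flag.2 ⟨_, h, fun s hs => ?_, ?_⟩
  · rw [v6_co_single, Module.Basis.coord_apply, Module.Basis.repr_self,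
      Finsupp.single_eq_of_ne (ne_of_lt hs), monomial_zero]
  · rw [v6_co_single, Module.Basis.coord_apply, Module.Basis.repr_self, Finsupp.single_eq_same]

/-- the differential acts coordinatewise -/
theorem v6_co_kr (φ : A →ₗ[K] K) (c : Finset (Fin n) → AR A n) (t : Finset (Fin n)) :
    co φ (kr (zA A n) c t) = kd X (fun s => co φ (c s)) t := by
  rw [kr_apply, kd_apply, map_sum]
  refine Finset.sum_congr rfl fun i _ => ?_
  rcases Nat.even_or_odd (t.filter fun k => k < i).card with h | h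
  · rw [h.neg_one_pow, h.neg_one_pow, one_mul, one_mul, v6_co_mul_zA, mul_comm]
  · rw [h.neg_one_pow, h.neg_one_pow, neg_one_mul, neg_one_mul, map_neg, v6_co_mul_zA, mul_comm]

/-- cycles -/
theorem finrank_rd_flag [Module.Finite K A] (β : Module.Basis (Fin r) K A)
    (N : Submodule K (AR A n)) (d p : ℕ) :
    finrank K (rd (zA A n) N (YA K A n d) p) ≤
      ∑ t, finrank K (rc X (flag β N t) (homogeneousSubmodule (Fin n) K d) p) := by
  have h0 : Module.Finite K (YA K A n d) := finite_YA d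
  have h1 : Module.Finite K (chD (D := K) n p (YA K A n d)) := by
    let f : chD (D := K) n p (YA K A n d) →ₗ[K] (Finset (Fin n) → YA K A n d) :=
      { toFun := fun c s => ⟨c.1 s, c.2.2 s⟩
        map_add' := fun _ _ => rfl
        map_smul' := fun _ _ => rfl }
    refine Module.Finite.of_injective f fun c c' h => ?_
    apply Subtype.ext
    funext s
    exact congrArg Subtype.val (congrFun h s)
  have h2 : Module.Finite K (rd (zA A n) N (YA K A n d) p) :=
    Submodule.finiteDimensional_of_le (S₂ := chD n p (YA K A n d)) fun c hc => hc.1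
  rw [finrank_degCut (rd (zA A n) N (YA K A n d) p)
    (fun i => (v6_pi β n i).compLeft (Finset (Fin n))) r]
  have h3 : degCut (rd (zA A n) N (YA K A n d) p)
      (fun i => (v6_pi β n i).compLeft (Finset (Fin n))) r = ⊥ := by
    rw [eq_bot_iff]
    rintro c ⟨_, hc⟩
    rw [Submodule.mem_bot]
    funext a
    apply v6_eq_zero β
    intro s
    have := congrFun (hc s s.2) a
    rw [← v6_pi_eq]
    exact this
  rw [h3, finrank_bot, add_zero, Finset.sum_range]
  refine Finset.sum_le_sum fun t _ => ?_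
  refine Submodule.finrank_mono ?_
  rintro _ ⟨c, ⟨hc, hc'⟩, rfl⟩
  have e : (v6_pi β n t).compLeft (Finset (Fin n)) c = fun s => co (β.coord t) (c s) := by
    rw [v6_pi_eq]
    rfl
  have hz : ∀ s < t, (fun a => co (β.coord s) (c a)) = 0 := by
    intro s hs
    have := hc' s (Fin.lt_def.1 hs)
    rw [← v6_pi_eq]
    exact this
  rw [e]
  refine ⟨⟨fun s hs => ?_, fun s => v6_hom _ (hc.1.2 s)⟩, fun a => ?_⟩
  · change co (β.coord t) (c s) = 0
    rw [hc.1.1 s hs, map_zero]
  · refine mem_flag.2 ⟨kr (zA A n) c a, hc.2 a, fun s hs => ?_, v6_co_kr _ _ _⟩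
    rw [v6_co_kr, hz s hs]
    exact congrFun ((kdL K (X : Fin n → MvPolynomial (Fin n) K)).map_zero) a

end Vale.Agent.P200.V
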