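import Vale.Agent.P200.M.Degen

set_option linter.all false

/-! Lowest monomials with respect to the (colexicographic) order, uniformly in the degree. -/

namespace Vale.Agent.P200.V

open MvPolynomial Module
open Vale.Agent.P200.B Vale.Agent.P200.G Vale.Agent.P200.L Vale.Agent.P200.M

variable {K : Type*} [Field K] {n : ℕ}

/-- `m'` is lower than `m`: at the last difference `m'` is smaller -/
def cl (m' m : Fin n →₀ ℕ) : Prop := ∃ i, m' i < m i ∧ ∀ j, i < j → m' j = m j

/-- the lowest monomials of the elements of `V` -/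
def low (V : Submodule K (MvPolynomial (Fin n) K)) : Set (Fin n →₀ ℕ) :=
  {m | ∃ u ∈ V, MvPolynomial.coeff m u ≠ 0 ∧ ∀ m', cl m' m → MvPolynomial.coeff m' u = 0}

theorem v7_digits {B : ℕ} : ∀ {n : ℕ} (f g : Fin n → ℕ) (_ : ∀ i, f i < B)
    (_ : ∃ i, f i < g i ∧ ∀ j, i < j → f j = g j),
    ∑ i, f i * B ^ (i : ℕ) < ∑ i, g i * B ^ (i : ℕ) := by
  intro n
  induction n with
  | zero =>
    rintro f g hf ⟨i, -⟩
    exact i.elim0
  | succ n ih =>
    rintro f g hf ⟨i, hi, hj⟩
    rw [Fin.sum_univ_castSucc, Fin.sum_univ_castSucc]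
    simp only [Fin.val_last, Fin.val_castSucc]
    induction i using Fin.lastCases with
    | last =>
      have h1 := deg_digits_lt (fun i : Fin n => f i.castSucc) (fun i => hf _)
      have h2 : (f (Fin.last n) + 1) * B ^ n ≤ g (Fin.last n) * B ^ n := Nat.mul_le_mul_right _ hi
      rw [add_mul, one_mul] at h2
      have h3 : 0 ≤ ∑ i : Fin n, g i.castSucc * B ^ (i : ℕ) := Nat.zero_le _
      omega
    | cast i =>
      have h1 := ih (fun i => f i.castSucc) (fun i => g i.castSucc) (fun i => hf _)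
        ⟨i, hi, fun j hij => hj _ (Fin.castSucc_lt_castSucc_iff.2 hij)⟩
      rw [hj (Fin.last n) (Fin.castSucc_lt_last i)]
      omega

theorem v7_lt {m m' : Fin n →₀ ℕ} (h : m ≠ m') : cl m m' ∨ cl m' m := by
  classical
  have h1 : (Finset.univ.filter fun i => m i ≠ m' i).Nonempty := by
    by_contra hc
    rw [Finset.not_nonempty_iff_eq_empty, Finset.filter_eq_empty_iff] at hc
    apply h
    ext i
    have := hc (Finset.mem_univ i)
    push Not at this
    exact this
  set i := (Finset.univ.filter fun i => m i ≠ m' i).max' h1 with hi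
  have h2 : m i ≠ m' i := (Finset.mem_filter.1 (Finset.max'_mem _ h1)).2
  have h3 : ∀ j, i < j → m j = m' j := by
    intro j hj
    by_contra hc
    have := Finset.le_max' (Finset.univ.filter fun i => m i ≠ m' i) j
      (Finset.mem_filter.2 ⟨Finset.mem_univ j, hc⟩)
    exact absurd hj (not_lt.2 this)
  rcases lt_or_gt_of_ne h2 with h4 | h4
  · exact Or.inl ⟨i, h4, h3⟩
  · exact Or.inr ⟨i, h4, fun j hj => (h3 j hj).symm⟩

/-- for exponents of the same degree `cl` is the comparison of weights of `M/Defs.lean` -/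
theorem wt_lt_iff {B e : ℕ} (hB : e < B) {m m' : Fin n →₀ ℕ} (hm : ∑ i, m i = e)
    (hm' : ∑ i, m' i = e) : wt B m' < wt B m ↔ cl m' m := by
  have h1 : ∀ m : Fin n →₀ ℕ, ∑ i, m i = e → ∀ i, m i < B := fun m hm i =>
    lt_of_le_of_lt (deg_le_sum m i) (by omega)
  constructor
  · intro h
    rcases eq_or_ne m' m with h2 | h2
    · rw [h2] at h
      exact absurd h (lt_irrefl _)
    · rcases v7_lt h2 with h3 | h3
      · exact h3
      · have := v7_digits (fun i => m i) (fun i => m' i) (h1 m hm) h3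
        exact absurd (lt_trans h this) (lt_irrefl _)
  · intro h
    exact v7_digits (fun i => m' i) (fun i => m i) (h1 m' hm') h

theorem v7_deg {e : ℕ} {V : Submodule K (MvPolynomial (Fin n) K)}
    (hV : V ≤ homogeneousSubmodule (Fin n) K e) {u : MvPolynomial (Fin n) K} (hu : u ∈ V)
    {m : Fin n →₀ ℕ} (hm : MvPolynomial.coeff m u ≠ 0) : ∑ i, m i = e :=
  isHomogeneous_iff_sum.1 (hV hu) m hm

theorem low_degree {e : ℕ} {V : Submodule K (MvPolynomial (Fin n) K)}
    (hV : V ≤ homogeneousSubmodule (Fin n) K e) {m : Fin n →₀ ℕ} (hm : m ∈ low V) :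
    ∑ i, m i = e := by
  obtain ⟨u, hu, h, -⟩ := hm
  exact v7_deg hV hu h

theorem v7_YD {e : ℕ} {V : Submodule K (MvPolynomial (Fin n) K)}
    (hV : V ≤ homogeneousSubmodule (Fin n) K e) : VD K V ≤ YD K n e := by
  rw [← VD_homogeneous (K := K)]
  exact VD_mono hV

theorem v7_low {B e : ℕ} (hB : e < B) {V : Submodule K (MvPolynomial (Fin n) K)}
    (hV : V ≤ homogeneousSubmodule (Fin n) K e) : low V = inm B (VD K V) := by
  ext m
  constructor
  · rintro ⟨u, hu, h1, h2⟩
    have hc : ∀ m, (bD K u).coeff m = MvPolynomial.coeff m u := fun m => bD_coeff u m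
    refine ⟨bD K u, Submodule.subset_span ⟨u, hu, rfl⟩, ?_, fun m' hm' => ?_⟩
    · rw [hc]
      exact h1
    · rw [hc]
      by_contra h3
      exact h3 (h2 m' ((wt_lt_iff hB (v7_deg hV hu h1) (v7_deg hV hu h3)).1 hm'))
  · rintro ⟨w, hw, h1, h2⟩
    obtain ⟨u, hu, hc⟩ := (mem_VD_iff V w).1 hw LinearMap.id
    have hc' : ∀ m, MvPolynomial.coeff m u = w.coeff m := hc
    have h3 : MvPolynomial.coeff m u ≠ 0 := by
      rw [hc']
      exact h1
    refine ⟨u, hu, h3, fun m' hm' => ?_⟩
    by_contra h4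
    have h5 := (wt_lt_iff hB (v7_deg hV hu h3) (v7_deg hV hu h4)).2 hm'
    apply h4
    rw [hc']
    exact h2 m' h5

theorem v7_finite (d : ℕ) : Module.Finite K (homogeneousSubmodule (Fin n) K d) := by
  classical
  let f : homogeneousSubmodule (Fin n) K d →ₗ[K]
      (Finset.finsuppAntidiag (Finset.univ : Finset (Fin n)) d → K) :=
    { toFun := fun u m => MvPolynomial.coeff m.1 (u : MvPolynomial (Fin n) K)
      map_add' := fun u v => rfl
      map_smul' := fun c u => rfl }
  refine Module.Finite.of_injective f fun u v huv => ?_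
  apply Subtype.ext
  ext m
  by_cases hm : ∑ i, m i = d
  · have hm' : m ∈ Finset.finsuppAntidiag (Finset.univ : Finset (Fin n)) d :=
      Finset.mem_finsuppAntidiag.2 ⟨hm, Finset.subset_univ _⟩
    exact congrFun huv ⟨m, hm'⟩
  · have h1 : ∀ w : homogeneousSubmodule (Fin n) K d,
        MvPolynomial.coeff m (w : MvPolynomial (Fin n) K) = 0 := by
      intro w
      by_contra h
      exact hm (v7_deg le_rfl w.2 h)
    rw [h1, h1]

theorem ncard_low {e : ℕ} {V : Submodule K (MvPolynomial (Fin n) K)}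
    (hV : V ≤ homogeneousSubmodule (Fin n) K e) : (low V).ncard = finrank K V := by
  have h0 : Module.Finite K (homogeneousSubmodule (Fin n) K e) := v7_finite e
  have h1 : Module.Finite K V := Submodule.finiteDimensional_of_le hV
  rw [v7_low (Nat.lt_succ_self e) hV, ncard_inm (Nat.lt_succ_self e) (v7_YD hV), finrank_VD]

theorem low_mul {e : ℕ} {V V' : Submodule K (MvPolynomial (Fin n) K)}
    (hV : V ≤ homogeneousSubmodule (Fin n) K e) (i : Fin n)
    (h : ∀ v ∈ V, v * X i ∈ V') {m : Fin n →₀ ℕ} (hm : m ∈ low V) :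
    m + Finsupp.single i 1 ∈ low V' := by
  obtain ⟨u, hu, h1, h2⟩ := hm
  refine ⟨u * X i, h u hu, ?_, fun m' hm' => ?_⟩
  · rw [MvPolynomial.coeff_mul_X]
    exact h1
  · rw [MvPolynomial.coeff_mul_X']
    by_cases hi : i ∈ m'.support
    · rw [if_pos hi]
      apply h2
      have hi' : m' i ≠ 0 := Finsupp.mem_support_iff.1 hi
      obtain ⟨j, hj, hk⟩ := hm'
      have e1 : ∀ k, (m' - Finsupp.single i 1 : Fin n →₀ ℕ) k = m' k - (Finsupp.single i 1 : Fin n →₀ ℕ) k :=
        fun k => Finsupp.tsub_apply _ _ _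
      have e2 : ∀ k, (m + Finsupp.single i 1 : Fin n →₀ ℕ) k = m k + (Finsupp.single i 1 : Fin n →₀ ℕ) k :=
        fun k => Finsupp.add_apply _ _ _
      have e3 : ∀ k, (Finsupp.single i 1 : Fin n →₀ ℕ) k ≤ m' k := by
        intro k
        by_cases hki : i = k
        · rw [← hki, Finsupp.single_eq_same]
          omega
        · rw [Finsupp.single_eq_of_ne (fun h => hki h.symm)]
          exact Nat.zero_le _
      refine ⟨j, ?_, fun k hjk => ?_⟩
      · have a1 := e1 j
        have a2 := e2 j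
        have a3 := e3 j
        rw [a1]
        rw [a2] at hj
        omega
      · have a1 := e1 k
        have a2 := e2 k
        have a3 := e3 k
        have a4 := hk k hjk
        rw [a1]
        rw [a2] at a4
        omega
    · rw [if_neg hi]

theorem monomial_mem_low {V : Submodule K (MvPolynomial (Fin n) K)} {m : Fin n →₀ ℕ}
    (h : monomial m 1 ∈ V) : m ∈ low V := by
  classical
  refine ⟨monomial m 1, h, ?_, fun m' hm' => ?_⟩
  · rw [MvPolynomial.coeff_monomial, if_pos rfl]
    exact one_ne_zero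
  · rw [MvPolynomial.coeff_monomial, if_neg]
    rintro rfl
    obtain ⟨i, hi, -⟩ := hm'
    exact lt_irrefl _ hi

/-- cycles survive the degeneration (`M.finrank_rd_inm` and `M.finrank_rd_VD` with `D := K`) -/
theorem low_cycles {d : ℕ} {V : Submodule K (MvPolynomial (Fin n) K)}
    (hV : V ≤ homogeneousSubmodule (Fin n) K (d + 1)) (p : ℕ) :
    finrank K (rc X V (homogeneousSubmodule (Fin n) K d) p) ≤
      finrank K (rc X (restrictSupport K (low V)) (homogeneousSubmodule (Fin n) K d) p) := by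
  have h0 : Module.Finite K (homogeneousSubmodule (Fin n) K d) := v7_finite d
  rw [← finrank_rd_VD (D := K), ← finrank_rd_VD (D := K), VD_homogeneous, VD_restrictSupport,
    v7_low (Nat.lt_succ_self (d + 1)) hV]
  exact finrank_rd_inm (Nat.lt_succ_self (d + 1)) (v7_YD hV)

end Vale.Agent.P200.V
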