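import Vale.Agent.P200.V.Base

/-! Linear roots of forms over finite dimensional algebras (Backelin, Herzog, Sanders). -/

namespace Vale.Agent.P200.V

universe u

section core

open Polynomial

/-- homogenisation of `∏ (X - w_j) = X^d - 1` -/
theorem v1_prod {D : Type*} [CommRing D] [IsDomain D] {d : ℕ} (hd : 1 ≤ d) (w : Fin d → D)
    (hw : ∏ j, (X - C (w j)) = (X : D[X]) ^ d - 1) (z : D) :
    ∏ j, (X - C (w j * z)) = (X : D[X]) ^ d - C (z ^ d) := by
  classical
  have h1 : ∀ s : Finset (Fin d), (∏ j ∈ s, (X - C (w j))).scaleRoots z =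
      ∏ j ∈ s, (X - C (w j * z)) := by
    intro s
    induction s using Finset.induction_on with
    | empty => rw [Finset.prod_empty, Finset.prod_empty, one_scaleRoots]
    | insert j s hj ih =>
      rw [Finset.prod_insert hj, Finset.prod_insert hj, mul_scaleRoots_of_noZeroDivisors, ih,
        X_sub_C_scaleRoots]
  rw [← h1, hw]
  ext i
  have h2 : ((X : D[X]) ^ d - 1).natDegree = d := by
    rw [← C_1]
    exact natDegree_X_pow_sub_C
  rw [coeff_scaleRoots, h2, coeff_sub, coeff_sub, coeff_X_pow, coeff_one, coeff_C]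
  by_cases hi : i = d
  · subst hi
    have h3 : i ≠ 0 := by omega
    rw [if_pos rfl, if_neg h3, if_neg h3, Nat.sub_self, pow_zero, mul_one]
  · rw [if_neg hi]
    by_cases h0 : i = 0
    · subst h0
      rw [if_pos rfl, if_pos rfl, Nat.sub_zero]
      ring
    · rw [if_neg h0, if_neg h0]
      ring

variable {D : Type*} [CommRing D]

/-- the weighted cyclic matrix -/
noncomputable def v1Cyc (d : ℕ) [NeZero d] (w l : Fin d → D) (z : D) :
    Matrix (Fin d) (Fin d) D :=
  Matrix.of fun p q => (if p = q then w q * z else 0) + (if p = q + 1 then l q else 0)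

theorem v1_cyc_mulVec (d : ℕ) [NeZero d] (w l : Fin d → D) (z : D) (q : Fin d) :
    (v1Cyc d w l z).mulVec (Pi.single q 1) =
      (w q * z) • (Pi.single q 1 : Fin d → D) + l q • (Pi.single (q + 1) 1 : Fin d → D) := by
  rw [Matrix.mulVec_single_one]
  ext p
  simp only [v1Cyc, Matrix.col_apply, Matrix.of_apply, Pi.add_apply, Pi.smul_apply, Pi.single_apply,
    smul_eq_mul, mul_ite, mul_one, mul_zero]

theorem v1_cyc_aeval (d : ℕ) [NeZero d] (w l : Fin d → D) (z : D) (i : Fin d) (k : ℕ) :
    (aeval (v1Cyc d w l z) (∏ m ∈ Finset.range k, (X - C (w (i + m • 1) * z)))).mulVec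
      (Pi.single i 1) = (∏ m ∈ Finset.range k, l (i + m • 1)) •
        (Pi.single (i + k • 1) 1 : Fin d → D) := by
  induction k with
  | zero =>
    rw [Finset.range_zero, Finset.prod_empty, Finset.prod_empty, map_one, Matrix.one_mulVec,
      zero_nsmul, add_zero, one_smul]
  | succ k ih =>
    have h1 : (aeval (v1Cyc d w l z) (X - C (w (i + k • 1) * z))).mulVec
        (Pi.single (i + k • 1) 1) =
        l (i + k • 1) • (Pi.single (i + k • 1 + 1) 1 : Fin d → D) := by
      rw [map_sub, aeval_X, aeval_C, Matrix.sub_mulVec, v1_cyc_mulVec,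
        Algebra.algebraMap_eq_smul_one, Matrix.smul_mulVec, Matrix.one_mulVec, add_sub_cancel_left]
    rw [Finset.prod_range_succ, mul_comm, map_mul, ← Matrix.mulVec_mulVec, ih, Matrix.mulVec_smul,
      h1, smul_smul, Finset.prod_range_succ, succ_nsmul, ← add_assoc]

theorem v1_fin_nsmul_val (d : ℕ) [NeZero d] (m : Fin d) : (m : ℕ) • (1 : Fin d) = m := by
  have h : ∀ k : ℕ, ((k • (1 : Fin d) : Fin d) : ℕ) = k % d := by
    intro k
    induction k with
    | zero => simp
    | succ k ih =>
      rw [succ_nsmul, Fin.val_add, ih, Fin.val_one', ← Nat.add_mod]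
  apply Fin.ext
  rw [h, Nat.mod_eq_of_lt m.2]

theorem v1_prod_orbit {β : Type*} [CommMonoid β] (d : ℕ) [NeZero d] (f : Fin d → β) (i : Fin d) :
    ∏ m ∈ Finset.range d, f (i + m • 1) = ∏ j, f j := by
  rw [← Fin.prod_univ_eq_prod_range (fun m => f (i + m • 1)) d,
    ← Equiv.prod_comp (Equiv.addLeft i) f]
  refine Finset.prod_congr rfl fun m _ => ?_
  rw [v1_fin_nsmul_val, Equiv.coe_addLeft]

theorem v1_cyc_pow [IsDomain D] (d : ℕ) [NeZero d] (w l : Fin d → D) (z : D)
    (hw : ∏ j, (X - C (w j)) = (X : D[X]) ^ d - 1) :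
    v1Cyc d w l z ^ d = Matrix.scalar (Fin d) (z ^ d + ∏ j, l j) := by
  have hd : 1 ≤ d := Nat.one_le_iff_ne_zero.2 (NeZero.ne d)
  apply Matrix.ext_of_mulVec_single
  intro i
  have h1 := v1_cyc_aeval d w l z i d
  rw [v1_prod_orbit d (fun j => X - C (w j * z)) i, v1_prod_orbit d l i, v1_prod hd w hw z] at h1
  have h2 : d • (1 : Fin d) = 0 := by
    have := card_nsmul_eq_zero (x := (1 : Fin d))
    rwa [Fintype.card_fin] at this
  rw [h2, add_zero, map_sub, map_pow, aeval_X, aeval_C, Matrix.sub_mulVec] at h1
  rw [sub_eq_iff_eq_add.1 h1]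
  have h3 : Matrix.scalar (Fin d) (z ^ d + ∏ j, l j) =
      algebraMap D (Matrix (Fin d) (Fin d) D) (z ^ d + ∏ j, l j) := rfl
  rw [h3, map_add, Matrix.add_mulVec, add_comm]
  congr 1
  rw [Algebra.algebraMap_eq_smul_one, Matrix.smul_mulVec, Matrix.one_mulVec]

theorem v1_exists_w {K : Type*} [Field K] [IsAlgClosed K] (d : ℕ) (hd : 1 ≤ d) :
    ∃ w : Fin d → K, ∏ j, (X - C (w j)) = (X : K[X]) ^ d - 1 := by
  have hm : ((X : K[X]) ^ d - 1).Monic := by
    rw [← C_1]
    exact monic_X_pow_sub_C 1 (by omega)
  have h1 := (IsAlgClosed.splits ((X : K[X]) ^ d - 1)).eq_prod_roots_of_monic hm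
  have h2 := (IsAlgClosed.splits ((X : K[X]) ^ d - 1)).natDegree_eq_card_roots
  obtain ⟨L, hL⟩ := Quot.exists_rep ((X : K[X]) ^ d - 1).roots
  have hL' : (L : Multiset K) = ((X : K[X]) ^ d - 1).roots := hL
  rw [← hL'] at h1 h2
  have h3 : ((X : K[X]) ^ d - 1).natDegree = d := by
    rw [← C_1]
    exact natDegree_X_pow_sub_C
  rw [h3, Multiset.coe_card] at h2
  refine ⟨fun j => L[j.1]'(by rw [← h2]; exact j.2), ?_⟩
  rw [h1, Multiset.map_coe, Multiset.prod_coe]
  subst h2
  exact Fin.prod_univ_fun_getElem L fun a => X - C a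

end core

open MvPolynomial Module
open Vale.Agent.P200.B Vale.Agent.P200.G Vale.Agent.P200.L Vale.Agent.P200.M

section theta

variable {A : Type*} [Ring A] {n : ℕ}

theorem v1_scalar_comm {R m : Type*} [Ring R] [Fintype m] [DecidableEq m] {r : R}
    {M : Matrix m m R} (h : ∀ p q, r * M p q = M p q * r) :
    Matrix.scalar m r * M = M * Matrix.scalar m r := by
  have : Commute (Matrix.scalar m r) M := by
    rw [Matrix.scalar_commute_iff]
    ext p q
    exact h p q
  exact this

/-- polynomials over matrices as matrices over polynomials -/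
noncomputable def v1Theta (A : Type*) [Ring A] (a n : ℕ) :
    AR (Matrix (Fin a) (Fin a) A) n →+* Matrix (Fin a) (Fin a) (AR A n) :=
  AddMonoidAlgebra.liftNCRingHom
    ((AddMonoidAlgebra.singleZeroRingHom : A →+* AR A n).mapMatrix)
    ((Matrix.scalar (Fin a) : AR A n →+* Matrix (Fin a) (Fin a) (AR A n)).toMonoidHom.comp
      (AddMonoidAlgebra.of A (Fin n →₀ ℕ)))
    (fun M m => by
      have h := v1_scalar_comm (r := (AddMonoidAlgebra.of A (Fin n →₀ ℕ) m : AR A n))
        (M := (AddMonoidAlgebra.singleZeroRingHom : A →+* AR A n).mapMatrix M) (fun p q => by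
          show AddMonoidAlgebra.single _ 1 * AddMonoidAlgebra.single 0 (M p q) =
            AddMonoidAlgebra.single 0 (M p q) * AddMonoidAlgebra.single _ 1
          rw [AddMonoidAlgebra.single_mul_single, AddMonoidAlgebra.single_mul_single, add_comm,
            one_mul, mul_one])
      exact h.symm)

theorem v1Theta_single (a : ℕ) (m : Fin n →₀ ℕ) (M : Matrix (Fin a) (Fin a) A) (p q : Fin a) :
    v1Theta A a n (AddMonoidAlgebra.single m M) p q = AddMonoidAlgebra.single m (M p q) := by
  have h1 : v1Theta A a n (AddMonoidAlgebra.single m M) =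
      ((AddMonoidAlgebra.singleZeroRingHom : A →+* AR A n).mapMatrix M) *
        Matrix.scalar (Fin a) (AddMonoidAlgebra.single m 1 : AR A n) :=
    AddMonoidAlgebra.liftNC_single _ _ _ _
  rw [h1, Matrix.scalar_apply, Matrix.mul_diagonal]
  show AddMonoidAlgebra.single 0 (M p q) * AddMonoidAlgebra.single m 1 = _
  rw [AddMonoidAlgebra.single_mul_single, zero_add, mul_one]

theorem v1Theta_coeff (a : ℕ) (x : AR (Matrix (Fin a) (Fin a) A) n) (p q : Fin a)
    (m : Fin n →₀ ℕ) : (v1Theta A a n x p q).coeff m = x.coeff m p q := by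
  classical
  induction x using AddMonoidAlgebra.induction_linear with
  | zero => rfl
  | add x y hx hy =>
    rw [map_add, Matrix.add_apply, AddMonoidAlgebra.coeff_add, Finsupp.add_apply, hx, hy,
      AddMonoidAlgebra.coeff_add, Finsupp.add_apply, Matrix.add_apply]
  | single m' M =>
    rw [v1Theta_single, AddMonoidAlgebra.coeff_single, AddMonoidAlgebra.coeff_single,
      Finsupp.single_apply, Finsupp.single_apply]
    split_ifs <;> rfl

theorem v1Theta_injective (a : ℕ) : Function.Injective (v1Theta A a n) := by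
  intro x y h
  ext m p q
  rw [← v1Theta_coeff, ← v1Theta_coeff, h]

end theta

section step

variable {K : Type u} [Field K] {n : ℕ} {A : Type u} [Ring A] [Algebra K A]

theorem v1_bA_comm (v : MvPolynomial (Fin n) K) (x : AR A n) : bA A v * x = x * bA A v := by
  induction v using MvPolynomial.induction_on' with
  | add p q hp hq => rw [map_add, add_mul, mul_add, hp, hq]
  | monomial m c =>
    rw [bA_monomial]
    induction x using AddMonoidAlgebra.induction_linear with
    | zero => rw [mul_zero, zero_mul]
    | add x y hx hy => rw [mul_add, add_mul, hx, hy]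
    | single m' c' =>
      rw [AddMonoidAlgebra.single_mul_single, AddMonoidAlgebra.single_mul_single, add_comm,
        Algebra.commutes]

/-- the linear form with coefficients `c` -/
noncomputable def v1Lin (c : Fin n → K) : MvPolynomial (Fin n) K :=
  ∑ m, monomial (Finsupp.single m 1) (c m)

/-- the new root -/
noncomputable def v1New (a : ℕ) [NeZero a] (w : Fin a → K) (c : Fin a → Fin n → K)
    (e : Fin n → A) : Fin n → Matrix (Fin a) (Fin a) A := fun m =>
  Matrix.of fun p q => (if p = q then algebraMap K A (w q) * e m else 0) +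
    (if p = q + 1 then algebraMap K A (c q m) else 0)

/-- evaluation at a linear form -/
noncomputable def v1Ev (e : Fin n → A) : Polynomial (MvPolynomial (Fin n) K) →+* AR A n :=
  Polynomial.eval₂RingHom' (bA A) (linA e) fun v => v1_bA_comm v (linA e)

theorem v1Ev_C (e : Fin n → A) (v : MvPolynomial (Fin n) K) :
    v1Ev e (Polynomial.C v) = bA A v := by
  show Polynomial.eval₂ (bA A) (linA e) (Polynomial.C v) = _
  rw [Polynomial.eval₂_C]

theorem v1Ev_X (e : Fin n → A) : v1Ev (K := K) e Polynomial.X = linA e := by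
  show Polynomial.eval₂ (bA A) (linA e) Polynomial.X = _
  rw [Polynomial.eval₂_X]

theorem v1Theta_bA (a : ℕ) (v : MvPolynomial (Fin n) K) :
    v1Theta A a n (bA (Matrix (Fin a) (Fin a) A) v) = Matrix.scalar (Fin a) (bA A v) := by
  refine Matrix.ext fun p q => ?_
  ext m
  rw [v1Theta_coeff, bA_coeff, Matrix.algebraMap_matrix_apply, Matrix.scalar_apply,
    Matrix.diagonal_apply]
  split_ifs
  · rw [bA_coeff]
  · rfl

theorem v1Theta_new (a : ℕ) [NeZero a] (w : Fin a → K) (c : Fin a → Fin n → K)
    (e : Fin n → A) : v1Theta A a n (linA (v1New a w c e)) =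
      (v1Ev e).mapMatrix (v1Cyc a (fun j => Polynomial.C (C (w j)))
        (fun j => Polynomial.C (v1Lin (c j))) Polynomial.X) := by
  refine Matrix.ext fun p q => ?_
  rw [linA, map_sum, Matrix.sum_apply, RingHom.mapMatrix_apply, Matrix.map_apply, v1Cyc,
    Matrix.of_apply, map_add]
  have h1 : ∀ m, v1Theta A a n (AddMonoidAlgebra.single (Finsupp.single m 1)
      (v1New a w c e m)) p q =
      (if p = q then AddMonoidAlgebra.single (Finsupp.single m 1)
        (algebraMap K A (w q) * e m) else 0) +
      (if p = q + 1 then AddMonoidAlgebra.single (Finsupp.single m 1)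
        (algebraMap K A (c q m)) else 0) := by
    intro m
    rw [v1Theta_single, v1New, Matrix.of_apply, AddMonoidAlgebra.single_add]
    congr 1
    · split_ifs
      · rfl
      · exact AddMonoidAlgebra.single_zero _
    · split_ifs
      · rfl
      · exact AddMonoidAlgebra.single_zero _
  rw [Finset.sum_congr rfl fun m _ => h1 m, Finset.sum_add_distrib]
  congr 1
  · by_cases h : p = q
    · simp only [h, if_true]
      rw [map_mul, v1Ev_C, v1Ev_X, linA, Finset.mul_sum]
      refine Finset.sum_congr rfl fun m _ => ?_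
      rw [← monomial_zero', bA_monomial, AddMonoidAlgebra.single_mul_single, zero_add]
    · simp only [h, if_false, Finset.sum_const_zero, map_zero]
  · by_cases h : p = q + 1
    · simp only [h, if_true]
      rw [v1Ev_C, v1Lin, map_sum]
      refine Finset.sum_congr rfl fun m _ => ?_
      rw [bA_monomial]
    · simp only [h, if_false, Finset.sum_const_zero, map_zero]

theorem v1New_pow (a : ℕ) [NeZero a] (w : Fin a → K)
    (hw : ∏ j, (Polynomial.X - Polynomial.C (w j)) = (Polynomial.X : Polynomial K) ^ a - 1)
    (c : Fin a → Fin n → K) (e : Fin n → A) (g : MvPolynomial (Fin n) K)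
    (he : linA e ^ a = bA A g) :
    linA (v1New a w c e) ^ a = bA (Matrix (Fin a) (Fin a) A) (g + ∏ j, v1Lin (c j)) := by
  apply v1Theta_injective a
  have h1 := congrArg (Polynomial.map (algebraMap K (Polynomial (MvPolynomial (Fin n) K)))) hw
  rw [Polynomial.map_prod] at h1
  simp only [Polynomial.map_sub, Polynomial.map_X, Polynomial.map_C, Polynomial.map_pow,
    Polynomial.map_one] at h1
  have h2 := v1_cyc_pow a (fun j => Polynomial.C (C (w j)) : Fin a →
    Polynomial (MvPolynomial (Fin n) K)) (fun j => Polynomial.C (v1Lin (c j))) Polynomial.X h1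
  rw [map_pow, v1Theta_new, ← map_pow, h2, v1Theta_bA]
  refine Matrix.ext fun p q => ?_
  rw [RingHom.mapMatrix_apply, Matrix.map_apply, Matrix.scalar_apply, Matrix.scalar_apply,
    Matrix.diagonal_apply, Matrix.diagonal_apply]
  split_ifs
  · rw [map_add, map_pow, v1Ev_X, he, ← map_prod Polynomial.C, v1Ev_C, ← map_add]
  · rw [map_zero]

theorem v1_scalar_pow (a k : ℕ) (e : Fin n → A) (g : MvPolynomial (Fin n) K)
    (he : linA e ^ k = bA A g) :
    linA (fun m => Matrix.scalar (Fin a) (e m)) ^ k = bA (Matrix (Fin a) (Fin a) A) g := by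
  apply v1Theta_injective a
  have h1 : v1Theta A a n (linA (fun m => Matrix.scalar (Fin a) (e m))) =
      Matrix.scalar (Fin a) (linA e) := by
    refine Matrix.ext fun p q => ?_
    rw [linA, map_sum, Matrix.sum_apply, Matrix.scalar_apply, Matrix.diagonal_apply]
    have h2 : ∀ m, v1Theta A a n (AddMonoidAlgebra.single (Finsupp.single m 1)
        (Matrix.scalar (Fin a) (e m))) p q =
        if p = q then AddMonoidAlgebra.single (Finsupp.single m 1) (e m) else 0 := by
      intro m
      rw [v1Theta_single, Matrix.scalar_apply, Matrix.diagonal_apply]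
      split_ifs
      · rfl
      · exact AddMonoidAlgebra.single_zero _
    rw [Finset.sum_congr rfl fun m _ => h2 m]
    by_cases h : p = q
    · simp only [h, if_true]
      rfl
    · simp only [h, if_false, Finset.sum_const_zero]
  rw [map_pow, h1, ← map_pow, he, v1Theta_bA]

end step

section induct

variable {K : Type u} [Field K] {n : ℕ}

/-- the family `f` has strongly commuting roots -/
def V1Has {K : Type u} [Field K] {n c : ℕ} (a : Fin c → ℕ)
    (f : Fin c → MvPolynomial (Fin n) K) : Prop :=
  ∃ (A : Type u) (_ : Ring A) (_ : Algebra K A), Nontrivial A ∧ Module.Finite K A ∧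
    ∃ E : Fin c → Fin n → A, (∀ i j, i ≠ j → ∀ k l, E i k * E j l = E j l * E i k) ∧
      ∀ i, linA (E i) ^ a i = bA A (f i)

theorem v1_has_step [IsAlgClosed K] {c : ℕ} {a : Fin c → ℕ} (hpos : ∀ i, 1 ≤ a i)
    {f : Fin c → MvPolynomial (Fin n) K} (h : V1Has a f) (k : Fin c)
    (l : Fin (a k) → Fin n → K) :
    V1Has a (Function.update f k (f k + ∏ j, v1Lin (l j))) := by
  obtain ⟨A, i1, i2, hA, hfin, E, hE, hp⟩ := h
  have : NeZero (a k) := ⟨by have := hpos k; omega⟩
  obtain ⟨w, hw⟩ := v1_exists_w (K := K) (a k) (hpos k)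
  have hcomm : ∀ j, j ≠ k → ∀ m m', Matrix.scalar (Fin (a k)) (E j m) *
      v1New (a k) w l (E k) m' = v1New (a k) w l (E k) m' * Matrix.scalar (Fin (a k)) (E j m) := by
    intro j hj m m'
    apply v1_scalar_comm
    intro p q
    rw [v1New, Matrix.of_apply, mul_add, add_mul]
    congr 1
    · split_ifs
      · rw [← mul_assoc, ← Algebra.commutes, mul_assoc, hE j k hj, mul_assoc]
      · rw [mul_zero, zero_mul]
    · split_ifs
      · rw [← Algebra.commutes]
      · rw [mul_zero, zero_mul]
  refine ⟨Matrix (Fin (a k)) (Fin (a k)) A, inferInstance, inferInstance, inferInstance,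
    inferInstance, fun i => if i = k then v1New (a k) w l (E k) else
      fun m => Matrix.scalar (Fin (a k)) (E i m), ?_, ?_⟩
  · intro i j hij m m'
    beta_reduce
    by_cases hi : i = k
    · have hj : j ≠ k := fun h => hij (hi.trans h.symm)
      rw [if_pos hi, if_neg hj]
      exact (hcomm j hj m' m).symm
    · rw [if_neg hi]
      by_cases hj : j = k
      · rw [if_pos hj]
        exact hcomm i hi m m'
      · rw [if_neg hj]
        show Matrix.scalar _ _ * Matrix.scalar _ _ = Matrix.scalar _ _ * Matrix.scalar _ _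
        rw [← map_mul, ← map_mul, hE i j hij]
  · intro i
    beta_reduce
    by_cases hi : i = k
    · subst hi
      rw [if_pos rfl, Function.update_self]
      exact v1New_pow (a i) w hw l (E i) (f i) (hp i)
    · rw [if_neg hi, Function.update_of_ne hi]
      exact v1_scalar_pow (a k) (a i) (E i) (f i) (hp i)

/-- monomials are products of variables -/
theorem v1_exists_idx (m : ℕ) (s : Fin n →₀ ℕ) (hs : s.degree = m) :
    ∃ i : Fin m → Fin n, ∏ j, (X (i j) : MvPolynomial (Fin n) K) = monomial s 1 := by
  induction m generalizing s with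
  | zero =>
    rw [Finsupp.degree_eq_zero_iff] at hs
    refine ⟨fun j => j.elim0, ?_⟩
    rw [hs, Finset.univ_eq_empty, Finset.prod_empty]
    rfl
  | succ m ih =>
    obtain ⟨i, hi⟩ : ∃ i, s i ≠ 0 := by
      by_contra hno
      push Not at hno
      have : s = 0 := Finsupp.ext hno
      rw [this, map_zero] at hs
      omega
    have h1 : Finsupp.single i 1 + (s - Finsupp.single i 1) = s := by
      rw [add_comm]
      apply tsub_add_cancel_of_le
      rw [Finsupp.single_le_iff]
      omega
    obtain ⟨l, hp⟩ := ih (s - Finsupp.single i 1) (by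
      have h2 := congrArg Finsupp.degree h1
      rw [map_add, Finsupp.degree_single, hs] at h2
      omega)
    refine ⟨Fin.cons i l, ?_⟩
    rw [Fin.prod_univ_succ]
    simp only [Fin.cons_zero, Fin.cons_succ]
    rw [hp, X, monomial_mul, h1, one_mul]

theorem v1_exists_lin (d : ℕ) (hd : 1 ≤ d) (s : Fin n →₀ ℕ) (hs : s.degree = d) (c : K) :
    ∃ l : Fin d → Fin n → K, ∏ j, v1Lin (l j) = monomial s c := by
  obtain ⟨i, hp⟩ := v1_exists_idx (K := K) d s hs
  refine ⟨fun j m => if m = i j then (if j = ⟨0, hd⟩ then c else 1) else 0, ?_⟩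
  have h1 : ∀ j, v1Lin (fun m => if m = i j then (if j = (⟨0, hd⟩ : Fin d) then c else 1) else 0) =
      (if j = ⟨0, hd⟩ then C c else 1) * (X (i j) : MvPolynomial (Fin n) K) := by
    intro j
    rw [v1Lin, Finset.sum_eq_single (i j)]
    · rw [if_pos rfl]
      split_ifs
      · rw [C_mul_X_eq_monomial]
      · rw [one_mul]
        rfl
    · intro m _ hm
      rw [if_neg hm, map_zero]
    · intro h
      exact absurd (Finset.mem_univ _) h
  rw [Finset.prod_congr rfl fun j _ => h1 j, Finset.prod_mul_distrib,
    Finset.prod_ite_eq' Finset.univ, if_pos (Finset.mem_univ _), hp, C_mul_monomial, mul_one]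

theorem v1_has_add [IsAlgClosed K] {c : ℕ} {a : Fin c → ℕ} (hpos : ∀ i, 1 ≤ a i)
    {g : Fin c → MvPolynomial (Fin n) K} (h : V1Has a g) (k : Fin c)
    (f : MvPolynomial (Fin n) K) (hf : f.IsHomogeneous (a k)) :
    V1Has a (Function.update g k (g k + f)) := by
  have key : ∀ s : Finset (Fin n →₀ ℕ), s ⊆ f.support →
      V1Has a (Function.update g k (g k + ∑ α ∈ s, monomial α (coeff α f))) := by
    intro s
    induction s using Finset.induction_on with
    | empty =>
      intro _
      rw [Finset.sum_empty, add_zero, Function.update_eq_self]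
      exact h
    | insert α s hα ih =>
      intro hs
      have h1 := ih fun β hβ => hs (Finset.mem_insert_of_mem hβ)
      have h2 : α.degree = a k := by
        have h3 := hf (mem_support_iff.1 (hs (Finset.mem_insert_self α s)))
        rw [← h3, Finsupp.degree_eq_weight_one]
        rfl
      obtain ⟨l, hl⟩ := v1_exists_lin (a k) (hpos k) α h2 (coeff α f)
      have h4 := v1_has_step hpos h1 k l
      rw [Function.update_self, Function.update_idem, hl, add_assoc] at h4
      rw [Finset.sum_insert hα, add_comm (monomial α _)]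
      exact h4
  have h5 := key f.support (Finset.Subset.refl _)
  rwa [← as_sum] at h5

end induct

variable {K : Type u} [Field K] {n : ℕ}

/-- commuting roots of several forms -/
theorem exists_roots [IsAlgClosed K] {c : ℕ} (a : Fin c → ℕ) (ha : ∀ i, 1 ≤ a i)
    (f : Fin c → MvPolynomial (Fin n) K) (hf : ∀ i, (f i).IsHomogeneous (a i)) :
    ∃ (A : Type u) (_ : Ring A) (_ : Algebra K A), Nontrivial A ∧ Module.Finite K A ∧
      ∃ E : Fin c → Fin n → A, (∀ i j, i ≠ j → ∀ k l, E i k * E j l = E j l * E i k) ∧
        ∀ i, linA (E i) ^ a i = bA A (f i) := by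
  classical
  have key : ∀ s : Finset (Fin c), V1Has a (fun i => if i ∈ s then f i else 0) := by
    intro s
    induction s using Finset.induction_on with
    | empty =>
      refine ⟨K, inferInstance, inferInstance, inferInstance, inferInstance, fun _ _ => 0,
        fun i j _ k l => rfl, fun i => ?_⟩
      have h1 : linA (fun _ : Fin n => (0 : K)) = 0 := by
        rw [linA]
        exact Finset.sum_eq_zero fun m _ => AddMonoidAlgebra.single_zero _
      have := ha i
      beta_reduce
      rw [h1, zero_pow (by omega), if_neg (Finset.notMem_empty i), map_zero]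
    | insert k s hk ih =>
      have h1 := v1_has_add ha ih k (f k) (hf k)
      have h2 : (fun i => if i ∈ insert k s then f i else 0) =
          Function.update (fun i => if i ∈ s then f i else 0) k
            ((if k ∈ s then f k else 0) + f k) := by
        funext i
        by_cases hi : i = k
        · subst hi
          rw [Function.update_self, if_pos (Finset.mem_insert_self i s), if_neg hk, zero_add]
        · rw [Function.update_of_ne hi]
          simp only [Finset.mem_insert, hi, false_or]
      rw [h2]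
      exact h1
  have h := key Finset.univ
  simp only [Finset.mem_univ, if_true] at h
  exact h

/-- every form of degree `a` is the `a`-th power of a linear form with coefficients in a finite
dimensional algebra -/
theorem exists_root [IsAlgClosed K] {a : ℕ} (ha : 1 ≤ a) (f : MvPolynomial (Fin n) K)
    (hf : f.IsHomogeneous a) :
    ∃ (A : Type u) (_ : Ring A) (_ : Algebra K A), Nontrivial A ∧ Module.Finite K A ∧
      ∃ E : Fin n → A, linA E ^ a = bA A f := by
  obtain ⟨A, i1, i2, h1, h2, E, -, hE⟩ := exists_roots (c := 1) (fun _ => a) (fun _ => ha)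
    (fun _ => f) (fun _ => hf)
  exact ⟨A, i1, i2, h1, h2, E 0, hE 0⟩

end Vale.Agent.P200.V
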