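import Vale.Agent.P200.V.Comp
import Vale.Agent.P200.M.Theta

/-! The `K`-linear bijection `a z ^ m ↦ a ξ ^ m`. -/

namespace Vale.Agent.P200.V

open MvPolynomial Module
open Vale.Agent.P200.B Vale.Agent.P200.G Vale.Agent.P200.L Vale.Agent.P200.M

variable {K : Type*} [Field K] {A : Type*} [Ring A] [Algebra K A] {n : ℕ}

/-- the monomials in the forms `ξ_i` -/
noncomputable def xiA (E : Fin n → Fin n → A) (m : Fin n →₀ ℕ) : AR A n :=
  (List.ofFn fun i => linA (E i) ^ m i).prod

/-- `a z ^ m ↦ a ξ ^ m` -/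
noncomputable def thA (K : Type*) [Field K] {A : Type*} [Ring A] [Algebra K A] {n : ℕ}
    (E : Fin n → Fin n → A) : AR A n →ₗ[K] AR A n where
  toFun u := u.coeff.sum fun m a => AddMonoidAlgebra.single 0 a * xiA E m
  map_add' := by
    intro u v
    rw [AddMonoidAlgebra.coeff_add]
    refine Finsupp.sum_add_index' (fun m => ?_) fun m a b => ?_
    · rw [AddMonoidAlgebra.single_zero, zero_mul]
    · rw [AddMonoidAlgebra.single_add, add_mul]
  map_smul' := by
    intro k u
    rw [AddMonoidAlgebra.coeff_smul, RingHom.id_apply, Finsupp.sum_smul_index' fun m => by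
      rw [AddMonoidAlgebra.single_zero, zero_mul], Finsupp.smul_sum]
    refine Finsupp.sum_congr fun m _ => ?_
    rw [← AddMonoidAlgebra.smul_single, smul_mul_assoc]

theorem thA_single (E : Fin n → Fin n → A) (m : Fin n →₀ ℕ) (a : A) :
    thA K E (AddMonoidAlgebra.single m a) = AddMonoidAlgebra.single 0 a * xiA E m := by
  change (AddMonoidAlgebra.single m a : AR A n).coeff.sum
    (fun m a => (AddMonoidAlgebra.single 0 a : AR A n) * xiA E m) = _
  rw [AddMonoidAlgebra.coeff_single]
  refine Finsupp.sum_single_index ?_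
  rw [AddMonoidAlgebra.single_zero, zero_mul]

theorem v5_mem_YA {d : ℕ} {u : AR A n} :
    u ∈ YA K A n d ↔ ∀ m, u.coeff m ≠ 0 → ∑ i, m i = d := Iff.rfl

theorem v5_single_mem {d : ℕ} {m : Fin n →₀ ℕ} (hm : ∑ i, m i = d) (c : A) :
    (AddMonoidAlgebra.single m c : AR A n) ∈ YA K A n d := by
  intro m' hm'
  rw [AddMonoidAlgebra.coeff_single, Finsupp.single_apply] at hm'
  by_cases h : m = m'
  · rw [← h]
    exact hm
  · rw [if_neg h] at hm'
    exact absurd rfl hm'

theorem v5_sum_single (u : AR A n) :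
    u = ∑ m ∈ u.coeff.support, AddMonoidAlgebra.single m (u.coeff m) :=
  (AddMonoidAlgebra.sum_coeff_single u).symm

theorem v5_lin_mem (e : Fin n → A) : linA e ∈ YA K A n 1 :=
  Submodule.sum_mem _ fun k _ => v5_single_mem (m4_deg_single k) _

theorem v5_mul_mem {a b : ℕ} {u v : AR A n} (hu : u ∈ YA K A n a) (hv : v ∈ YA K A n b) :
    u * v ∈ YA K A n (a + b) := by
  rw [AddMonoidAlgebra.mul_def]
  refine Submodule.sum_mem _ fun m₁ h₁ => Submodule.sum_mem _ fun m₂ h₂ => ?_
  refine v5_single_mem ?_ _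
  rw [m4_deg_add, hu m₁ (Finsupp.mem_support_iff.1 h₁), hv m₂ (Finsupp.mem_support_iff.1 h₂)]

theorem v5_one_mem : (1 : AR A n) ∈ YA K A n 0 := by
  rw [AddMonoidAlgebra.one_def]
  exact v5_single_mem (by simp) _

theorem v5_pow_mem {a : ℕ} {u : AR A n} (hu : u ∈ YA K A n a) (k : ℕ) :
    u ^ k ∈ YA K A n (k * a) := by
  induction k with
  | zero =>
    rw [pow_zero, Nat.zero_mul]
    exact v5_one_mem
  | succ k ih =>
    rw [pow_succ, Nat.succ_mul]
    exact v5_mul_mem ih hu

theorem v5_prod_mem : ∀ (k : ℕ) (f : Fin k → AR A n) (a : Fin k → ℕ),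
    (∀ i, f i ∈ YA K A n (a i)) → (List.ofFn f).prod ∈ YA K A n (∑ i, a i) := by
  intro k
  induction k with
  | zero =>
    intro f a _
    rw [List.ofFn_zero, List.prod_nil, Fin.sum_univ_zero]
    exact v5_one_mem
  | succ k ih =>
    intro f a h
    rw [List.ofFn_succ, List.prod_cons, Fin.sum_univ_succ]
    exact v5_mul_mem (h 0) (ih _ _ fun i => h i.succ)

theorem v5_xi_mem (E : Fin n → Fin n → A) (m : Fin n →₀ ℕ) : xiA E m ∈ YA K A n (∑ i, m i) := by
  refine v5_prod_mem n _ (fun i => m i) fun i => ?_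
  have h := v5_pow_mem (v5_lin_mem (K := K) (E i)) (m i)
  rwa [Nat.mul_one] at h

theorem v5_term_mem (E : Fin n → Fin n → A) (m : Fin n →₀ ℕ) (a : A) :
    (AddMonoidAlgebra.single 0 a : AR A n) * xiA E m ∈ YA K A n (∑ i, m i) := by
  have h := v5_mul_mem (v5_single_mem (K := K) (n := n) (d := 0) (m := 0) (by simp) a)
    (v5_xi_mem (K := K) E m)
  rwa [Nat.zero_add] at h

theorem thA_mem (E : Fin n → Fin n → A) {d : ℕ} {u : AR A n} (hu : u ∈ YA K A n d) :
    thA K E u ∈ YA K A n d := by
  rw [v5_sum_single u, map_sum]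
  refine Submodule.sum_mem _ fun m hm => ?_
  rw [thA_single]
  have h := v5_term_mem (K := K) E m (u.coeff m)
  rwa [hu m (Finsupp.mem_support_iff.1 hm)] at h

theorem xiA_add (E : Fin n → Fin n → A)
    (hrow : ∀ i j, i ≠ j → ∀ k l, E i k * E j l = E j l * E i k) (m : Fin n →₀ ℕ) (i : Fin n) :
    xiA E (m + Finsupp.single i 1) = xiA E m * linA (E i) := by
  refine m4_prod_ofFn (linA (E i)) n _ _ i (fun j hj => ?_) ?_ fun j => ?_
  · rw [Finsupp.add_apply, Finsupp.single_apply, if_neg (Ne.symm hj), add_zero]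
  · rw [Finsupp.add_apply, Finsupp.single_apply, if_pos rfl, pow_succ]
  · exact (Commute.pow_left (linA_comm E hrow j i) (m j)).eq

theorem thA_mul_zA (E : Fin n → Fin n → A)
    (hrow : ∀ i j, i ≠ j → ∀ k l, E i k * E j l = E j l * E i k) (u : AR A n) (i : Fin n) :
    thA K E (u * zA A n i) = thA K E u * linA (E i) := by
  induction u using AddMonoidAlgebra.induction_linear with
  | zero => rw [zero_mul, map_zero, zero_mul]
  | add a b ha hb => rw [add_mul, map_add, map_add, add_mul, ha, hb]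
  | single m c =>
    unfold zA
    rw [AddMonoidAlgebra.single_mul_single, mul_one, thA_single, thA_single,
      xiA_add E hrow, mul_assoc]

theorem v5_xi_single (E : Fin n → Fin n → A) (i : Fin n) (k : ℕ) :
    xiA E (Finsupp.single i k) = linA (E i) ^ k := by
  have h := m4_prod_ofFn (linA (E i) ^ k) n (fun _ => (1 : AR A n))
    (fun j => linA (E j) ^ (Finsupp.single i k : Fin n →₀ ℕ) j) i (fun j hj => ?_) ?_ fun j => ?_
  · unfold xiA
    rw [h]
    have h1 : (List.ofFn fun _ : Fin n => (1 : AR A n)).prod = 1 := by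
      apply List.prod_eq_one
      intro y hy
      rw [List.mem_ofFn] at hy
      obtain ⟨j, hj⟩ := hy
      exact hj.symm
    rw [h1, one_mul]
  · rw [Finsupp.single_apply, if_neg (Ne.symm hj), pow_zero]
  · rw [Finsupp.single_apply, if_pos rfl, one_mul]
  · rw [one_mul, mul_one]

theorem thA_single_pow (E : Fin n → Fin n → A) (i : Fin n) (k : ℕ) (a : A) :
    thA K E (AddMonoidAlgebra.single (Finsupp.single i k) a) =
      AddMonoidAlgebra.single 0 a * linA (E i) ^ k := by
  rw [thA_single, v5_xi_single]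

theorem v5_xi_zero (E : Fin n → Fin n → A) : xiA E 0 = 1 := by
  unfold xiA
  apply List.prod_eq_one
  intro y hy
  rw [List.mem_ofFn] at hy
  obtain ⟨j, rfl⟩ := hy
  rw [Finsupp.zero_apply, pow_zero]

/-- solving `∑ c_i E_i = δ_k` -/
theorem v5_solve (K : Type*) [Field K] {A : Type*} [Ring A] [Algebra K A] [Module.Finite K A]
    {n : ℕ} (E : Fin n → Fin n → A)
    (hind : ∀ c : Fin n → A, (∀ k, ∑ i, c i * E i k = 0) → c = 0) (k : Fin n) :
    ∃ c : Fin n → A, ∀ l, ∑ i, c i * E i l = if l = k then 1 else 0 := by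
  classical
  obtain ⟨Φ, hΦ⟩ : ∃ Φ : (Fin n → A) →ₗ[K] (Fin n → A), ∀ c l, Φ c l = ∑ i, c i * E i l := by
    refine ⟨{ toFun := fun c l => ∑ i, c i * E i l
              map_add' := fun a b => ?_
              map_smul' := fun t a => ?_ }, fun c l => rfl⟩
    · funext l
      rw [Pi.add_apply, ← Finset.sum_add_distrib]
      exact Finset.sum_congr rfl fun i _ => by rw [Pi.add_apply, add_mul]
    · funext l
      rw [RingHom.id_apply, Pi.smul_apply, Finset.smul_sum]
      exact Finset.sum_congr rfl fun i _ => by rw [Pi.smul_apply, smul_mul_assoc]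
  have hinj : Function.Injective Φ := by
    rw [← LinearMap.ker_eq_bot, LinearMap.ker_eq_bot']
    intro c hc
    exact hind c fun l => by rw [← hΦ, hc, Pi.zero_apply]
  obtain ⟨c, hc⟩ := LinearMap.injective_iff_surjective.1 hinj fun l => if l = k then 1 else 0
  exact ⟨c, fun l => by rw [← hΦ, hc]⟩

/-- the variables are combinations of the forms `ξ_i` -/
theorem v5_zA_eq (K : Type*) [Field K] {A : Type*} [Ring A] [Algebra K A] [Module.Finite K A]
    {n : ℕ} (E : Fin n → Fin n → A)
    (hind : ∀ c : Fin n → A, (∀ k, ∑ i, c i * E i k = 0) → c = 0) (k : Fin n) :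
    ∃ c : Fin n → A, ∀ (m : Fin n →₀ ℕ) (a : A),
      (AddMonoidAlgebra.single m a : AR A n) * zA A n k =
        ∑ i, AddMonoidAlgebra.single m (a * c i) * linA (E i) := by
  classical
  obtain ⟨c, h1⟩ := v5_solve K E hind k
  refine ⟨c, fun m a => ?_⟩
  have h3 : ∀ i, (AddMonoidAlgebra.single m (a * c i) : AR A n) * linA (E i) =
      ∑ l, AddMonoidAlgebra.single (m + Finsupp.single l 1) (a * (c i * E i l)) := by
    intro i
    unfold linA
    rw [Finset.mul_sum]
    refine Finset.sum_congr rfl fun l _ => ?_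
    rw [AddMonoidAlgebra.single_mul_single, mul_assoc]
  rw [Finset.sum_congr rfl fun i _ => h3 i, Finset.sum_comm]
  have h4 : ∀ l, ∑ i, (AddMonoidAlgebra.single (m + Finsupp.single l 1) (a * (c i * E i l)) :
      AR A n) = AddMonoidAlgebra.single (m + Finsupp.single l 1) (if l = k then a else 0) := by
    intro l
    have h5 : (if l = k then a else 0) = ∑ i, a * (c i * E i l) := by
      rw [← Finset.mul_sum, h1]
      split_ifs
      · rw [mul_one]
      · rw [mul_zero]
    rw [h5]
    exact (map_sum (AddMonoidAlgebra.singleAddHom (m + Finsupp.single l 1)) _ _).symm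
  rw [Finset.sum_congr rfl fun l _ => h4 l]
  rw [Finset.sum_eq_single k]
  · rw [if_pos rfl]
    unfold zA
    rw [AddMonoidAlgebra.single_mul_single, mul_one]
  · intro l _ hl
    rw [if_neg hl, AddMonoidAlgebra.single_zero]
  · intro h
    exact absurd (Finset.mem_univ k) h

theorem v5_zA_mem (k : Fin n) : zA A n k ∈ YA K A n 1 := v5_single_mem (m4_deg_single k) _

theorem v5_single_range [Module.Finite K A] (E : Fin n → Fin n → A)
    (hrow : ∀ i j, i ≠ j → ∀ k l, E i k * E j l = E j l * E i k)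
    (hind : ∀ c : Fin n → A, (∀ k, ∑ i, c i * E i k = 0) → c = 0) :
    ∀ (d : ℕ) (m : Fin n →₀ ℕ) (c : A), ∑ i, m i = d →
      (AddMonoidAlgebra.single m c : AR A n) ∈ (YA K A n d).map (thA K E) := by
  intro d
  induction d with
  | zero =>
    intro m c hm
    have h0 : m = 0 := by
      ext i
      exact (Finset.sum_eq_zero_iff.1 hm) i (Finset.mem_univ i)
    subst h0
    refine ⟨AddMonoidAlgebra.single 0 c, v5_single_mem (by simp) c, ?_⟩
    rw [thA_single, v5_xi_zero, mul_one]
  | succ d ih =>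
    intro m c hm
    obtain ⟨k, hk⟩ : ∃ k, m k ≠ 0 := by
      by_contra hcon
      push Not at hcon
      rw [Finset.sum_eq_zero fun i _ => hcon i] at hm
      omega
    obtain ⟨m', hm'⟩ : ∃ m' : Fin n →₀ ℕ, m = m' + Finsupp.single k 1 := by
      refine ⟨m - Finsupp.single k 1, ?_⟩
      rw [tsub_add_cancel_of_le]
      rw [Finsupp.single_le_iff]
      omega
    have hd : ∑ i, m' i = d := by
      rw [hm', m4_deg_add, m4_deg_single] at hm
      omega
    have h1 : (AddMonoidAlgebra.single m c : AR A n) =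
        AddMonoidAlgebra.single m' c * zA A n k := by
      unfold zA
      rw [AddMonoidAlgebra.single_mul_single, mul_one, hm']
    obtain ⟨a, ha⟩ := v5_zA_eq K E hind k
    rw [h1, ha]
    refine Submodule.sum_mem _ fun i _ => ?_
    obtain ⟨w, hw, hw'⟩ := ih m' (c * a i) hd
    refine ⟨w * zA A n i, v5_mul_mem hw (v5_zA_mem i), ?_⟩
    rw [thA_mul_zA E hrow, hw']

theorem v5_map_thA [Module.Finite K A] (E : Fin n → Fin n → A)
    (hrow : ∀ i j, i ≠ j → ∀ k l, E i k * E j l = E j l * E i k)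
    (hind : ∀ c : Fin n → A, (∀ k, ∑ i, c i * E i k = 0) → c = 0) (d : ℕ) :
    (YA K A n d).map (thA K E) = YA K A n d := by
  apply le_antisymm
  · rintro _ ⟨u, hu, rfl⟩
    exact thA_mem E hu
  · intro u hu
    rw [v5_sum_single u]
    refine Submodule.sum_mem _ fun m hm => ?_
    exact v5_single_range E hrow hind d m _ (hu m (Finsupp.mem_support_iff.1 hm))

/-- polynomials of degree at most `N` -/
def v5W (K A : Type*) [Field K] [Ring A] [Algebra K A] (n N : ℕ) : Submodule K (AR A n) where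
  carrier := {u | ∀ m, u.coeff m ≠ 0 → ∑ i, m i ≤ N}
  add_mem' := by
    intro a b ha hb m hm
    by_contra h
    have h1 : a.coeff m = 0 := by
      by_contra h'
      exact h (ha m h')
    have h2 : b.coeff m = 0 := by
      by_contra h'
      exact h (hb m h')
    apply hm
    rw [AddMonoidAlgebra.coeff_add, Finsupp.add_apply, h1, h2, add_zero]
  zero_mem' := by
    intro m hm
    exact absurd (by rw [AddMonoidAlgebra.coeff_zero, Finsupp.zero_apply]) hm
  smul_mem' := by
    intro k a ha m hm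
    refine ha m fun h => hm ?_
    rw [AddMonoidAlgebra.coeff_smul_apply, h, smul_zero]

theorem v5_mem_W {N : ℕ} {u : AR A n} :
    u ∈ v5W K A n N ↔ ∀ m, u.coeff m ≠ 0 → ∑ i, m i ≤ N := Iff.rfl

theorem v5_YA_le {d N : ℕ} (h : d ≤ N) : YA K A n d ≤ v5W K A n N := by
  intro u hu m hm
  rw [hu m hm]
  exact h

theorem v5_exists_W (u : AR A n) : ∃ N, u ∈ v5W K A n N := by
  refine ⟨∑ m ∈ u.coeff.support, ∑ i, m i, fun m hm => ?_⟩
  exact Finset.single_le_sum (f := fun m : Fin n →₀ ℕ => ∑ i, m i) (fun _ _ => Nat.zero_le _)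
    (Finsupp.mem_support_iff.2 hm)

theorem v5_finite_W [Module.Finite K A] (N : ℕ) : Module.Finite K (v5W K A n N) := by
  have hfin : {m : Fin n →₀ ℕ | ∑ i, m i ≤ N}.Finite := by
    refine (Set.finite_Iic (Finsupp.equivFunOnFinite.symm fun _ => N)).subset fun m hm i => ?_
    refine le_trans ?_ hm
    exact Finset.single_le_sum (f := fun i => m i) (fun _ _ => Nat.zero_le _) (Finset.mem_univ i)
  have : Finite {m : Fin n →₀ ℕ | ∑ i, m i ≤ N} := hfin
  obtain ⟨Ψ, hΨ⟩ : ∃ Ψ : (v5W K A n N) →ₗ[K] ({m : Fin n →₀ ℕ | ∑ i, m i ≤ N} → A),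
      ∀ u m, Ψ u m = (u : AR A n).coeff m := by
    refine ⟨{ toFun := fun u m => (u : AR A n).coeff m
              map_add' := fun a b => ?_
              map_smul' := fun t a => ?_ }, fun c l => rfl⟩
    · funext l
      rw [Submodule.coe_add, AddMonoidAlgebra.coeff_add]
      rfl
    · funext l
      rw [Submodule.coe_smul, AddMonoidAlgebra.coeff_smul]
      rfl
  refine Module.Finite.of_injective Ψ ?_
  rw [← LinearMap.ker_eq_bot, LinearMap.ker_eq_bot']
  intro u hu
  apply Subtype.ext
  rw [v5_sum_single (u : AR A n), Submodule.coe_zero]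
  refine Finset.sum_eq_zero fun m hm => ?_
  have hm' := Finsupp.mem_support_iff.1 hm
  have h2 := congrFun hu ⟨m, u.2 m hm'⟩
  rw [hΨ] at h2
  exact absurd h2 hm'

theorem v5_injective [Module.Finite K A] (E : Fin n → Fin n → A)
    (hrow : ∀ i j, i ≠ j → ∀ k l, E i k * E j l = E j l * E i k)
    (hind : ∀ c : Fin n → A, (∀ k, ∑ i, c i * E i k = 0) → c = 0) :
    Function.Injective (thA K E) := by
  rw [← LinearMap.ker_eq_bot, LinearMap.ker_eq_bot']
  intro u hu
  obtain ⟨N, hN⟩ := v5_exists_W (K := K) u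
  have hmaps : ∀ w ∈ v5W K A n N, thA K E w ∈ v5W K A n N := by
    intro w hw
    rw [v5_sum_single w, map_sum]
    refine Submodule.sum_mem _ fun m hm => ?_
    exact v5_YA_le (hw m (Finsupp.mem_support_iff.1 hm))
      (thA_mem E (v5_single_mem rfl _))
  have hsurj : Function.Surjective ((thA K E).restrict hmaps) := by
    rintro ⟨w, hw⟩
    have h1 : w ∈ (v5W K A n N).map (thA K E) := by
      rw [v5_sum_single w]
      refine Submodule.sum_mem _ fun m hm => ?_
      exact Submodule.map_mono (v5_YA_le (hw m (Finsupp.mem_support_iff.1 hm)))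
        (v5_single_range E hrow hind _ m _ rfl)
    obtain ⟨y, hy, hy'⟩ := h1
    exact ⟨⟨y, hy⟩, Subtype.ext hy'⟩
  have hfin := v5_finite_W (K := K) (A := A) (n := n) N
  have hinj : Function.Injective ((thA K E).restrict hmaps) :=
    LinearMap.injective_iff_surjective.2 hsurj
  have h2 : (⟨u, hN⟩ : v5W K A n N) = 0 := by
    apply hinj
    rw [map_zero]
    exact Subtype.ext hu
  exact congrArg Subtype.val h2

theorem finrank_comap_thA [Module.Finite K A] (E : Fin n → Fin n → A)
    (hrow : ∀ i j, i ≠ j → ∀ k l, E i k * E j l = E j l * E i k)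
    (hind : ∀ c : Fin n → A, (∀ k, ∑ i, c i * E i k = 0) → c = 0) {e : ℕ}
    (V : Submodule K (AR A n)) (hV : V ≤ YA K A n e) :
    V.comap (thA K E) ≤ YA K A n e ∧ finrank K (V.comap (thA K E)) = finrank K V := by
  have hinj := v5_injective (K := K) E hrow hind
  constructor
  · intro u hu
    have h1 : thA K E u ∈ YA K A n e := hV hu
    rw [← v5_map_thA E hrow hind e] at h1
    obtain ⟨w, hw, hw'⟩ := h1
    rwa [← hinj hw']
  · have hle : V ≤ LinearMap.range (thA K E) := by
      intro v hv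
      have h1 := hV hv
      rw [← v5_map_thA E hrow hind e] at h1
      obtain ⟨w, _, hw'⟩ := h1
      exact ⟨w, hw'⟩
    exact (Submodule.comap_equiv_self_of_inj_of_le hinj hle).finrank_eq

theorem finrank_rd_thA [Module.Finite K A] (E : Fin n → Fin n → A)
    (hrow : ∀ i j, i ≠ j → ∀ k l, E i k * E j l = E j l * E i k)
    (hind : ∀ c : Fin n → A, (∀ k, ∑ i, c i * E i k = 0) → c = 0)
    (V : Submodule K (AR A n)) (d p : ℕ) :
    finrank K (rd (fun i => linA (E i)) V (YA K A n d) p) =
      finrank K (rd (zA A n) (V.comap (thA K E)) (YA K A n d) p) := by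
  have hinj := v5_injective (K := K) E hrow hind
  have hkr : ∀ (c : Finset (Fin n) → AR A n) (t : Finset (Fin n)),
      kr (fun i => linA (E i)) (fun s => thA K E (c s)) t = thA K E (kr (zA A n) c t) := by
    intro c t
    rw [kr_apply, kr_apply, map_sum]
    refine Finset.sum_congr rfl fun i _ => ?_
    rcases neg_one_pow_eq_or (AR A n) (t.filter fun k => k < i).card with h | h
    · rw [h, one_mul, one_mul, thA_mul_zA E hrow]
    · rw [h, neg_one_mul, neg_one_mul, map_neg, thA_mul_zA E hrow]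
  have hYD : ∀ u, thA K E u ∈ YA K A n d ↔ u ∈ YA K A n d :=
    fun u => ⟨fun h => (finrank_comap_thA E hrow hind (YA K A n d) le_rfl).1 h, thA_mem E⟩
  obtain ⟨Φ, hΦ⟩ : ∃ Φ : (Finset (Fin n) → AR A n) →ₗ[K] (Finset (Fin n) → AR A n),
      ∀ c, Φ c = fun s => thA K E (c s) :=
    ⟨(thA K E).compLeft (Finset (Fin n)), fun c => rfl⟩
  have hΦinj : Function.Injective Φ := by
    intro a b hab
    rw [hΦ, hΦ] at hab
    funext s
    exact hinj (congrFun hab s)
  have hcomap : (rd (fun i => linA (E i)) V (YA K A n d) p).comap Φ =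
      rd (zA A n) (V.comap (thA K E)) (YA K A n d) p := by
    ext c
    rw [Submodule.mem_comap, hΦ, mem_rd, mem_rd, mem_chD, mem_chD]
    have e1 : (∀ s : Finset (Fin n), s.card ≠ p → thA K E (c s) = 0) ↔
        ∀ s : Finset (Fin n), s.card ≠ p → c s = 0 :=
      forall_congr' fun s => imp_congr_right fun _ => by
        rw [← map_zero (thA K E)]
        exact hinj.eq_iff
    have e2 : (∀ s, thA K E (c s) ∈ YA K A n d) ↔ ∀ s, c s ∈ YA K A n d :=
      forall_congr' fun s => hYD _
    have e3 : (∀ t, kr (fun i => linA (E i)) (fun s => thA K E (c s)) t ∈ V) ↔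
        ∀ t, kr (zA A n) c t ∈ V.comap (thA K E) :=
      forall_congr' fun t => by rw [hkr, Submodule.mem_comap]
    rw [e1, e2, e3]
  have hle : rd (fun i => linA (E i)) V (YA K A n d) p ≤ LinearMap.range Φ := by
    intro c hc
    have h1 : ∀ s, ∃ w, thA K E w = c s := by
      intro s
      have h2 := hc.1.2 s
      rw [← v5_map_thA E hrow hind d] at h2
      obtain ⟨w, _, hw⟩ := h2
      exact ⟨w, hw⟩
    choose w hw using h1
    refine ⟨w, ?_⟩
    rw [hΦ]
    funext s
    exact hw s
  rw [← hcomap]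
  exact (Submodule.comap_equiv_self_of_inj_of_le hΦinj hle).finrank_eq.symm

end Vale.Agent.P200.V
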