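import Vale.Agent.P200.V.Reg
import Vale.Agent.P200.V.Theta
import Vale.Agent.P200.V.Flag
import Vale.Agent.P200.V.Root
import Vale.Agent.P200.V.Mono
import Vale.Agent.P200.L.All

/-! The conjectures on average, for all degrees. -/

namespace Vale.Agent.P200.V

open MvPolynomial Module
open Vale.Agent.P200.B Vale.Agent.P200.G Vale.Agent.P200.L Vale.Agent.P200.M

section aux

variable {K : Type*} [Field K] {A : Type*} [Ring A] [Algebra K A] {n : ℕ}

theorem VA_mul_const {V : Submodule K (MvPolynomial (Fin n) K)} {u : AR A n} (hu : u ∈ VA A V)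
    (a : A) : u * AddMonoidAlgebra.single 0 a ∈ VA A V := by
  rw [mem_VA] at hu ⊢
  intro φ
  rw [co_mul_const]
  exact hu _

theorem VA_mul_bA {V V' : Submodule K (MvPolynomial (Fin n) K)} {g : MvPolynomial (Fin n) K}
    (h : ∀ v ∈ V, v * g ∈ V') {u : AR A n} (hu : u ∈ VA A V) : u * bA A g ∈ VA A V' := by
  rw [mem_VA] at hu ⊢
  intro φ
  rw [co_mul_bA]
  exact h _ (hu φ)

theorem VA_mul_linA {V V' : Submodule K (MvPolynomial (Fin n) K)}
    (h : ∀ v ∈ V, ∀ k, v * X k ∈ V') (e : Fin n → A) {u : AR A n} (hu : u ∈ VA A V) :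
    u * linA e ∈ VA A V' := by
  have h1 : linA e = ∑ k, zA A n k * AddMonoidAlgebra.single 0 (e k) := by
    unfold linA
    refine Finset.sum_congr rfl fun k _ => ?_
    unfold zA
    rw [AddMonoidAlgebra.single_mul_single, one_mul, add_zero]
  rw [h1, Finset.mul_sum]
  refine Submodule.sum_mem _ fun k _ => ?_
  rw [← mul_assoc, ← bA_X (K := K)]
  exact VA_mul_const (VA_mul_bA (fun v hv => h v hv k) hu) _

theorem xiA_pow (E : Fin n → Fin n → A)
    (hrow : ∀ i j, i ≠ j → ∀ k l, E i k * E j l = E j l * E i k) (m : Fin n →₀ ℕ) (i : Fin n)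
    (k : ℕ) : xiA E (m + Finsupp.single i k) = xiA E m * linA (E i) ^ k := by
  induction k with
  | zero => rw [Finsupp.single_zero, add_zero, pow_zero, mul_one]
  | succ k ih =>
    rw [Finsupp.single_add, ← add_assoc, xiA_add E hrow, ih, pow_succ, mul_assoc]

end aux

section closed

universe u

variable {L : Type u} [Field L] {n c : ℕ}

/-- the data over an algebraically closed field -/
theorem avg_closed [IsAlgClosed L] (h : c ≤ n) (a : Fin c → ℕ) (hpos : ∀ i, 1 ≤ a i)
    (f : Fin c → MvPolynomial (Fin n) L) (hf : ∀ i, (f i).IsHomogeneous (a i))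
    (hreg : IsRegularSeq f) :
    ∃ N : ℕ, 0 < N ∧ ∀ I : Ideal (MvPolynomial (Fin n) L), (∀ i, f i ∈ I) →
      ∃ V : Fin N → ℕ → Submodule L (MvPolynomial (Fin n) L),
        (∀ t d, V t d ≤ homogeneousSubmodule (Fin n) L d) ∧
        (∀ t d i, ∀ v ∈ V t d, v * X i ∈ V t (d + 1)) ∧
        (∀ t d (m : Fin n →₀ ℕ), ∑ i, m i = d → (∃ i : Fin c, a i ≤ m (Fin.castLE h i)) →
          monomial m 1 ∈ V t d) ∧
        (∀ d, N * finrank L (piece I d) = ∑ t, finrank L (V t d)) ∧
        ∀ d p, N * finrank L (rc X (piece I (d + 1)) (homogeneousSubmodule (Fin n) L d) p) ≤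
          ∑ t, finrank L (rc X (V t (d + 1)) (homogeneousSubmodule (Fin n) L d) p) := by
  have hinf : Infinite L := IsAlgClosed.instInfinite
  obtain ⟨l, hl, hlm⟩ := exists_linear_extension h a hpos f hf hreg
  set b : Fin n → ℕ := fun i => if hi : i.1 < c then a ⟨i.1, hi⟩ else 1 with hb
  set F : Fin n → MvPolynomial (Fin n) L := fun i =>
    if hi : i.1 < c then f ⟨i.1, hi⟩ else l ⟨i.1 - c, by omega⟩ with hF
  have hbpos : ∀ i, 1 ≤ b i := by
    intro i
    by_cases hi : i.1 < c
    · simp only [hb, hi, dif_pos]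
      exact hpos _
    · simp only [hb, hi, dif_neg, not_false_iff, le_refl]
  have hFhom : ∀ i, (F i).IsHomogeneous (b i) := by
    intro i
    by_cases hi : i.1 < c
    · simp only [hF, hb, hi, dif_pos]
      exact hf _
    · simp only [hF, hb, hi, dif_neg, not_false_iff]
      exact hl _
  have hFprim : IsMPrimary (Ideal.span (Set.range F)) := by
    obtain ⟨N, hN⟩ := hlm
    refine ⟨N, fun d hd g hg => ?_⟩
    have h3 : Ideal.span (Set.range f) ⊔ Ideal.span (Set.range l) ≤
        Ideal.span (Set.range F) := by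
      apply sup_le
      · rw [Ideal.span_le]
        rintro _ ⟨j, rfl⟩
        apply Ideal.subset_span
        refine ⟨Fin.castLE h j, ?_⟩
        simp [hF]
      · rw [Ideal.span_le]
        rintro _ ⟨j, rfl⟩
        exact Ideal.subset_span ⟨⟨j.1 + c, by omega⟩, by simp [hF]⟩
    exact h3 (hN d hd g hg)
  obtain ⟨A, _, _, hnt, hfin, E, hrow, hE⟩ := exists_roots b hbpos F hFhom
  have hind := rows_indep F b hbpos hFhom hFprim E hrow hE
  refine ⟨finrank L A, Module.finrank_pos, fun I hfI => ?_⟩
  set β := Module.finBasis L A with hβ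
  set W : ℕ → Submodule L (AR A n) := fun d => (VA A (piece I d)).comap (thA L E) with hW
  have hVA : ∀ d, VA A (piece I d) ≤ YA L A n d := by
    intro d
    rw [← VA_homogeneous]
    exact VA_mono (G.piece_le I d)
  have hmul : ∀ d, ∀ v ∈ piece I d, ∀ k, v * X k ∈ piece I (d + 1) := by
    intro d v hv k
    refine ⟨I.mul_mem_right _ hv.1, ?_⟩
    exact ((mem_homogeneousSubmodule _ _).1 hv.2).mul (isHomogeneous_X L k)
  refine ⟨fun t d => flag β (W d) t, ?_, ?_, ?_, ?_, ?_⟩
  · intro t d
    exact flag_le β (finrank_comap_thA E hrow hind _ (hVA d)).1 t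
  · intro t d i v hv
    refine flag_mul β i (fun u hu => ?_) t v hv
    change thA L E (u * zA A n i) ∈ VA A (piece I (d + 1))
    rw [thA_mul_zA E hrow]
    exact VA_mul_linA (hmul d) _ hu
  · rintro t d m hm ⟨i, hi⟩
    apply monomial_mem_flag
    change thA L E _ ∈ VA A (piece I d)
    have h1 : m = (m - Finsupp.single (Fin.castLE h i) (a i)) +
        Finsupp.single (Fin.castLE h i) (a i) := by
      rw [tsub_add_cancel_of_le]
      rwa [Finsupp.single_le_iff]
    have hbi : b (Fin.castLE h i) = a i := by simp [hb]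
    have hFi : F (Fin.castLE h i) = f i := by simp [hF]
    have h2 := thA_mem (K := L) E (d := d) (u := AddMonoidAlgebra.single m (β t)) (by
      intro m' hm'
      rw [AddMonoidAlgebra.coeff_single, Finsupp.single_apply] at hm'
      by_cases h3 : m = m'
      · rw [← h3]
        exact hm
      · rw [if_neg h3] at hm'
        exact absurd rfl hm')
    rw [← VA_homogeneous] at h2
    rw [mem_VA] at h2 ⊢
    intro φ
    refine ⟨?_, h2 φ⟩
    have h4 := hE (Fin.castLE h i)
    rw [hbi, hFi] at h4
    rw [thA_single, h1, xiA_pow E hrow, h4, ← mul_assoc, co_mul_bA]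
    exact I.mul_mem_left _ (hfI i)
  · intro d
    have hfp : Module.Finite L (piece I d) := Submodule.finiteDimensional_of_le (G.piece_le I d)
    have h1 := finrank_comap_thA E hrow hind _ (hVA d)
    have h2 : Module.Finite L (YA L A n d) := finite_YA d
    have h3 : Module.Finite L (W d) := Submodule.finiteDimensional_of_le h1.1
    rw [sum_finrank_flag β (W d), h1.2, finrank_VA]
  · intro d p
    have h0 : Module.Finite L (homogeneousSubmodule (Fin n) L d) := inferInstance
    rw [← finrank_rd_VA (A := A) (piece I (d + 1)) (homogeneousSubmodule (Fin n) L d) p,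
      VA_homogeneous, compoundA E hrow hind _ (hVA (d + 1)) (fun u hu a => VA_mul_const hu a),
      finrank_rd_thA E hrow hind]
    exact finrank_rd_flag β _ d p

end closed

section final

universe u

variable {K : Type u} [Field K] {n c : ℕ}

/-- the ideal generated by a set of monomials -/
noncomputable def monIdeal (K : Type*) [Field K] {n : ℕ} (M : Set (Fin n →₀ ℕ)) :
    Ideal (MvPolynomial (Fin n) K) :=
  Ideal.span ((fun m => monomial m (1 : K)) '' M)

theorem up_add {M : Set (Fin n →₀ ℕ)} (hM : ∀ m ∈ M, ∀ i, m + Finsupp.single i 1 ∈ M)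
    {m : Fin n →₀ ℕ} (hm : m ∈ M) (m' : Fin n →₀ ℕ) : m + m' ∈ M := by
  induction m' using Finsupp.induction with
  | zero => rwa [add_zero]
  | single_add i k g _ _ ih =>
    have h1 : ∀ k : ℕ, m + (Finsupp.single i k + g) ∈ M := by
      intro k
      induction k with
      | zero => rwa [Finsupp.single_zero, zero_add]
      | succ k ih' =>
        have h2 := hM _ ih' i
        have h3 : m + (Finsupp.single i (k + 1) + g) =
            m + (Finsupp.single i k + g) + Finsupp.single i 1 := by
          rw [Finsupp.single_add]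
          abel
        rwa [h3]
    exact h1 k

theorem mem_monIdeal {M : Set (Fin n →₀ ℕ)} (hM : ∀ m ∈ M, ∀ i, m + Finsupp.single i 1 ∈ M)
    {g : MvPolynomial (Fin n) K} : g ∈ monIdeal K M ↔ ∀ m, coeff m g ≠ 0 → m ∈ M := by
  rw [monIdeal, mem_ideal_span_monomial_image]
  constructor
  · intro h m hm
    obtain ⟨m', hm', hle⟩ := h m (mem_support_iff.2 hm)
    rw [← tsub_add_cancel_of_le hle, add_comm]
    exact up_add hM hm' _
  · intro h m hm
    exact ⟨m, h m (mem_support_iff.1 hm), le_rfl⟩

theorem homIdeal_monIdeal {M : Set (Fin n →₀ ℕ)}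
    (hM : ∀ m ∈ M, ∀ i, m + Finsupp.single i 1 ∈ M) : HomIdeal (monIdeal K M) := by
  intro g hg d
  rw [mem_monIdeal hM] at hg ⊢
  intro m hm
  apply hg
  rw [coeff_homogeneousComponent] at hm
  by_contra h0
  apply hm
  rw [h0]
  exact ite_self 0

theorem piece_monIdeal {M : Set (Fin n →₀ ℕ)}
    (hM : ∀ m ∈ M, ∀ i, m + Finsupp.single i 1 ∈ M) (d : ℕ) :
    piece (monIdeal K M) d = restrictSupport K {m | m ∈ M ∧ ∑ i, m i = d} := by
  ext g
  rw [piece, Submodule.mem_inf, Submodule.restrictScalars_mem, mem_monIdeal hM,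
    mem_homogeneousSubmodule, G.isHomogeneous_iff_support, L.mem_restrictSupport_iff]
  constructor
  · rintro ⟨h1, h2⟩ m hm
    exact ⟨h1 m hm, h2 m (mem_support_iff.2 hm)⟩
  · intro h
    exact ⟨fun m hm => (h m hm).1, fun m hm => (h m (mem_support_iff.1 hm)).2⟩

theorem nat_avg {N : ℕ} (b A B z z' : ℕ) (bt At zt zt' : Fin N → ℕ)
    (h : b + A + B = z + z') (ht : ∀ t, bt t + At t + B = zt t + zt' t)
    (hA : N * A = ∑ t, At t) (hz : N * z ≤ ∑ t, zt t) (hz' : N * z' ≤ ∑ t, zt' t) :
    N * b ≤ ∑ t, bt t := by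
  have h1 : ∑ t, (bt t + At t + B) = ∑ t, (zt t + zt' t) := Finset.sum_congr rfl fun t _ => ht t
  rw [Finset.sum_add_distrib, Finset.sum_add_distrib, Finset.sum_add_distrib, Finset.sum_const,
    Finset.card_univ, Fintype.card_fin, smul_eq_mul] at h1
  have h2 : N * b + N * A + N * B = N * z + N * z' := by
    rw [← mul_add, ← mul_add, ← mul_add, h]
  omega

/-- **Both conjectures on average**, for all degrees, over every field. -/
theorem average (h : c ≤ n) (a : Fin c → ℕ) (hpos : ∀ i, 1 ≤ a i)
    (f : Fin c → MvPolynomial (Fin n) K) (hf : ∀ i, (f i).IsHomogeneous (a i))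
    (hreg : IsRegularSeq f) :
    ∃ N : ℕ, 0 < N ∧ ∀ I : Ideal (MvPolynomial (Fin n) K), HomIdeal I → (∀ i, f i ∈ I) →
      ∃ M : Fin N → Set (Fin n →₀ ℕ), (∀ t, ∀ m ∈ M t, ∀ i, m + Finsupp.single i 1 ∈ M t) ∧
        (∀ t (i : Fin c), Finsupp.single (Fin.castLE h i) (a i) ∈ M t) ∧
        (∀ d, N * finrank K (piece I d) = ∑ t, finrank K (piece (monIdeal K (M t)) d)) ∧
        ∀ p j, N * betti I p j ≤ ∑ t, betti (monIdeal K (M t)) p j := by
  set L := AlgebraicClosure K with hL
  obtain ⟨N, hN, key⟩ := avg_closed h a hpos (fun i => MvPolynomial.map (algebraMap K L) (f i))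
    (fun i => (hf i).map _) (isRegSeq_baseChange f a hf hreg)
  refine ⟨N, hN, fun I hI hfI => ?_⟩
  set IL : Ideal (MvPolynomial (Fin n) L) := I.map (MvPolynomial.map (σ := Fin n) (algebraMap K L))
    with hIL
  obtain ⟨V, hV1, hV2, hV3, hV4, hV5⟩ := key IL fun i => Ideal.mem_map_of_mem _ (hfI i)
  set M : Fin N → Set (Fin n →₀ ℕ) := fun t => {m | m ∈ low (V t (∑ i, m i))} with hM
  have hup : ∀ t, ∀ m ∈ M t, ∀ i, m + Finsupp.single i 1 ∈ M t := by
    intro t m hm i
    have h1 := low_mul (hV1 t (∑ i, m i)) i (hV2 t _ i) hm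
    have h2 : ∑ j, (m + Finsupp.single i 1 : Fin n →₀ ℕ) j = ∑ i, m i + 1 := by
      simp only [Finsupp.add_apply, Finset.sum_add_distrib, Finsupp.single_apply]
      simp
    change _ ∈ low (V t (∑ j, (m + Finsupp.single i 1 : Fin n →₀ ℕ) j))
    rwa [h2]
  have hMd : ∀ t d, {m | m ∈ M t ∧ ∑ i, m i = d} = low (V t d) := by
    intro t d
    ext m
    constructor
    · rintro ⟨h1, h2⟩
      rw [← h2]
      exact h1
    · intro h1
      have h2 := low_degree (hV1 t d) h1
      refine ⟨?_, h2⟩
      change m ∈ low (V t (∑ i, m i))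
      rwa [h2]
  have hfin : ∀ t d, (low (V t d)).Finite := by
    intro t d
    exact (deg_finite n d).subset fun m hm => low_degree (hV1 t d) hm
  have hfr : ∀ t d, finrank K (piece (monIdeal K (M t)) d) = finrank L (V t d) := by
    intro t d
    rw [piece_monIdeal (hup t), hMd, G.finrank_restrictSupport _ (hfin t d),
      ncard_low (hV1 t d)]
  have hfI' : ∀ d, finrank L (piece IL d) = finrank K (piece I d) := by
    intro d
    have h4 := finrank_piece_add_hilb IL d
    have h5 := finrank_piece_add_hilb I d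
    rw [hilb_baseChange I hI] at h4
    have h6 : finrank L (homogeneousSubmodule (Fin n) L d) =
        finrank K (homogeneousSubmodule (Fin n) K d) := by
      rw [finrank_homogeneousSubmodule, finrank_homogeneousSubmodule]
    omega
  have hdim : ∀ d, N * finrank K (piece I d) =
      ∑ t, finrank K (piece (monIdeal K (M t)) d) := by
    intro d
    rw [← hfI', hV4]
    exact Finset.sum_congr rfl fun t _ => (hfr t d).symm
  have hcyc : ∀ d p,
      N * finrank K (rc X (piece I (d + 1)) (homogeneousSubmodule (Fin n) K d) p) ≤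
        ∑ t, finrank K (rc X (piece (monIdeal K (M t)) (d + 1))
          (homogeneousSubmodule (Fin n) K d) p) := by
    intro d p
    have h7 : ∀ g ∈ piece I (d + 1), MvPolynomial.map (algebraMap K L) g ∈ piece IL (d + 1) :=
      fun g hg => ⟨Ideal.mem_map_of_mem _ hg.1, ((mem_homogeneousSubmodule _ _).1 hg.2).map _⟩
    refine (Nat.mul_le_mul_left N (finrank_rc_le_baseChange _ _ h7 d p)).trans
      ((hV5 d p).trans (Finset.sum_le_sum fun t _ => ?_))
    rw [piece_monIdeal (hup t), hMd]
    exact (low_cycles (hV1 t (d + 1)) p).trans (finrank_rc_restrictSupport _ d p)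
  refine ⟨M, hup, ?_, hdim, ?_⟩
  · intro t i
    have h1 : ∑ j, (Finsupp.single (Fin.castLE h i) (a i) : Fin n →₀ ℕ) j = a i := by
      simp only [Finsupp.single_apply]
      simp
    change _ ∈ low (V t _)
    rw [h1]
    refine monomial_mem_low (hV3 t (a i) _ h1 ⟨i, ?_⟩)
    rw [Finsupp.single_eq_same]
  · intro p j
    rcases lt_or_ge j p with hj | hj
    · rw [betti_of_lt I (Or.inr hj), mul_zero]
      exact Nat.zero_le _
    obtain ⟨e, rfl⟩ := Nat.exists_eq_add_of_le hj
    rcases e with _ | d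
    · refine nat_avg (betti I p p) (n.choose p * finrank K (piece I 0)) 0 _ 0 _
        (fun t => n.choose p * finrank K (piece (monIdeal K (M t)) 0)) _ (fun _ => 0)
        (by rw [betti_rc_zero I hI p]) (fun t => by
          rw [add_zero, add_zero]
          exact betti_rc_zero _ (homIdeal_monIdeal (hup t)) p) ?_ (hcyc 0 p) (by simp)
      rw [← Finset.mul_sum, ← hdim]
      ring
    · refine nat_avg _ (n.choose p * finrank K (piece I (d + 1)))
        (n.choose (p + 1) * finrank K (homogeneousSubmodule (Fin n) K d)) _ _ _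
        (fun t => n.choose p * finrank K (piece (monIdeal K (M t)) (d + 1))) _ _
        (betti_rc I hI p d) (fun t => betti_rc _ (homIdeal_monIdeal (hup t)) p d) ?_
        (hcyc (d + 1) p) (hcyc d (p + 1))
      rw [← Finset.mul_sum, ← hdim]
      ring

end final

end Vale.Agent.P200.V
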