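import Vale.Agent.P200.V.Blk

/-!
The circuit (notes 9230, 9378).  Blocks are natural numbers, `nb b0 i` is the number of blocks before the
stage `i`; the leaves are the blocks `β < b0`; the join `(i, t)`, `1 ≤ t < nb b0 i`, is the block
`β = nb b0 i + t - 1`; its inputs are the elements of index `i` of the blocks `fst b0 i β` (`0` if `t = 1`, `β - 1`
otherwise) and `t = snd b0 i β`.  The block `β` has an element `w β i` of index `i` iff `β < nb b0 (i + 1)`:
* `nb b0 i ≤ β < nb b0 (i + 1)` : the output of the join, `w β i ^ d i = s i t * x ^ d i + s' i t * y ^ d i`;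
* `β < nb b0 i` : the component of index `i`,
  `S i β * w β i ^ d i = ∑_p par p * m i β p`, `p` in the (finite) set of the parameters of the stage `i`.
-/

namespace Vale.Agent.P200.V

open MvPolynomial

universe u

/-- the number of blocks before the stage `i` -/
def nb (b0 : ℕ) : ℕ → ℕ
  | 0 => b0
  | i + 1 => 2 * nb b0 i - 1

/-- names of the parameters -/
inductive PIx : Type
  | s (i t : ℕ)
  | s' (i t : ℕ)
  | Y (i l : ℕ)
  | L (β i' i : ℕ)
  deriving DecidableEq

/-- the first input of the join `β` of index `i` -/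
def fst (b0 i β : ℕ) : ℕ := if β = nb b0 i then 0 else β - 1

/-- the second input of the join `β` of index `i` -/
def snd (b0 i β : ℕ) : ℕ := β + 1 - nb b0 i

/-- the last block of index `i` (its element of index `i` is the root `ξ_i`) -/
def root (b0 i : ℕ) : ℕ := nb b0 (i + 1) - 1

/-- the data of a circuit over `k` -/
structure CData (k : Type u) [Field k] where
  /-- the number of indices -/
  n : ℕ
  /-- the number of leaves -/
  b0 : ℕ
  b0_pos : 0 < b0
  /-- the degrees -/
  d : ℕ → ℕ
  d_pos : ∀ i, 0 < d i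
  /-- the number of forms of the stage `i` -/
  NL : ℕ → ℕ
  /-- the components in the leaf `g` of the form `l` of the stage `i` -/
  H : ℕ → ℕ → ℕ → MvPolynomial (Fin 2) k
  hH : ∀ i l g, (H i l g).IsHomogeneous (d i)

namespace CData

variable {k : Type u} [Field k] (C : CData k)

/-- the number of blocks -/
def R : ℕ := nb C.b0 C.n

/-- the parameters of the joins of index `i` -/
def jst (i : ℕ) : Finset PIx :=
  (Finset.Ico 1 (nb C.b0 i)).image (PIx.s i) ∪ (Finset.Ico 1 (nb C.b0 i)).image (PIx.s' i)

/-- the parameters of the components of index `i` -/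
def cst (i : ℕ) : Finset PIx :=
  (Finset.range (C.NL i)).image (PIx.Y i) ∪
    (Finset.range i).biUnion fun i' =>
      (Finset.range (nb C.b0 (i' + 1))).image fun β => PIx.L β i' i

section rel
variable {K A : Type*} [Field K] [CommRing A] [Algebra K A] [Algebra k A]

/-- the coefficient of the parameter `p` in the equation of index `i` of the block `g`; `x` are the
variables and `w i'` the elements of the block `g` -/
noncomputable def m (i g : ℕ) (x : Fin 2 → A) (w : ℕ → A) : PIx → A
  | PIx.s _ _ => 0
  | PIx.s' _ _ => 0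
  | PIx.Y i1 l => if i1 = i ∧ g < C.b0 then aeval x (C.H i l g) else 0
  | PIx.L β i' i1 =>
      if i1 = i then
        (if g = β then w i' ^ C.d i else 0) -
          (if nb C.b0 i' ≤ g ∧ g < nb C.b0 (i' + 1) then
            (if fst C.b0 i' g = β then x 0 ^ C.d i else 0) +
              (if snd C.b0 i' g = β then x 1 ^ C.d i else 0)
          else 0)
      else 0

/-- the coefficient `S_(i, β)` -/
def Sc (par : PIx → K) (i β : ℕ) : K :=
  (if β = 0 then 1 else par (PIx.s' i β)) * ∏ u ∈ Finset.Ioo β (nb C.b0 i), par (PIx.s i u)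

/-- the relations of the block `g`: joins of all the indices in `J`, components of all the indices `< a` -/
structure Spec (par : PIx → K) (J a : ℕ) (g : ℕ) (x : Fin 2 → A) (w : ℕ → A) : Prop where
  join : ∀ i < J, nb C.b0 i ≤ g → g < nb C.b0 (i + 1) →
    w i ^ C.d i = algebraMap K A (par (PIx.s i (snd C.b0 i g))) * x 0 ^ C.d i +
      algebraMap K A (par (PIx.s' i (snd C.b0 i g))) * x 1 ^ C.d i
  comp : ∀ i < a, g < nb C.b0 i →
    algebraMap K A (C.Sc par i g) * w i ^ C.d i =
      ∑ p ∈ C.cst i, algebraMap K A (par p) * C.m i g x w p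

end rel

/-- all the parameters of the joins and the parameters of the components of index `< a` -/
def upto (a : ℕ) : Finset PIx :=
  (Finset.range C.n).biUnion C.jst ∪ (Finset.range a).biUnion C.cst

/-- **Independence of the rows at the stage `a`** (to be proved for `a < C.n`). -/
def Ind (a : ℕ) : Prop :=
  ∀ (Ω : Type u) [Field Ω] [IsAlgClosed Ω] [Algebra k Ω] (par : PIx → Ω),
    AlgebraicIndependent k (fun p : {p // p ∈ C.upto a} => par p) →
    ∀ (x : ℕ → Fin 2 → Ω) (w : ℕ → ℕ → Ω), (∀ g < C.R, x g ≠ 0) →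
      (∀ g < C.R, C.Spec par C.n a g (x g) (w g)) →
      ∀ c : ℕ → Ω, (∀ p ∈ C.cst a, ∑ g ∈ Finset.range (nb C.b0 a), c g * C.m a g (x g) (w g) p = 0) →
        ∀ g < nb C.b0 a, c g = 0

end CData

theorem nb_pos {b0 : ℕ} (h : 0 < b0) : ∀ i, 0 < nb b0 i
  | 0 => h
  | i + 1 => by
    have := nb_pos h i
    rw [nb]
    omega

theorem nb_succ (b0 i : ℕ) : nb b0 (i + 1) = 2 * nb b0 i - 1 := rfl

theorem nb_le_succ {b0 : ℕ} (h : 0 < b0) (i : ℕ) : nb b0 i ≤ nb b0 (i + 1) := by
  have := nb_pos h i
  rw [nb_succ]
  omega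

theorem nb_mono {b0 : ℕ} (h : 0 < b0) : Monotone (nb b0) :=
  monotone_nat_of_le_succ (nb_le_succ h)

end Vale.Agent.P200.V
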