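import Mathlib

/-!
The group ring `ℤ[G]` acts on the functions `G → ℤ`: the element `δ` of `G` is the shift
`f ↦ (ν ↦ f (ν - δ))`.
-/

namespace Vale.Agent.P200.V

section act
variable {G : Type} [AddCommGroup G]

/-- the shift -/
def sft (δ : G) : Module.End ℤ (G → ℤ) where
  toFun f ν := f (ν - δ)
  map_add' _ _ := rfl
  map_smul' _ _ := rfl

/-- the action of the group ring -/
noncomputable def act (G : Type) [AddCommGroup G] : AddMonoidAlgebra ℤ G →ₐ[ℤ]
    Module.End ℤ (G → ℤ) :=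
  AddMonoidAlgebra.lift ℤ (Module.End ℤ (G → ℤ)) G
    { toFun := fun δ => sft δ.toAdd
      map_one' := by
        apply LinearMap.ext
        intro f
        funext ν
        change f (ν - 0) = f ν
        rw [sub_zero]
      map_mul' := by
        intro a b
        apply LinearMap.ext
        intro f
        funext ν
        change f (ν - (a.toAdd + b.toAdd)) = f (ν - a.toAdd - b.toAdd)
        rw [sub_sub] }

/-- the element `δ` of the group ring -/
noncomputable def el (δ : G) : AddMonoidAlgebra ℤ G := AddMonoidAlgebra.single δ 1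

theorem act_el (δ : G) (f : G → ℤ) (ν : G) : act G (el δ) f ν = f (ν - δ) := by
  rw [act, el, AddMonoidAlgebra.lift_single, one_smul]
  rfl

theorem el_zero : el (0 : G) = 1 := rfl

theorem el_add (δ ε : G) : el (δ + ε) = el δ * el ε := by
  rw [el, el, el, AddMonoidAlgebra.single_mul_single, one_mul]

theorem el_nsmul (n : ℕ) (δ : G) : el (n • δ) = el δ ^ n := by
  induction n with
  | zero => rw [zero_smul, pow_zero, el_zero]
  | succ n ih => rw [succ_nsmul, el_add, ih, pow_succ]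

/-- `1 + δ + ⋯ + δ^(e-1)` -/
noncomputable def ph (e : ℕ) (δ : G) : AddMonoidAlgebra ℤ G := ∑ i ∈ Finset.range e, el δ ^ i

theorem ph_mul (e : ℕ) (δ : G) : (1 - el δ) * ph e δ = 1 - el (e • δ) := by
  rw [ph, el_nsmul]
  exact mul_neg_geom_sum (el δ) e

end act

/-- equality in large degrees -/
def EvEq {ι : Type} (f g : (ι → ℤ) → ℤ) : Prop :=
  ∃ n0 : ℤ, ∀ n : ι → ℤ, (∀ i, n0 ≤ n i) → f n = g n

/-- equality in large degrees, uniformly in the last degree -/
def EvEq2 {ι : Type} (f g : (ι → ℤ) × ℤ → ℤ) : Prop :=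
  ∃ n0 : ℤ, ∀ (n : ι → ℤ) (t : ℤ), (∀ i, n0 ≤ n i) → f (n, t) = g (n, t)

theorem EvEq.symm {ι : Type} {f g : (ι → ℤ) → ℤ} (h : EvEq f g) : EvEq g f := by
  obtain ⟨n0, h⟩ := h
  exact ⟨n0, fun n hn => (h n hn).symm⟩

theorem EvEq.trans {ι : Type} {f g l : (ι → ℤ) → ℤ} (h : EvEq f g) (h' : EvEq g l) :
    EvEq f l := by
  obtain ⟨n0, h⟩ := h
  obtain ⟨n1, h'⟩ := h'
  exact ⟨max n0 n1, fun n hn => (h n fun i => (le_max_left _ _).trans (hn i)).trans
    (h' n fun i => (le_max_right _ _).trans (hn i))⟩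

theorem EvEq2.symm {ι : Type} {f g : (ι → ℤ) × ℤ → ℤ} (h : EvEq2 f g) : EvEq2 g f := by
  obtain ⟨n0, h⟩ := h
  exact ⟨n0, fun n t hn => (h n t hn).symm⟩

theorem EvEq2.trans {ι : Type} {f g l : (ι → ℤ) × ℤ → ℤ} (h : EvEq2 f g) (h' : EvEq2 g l) :
    EvEq2 f l := by
  obtain ⟨n0, h⟩ := h
  obtain ⟨n1, h'⟩ := h'
  exact ⟨max n0 n1, fun n t hn => (h n t fun i => (le_max_left _ _).trans (hn i)).trans
    (h' n t fun i => (le_max_right _ _).trans (hn i))⟩

end Vale.Agent.P200.V
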