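import Vale.Agent.P200.V.AsmB

/-!
Assembly of the levels, part 3: the stages (the joins of index `0, ..., n - 1`, then the components of
index `0, ..., n - 1`).
-/

namespace Vale.Agent.P200.V

open MvPolynomial

universe u

namespace CData

variable {k : Type u} [Field k] (C : CData k)

/-- the joins of index `< J` and the components of index `< a` have been added -/
def Stg (J a : ℕ) : Prop :=
  ∃ (K : Type u) (_ : Field K) (_ : Algebra k K) (par : PIx → K) (κ : ℕ) (β : Fin C.R → Blk K κ)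
    (pos : Fin C.R → ℕ → Fin (κ + 2)),
    IntAll K β ∧
    AlgebraicIndependent k (fun p : {p // p ∈ C.pst J a} => par p) ∧
    ∀ g : Fin C.R, C.Spec par J a g ![(β g).q 0, (β g).q 1] fun i => (β g).q (pos g i)

theorem stg_zero (h0 : ∀ (K : Type u) [Field K] (R : ℕ) (β : Fin R → Blk K 0), IntAll K β) :
    C.Stg 0 0 := by
  refine ⟨k, inferInstance, Algebra.id k, fun _ => 0, 0, fun _ => ⟨fun i => i.elim0,
    fun i => i.elim0, fun i => i.elim0, fun i => i.elim0, fun i => i.elim0⟩, fun _ _ => 0,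
    h0 k C.R _, ?_, ?_⟩
  · have he : IsEmpty {p // p ∈ C.pst 0 0} := by
      refine ⟨fun p => ?_⟩
      obtain ⟨i, hi, _⟩ | ⟨i, hi, _⟩ := C.mem_pst.1 p.2
      · omega
      · omega
    exact algebraicIndependent_empty_type_iff.2 (algebraMap k k).injective
  · intro g
    refine ⟨fun i hi => ?_, fun i hi => ?_⟩
    · omega
    · omega

/-- the rows of the joins -/
noncomputable def jrow {K : Type u} [Field K] {κ : ℕ} (J g : ℕ) (p : PIx) :
    MvPolynomial (Fin (κ + 2)) K :=
  if p = PIx.s J (snd C.b0 J g) then X 0 ^ C.d J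
  else if p = PIx.s' J (snd C.b0 J g) then X 1 ^ C.d J else 0

theorem jrow_s {K : Type u} [Field K] {κ : ℕ} (J g : ℕ) :
    (C.jrow J g (PIx.s J (snd C.b0 J g)) : MvPolynomial (Fin (κ + 2)) K) = X 0 ^ C.d J :=
  if_pos rfl

theorem jrow_s' {K : Type u} [Field K] {κ : ℕ} (J g : ℕ) :
    (C.jrow J g (PIx.s' J (snd C.b0 J g)) : MvPolynomial (Fin (κ + 2)) K) = X 1 ^ C.d J := by
  rw [jrow, if_neg, if_pos rfl]
  intro h
  exact PIx.noConfusion h

theorem jrow_ne {K : Type u} [Field K] {κ : ℕ} {J g : ℕ} {p : PIx}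
    (h : p ≠ PIx.s J (snd C.b0 J g)) (h' : p ≠ PIx.s' J (snd C.b0 J g)) :
    (C.jrow J g p : MvPolynomial (Fin (κ + 2)) K) = 0 := by
  rw [jrow, if_neg h, if_neg h']

theorem jrow_hom {K : Type u} [Field K] {κ : ℕ} (J g : ℕ) (p : PIx) :
    (C.jrow J g p : MvPolynomial (Fin (κ + 2)) K).IsHomogeneous (C.d J) := by
  rw [jrow]
  split_ifs
  · exact isHomogeneous_X_pow 0 (C.d J)
  · exact isHomogeneous_X_pow 1 (C.d J)
  · exact isHomogeneous_zero _ _ _

theorem stg_join (hD : ∀ (K : Type u) [Field K] (κ : ℕ), DStep K κ) {J : ℕ}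
    (h : C.Stg J 0) : C.Stg (J + 1) 0 := by
  classical
  obtain ⟨K, iK, ikK, par, κ, β, pos, hint, halg, hspec⟩ := h
  let S := C.jst J
  let Cs : Fin C.R → Prop := fun g => nb C.b0 J ≤ (g : ℕ) ∧ (g : ℕ) < nb C.b0 (J + 1)
  let a : Fin C.R → {p // p ∈ S} → MvPolynomial (Fin (κ + 2)) K := fun g p => C.jrow J g p
  have ha : ∀ g j, (a g j).IsHomogeneous (C.d J) := fun g j => C.jrow_hom J g j
  have hind : ∀ (Ω : Type u) [Field Ω] [IsAlgClosed Ω] [Algebra K Ω]
      (pt : Fin C.R → Fin (κ + 2) → Ω),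
      (∀ g i, aeval (pt g) ((β g).rel i) = 0) → (∀ g, pt g 0 ≠ 0 ∨ pt g 1 ≠ 0) →
      ∀ c : Fin C.R → Ω, (∀ g, ¬ Cs g → c g = 0) →
        (∀ j, ∑ g, c g * aeval (pt g) (a g j) = 0) → ∀ g, c g = 0 := by
    intro Ω _ _ _ pt _ hpt c hc hsum g
    by_cases hg : Cs g
    · have hm := C.snd_mem hg.1 hg.2
      have hne : ∀ g' : Fin C.R, g' ≠ g → Cs g' → snd C.b0 J g ≠ snd C.b0 J g' := by
        intro g' hg' hCs' h'
        apply hg'
        have h1 := hg.1
        have h2 := hCs'.1
        unfold snd at h'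
        apply Fin.ext
        omega
      have h1 : c g * pt g 0 ^ C.d J = 0 := by
        have h2 := hsum ⟨PIx.s J (snd C.b0 J g), C.mem_jst.2 (Or.inl ⟨_, hm.1, hm.2, rfl⟩)⟩
        rw [Finset.sum_eq_single g] at h2
        · have h3 : a g ⟨PIx.s J (snd C.b0 J g), C.mem_jst.2 (Or.inl ⟨_, hm.1, hm.2, rfl⟩)⟩ =
            X 0 ^ C.d J := C.jrow_s J g
          rw [h3, map_pow, aeval_X] at h2
          exact h2
        · intro g' _ hg'
          by_cases hCs' : Cs g'
          · have h3 : a g' ⟨PIx.s J (snd C.b0 J g), C.mem_jst.2 (Or.inl ⟨_, hm.1, hm.2, rfl⟩)⟩ =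
              0 := by
              apply C.jrow_ne
              · intro h'
                exact hne g' hg' hCs' (PIx.s.inj h').2
              · intro h'
                exact PIx.noConfusion h'
            rw [h3, map_zero, mul_zero]
          · rw [hc g' hCs', zero_mul]
        · intro h'
          exact absurd (Finset.mem_univ _) h'
      have h1' : c g * pt g 1 ^ C.d J = 0 := by
        have h2 := hsum ⟨PIx.s' J (snd C.b0 J g), C.mem_jst.2 (Or.inr ⟨_, hm.1, hm.2, rfl⟩)⟩
        rw [Finset.sum_eq_single g] at h2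
        · have h3 : a g ⟨PIx.s' J (snd C.b0 J g), C.mem_jst.2 (Or.inr ⟨_, hm.1, hm.2, rfl⟩)⟩ =
            X 1 ^ C.d J := C.jrow_s' J g
          rw [h3, map_pow, aeval_X] at h2
          exact h2
        · intro g' _ hg'
          by_cases hCs' : Cs g'
          · have h3 : a g' ⟨PIx.s' J (snd C.b0 J g), C.mem_jst.2 (Or.inr ⟨_, hm.1, hm.2, rfl⟩)⟩ =
              0 := by
              apply C.jrow_ne
              · intro h'
                exact PIx.noConfusion h'
              · intro h'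
                exact hne g' hg' hCs' (PIx.s'.inj h').2
            rw [h3, map_zero, mul_zero]
          · rw [hc g' hCs', zero_mul]
        · intro h'
          exact absurd (Finset.mem_univ _) h'
      rcases hpt g with h0 | h0
      · exact (mul_eq_zero.1 h1).resolve_right (pow_ne_zero _ h0)
      · exact (mul_eq_zero.1 h1').resolve_right (pow_ne_zero _ h0)
    · exact hc g hg
  have hint' := hD K κ C.R β hint {p // p ∈ S} Cs (C.d J) (C.d_pos J) a ha hind
  refine ⟨KF K {p // p ∈ S}, inferInstance, inferInstance, npar par S, κ + 1,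
    newBlk β Cs (C.d J) (C.d_pos J) a ha,
    fun g i => if Cs g ∧ i = J then Fin.last (κ + 2) else (pos g i).castSucc, hint', ?_, ?_⟩
  · have h1 := npar_indep halg S
    have h2 : ∀ p, p ∈ C.pst (J + 1) 0 → p ∈ C.pst J 0 ∪ S := by
      intro p hp
      rw [Finset.mem_union]
      rw [mem_pst] at hp ⊢
      rcases hp with ⟨i, hi, hp⟩ | ⟨i, hi, hp⟩
      · by_cases hiJ : i = J
        · rw [hiJ] at hp
          exact Or.inr hp
        · exact Or.inl (Or.inl ⟨i, by omega, hp⟩)
      · omega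
    exact h1.comp (fun p : {p // p ∈ C.pst (J + 1) 0} => (⟨p, h2 p p.2⟩ : {p // p ∈ C.pst J 0 ∪ S}))
      (fun p q hpq => Subtype.ext (Subtype.mk.inj hpq))
  · intro g
    obtain ⟨F, hF1, hF2, hF3⟩ := exists_blkMap β Cs (C.d J) (C.d_pos J) a ha g
    let F' : (β g).Q →ₐ[k] (newBlk β Cs (C.d J) (C.d_pos J) a ha g).Q :=
      { F with
        commutes' := fun z => hF1 (algebraMap k K z) }
    have hspec' := (hspec g).map (algebraMap K (KF K {p // p ∈ S})) F' hF1
    refine ⟨?_, ?_⟩
    · intro i hi h1 h2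
      by_cases hiJ : i = J
      · subst hiJ
        have hCs : Cs g := ⟨h1, h2⟩
        have hm := C.snd_mem h1 h2
        have hsJ : PIx.s i (snd C.b0 i g) ∈ S := C.mem_jst.2 (Or.inl ⟨_, hm.1, hm.2, rfl⟩)
        have hsJ' : PIx.s' i (snd C.b0 i g) ∈ S := C.mem_jst.2 (Or.inr ⟨_, hm.1, hm.2, rfl⟩)
        beta_reduce
        rw [if_pos ⟨hCs, rfl⟩, hF3 hCs, npar_mem par hsJ, npar_mem par hsJ']
        have h3 : ∀ p : {p // p ∈ S}, p ≠ ⟨_, hsJ⟩ → p ≠ ⟨_, hsJ'⟩ → a g p = 0 := by
          intro p hp hp'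
          apply C.jrow_ne
          · intro h'
            exact hp (Subtype.ext h')
          · intro h'
            exact hp' (Subtype.ext h')
        have h4 : (⟨_, hsJ⟩ : {p // p ∈ S}) ≠ ⟨_, hsJ'⟩ := by
          intro h'
          exact PIx.noConfusion (Subtype.mk.inj h')
        rw [← Finset.sum_subset (Finset.subset_univ {(⟨_, hsJ⟩ : {p // p ∈ S}), ⟨_, hsJ'⟩}),
          Finset.sum_pair h4]
        · have h5 : a g ⟨_, hsJ⟩ = X 0 ^ C.d i := C.jrow_s i g
          have h6 : a g ⟨_, hsJ'⟩ = X 1 ^ C.d i := C.jrow_s' i g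
          have h7 := hF2 0
          have h8 := hF2 1
          have h9 : F (Ideal.Quotient.mk _ (X 0)) = _ := h7
          have h10 : F (Ideal.Quotient.mk _ (X 1)) = _ := h8
          rw [h5, h6, map_pow, map_pow, map_pow, map_pow, h9, h10]
          rfl
        · intro p _ hp
          rw [Finset.mem_insert, Finset.mem_singleton, not_or] at hp
          rw [h3 p hp.1 hp.2, map_zero, map_zero, mul_zero]
      · have hnot : ¬ (Cs g ∧ i = J) := fun h' => hiJ h'.2
        beta_reduce
        rw [if_neg hnot]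
        have hm := C.snd_mem h1 h2
        have hs1 : PIx.s i (snd C.b0 i g) ∉ S := by
          intro h'
          rcases C.mem_jst.1 h' with ⟨t, _, _, ht⟩ | ⟨t, _, _, ht⟩
          · exact hiJ (PIx.s.inj ht).1
          · exact PIx.noConfusion ht
        have hs2 : PIx.s' i (snd C.b0 i g) ∉ S := by
          intro h'
          rcases C.mem_jst.1 h' with ⟨t, _, _, ht⟩ | ⟨t, _, _, ht⟩
          · exact PIx.noConfusion ht
          · exact hiJ (PIx.s'.inj ht).1
        have h3 := hspec'.join i (by omega) h1 h2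
        rw [npar_not_mem par hs1, npar_not_mem par hs2]
        have h4 : F' ((β g).q (pos g i)) = _ := hF2 (pos g i)
        have h5 : F' ((β g).q 0) = _ := hF2 0
        have h6 : F' ((β g).q 1) = _ := hF2 1
        beta_reduce at h3
        rw [h4] at h3
        have h7 : F' ((![(β g).q 0, (β g).q 1] : Fin 2 → (β g).Q) 0) = _ := h5
        have h8 : F' ((![(β g).q 0, (β g).q 1] : Fin 2 → (β g).Q) 1) = _ := h6
        rw [h7, h8] at h3
        exact h3
    · intro i hi
      omega

end CData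

end Vale.Agent.P200.V
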