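import Vale.Agent.P200.V.Stage

/-!
Assembly of the levels, part 1: one application of the level lemma.
-/

namespace Vale.Agent.P200.V

open MvPolynomial

universe u

section snoc
variable {K K' : Type u} [Field K] [Field K'] {κ : ℕ}

theorem snoc_rel_castSucc (β : Blk K κ) (φ : K →+* K') (e : ℕ) (he : 0 < e)
    (P : MvPolynomial (Fin (κ + 2)) K') (hP : P.IsHomogeneous e) (i : Fin κ) :
    ((β.map φ).snoc e he P hP).rel i.castSucc =
      rename (Fin.castSucc : Fin (κ + 2) → Fin (κ + 2 + 1)) (MvPolynomial.map φ (β.rel i)) := by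
  have h1 : ((β.map φ).snoc e he P hP).e i.castSucc = β.e i := by
    have : ((β.map φ).snoc e he P hP).e i.castSucc =
      Fin.snoc (α := fun _ => ℕ) β.e e i.castSucc := rfl
    rw [this, Fin.snoc_castSucc]
  have h2 : ((β.map φ).snoc e he P hP).Phi i.castSucc =
      rename (Fin.castSucc : Fin (κ + 2) → Fin (κ + 2 + 1)) (MvPolynomial.map φ (β.Phi i)) := by
    have : ((β.map φ).snoc e he P hP).Phi i.castSucc =
      Fin.snoc (α := fun _ => MvPolynomial (Fin (κ + 1 + 2)) K')
        (fun i => rename (Fin.castSucc : Fin (κ + 2) → Fin (κ + 2 + 1))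
          (MvPolynomial.map φ (β.Phi i)))
        (rename (Fin.castSucc : Fin (κ + 2) → Fin (κ + 2 + 1)) P) i.castSucc := rfl
    rw [this, Fin.snoc_castSucc]
  have h3 : (i.castSucc.succ.succ : Fin (κ + 1 + 2)) = (i.succ.succ : Fin (κ + 2)).castSucc := rfl
  rw [Blk.rel, h1, h2, h3, Blk.rel, map_sub, map_sub, map_pow, map_pow, map_X, rename_X]

theorem snoc_rel_last (β : Blk K κ) (e : ℕ) (he : 0 < e)
    (P : MvPolynomial (Fin (κ + 2)) K) (hP : P.IsHomogeneous e) :
    (β.snoc e he P hP).rel (Fin.last κ) = X (Fin.last (κ + 2)) ^ e -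
      rename (Fin.castSucc : Fin (κ + 2) → Fin (κ + 2 + 1)) P := by
  have h1 : (β.snoc e he P hP).e (Fin.last κ) = e := by
    have : (β.snoc e he P hP).e (Fin.last κ) =
      Fin.snoc (α := fun _ => ℕ) β.e e (Fin.last κ) := rfl
    rw [this, Fin.snoc_last]
  have h2 : (β.snoc e he P hP).Phi (Fin.last κ) =
      rename (Fin.castSucc : Fin (κ + 2) → Fin (κ + 2 + 1)) P := by
    have : (β.snoc e he P hP).Phi (Fin.last κ) =
      Fin.snoc (α := fun _ => MvPolynomial (Fin (κ + 1 + 2)) K)
        (fun i => rename (Fin.castSucc : Fin (κ + 2) → Fin (κ + 2 + 1)) (β.Phi i))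
        (rename (Fin.castSucc : Fin (κ + 2) → Fin (κ + 2 + 1)) P) (Fin.last κ) := rfl
    rw [this, Fin.snoc_last]
  have h3 : ((Fin.last κ).succ.succ : Fin (κ + 1 + 2)) = Fin.last (κ + 2) := rfl
  rw [Blk.rel, h1, h2, h3]

end snoc

section par
variable {k K : Type u} [Field k] [Field K] [Algebra k K]

theorem algebraicIndependent_Tv (K : Type u) [Field K] (ι : Type) :
    AlgebraicIndependent K (Tv K : ι → KF K ι) := by
  have h1 : AlgebraicIndependent K (X : ι → MvPolynomial ι K) := algebraicIndependent_X ι K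
  have h2 := h1.map' (f := IsScalarTower.toAlgHom K (MvPolynomial ι K) (KF K ι))
    (IsFractionRing.injective (MvPolynomial ι K) (KF K ι))
  exact h2

/-- the old and the new parameters -/
noncomputable def npar (par : PIx → K) (S : Finset PIx) (p : PIx) : KF K {p // p ∈ S} :=
  if h : p ∈ S then Tv K ⟨p, h⟩ else algebraMap K (KF K {p // p ∈ S}) (par p)

theorem npar_mem (par : PIx → K) {S : Finset PIx} {p : PIx} (h : p ∈ S) :
    npar par S p = Tv K ⟨p, h⟩ := dif_pos h

theorem npar_not_mem (par : PIx → K) {S : Finset PIx} {p : PIx} (h : p ∉ S) :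
    npar par S p = algebraMap K (KF K {p // p ∈ S}) (par p) := dif_neg h

theorem npar_indep {par : PIx → K} {P : Finset PIx}
    (h : AlgebraicIndependent k (fun p : {p // p ∈ P} => par p)) (S : Finset PIx) :
    AlgebraicIndependent k (fun p : {p // p ∈ P ∪ S} => npar par S p) := by
  have h1 := AlgebraicIndependent.sumElim_comp h (algebraicIndependent_Tv K {p // p ∈ S})
  have h2 : (fun p : {p // p ∈ P ∪ S} => npar par S p) =
      Sum.elim (Tv K : {p // p ∈ S} → KF K {p // p ∈ S})
        (algebraMap K (KF K {p // p ∈ S}) ∘ fun p : {p // p ∈ P} => par p) ∘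
      fun p : {p // p ∈ P ∪ S} => if hp : (p : PIx) ∈ S then Sum.inl ⟨p, hp⟩ else
        Sum.inr ⟨p, (Finset.mem_union.1 p.2).resolve_right hp⟩ := by
    funext p
    rw [Function.comp_apply]
    by_cases hp : (p : PIx) ∈ S
    · rw [npar_mem par hp, dif_pos hp, Sum.elim_inl]
    · rw [npar_not_mem par hp, dif_neg hp, Sum.elim_inr, Function.comp_apply]
  rw [h2]
  apply h1.comp
  intro p q hpq
  beta_reduce at hpq
  by_cases hp : (p : PIx) ∈ S
  · by_cases hq : (q : PIx) ∈ S
    · rw [dif_pos hp, dif_pos hq] at hpq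
      exact Subtype.ext (Subtype.mk.inj (Sum.inl.inj hpq))
    · rw [dif_pos hp, dif_neg hq] at hpq
      exact absurd hpq (by simp)
  · by_cases hq : (q : PIx) ∈ S
    · rw [dif_neg hp, dif_pos hq] at hpq
      exact absurd hpq (by simp)
    · rw [dif_neg hp, dif_neg hq] at hpq
      exact Subtype.ext (Subtype.mk.inj (Sum.inr.inj hpq))

end par

section step
variable {K : Type u} [Field K] {κ R : ℕ} {ι : Type} [Fintype ι]

/-- the map of the algebras of the blocks -/
theorem exists_blkMap (β : Fin R → Blk K κ) (C : Fin R → Prop) [DecidablePred C] (e : ℕ)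
    (he : 0 < e) (a : Fin R → ι → MvPolynomial (Fin (κ + 2)) K)
    (ha : ∀ g j, (a g j).IsHomogeneous e) (g : Fin R) :
    ∃ F : (β g).Q →+* (newBlk β C e he a ha g).Q,
      (∀ z : K, F (algebraMap K _ z) = algebraMap (KF K ι) _ (algebraMap K (KF K ι) z)) ∧
      (∀ v, F ((β g).q v) = (newBlk β C e he a ha g).q v.castSucc) ∧
      (C g → (newBlk β C e he a ha g).q (Fin.last (κ + 2)) ^ e =
        ∑ j, algebraMap (KF K ι) _ (Tv K j) * F (Ideal.Quotient.mk _ (a g j))) := by
  set β' := newBlk β C e he a ha g with hβ'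
  let f : MvPolynomial (Fin (κ + 2)) K →+* β'.Q :=
    (Ideal.Quotient.mk (Ideal.span (Set.range β'.rel))).comp
      ((rename (R := KF K ι) (Fin.castSucc : Fin (κ + 2) → Fin (κ + 2 + 1))).toRingHom.comp
        (MvPolynomial.map (algebraMap K (KF K ι))))
  have hf : ∀ p, f p = Ideal.Quotient.mk (Ideal.span (Set.range β'.rel))
      (rename (Fin.castSucc : Fin (κ + 2) → Fin (κ + 2 + 1))
        (MvPolynomial.map (algebraMap K (KF K ι)) p)) := fun p => rfl
  have hfI : ∀ p ∈ Ideal.span (Set.range (β g).rel), f p = 0 := by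
    intro p hp
    have h1 : Ideal.span (Set.range (β g).rel) ≤ RingHom.ker f := by
      rw [Ideal.span_le]
      rintro _ ⟨i, rfl⟩
      have h2 : f ((β g).rel i) = 0 := by
        rw [hf, Ideal.Quotient.eq_zero_iff_mem,
          ← snoc_rel_castSucc (β g) (algebraMap K (KF K ι)) (if C g then e else 1)
            (by split_ifs <;> omega) (newPhi C a g) (newPhi_hom C a ha g) i]
        exact Ideal.subset_span ⟨i.castSucc, rfl⟩
      exact h2
    exact h1 hp
  refine ⟨Ideal.Quotient.lift _ f hfI, ?_, ?_, ?_⟩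
  · intro z
    have h1 : (algebraMap K (β g).Q z) = Ideal.Quotient.mk _ (MvPolynomial.C z) := rfl
    rw [h1, Ideal.Quotient.lift_mk, hf, map_C, rename_C]
    rfl
  · intro v
    have h1 : (β g).q v = Ideal.Quotient.mk _ (X v) := rfl
    rw [h1, Ideal.Quotient.lift_mk, hf, map_X, rename_X]
    rfl
  · intro hC
    have h1 : β'.rel (Fin.last κ) = X (Fin.last (κ + 2)) ^ (if C g then e else 1) -
        rename (Fin.castSucc : Fin (κ + 2) → Fin (κ + 2 + 1)) (newPhi C a g) :=
      snoc_rel_last _ _ _ _ _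
    have h2 : Ideal.Quotient.mk (Ideal.span (Set.range β'.rel)) (β'.rel (Fin.last κ)) = 0 := by
      rw [Ideal.Quotient.eq_zero_iff_mem]
      exact Ideal.subset_span ⟨_, rfl⟩
    rw [h1, map_sub, sub_eq_zero, map_pow, if_pos hC, newPhi, if_pos hC, map_sum, map_sum] at h2
    have h3 : β'.q (Fin.last (κ + 2)) ^ e = _ := h2
    rw [h3]
    apply Finset.sum_congr rfl
    intro j _
    rw [Ideal.Quotient.lift_mk, hf, map_mul, rename_C, map_mul]
    rfl

end step

end Vale.Agent.P200.V
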