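import Vale.Agent.P200.V.AsmA

/-!
Assembly of the levels, part 2: transport of the relations of the circuit.
-/

namespace Vale.Agent.P200.V

open MvPolynomial

universe u

namespace CData

variable {k : Type u} [Field k] (C : CData k)

theorem mem_jst {i : ℕ} {p : PIx} : p ∈ C.jst i ↔
    (∃ t, 1 ≤ t ∧ t < nb C.b0 i ∧ p = PIx.s i t) ∨ ∃ t, 1 ≤ t ∧ t < nb C.b0 i ∧ p = PIx.s' i t := by
  unfold jst
  rw [Finset.mem_union, Finset.mem_image, Finset.mem_image]
  constructor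
  · rintro (⟨t, ht, rfl⟩ | ⟨t, ht, rfl⟩)
    · rw [Finset.mem_Ico] at ht
      exact Or.inl ⟨t, ht.1, ht.2, rfl⟩
    · rw [Finset.mem_Ico] at ht
      exact Or.inr ⟨t, ht.1, ht.2, rfl⟩
  · rintro (⟨t, h1, h2, rfl⟩ | ⟨t, h1, h2, rfl⟩)
    · exact Or.inl ⟨t, Finset.mem_Ico.2 ⟨h1, h2⟩, rfl⟩
    · exact Or.inr ⟨t, Finset.mem_Ico.2 ⟨h1, h2⟩, rfl⟩

theorem mem_cst {i : ℕ} {p : PIx} : p ∈ C.cst i ↔
    (∃ l < C.NL i, p = PIx.Y i l) ∨ ∃ i' < i, ∃ β < nb C.b0 (i' + 1), p = PIx.L β i' i := by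
  unfold cst
  rw [Finset.mem_union, Finset.mem_image, Finset.mem_biUnion]
  constructor
  · rintro (⟨l, hl, rfl⟩ | ⟨i', hi', h⟩)
    · exact Or.inl ⟨l, Finset.mem_range.1 hl, rfl⟩
    · obtain ⟨β, hβ, rfl⟩ := Finset.mem_image.1 h
      exact Or.inr ⟨i', Finset.mem_range.1 hi', β, Finset.mem_range.1 hβ, rfl⟩
  · rintro (⟨l, hl, rfl⟩ | ⟨i', hi', β, hβ, rfl⟩)
    · exact Or.inl ⟨l, Finset.mem_range.2 hl, rfl⟩
    · exact Or.inr ⟨i', Finset.mem_range.2 hi', Finset.mem_image.2 ⟨β, Finset.mem_range.2 hβ, rfl⟩⟩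

/-- the parameters of the joins of index `< J` and of the components of index `< a` -/
def pst (J a : ℕ) : Finset PIx :=
  (Finset.range J).biUnion C.jst ∪ (Finset.range a).biUnion C.cst

theorem mem_pst {J a : ℕ} {p : PIx} :
    p ∈ C.pst J a ↔ (∃ i < J, p ∈ C.jst i) ∨ ∃ i < a, p ∈ C.cst i := by
  unfold pst
  rw [Finset.mem_union, Finset.mem_biUnion, Finset.mem_biUnion]
  constructor
  · rintro (⟨i, hi, h⟩ | ⟨i, hi, h⟩)
    · exact Or.inl ⟨i, Finset.mem_range.1 hi, h⟩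
    · exact Or.inr ⟨i, Finset.mem_range.1 hi, h⟩
  · rintro (⟨i, hi, h⟩ | ⟨i, hi, h⟩)
    · exact Or.inl ⟨i, Finset.mem_range.2 hi, h⟩
    · exact Or.inr ⟨i, Finset.mem_range.2 hi, h⟩

section map
variable {K K' A A' : Type*} [Field K] [Field K'] [CommRing A] [CommRing A'] [Algebra K A]
  [Algebra K' A'] [Algebra k A] [Algebra k A']

theorem m_map (f : A →ₐ[k] A') (i g : ℕ) (x : Fin 2 → A) (w : ℕ → A) (p : PIx) :
    f (C.m i g x w p) = C.m i g (fun v => f (x v)) (fun i => f (w i)) p := by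
  cases p with
  | s _ _ => exact map_zero f
  | s' _ _ => exact map_zero f
  | Y i1 l =>
    rw [m, m]
    split_ifs
    · have h1 : (f.comp (aeval x)) = aeval (fun v => f (x v)) := by
        apply MvPolynomial.algHom_ext
        intro v
        rw [AlgHom.comp_apply, aeval_X, aeval_X]
      rw [← AlgHom.comp_apply, h1]
    · exact map_zero f
  | L β i' i1 =>
    rw [m, m]
    by_cases h1 : i1 = i
    · rw [if_pos h1, if_pos h1, map_sub]
      congr 1
      · split_ifs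
        · rw [map_pow]
        · exact map_zero f
      · split_ifs <;> simp only [map_add, map_pow, map_zero]
    · rw [if_neg h1, if_neg h1, map_zero]

theorem Sc_map (φ : K →+* K') (par : PIx → K) (i β : ℕ) :
    φ (C.Sc par i β) = C.Sc (fun p => φ (par p)) i β := by
  rw [Sc, Sc, map_mul, map_prod]
  congr 1
  split_ifs
  · exact map_one φ
  · rfl

theorem Spec.map {C : CData k} {par : PIx → K} {J a g : ℕ} {x : Fin 2 → A} {w : ℕ → A}
    (h : C.Spec par J a g x w) (φ : K →+* K') (f : A →ₐ[k] A')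
    (hf : ∀ z, f (algebraMap K A z) = algebraMap K' A' (φ z)) :
    C.Spec (fun p => φ (par p)) J a g (fun v => f (x v)) (fun i => f (w i)) := by
  refine ⟨?_, ?_⟩
  · intro i hi h1 h2
    have := congrArg f (h.join i hi h1 h2)
    rw [map_pow, map_add, map_mul, map_mul, map_pow, map_pow, hf, hf] at this
    exact this
  · intro i hi h1
    have := congrArg f (h.comp i hi h1)
    rw [map_mul, map_pow, hf, Sc_map, map_sum] at this
    rw [this]
    apply Finset.sum_congr rfl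
    intro p _
    rw [map_mul, hf, m_map]

theorem Sc_congr {par par' : PIx → K} {i β : ℕ} (hβ : β < nb C.b0 i)
    (h : ∀ p ∈ C.jst i, par p = par' p) : C.Sc par i β = C.Sc par' i β := by
  rw [Sc, Sc]
  congr 1
  · by_cases h0 : β = 0
    · rw [if_pos h0, if_pos h0]
    · rw [if_neg h0, if_neg h0]
      apply h
      rw [mem_jst]
      exact Or.inr ⟨β, by omega, hβ, rfl⟩
  · apply Finset.prod_congr rfl
    intro u hu
    rw [Finset.mem_Ioo] at hu
    apply h
    rw [mem_jst]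
    exact Or.inl ⟨u, by omega, hu.2, rfl⟩

theorem m_congr {i g : ℕ} {x : Fin 2 → A} {w w' : ℕ → A} {p : PIx} (hp : p ∈ C.cst i)
    (hw : ∀ i' < i, g < nb C.b0 (i' + 1) → w i' = w' i') : C.m i g x w p = C.m i g x w' p := by
  rw [mem_cst] at hp
  rcases hp with ⟨l, -, rfl⟩ | ⟨i', hi', β, hβ, rfl⟩
  · rfl
  · rw [m, m, if_pos rfl, if_pos rfl]
    congr 1
    by_cases h : g = β
    · rw [if_pos h, if_pos h, hw i' hi' (by rw [h]; exact hβ)]
    · rw [if_neg h, if_neg h]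

theorem snd_mem {i g : ℕ} (h1 : nb C.b0 i ≤ g) (h2 : g < nb C.b0 (i + 1)) :
    1 ≤ snd C.b0 i g ∧ snd C.b0 i g < nb C.b0 i := by
  rw [nb_succ] at h2
  rw [snd]
  omega

theorem Spec.congr {C : CData k} {par par' : PIx → K} {J a g : ℕ} {x : Fin 2 → A} {w w' : ℕ → A}
    (h : C.Spec par J a g x w) (haJ : a ≤ J) (hpar : ∀ p ∈ C.pst J a, par p = par' p)
    (hc : ∀ i < a, g < nb C.b0 i → w i = w' i)
    (hj : ∀ i < J, nb C.b0 i ≤ g → g < nb C.b0 (i + 1) → w i = w' i) :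
    C.Spec par' J a g x w' := by
  refine ⟨?_, ?_⟩
  · intro i hi h1 h2
    have h3 := C.snd_mem h1 h2
    rw [← hj i hi h1 h2, ← hpar (PIx.s i (snd C.b0 i g)) (C.mem_pst.2 (Or.inl ⟨i, hi,
        C.mem_jst.2 (Or.inl ⟨_, h3.1, h3.2, rfl⟩)⟩)),
      ← hpar (PIx.s' i (snd C.b0 i g)) (C.mem_pst.2 (Or.inl ⟨i, hi,
        C.mem_jst.2 (Or.inr ⟨_, h3.1, h3.2, rfl⟩)⟩))]
    exact h.join i hi h1 h2
  · intro i hi h1
    rw [← hc i hi h1, ← C.Sc_congr h1 (fun p hp => hpar p (C.mem_pst.2 (Or.inl ⟨i, by omega, hp⟩))),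
      h.comp i hi h1]
    apply Finset.sum_congr rfl
    intro p hp
    rw [hpar p (C.mem_pst.2 (Or.inr ⟨i, hi, hp⟩))]
    congr 1
    apply C.m_congr hp
    intro i' hi' h2
    by_cases h3 : g < nb C.b0 i'
    · exact hc i' (by omega) h3
    · exact hj i' (by omega) (by omega) h2

end map

theorem Sc_ne_zero {K : Type u} [Field K] [Algebra k K] {par : PIx → K} {P : Finset PIx}
    (h : AlgebraicIndependent k (fun p : {p // p ∈ P} => par p)) {i β : ℕ}
    (hP : C.jst i ⊆ P) (hβ : β < nb C.b0 i) : C.Sc par i β ≠ 0 := by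
  have h1 : ∀ p ∈ P, par p ≠ 0 := fun p hp => h.ne_zero ⟨p, hp⟩
  rw [Sc]
  apply mul_ne_zero
  · split_ifs with h0
    · exact one_ne_zero
    · exact h1 _ (hP (C.mem_jst.2 (Or.inr ⟨β, by omega, hβ, rfl⟩)))
  · rw [Finset.prod_ne_zero_iff]
    intro u hu
    rw [Finset.mem_Ioo] at hu
    exact h1 _ (hP (C.mem_jst.2 (Or.inl ⟨u, by omega, hu.2, rfl⟩)))

theorem m_hom {σ : Type} {K : Type u} [Field K] [Algebra k K] (i g : ℕ)
    {x : Fin 2 → MvPolynomial σ K} {w : ℕ → MvPolynomial σ K}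
    (hx : ∀ v, (x v).IsHomogeneous 1) (hw : ∀ i, (w i).IsHomogeneous 1) (p : PIx) :
    (C.m i g x w p).IsHomogeneous (C.d i) := by
  have hpow : ∀ q : MvPolynomial σ K, q.IsHomogeneous 1 → (q ^ C.d i).IsHomogeneous (C.d i) := by
    intro q hq
    have := hq.pow (C.d i)
    rwa [one_mul] at this
  cases p with
  | s _ _ => exact isHomogeneous_zero _ _ _
  | s' _ _ => exact isHomogeneous_zero _ _ _
  | Y i1 l =>
    rw [m]
    split_ifs
    · have := (C.hH i l g).aeval x hx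
      rwa [one_mul] at this
    · exact isHomogeneous_zero _ _ _
  | L β i' i1 =>
    rw [m]
    have h0 : (0 : MvPolynomial σ K).IsHomogeneous (C.d i) := isHomogeneous_zero _ _ _
    by_cases h1 : i1 = i
    · rw [if_pos h1]
      apply IsHomogeneous.sub
      · split_ifs
        · exact hpow _ (hw _)
        · exact h0
      · split_ifs
        · exact (hpow _ (hx _)).add (hpow _ (hx _))
        · exact (hpow _ (hx _)).add h0
        · exact h0.add (hpow _ (hx _))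
        · exact h0.add h0
        · exact h0
    · rw [if_neg h1]
      exact h0

end CData

end Vale.Agent.P200.V
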