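import Vale.Agent.P200.V.Asm

/-!
Assembly of the levels, part 4: the components, conclusion.
-/

namespace Vale.Agent.P200.V

open MvPolynomial

universe u

namespace CData

variable {k : Type u} [Field k] (C : CData k)

/-- the rows of the components -/
noncomputable def crow {K : Type u} [Field K] [Algebra k K] {κ : ℕ} (par : PIx → K)
    (pos : ℕ → Fin (κ + 2)) (a g : ℕ) (p : PIx) : MvPolynomial (Fin (κ + 2)) K :=
  MvPolynomial.C (C.Sc par a g)⁻¹ * C.m a g ![X 0, X 1] (fun i => X (pos i)) p

theorem crow_hom {K : Type u} [Field K] [Algebra k K] {κ : ℕ} (par : PIx → K)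
    (pos : ℕ → Fin (κ + 2)) (a g : ℕ) (p : PIx) :
    (C.crow par pos a g p).IsHomogeneous (C.d a) := by
  have h1 : (C.m a g (![X 0, X 1] : Fin 2 → MvPolynomial (Fin (κ + 2)) K)
      (fun i => X (pos i)) p).IsHomogeneous (C.d a) := by
    apply C.m_hom
    · intro v
      refine Fin.cases ?_ (fun v => ?_) v
      · exact isHomogeneous_X K _
      · rw [Subsingleton.elim v 0]
        exact isHomogeneous_X K _
    · intro i
      exact isHomogeneous_X K _
  have h2 := (isHomogeneous_C (Fin (κ + 2)) (C.Sc par a g)⁻¹).mul h1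
  rwa [zero_add] at h2

theorem stg_comp (hD : ∀ (K : Type u) [Field K] (κ : ℕ), DStep K κ) {a : ℕ} (ha : a < C.n)
    (hI : C.Ind a) (h : C.Stg C.n a) : C.Stg C.n (a + 1) := by
  classical
  obtain ⟨K, iK, ikK, par, κ, β, pos, hint, halg, hspec⟩ := h
  let S := C.cst a
  let Cs : Fin C.R → Prop := fun g => (g : ℕ) < nb C.b0 a
  let row : Fin C.R → {p // p ∈ S} → MvPolynomial (Fin (κ + 2)) K :=
    fun g p => C.crow par (pos g) a g p
  have hrow : ∀ g j, (row g j).IsHomogeneous (C.d a) := fun g j => C.crow_hom par (pos g) a g j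
  have hR : nb C.b0 a ≤ C.R := nb_mono C.b0_pos ha.le
  have hjst : C.jst a ⊆ C.pst C.n a := fun p hp => C.mem_pst.2 (Or.inl ⟨a, ha, hp⟩)
  have hSc : ∀ g : ℕ, g < nb C.b0 a → C.Sc par a g ≠ 0 := fun g hg =>
    C.Sc_ne_zero halg hjst hg
  have hind : ∀ (Ω : Type u) [Field Ω] [IsAlgClosed Ω] [Algebra K Ω]
      (pt : Fin C.R → Fin (κ + 2) → Ω),
      (∀ g i, aeval (pt g) ((β g).rel i) = 0) → (∀ g, pt g 0 ≠ 0 ∨ pt g 1 ≠ 0) →
      ∀ c : Fin C.R → Ω, (∀ g, ¬ Cs g → c g = 0) →
        (∀ j, ∑ g, c g * aeval (pt g) (row g j) = 0) → ∀ g, c g = 0 := by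
    intro Ω _ _ _ pt hrel hpt c hc hsum
    let ikΩ : Algebra k Ω := ((algebraMap K Ω).comp (algebraMap k K)).toAlgebra
    have : IsScalarTower k K Ω := IsScalarTower.of_algebraMap_eq fun z => rfl
    have halgΩ : AlgebraicIndependent k
        (fun p : {p // p ∈ C.upto a} => algebraMap K Ω (par p)) :=
      AlgebraicIndependent.map' (f := IsScalarTower.toAlgHom k K Ω) halg
        (algebraMap K Ω).injective
    -- the points of the blocks
    have hpoint : ∀ g : Fin C.R, C.Spec (fun p => algebraMap K Ω (par p)) C.n a g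
        ![pt g 0, pt g 1] (fun i => pt g (pos g i)) := by
      intro g
      have hker : ∀ p ∈ Ideal.span (Set.range (β g).rel), aeval (pt g) p = 0 := by
        intro p hp
        have h1 : Ideal.span (Set.range (β g).rel) ≤
            RingHom.ker (aeval (R := K) (pt g)).toRingHom := by
          rw [Ideal.span_le]
          rintro _ ⟨i, rfl⟩
          exact hrel g i
        exact h1 hp
      let f : (β g).Q →ₐ[K] Ω := Ideal.Quotient.liftₐ _ (aeval (pt g)) hker
      have hf : ∀ v, f ((β g).q v) = pt g v := by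
        intro v
        have h1 : f ((β g).q v) = aeval (pt g) (X v) := rfl
        rw [h1, aeval_X]
      have h1 := (hspec g).map (algebraMap K Ω) (f.restrictScalars k) (fun z => f.commutes z)
      have h2 : (fun v => (f.restrictScalars k) ((![(β g).q 0, (β g).q 1] : Fin 2 → (β g).Q) v)) =
          ![pt g 0, pt g 1] := by
        funext v
        refine Fin.cases ?_ (fun v => ?_) v
        · exact hf 0
        · rw [Subsingleton.elim v 0]
          exact hf 1
      have h3 : (fun i => (f.restrictScalars k) ((β g).q (pos g i))) = fun i => pt g (pos g i) := by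
        funext i
        exact hf _
      rw [h2, h3] at h1
      exact h1
    let x : ℕ → Fin 2 → Ω := fun g => if hg : g < C.R then ![pt ⟨g, hg⟩ 0, pt ⟨g, hg⟩ 1] else 0
    let w : ℕ → ℕ → Ω := fun g i => if hg : g < C.R then pt ⟨g, hg⟩ (pos ⟨g, hg⟩ i) else 0
    let c' : ℕ → Ω := fun g =>
      if hg : g < C.R then c ⟨g, hg⟩ * algebraMap K Ω (C.Sc par a g)⁻¹ else 0
    have hx : ∀ (g : ℕ) (hg : g < C.R), x g = ![pt ⟨g, hg⟩ 0, pt ⟨g, hg⟩ 1] := fun g hg =>
      dif_pos hg
    have hw : ∀ (g : ℕ) (hg : g < C.R), w g = fun i => pt ⟨g, hg⟩ (pos ⟨g, hg⟩ i) := by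
      intro g hg
      funext i
      exact dif_pos hg
    have hc' : ∀ (g : ℕ) (hg : g < C.R),
        c' g = c ⟨g, hg⟩ * algebraMap K Ω (C.Sc par a g)⁻¹ := fun g hg => dif_pos hg
    have hconc := hI Ω (fun p => algebraMap K Ω (par p)) halgΩ x w (by
      intro g hg h0
      rw [hx g hg] at h0
      rcases hpt ⟨g, hg⟩ with h1 | h1
      · exact h1 (congrFun h0 0)
      · exact h1 (congrFun h0 1)) (by
      intro g hg
      rw [hx g hg, hw g hg]
      exact hpoint ⟨g, hg⟩) c' (by
      intro p hp
      have h1 := hsum ⟨p, hp⟩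
      have h2 : ∀ g : Fin C.R, c g * aeval (pt g) (row g ⟨p, hp⟩) =
          if (g : ℕ) < nb C.b0 a then c' g * C.m a g (x g) (w g) p else 0 := by
        intro g
        by_cases hg : (g : ℕ) < nb C.b0 a
        · rw [if_pos hg, hc' g g.2, hx g g.2, hw g g.2]
          have h3 : row g ⟨p, hp⟩ = MvPolynomial.C (C.Sc par a g)⁻¹ *
              C.m a g ![X 0, X 1] (fun i => X (pos g i)) p := rfl
          rw [h3, map_mul, aeval_C]
          have h4 := C.m_map ((aeval (R := K) (pt g)).restrictScalars k) a g
            (![X 0, X 1] : Fin 2 → MvPolynomial (Fin (κ + 2)) K) (fun i => X (pos g i)) p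
          have h5 : (fun v => ((aeval (R := K) (pt g)).restrictScalars k)
              ((![X 0, X 1] : Fin 2 → MvPolynomial (Fin (κ + 2)) K) v)) =
              ![pt g 0, pt g 1] := by
            funext v
            refine Fin.cases ?_ (fun v => ?_) v
            · exact aeval_X _ _
            · rw [Subsingleton.elim v 0]
              exact aeval_X _ _
          have h6 : (fun i => ((aeval (R := K) (pt g)).restrictScalars k)
              (X (pos g i) : MvPolynomial (Fin (κ + 2)) K)) = fun i => pt g (pos g i) := by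
            funext i
            exact aeval_X _ _
          rw [h5, h6] at h4
          have h7 : aeval (pt g) (C.m a g (![X 0, X 1] : Fin 2 → MvPolynomial (Fin (κ + 2)) K)
              (fun i => X (pos g i)) p) = _ := h4
          rw [h7, mul_assoc]
        · rw [if_neg hg, hc g hg, zero_mul]
      rw [Finset.sum_congr rfl fun g _ => h2 g,
        Fin.sum_univ_eq_sum_range (fun g : ℕ =>
          if g < nb C.b0 a then c' g * C.m a g (x g) (w g) p else 0) C.R] at h1
      rw [← h1, ← Finset.sum_subset (Finset.range_subset_range.2 hR)]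
      · apply Finset.sum_congr rfl
        intro g hg
        rw [if_pos (Finset.mem_range.1 hg)]
      · intro g _ hg
        rw [Finset.mem_range] at hg
        rw [if_neg hg])
    intro g
    by_cases hg : (g : ℕ) < nb C.b0 a
    · have h1 := hconc g hg
      rw [hc' g g.2] at h1
      refine (mul_eq_zero.1 h1).resolve_right ?_
      intro h'
      exact inv_ne_zero (hSc g hg) ((map_eq_zero_iff _ (algebraMap K Ω).injective).1 h')
    · exact hc g hg
  have hint' := hD K κ C.R β hint {p // p ∈ S} Cs (C.d a) (C.d_pos a) row hrow hind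
  have hdisj : ∀ p ∈ C.pst C.n a, p ∉ S := by
    intro p hp hS
    rcases C.mem_pst.1 hp with ⟨i, _, hp⟩ | ⟨i, hi, hp⟩
    · rcases C.mem_jst.1 hp with ⟨t, _, _, rfl⟩ | ⟨t, _, _, rfl⟩
      · rcases C.mem_cst.1 hS with ⟨l, _, h'⟩ | ⟨i', _, b, _, h'⟩
        · exact PIx.noConfusion h'
        · exact PIx.noConfusion h'
      · rcases C.mem_cst.1 hS with ⟨l, _, h'⟩ | ⟨i', _, b, _, h'⟩
        · exact PIx.noConfusion h'
        · exact PIx.noConfusion h'
    · rcases C.mem_cst.1 hp with ⟨t, _, rfl⟩ | ⟨t, _, b, _, rfl⟩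
      · rcases C.mem_cst.1 hS with ⟨l, _, h'⟩ | ⟨i', _, b, _, h'⟩
        · have := (PIx.Y.inj h').1
          omega
        · exact PIx.noConfusion h'
      · rcases C.mem_cst.1 hS with ⟨l, _, h'⟩ | ⟨i', _, b', _, h'⟩
        · exact PIx.noConfusion h'
        · have := (PIx.L.inj h').2.2
          omega
  refine ⟨KF K {p // p ∈ S}, inferInstance, inferInstance, npar par S, κ + 1,
    newBlk β Cs (C.d a) (C.d_pos a) row hrow,
    fun g i => if Cs g ∧ i = a then Fin.last (κ + 2) else (pos g i).castSucc, hint', ?_, ?_⟩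
  · have h1 := npar_indep halg S
    have h2 : ∀ p, p ∈ C.pst C.n (a + 1) → p ∈ C.pst C.n a ∪ S := by
      intro p hp
      rw [Finset.mem_union]
      rw [mem_pst] at hp ⊢
      rcases hp with ⟨i, hi, hp⟩ | ⟨i, hi, hp⟩
      · exact Or.inl (Or.inl ⟨i, hi, hp⟩)
      · by_cases hia : i = a
        · rw [hia] at hp
          exact Or.inr hp
        · exact Or.inl (Or.inr ⟨i, by omega, hp⟩)
    exact h1.comp
      (fun p : {p // p ∈ C.pst C.n (a + 1)} => (⟨p, h2 p p.2⟩ : {p // p ∈ C.pst C.n a ∪ S}))
      (fun p q hpq => Subtype.ext (Subtype.mk.inj hpq))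
  · intro g
    obtain ⟨F, hF1, hF2, hF3⟩ := exists_blkMap β Cs (C.d a) (C.d_pos a) row hrow g
    let F' : (β g).Q →ₐ[k] (newBlk β Cs (C.d a) (C.d_pos a) row hrow g).Q :=
      { F with
        commutes' := fun z => hF1 (algebraMap k K z) }
    have hF'q : ∀ v, F' ((β g).q v) = (newBlk β Cs (C.d a) (C.d_pos a) row hrow g).q v.castSucc :=
      hF2
    have hx' : (fun v => F' ((![(β g).q 0, (β g).q 1] : Fin 2 → (β g).Q) v)) =
        ![(newBlk β Cs (C.d a) (C.d_pos a) row hrow g).q 0,
          (newBlk β Cs (C.d a) (C.d_pos a) row hrow g).q 1] := by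
      funext v
      refine Fin.cases ?_ (fun v => ?_) v
      · exact hF'q 0
      · rw [Subsingleton.elim v 0]
        exact hF'q 1
    have hspec' := (hspec g).map (algebraMap K (KF K {p // p ∈ S})) F' hF1
    rw [hx'] at hspec'
    have hspec2 : C.Spec (npar par S) C.n a g
        ![(newBlk β Cs (C.d a) (C.d_pos a) row hrow g).q 0,
          (newBlk β Cs (C.d a) (C.d_pos a) row hrow g).q 1]
        (fun i => (newBlk β Cs (C.d a) (C.d_pos a) row hrow g).q
          (if Cs g ∧ i = a then Fin.last (κ + 2) else (pos g i).castSucc)) := by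
      apply hspec'.congr ha.le
      · intro p hp
        rw [npar_not_mem par (hdisj p hp)]
      · intro i hi h1
        rw [if_neg (fun h' => by omega)]
        exact hF'q _
      · intro i hi h1 h2
        rw [if_neg]
        · exact hF'q _
        · rintro ⟨h3, h4⟩
          rw [h4] at h1
          have h5 : (g : ℕ) < nb C.b0 a := h3
          omega
    refine ⟨hspec2.join, ?_⟩
    intro i hi h1
    by_cases hia : i = a
    · subst hia
      have hCs : Cs g := h1
      have h2 := hF3 hCs
      beta_reduce
      rw [if_pos ⟨hCs, rfl⟩, h2]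
      have h3 : ∀ p : {p // p ∈ S},
          algebraMap (KF K {p // p ∈ S}) (newBlk β Cs (C.d i) (C.d_pos i) row hrow g).Q
            (Tv K p) * F (Ideal.Quotient.mk _ (row g p)) =
          algebraMap (KF K {p // p ∈ S}) (newBlk β Cs (C.d i) (C.d_pos i) row hrow g).Q
            (algebraMap K (KF K {p // p ∈ S}) (C.Sc par i g)⁻¹) *
          (algebraMap (KF K {p // p ∈ S}) (newBlk β Cs (C.d i) (C.d_pos i) row hrow g).Q
            (npar par S p) * C.m i g
              ![(newBlk β Cs (C.d i) (C.d_pos i) row hrow g).q 0,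
                (newBlk β Cs (C.d i) (C.d_pos i) row hrow g).q 1]
              (fun i' => (newBlk β Cs (C.d i) (C.d_pos i) row hrow g).q
                (if Cs g ∧ i' = i then Fin.last (κ + 2) else (pos g i').castSucc)) p) := by
        intro p
        have h4 : Ideal.Quotient.mk (Ideal.span (Set.range (β g).rel)) (row g p) =
            algebraMap K (β g).Q (C.Sc par i g)⁻¹ *
              Ideal.Quotient.mkₐ k (Ideal.span (Set.range (β g).rel))
                (C.m i g ![X 0, X 1] (fun i' => X (pos g i')) p) := by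
          have h5 : row g p = MvPolynomial.C (C.Sc par i g)⁻¹ *
              C.m i g ![X 0, X 1] (fun i' => X (pos g i')) p := rfl
          rw [h5, map_mul]
          rfl
        rw [h4, map_mul, hF1, m_map]
        have h6 : ∀ z : (β g).Q, F z = F' z := fun _ => rfl
        rw [h6, m_map, npar_mem par p.2]
        have h7 : (fun v => F' (Ideal.Quotient.mkₐ k (Ideal.span (Set.range (β g).rel))
            ((![X 0, X 1] : Fin 2 → MvPolynomial (Fin (κ + 2)) K) v))) =
            ![(newBlk β Cs (C.d i) (C.d_pos i) row hrow g).q 0,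
              (newBlk β Cs (C.d i) (C.d_pos i) row hrow g).q 1] := by
          funext v
          refine Fin.cases ?_ (fun v => ?_) v
          · exact hF'q 0
          · rw [Subsingleton.elim v 0]
            exact hF'q 1
        rw [h7]
        have h8 : C.m i g ![(newBlk β Cs (C.d i) (C.d_pos i) row hrow g).q 0,
              (newBlk β Cs (C.d i) (C.d_pos i) row hrow g).q 1]
              (fun i' => F' (Ideal.Quotient.mkₐ k (Ideal.span (Set.range (β g).rel))
                (X (pos g i')))) (p : PIx) =
            C.m i g ![(newBlk β Cs (C.d i) (C.d_pos i) row hrow g).q 0,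
              (newBlk β Cs (C.d i) (C.d_pos i) row hrow g).q 1]
              (fun i' => (newBlk β Cs (C.d i) (C.d_pos i) row hrow g).q
                (if Cs g ∧ i' = i then Fin.last (κ + 2) else (pos g i').castSucc)) p := by
          apply C.m_congr p.2
          intro i' hi' _
          rw [if_neg (fun h' => by omega)]
          exact hF'q _
        rw [h8, ← mul_assoc, ← mul_assoc, mul_comm (algebraMap _ _ (Tv K p))]
      rw [Finset.sum_congr rfl fun p _ => h3 p, ← Finset.mul_sum, ← mul_assoc, ← map_mul]
      have h9 : C.Sc (npar par S) i g *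
          algebraMap K (KF K {p // p ∈ S}) (C.Sc par i g)⁻¹ = 1 := by
        have h10 : C.Sc (npar par S) i g = algebraMap K (KF K {p // p ∈ S}) (C.Sc par i g) := by
          rw [C.Sc_map]
          apply C.Sc_congr h1
          intro p hp
          exact npar_not_mem par (hdisj p (hjst hp))
        rw [h10, ← map_mul, mul_inv_cancel₀ (hSc g h1), map_one]
      rw [h9, map_one, one_mul]
      exact Finset.sum_coe_sort S (fun p => algebraMap (KF K {p // p ∈ S})
        (newBlk β Cs (C.d i) (C.d_pos i) row hrow g).Q (npar par S p) * C.m i g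
              ![(newBlk β Cs (C.d i) (C.d_pos i) row hrow g).q 0,
                (newBlk β Cs (C.d i) (C.d_pos i) row hrow g).q 1]
              (fun i' => (newBlk β Cs (C.d i) (C.d_pos i) row hrow g).q
                (if Cs g ∧ i' = i then Fin.last (κ + 2) else (pos g i').castSucc)) p)
    · exact hspec2.comp i (by omega) h1

/-- **Assembly.** -/
theorem hasBlocks (hD : ∀ (K : Type u) [Field K] (κ : ℕ), DStep K κ)
    (h0 : ∀ (K : Type u) [Field K] (R : ℕ) (β : Fin R → Blk K 0), IntAll K β)
    (hI : ∀ a < C.n, C.Ind a) : C.HasBlocks := by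
  have h1 : ∀ J, C.Stg J 0 := by
    intro J
    induction J with
    | zero => exact C.stg_zero h0
    | succ J ih => exact C.stg_join hD ih
  have h2 : ∀ a ≤ C.n, C.Stg C.n a := by
    intro a
    induction a with
    | zero =>
      intro _
      exact h1 C.n
    | succ a ih =>
      intro ha
      exact C.stg_comp hD ha (hI a ha) (ih (by omega))
  exact h2 C.n le_rfl

end CData

end Vale.Agent.P200.V
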