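import Vale.Agent.P200.V.Defs
import Vale.Agent.P200.L.BC

/-! The spaces `A ⊗ V`. -/

namespace Vale.Agent.P200.V

open MvPolynomial Module
open Vale.Agent.P200.B Vale.Agent.P200.G Vale.Agent.P200.L Vale.Agent.P200.M

variable {K : Type*} [Field K] {A : Type*} [Ring A] [Algebra K A] {n : ℕ}

theorem bA_coeff (v : MvPolynomial (Fin n) K) (m : Fin n →₀ ℕ) :
    (bA A v).coeff m = algebraMap K A (MvPolynomial.coeff m v) :=
  AddMonoidAlgebra.coeff_mapRingHom _ _ _

theorem bA_monomial (m : Fin n →₀ ℕ) (a : K) :
    bA A (monomial m a : MvPolynomial (Fin n) K) =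
      AddMonoidAlgebra.single m (algebraMap K A a) :=
  AddMonoidAlgebra.mapRingHom_single _ _ _

theorem bA_X (i : Fin n) : bA A (X i : MvPolynomial (Fin n) K) = zA A n i := by
  have h : bA A (X i : MvPolynomial (Fin n) K) =
      AddMonoidAlgebra.single (Finsupp.single i 1) (algebraMap K A 1) := bA_monomial _ _
  rw [h, map_one]
  rfl

theorem functionals_separate_alg {c : A} (h : ∀ φ : A →ₗ[K] K, φ c = 0) : c = 0 := by
  have B := Module.Basis.ofVectorSpace K A
  apply B.ext_elem
  intro α
  rw [map_zero, Finsupp.zero_apply]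
  exact h (B.coord α)

theorem ext_co {u v : AR A n} (h : ∀ φ : A →ₗ[K] K, co φ u = co φ v) : u = v := by
  ext m
  rw [← sub_eq_zero]
  refine functionals_separate_alg (K := K) fun φ => ?_
  rw [map_sub, sub_eq_zero, ← co_coeff, ← co_coeff, h φ]

theorem co_mul_bA (φ : A →ₗ[K] K) (u : AR A n) (v : MvPolynomial (Fin n) K) :
    co φ (u * bA A v) = co φ u * v := by
  induction u using AddMonoidAlgebra.induction_linear with
  | zero => rw [zero_mul, map_zero, zero_mul]
  | add a b ha hb => rw [add_mul, map_add, ha, hb, map_add, add_mul]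
  | single m c =>
    induction v using MvPolynomial.induction_on' with
    | add p q hp hq => rw [map_add, mul_add, map_add, hp, hq, mul_add]
    | monomial m' a =>
      have h1 : ∀ (k : Fin n →₀ ℕ) (c : A), co φ (AddMonoidAlgebra.single k c : AR A n) =
          monomial k (φ c) := fun k c => AddMonoidAlgebra.map_single _ _ _
      rw [bA_monomial, AddMonoidAlgebra.single_mul_single, h1, h1, monomial_mul, ←
        Algebra.commutes, ← Algebra.smul_def, map_smul, smul_eq_mul, mul_comm]

theorem co_mul_const (φ : A →ₗ[K] K) (u : AR A n) (a : A) :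
    co φ (u * AddMonoidAlgebra.single 0 a) = co (φ ∘ₗ LinearMap.mulRight K a) u := by
  refine MvPolynomial.ext _ _ fun m => ?_
  rw [co_coeff, co_coeff, AddMonoidAlgebra.coeff_mul_single_zero]
  rfl

theorem co_bA_mul_const (φ : A →ₗ[K] K) (v : MvPolynomial (Fin n) K) (a : A) :
    co φ (bA A v * AddMonoidAlgebra.single 0 a) = φ a • v := by
  refine MvPolynomial.ext _ _ fun m => ?_
  rw [co_coeff, AddMonoidAlgebra.coeff_mul_single_zero, bA_coeff, ← Algebra.smul_def, map_smul,
    smul_eq_mul, MvPolynomial.coeff_smul, smul_eq_mul, mul_comm]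

theorem isHomogeneous_iff_sum {v : MvPolynomial (Fin n) K} {d : ℕ} :
    v.IsHomogeneous d ↔ ∀ m, MvPolynomial.coeff m v ≠ 0 → ∑ i, m i = d := by
  have h1 : ∀ m : Fin n →₀ ℕ, Finsupp.weight (1 : Fin n → ℕ) m = ∑ i, m i := by
    intro m
    have h2 := congrArg (fun f : (Fin n →₀ ℕ) →+ ℕ => f m)
      (Finsupp.degree_eq_weight_one (σ := Fin n) (R := ℕ))
    exact h2.symm.trans (Finsupp.degree_eq_sum m)
  constructor
  · intro h m hm
    rw [← h1]
    exact h hm
  · intro h m hm
    rw [h1]
    exact h m hm

theorem VA_homogeneous (d : ℕ) : VA A (homogeneousSubmodule (Fin n) K d) = YA K A n d := by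
  ext u
  rw [mem_VA]
  constructor
  · intro h m hm
    by_contra hM
    refine hm (functionals_separate_alg (K := K) fun φ => ?_)
    by_contra hφ
    refine hM ((isHomogeneous_iff_sum.1 (h φ)) m ?_)
    rw [co_coeff]
    exact hφ
  · intro h φ
    show (co φ u).IsHomogeneous d
    rw [isHomogeneous_iff_sum]
    intro m hm
    rw [co_coeff] at hm
    refine h m fun h0 => hm ?_
    rw [h0, map_zero]

theorem VA_mono {V W : Submodule K (MvPolynomial (Fin n) K)} (h : V ≤ W) : VA A V ≤ VA A W := by
  intro u hu
  rw [mem_VA] at hu ⊢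
  exact fun φ => h (hu φ)

/-- spaces cut out by coordinates -/
noncomputable def genEquiv {M M' : Type*} [AddCommGroup M] [Module K M] [AddCommGroup M']
    [Module K M'] {N : ℕ} (B : Basis (Fin N) K A) (c : (A →ₗ[K] K) → M' →ₗ[K] M)
    (e : A → M → M') (hce : ∀ φ a v, c φ (e a v) = φ a • v)
    (hinj : ∀ u, (∀ α, c (B.coord α) u = 0) → u = 0) (Z : Submodule K M) (Z' : Submodule K M')
    (hZ : ∀ u, u ∈ Z' ↔ ∀ φ, c φ u ∈ Z) : Z' ≃ₗ[K] (Fin N → Z) :=
  LinearEquiv.ofBijective
    { toFun := fun u α => ⟨c (B.coord α) u, (hZ u).1 u.2 _⟩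
      map_add' := fun u v => by
        funext α
        apply Subtype.ext
        exact map_add _ _ _
      map_smul' := fun k u => by
        funext α
        apply Subtype.ext
        exact map_smul _ _ _ } <| by
    constructor
    · intro u v huv
      apply Subtype.ext
      rw [← sub_eq_zero]
      apply hinj
      intro α
      rw [map_sub, sub_eq_zero]
      exact congrArg Subtype.val (congrFun huv α)
    · intro z
      have h1 : ∀ φ, c φ (∑ α, e (B α) (z α)) = ∑ α, φ (B α) • (z α : M) := by
        intro φ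
        rw [map_sum]
        exact Finset.sum_congr rfl fun α _ => hce _ _ _
      refine ⟨⟨∑ α, e (B α) (z α), (hZ _).2 fun φ => ?_⟩, ?_⟩
      · rw [h1]
        exact Submodule.sum_mem _ fun α _ => Submodule.smul_mem _ _ (z α).2
      · funext β
        apply Subtype.ext
        show c (B.coord β) (∑ α, e (B α) (z α)) = z β
        rw [h1]
        rw [Finset.sum_eq_single β]
        · rw [Basis.coord_apply, Basis.repr_self, Finsupp.single_eq_same, one_smul]
        · intro α _ hα
          rw [Basis.coord_apply, Basis.repr_self, Finsupp.single_eq_of_ne hα.symm, zero_smul]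
        · intro h
          exact absurd (Finset.mem_univ _) h

theorem finrank_fun_fin {N : ℕ} {M : Type*} [AddCommGroup M] [Module K M] [Module.Finite K M] :
    finrank K (Fin N → M) = N * finrank K M := by
  rw [Module.finrank_pi_fintype, Finset.sum_const, Finset.card_univ, Fintype.card_fin,
    smul_eq_mul]

/-- coordinates of the elements of `A ⊗ V` -/
noncomputable def VAEquiv [Module.Finite K A] (V : Submodule K (MvPolynomial (Fin n) K)) :
    VA A V ≃ₗ[K] (Fin (finrank K A) → V) :=
  genEquiv (Module.finBasis K A) co (fun a v => bA A v * AddMonoidAlgebra.single 0 a)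
    (fun φ a v => co_bA_mul_const φ v a)
    (fun u hu => by
      ext m
      apply (Module.finBasis K A).ext_elem
      intro α
      have h := congrArg (MvPolynomial.coeff m) (hu α)
      rw [co_coeff, MvPolynomial.coeff_zero, Basis.coord_apply] at h
      rw [h]
      exact (map_zero ((Module.finBasis K A).coord α)).symm) V (VA A V) (fun _ => mem_VA)

theorem finrank_VA [Module.Finite K A] (V : Submodule K (MvPolynomial (Fin n) K))
    [Module.Finite K V] : finrank K (VA A V) = finrank K A * finrank K V := by
  rw [(VAEquiv (A := A) V).finrank_eq, finrank_fun_fin]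

theorem finite_VA [Module.Finite K A] (V : Submodule K (MvPolynomial (Fin n) K))
    [Module.Finite K V] : Module.Finite K (VA A V) :=
  Module.Finite.equiv (VAEquiv (A := A) V).symm

/-- coordinates commute with the differentials -/
theorem kd_co (φ : A →ₗ[K] K) (c : Finset (Fin n) → AR A n) (t : Finset (Fin n)) :
    kd X (fun s => co φ (c s)) t = co φ (kr (zA A n) c t) := by
  rw [kr_apply, kd_apply, map_sum]
  refine Finset.sum_congr rfl fun i _ => ?_
  have h2 : co φ (c (insert i t) * zA A n i) = co φ (c (insert i t)) * X i := by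
    rw [← bA_X (K := K), co_mul_bA]
  rcases Nat.even_or_odd (t.filter fun k => k < i).card with h | h
  · rw [h.neg_one_pow, h.neg_one_pow, one_mul, one_mul, h2, mul_comm]
  · rw [h.neg_one_pow, h.neg_one_pow, neg_one_mul, neg_one_mul, map_neg, h2, mul_comm]

/-- cycles are tested by coordinates -/
theorem mem_rd_VA {V W : Submodule K (MvPolynomial (Fin n) K)} {p : ℕ}
    {c : Finset (Fin n) → AR A n} :
    c ∈ rd (zA A n) (VA A V) (VA A W) p ↔
      ∀ φ : A →ₗ[K] K, (co φ).compLeft (Finset (Fin n)) c ∈ rc X V W p := by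
  have h0 : ∀ (φ : A →ₗ[K] K) (t : Finset (Fin n)),
      kd X ((co φ).compLeft (Finset (Fin n)) c) t = co φ (kr (zA A n) c t) :=
    fun φ t => kd_co φ c t
  rw [mem_rd, mem_chD]
  constructor
  · intro h φ
    rw [mem_rc, mem_chW]
    refine ⟨⟨fun s hs => ?_, fun s => mem_VA.1 (h.1.2 s) φ⟩, fun t => ?_⟩
    · show co φ (c s) = 0
      rw [h.1.1 s hs, map_zero]
    · rw [h0]
      exact mem_VA.1 (h.2 t) φ
  · intro h
    refine ⟨⟨fun s hs => ?_, fun s => ?_⟩, fun t => ?_⟩
    · refine ext_co (K := K) fun φ => ?_
      rw [map_zero]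
      exact (mem_chW.1 (mem_rc.1 (h φ)).1).1 s hs
    · rw [mem_VA]
      intro φ
      exact (mem_chW.1 (mem_rc.1 (h φ)).1).2 s
    · rw [mem_VA]
      intro φ
      rw [← h0]
      exact (mem_rc.1 (h φ)).2 t

/-- extension of coefficients multiplies the number of cycles by the dimension of `A` -/
theorem finrank_rd_VA [Module.Finite K A] (V W : Submodule K (MvPolynomial (Fin n) K))
    [Module.Finite K W] (p : ℕ) :
    finrank K (rd (zA A n) (VA A V) (VA A W) p) = finrank K A * finrank K (rc X V W p) := by
  classical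
  have E : rd (zA A n) (VA A V) (VA A W) p ≃ₗ[K] (Fin (finrank K A) → rc X V W p) :=
    genEquiv (Module.finBasis K A) (fun φ => (co φ).compLeft (Finset (Fin n)))
      (fun a v s => bA A (v s) * AddMonoidAlgebra.single 0 a)
      (fun φ a v => funext fun s => co_bA_mul_const φ (v s) a)
      (fun u hu => by
        funext s
        ext m
        apply (Module.finBasis K A).ext_elem
        intro α
        have h := congrArg (MvPolynomial.coeff m) (congrFun (hu α) s)
        rw [Pi.zero_apply, MvPolynomial.coeff_zero] at h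
        have h2 : MvPolynomial.coeff m (((co ((Module.finBasis K A).coord α)).compLeft
          (Finset (Fin n))) u s) = (Module.finBasis K A).repr ((u s).coeff m) α := rfl
        rw [← h2, h]
        exact (map_zero ((Module.finBasis K A).coord α)).symm)
      (rc X V W p) (rd (zA A n) (VA A V) (VA A W) p) (fun _ => mem_rd_VA)
  rw [E.finrank_eq, finrank_fun_fin]

end Vale.Agent.P200.V
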