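import Mathlib

/-!
Eisenbud-Green-Harris, blocks with several elements: definitions.

A block over the field `K` is the graded algebra `K[x, y, η_0, …, η_(κ-1)]` modulo the relations
`η_i^(e_i) = Φ_i(x, y, η_j : j < i)`, with `Φ_i` homogeneous of degree `e_i`.  `D` is a division algebra over `K`,
`PA D κ R` the polynomial ring over `D` in the (central) variables of `R` blocks.  The objects are the
left submodules `N` of `(PA D κ R)^s` which are multihomogeneous (one degree for every block) and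
contain the multiples of the relations: they stand for the modules `(PA D κ R)^s / N`.
-/

namespace Vale.Agent.P200.V

open Module

universe u

/-- a block: `x = X 0`, `y = X 1`, `η_i = X i.succ.succ`, all of degree one -/
structure Blk (K : Type u) [Field K] (κ : ℕ) where
  /-- the exponents -/
  e : Fin κ → ℕ
  e_pos : ∀ i, 0 < e i
  /-- the right-hand sides -/
  Phi : Fin κ → MvPolynomial (Fin (κ + 2)) K
  hom : ∀ i, (Phi i).IsHomogeneous (e i)
  tri : ∀ i, ∀ j ∈ (Phi i).vars, (j : ℕ) < i + 2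

/-- the relation `η_i^(e_i) - Φ_i` -/
noncomputable def Blk.rel {K : Type u} [Field K] {κ : ℕ} (β : Blk K κ) (i : Fin κ) :
    MvPolynomial (Fin (κ + 2)) K :=
  MvPolynomial.X i.succ.succ ^ β.e i - β.Phi i

/-- exponents: `(g, v)` is the exponent of the variable `v` of the block `g` -/
abbrev Mon (κ R : ℕ) : Type := (Fin R × Fin (κ + 2)) →₀ ℕ

/-- the polynomial ring over `D` in the central variables of the blocks -/
abbrev PA (D : Type*) [Semiring D] (κ R : ℕ) : Type _ := AddMonoidAlgebra D (Mon κ R)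

/-- the multidegree of a monomial -/
def mdeg {κ R : ℕ} (m : Mon κ R) (g : Fin R) : ℕ := ∑ v, m (g, v)

section ring
variable (D : Type u) [DivisionRing D] (κ R : ℕ)

/-- the variables -/
noncomputable def va (v : Fin R × Fin (κ + 2)) : PA D κ R :=
  AddMonoidAlgebra.single (Finsupp.single v 1) 1

/-- the polynomials of multidegree `n` -/
def pp (n : Fin R → ℕ) : Submodule D (PA D κ R) where
  carrier := {u | ∀ m, u.coeff m ≠ 0 → mdeg m = n}
  add_mem' := by
    intro a b ha hb m hm
    by_contra h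
    rw [AddMonoidAlgebra.coeff_add, Finsupp.add_apply,
      of_not_not (fun h' => h (ha m h')), of_not_not (fun h' => h (hb m h')), add_zero] at hm
    exact hm rfl
  zero_mem' := by
    intro m hm
    rw [AddMonoidAlgebra.coeff_zero, Finsupp.zero_apply] at hm
    exact absurd rfl hm
  smul_mem' := by
    intro k a ha m hm
    by_contra h
    rw [AddMonoidAlgebra.coeff_smul_apply, of_not_not (fun h' => h (ha m h')), smul_zero] at hm
    exact hm rfl

/-- the vectors of multidegree `n` -/
def pv (s : ℕ) (n : Fin R → ℕ) : Submodule D (Fin s → PA D κ R) where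
  carrier := {u | ∀ i, u i ∈ pp D κ R n}
  add_mem' ha hb i := Submodule.add_mem _ (ha i) (hb i)
  zero_mem' _ := Submodule.zero_mem _
  smul_mem' k _ ha i := Submodule.smul_mem _ k (ha i)

/-- the component of multidegree `n` of a polynomial -/
noncomputable def cp (n : Fin R → ℕ) : PA D κ R →ₗ[D] PA D κ R where
  toFun u := AddMonoidAlgebra.ofCoeff (u.coeff.filter fun m => mdeg m = n)
  map_add' u v := by
    apply AddMonoidAlgebra.ext
    exact Finsupp.filter_add
  map_smul' k u := by
    apply AddMonoidAlgebra.ext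
    exact Finsupp.filter_smul

/-- the component of multidegree `n` of a vector -/
noncomputable def cv (s : ℕ) (n : Fin R → ℕ) : (Fin s → PA D κ R) →ₗ[D] (Fin s → PA D κ R) where
  toFun u i := cp D κ R n (u i)
  map_add' u v := by
    ext1 i
    exact map_add (cp D κ R n) _ _
  map_smul' k u := by
    ext1 i
    exact map_smul (cp D κ R n) _ _

end ring

section objects
variable {K : Type u} [Field K] {D : Type u} [DivisionRing D] [Algebra K D] {κ R : ℕ}

/-- the polynomials over `K` in the variables of the block `g`, as elements of `PA D κ R` -/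
noncomputable def bm (K : Type u) [Field K] (D : Type u) [DivisionRing D] [Algebra K D] (κ : ℕ)
    {R : ℕ} (g : Fin R) : MvPolynomial (Fin (κ + 2)) K →ₐ[K] PA D κ R :=
  (AddMonoidAlgebra.mapAlgHom (R := K) (Mon κ R) (Algebra.ofId K D)).comp
    (AddMonoidAlgebra.mapDomainAlgHom K K
      (Finsupp.mapDomain.addMonoidHom fun v : Fin (κ + 2) => (g, v)))

/-- the multihomogeneous submodules containing the relations -/
structure IsG (β : Fin R → Blk K κ) {s : ℕ}
    (N : Submodule (PA D κ R) (Fin s → PA D κ R)) : Prop where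
  hom : ∀ u ∈ N, ∀ n, cv D κ R s n u ∈ N
  rel : ∀ g i j, (Pi.single j (bm K D κ g ((β g).rel i)) : Fin s → PA D κ R) ∈ N

/-- the dimension of `(PA D κ R)^s / N` in degree `n` -/
noncomputable def qd {s : ℕ} (N : Submodule (PA D κ R) (Fin s → PA D κ R)) (n : Fin R → ℕ) : ℕ :=
  finrank D (pv D κ R s n) - finrank D (pv D κ R s n ⊓ N.restrictScalars D : Submodule D _)

end objects

/-- the product of the exponents -/
def dl {κ : ℕ} (e : Fin κ → ℕ) : ℤ := ∏ i, (e i : ℤ)

/-- the dimensions of `K[x, y, η] / (η_i^(e_i) - Φ_i)` in large degrees -/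
def hO {κ : ℕ} (e : Fin κ → ℕ) (n : ℤ) : ℤ :=
  dl e * (n + 1) - dl e * (∑ i, ((e i : ℤ) - 1)) / 2

/-- the lattice of functions generated by the products of the functions `h_O` and of the
constants `∏ e_i` -/
def Lam {κ : ℕ} : (R : ℕ) → (Fin R → Fin κ → ℕ) → ((Fin R → ℤ) → ℤ) → Prop
  | 0, _, _ => True
  | R + 1, e, f => ∃ A B, Lam R (Fin.tail e) A ∧ Lam R (Fin.tail e) B ∧
      ∀ n, f n = A (Fin.tail n) * hO (e 0) (n 0) + B (Fin.tail n) * dl (e 0)

theorem lam_zero {κ : ℕ} (e : Fin 0 → Fin κ → ℕ) (f : (Fin 0 → ℤ) → ℤ) : Lam 0 e f ↔ True := by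
  rw [Lam]

theorem lam_succ {κ : ℕ} (R : ℕ) (e : Fin (R + 1) → Fin κ → ℕ) (f : (Fin (R + 1) → ℤ) → ℤ) :
    Lam (R + 1) e f ↔ ∃ A B, Lam R (Fin.tail e) A ∧ Lam R (Fin.tail e) B ∧
      ∀ n, f n = A (Fin.tail n) * hO (e 0) (n 0) + B (Fin.tail n) * dl (e 0) := by
  rw [Lam]

/-- **Integrality.**  The dimensions of every object are eventually given by a function of the
lattice. -/
def IntP {K : Type u} [Field K] (D : Type u) [DivisionRing D] [Algebra K D] {κ R : ℕ}
    (β : Fin R → Blk K κ) : Prop :=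
  ∀ (s : ℕ) (N : Submodule (PA D κ R) (Fin s → PA D κ R)), IsG β N →
    ∃ f, Lam R (fun g => (β g).e) f ∧ ∃ n0 : ℕ, ∀ n : Fin R → ℕ, (∀ g, n0 ≤ n g) →
      (qd N n : ℤ) = f fun g => n g

/-- integrality for every collection of different blocks -/
def IntAll {K : Type u} [Field K] (D : Type u) [DivisionRing D] [Algebra K D] {κ R : ℕ}
    (β : Fin R → Blk K κ) : Prop :=
  ∀ (R' : ℕ) (σ : Fin R' → Fin R), Function.Injective σ → IntP D (β ∘ σ)

/-- the elements `η_i = V i 0 * x + V i 1 * y` commute and satisfy the relations of the block -/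
def IsEv {K : Type u} [Field K] {κ : ℕ} (β : Blk K κ) {D : Type u} [DivisionRing D] [Algebra K D]
    (V : Fin κ → Fin 2 → D) : Prop :=
  ∃ ev : MvPolynomial (Fin (κ + 2)) K →ₐ[K] AddMonoidAlgebra D (Fin 2 →₀ ℕ),
    ev (MvPolynomial.X 0) = AddMonoidAlgebra.single (Finsupp.single 0 1) 1 ∧
    ev (MvPolynomial.X 1) = AddMonoidAlgebra.single (Finsupp.single 1 1) 1 ∧
    (∀ i : Fin κ, ev (MvPolynomial.X i.succ.succ) =
      AddMonoidAlgebra.single (Finsupp.single 0 1) (V i 0) +
        AddMonoidAlgebra.single (Finsupp.single 1 1) (V i 1)) ∧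
    ∀ i, ev (β.rel i) = 0

/-- **Transfer** (one step of the tower). -/
def Step (K : Type u) [Field K] (κ : ℕ) : Prop :=
  ∀ (D : Type u) [DivisionRing D] [Algebra K D] (R : ℕ) (β : Fin (R + 1) → Blk K κ),
    IntAll D β →
    ∃ (D' : Type u) (_ : DivisionRing D') (_ : Algebra K D') (ι : D →ₐ[K] D')
      (V : Fin κ → Fin 2 → D'),
      (∀ i ε d, V i ε * ι d = ι d * V i ε) ∧ IsEv (β 0) V ∧ IntAll D' fun g => β g.succ

theorem IsEv.map {K : Type u} [Field K] {κ : ℕ} {β : Blk K κ} {D D' : Type u} [DivisionRing D]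
    [Algebra K D] [DivisionRing D'] [Algebra K D'] {V : Fin κ → Fin 2 → D} (h : IsEv β V)
    (ι : D →ₐ[K] D') : IsEv β fun i ε => ι (V i ε) := by
  obtain ⟨ev, h0, h1, h2, h3⟩ := h
  have hs : ∀ (m : Fin 2 →₀ ℕ) (d : D), AddMonoidAlgebra.mapAlgHom (R := K) (Fin 2 →₀ ℕ) ι
      (AddMonoidAlgebra.single m d) = AddMonoidAlgebra.single m (ι d) := by
    intro m d
    exact AddMonoidAlgebra.mapAlgHom_single _ _ _
  refine ⟨(AddMonoidAlgebra.mapAlgHom (R := K) (Fin 2 →₀ ℕ) ι).comp ev, ?_, ?_, ?_, ?_⟩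
  · rw [AlgHom.comp_apply, h0, hs, map_one]
  · rw [AlgHom.comp_apply, h1, hs, map_one]
  · intro i
    rw [AlgHom.comp_apply, h2, map_add, hs, hs]
  · intro i
    rw [AlgHom.comp_apply, h3, map_zero]

/-- **The tower.** -/
theorem tower {K : Type u} [Field K] {κ : ℕ} (hstep : Step K κ) :
    ∀ (R : ℕ) (β : Fin R → Blk K κ) (D : Type u) [DivisionRing D] [Algebra K D],
      IntAll D β →
      ∃ (D' : Type u) (_ : DivisionRing D') (_ : Algebra K D') (ι : D →ₐ[K] D')
        (V : Fin R → Fin κ → Fin 2 → D'),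
        (∀ g i ε d, V g i ε * ι d = ι d * V g i ε) ∧
        (∀ g h, g ≠ h → ∀ i j ε δ, V g i ε * V h j δ = V h j δ * V g i ε) ∧
        ∀ g, IsEv (β g) (V g) := by
  intro R
  induction R with
  | zero =>
    intro β D _ _ _
    exact ⟨D, inferInstance, inferInstance, AlgHom.id K D, fun g => g.elim0, fun g => g.elim0,
      fun g => g.elim0, fun g => g.elim0⟩
  | succ R ih =>
    intro β D _ _ hI
    obtain ⟨D1, i1, a1, ι1, V, hV, hw, hI'⟩ := hstep D R β hI
    obtain ⟨D2, i2, a2, ι2, W, hW, hWW, hWw⟩ := ih (fun g => β g.succ) D1 hI'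
    refine ⟨D2, i2, a2, ι2.comp ι1, Fin.cons (fun i ε => ι2 (V i ε)) W, ?_, ?_, ?_⟩
    · intro g i ε d
      refine Fin.cases ?_ (fun g => ?_) g
      · rw [Fin.cons_zero, AlgHom.comp_apply, ← map_mul, hV, map_mul]
      · rw [Fin.cons_succ, AlgHom.comp_apply, hW]
    · intro g h hgh i j ε δ
      revert hgh
      refine Fin.cases ?_ (fun g => ?_) g <;> refine Fin.cases ?_ (fun h => ?_) h
      · intro hgh
        exact absurd rfl hgh
      · intro _
        rw [Fin.cons_zero, Fin.cons_succ, hW]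
      · intro _
        rw [Fin.cons_zero, Fin.cons_succ, hW]
      · intro hgh
        rw [Fin.cons_succ, Fin.cons_succ]
        exact hWW g h (fun h' => hgh (by rw [h'])) i j ε δ
    · intro g
      refine Fin.cases ?_ (fun g => ?_) g
      · rw [Fin.cons_zero]
        exact hw.map ι2
      · rw [Fin.cons_succ]
        exact hWw g

end Vale.Agent.P200.V
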