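import Vale.Agent.P200.V.GrD
import Vale.Agent.P200.V.Blk

/-!
The objects over `D = K` as graded submodules over a polynomial ring (first part of the bridge
between `IntP` and Hilbert functions).
-/

namespace Vale.Agent.P200.V

open Module MvPolynomial

universe u

/-- the degrees of the variables of the blocks -/
def wB (κ R : ℕ) (p : Fin R × Fin (κ + 2)) : Fin R → ℤ := Pi.single p.1 1

theorem pos_wB (κ R : ℕ) : Pos (wB κ R) := by
  refine ⟨∑ g : Fin R, Pi.evalAddMonoidHom (fun _ : Fin R => ℤ) g, ?_⟩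
  rintro ⟨g, v⟩
  rw [AddMonoidHom.finsetSum_apply]
  simp [wB, Pi.single_apply]

theorem dg_wB {κ R : ℕ} (e : (Fin R × Fin (κ + 2)) →₀ ℕ) (g : Fin R) :
    dg (wB κ R) e g = (mdeg e g : ℤ) := by
  rw [dg, Finsupp.sum_fintype _ _ (fun i => by simp), Finset.sum_apply, mdeg,
    Fintype.sum_prod_type, Finset.sum_eq_single g]
  · push_cast
    refine Finset.sum_congr rfl fun v _ => ?_
    simp [wB]
  · intro h _ hh
    refine Finset.sum_eq_zero fun v _ => ?_
    simp [wB, hh.symm]
  · intro h
    exact absurd (Finset.mem_univ g) h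

open scoped Classical in
theorem coeff_cmp' {k : Type u} [Field k] {σ ι J : Type} [AddCommGroup ι] (wt : σ → ι)
    (sh : J → ι) (ν : ι) (f : J → MvPolynomial σ k) (j : J) (e : σ →₀ ℕ) :
    coeff e (cmp wt sh ν f j) = if dg wt e + sh j = ν then coeff e (f j) else 0 := by
  rw [cmp, coeff_sum]
  by_cases he : dg wt e + sh j = ν
  · rw [if_pos he]
    by_cases hs : e ∈ (f j).support
    · rw [Finset.sum_eq_single e]
      · rw [coeff_monomial, if_pos rfl]
      · intro b _ hb
        rw [coeff_monomial, if_neg hb]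
      · intro h
        exact absurd (Finset.mem_filter.2 ⟨hs, he⟩) h
    · rw [notMem_support_iff.1 hs]
      refine Finset.sum_eq_zero fun x hx => ?_
      rw [coeff_monomial, if_neg]
      intro h
      rw [h] at hx
      exact hs (Finset.mem_filter.1 hx).1
  · rw [if_neg he]
    refine Finset.sum_eq_zero fun x hx => ?_
    rw [coeff_monomial, if_neg]
    intro h
    rw [h] at hx
    exact he (Finset.mem_filter.1 hx).2

section
variable {K : Type u} [Field K] {κ R s : ℕ}

theorem pv_eq_gp (n : Fin R → ℕ) :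
    (pv K κ R s n : Submodule K (Fin s → MvPolynomial (Fin R × Fin (κ + 2)) K)) =
      gp K (wB κ R) (fun _ : Fin s => (0 : Fin R → ℤ)) (fun g => (n g : ℤ)) := by
  ext u
  constructor
  · intro h j e he
    have h1 : mdeg e = n := h j e he
    rw [add_zero]
    funext g
    rw [dg_wB, h1]
  · intro h j e he
    have h1 := h j e he
    rw [add_zero] at h1
    funext g
    have h2 := congrFun h1 g
    rw [dg_wB] at h2
    exact_mod_cast h2

theorem hd_wB (N : Submodule (PA K κ R) (Fin s → PA K κ R)) (n : Fin R → ℕ) :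
    hd (wB κ R) (fun _ : Fin s => (0 : Fin R → ℤ))
      (N : Submodule (MvPolynomial (Fin R × Fin (κ + 2)) K)
        (Fin s → MvPolynomial (Fin R × Fin (κ + 2)) K)) (fun g => (n g : ℤ)) =
      finrank K (pv K κ R s n ⊓ N.restrictScalars K : Submodule K (Fin s → PA K κ R)) := by
  rw [hd, gpart, ← pv_eq_gp, inf_comm]

theorem hd_wB_top (n : Fin R → ℕ) :
    hd (wB κ R) (fun _ : Fin s => (0 : Fin R → ℤ))
      (⊤ : Submodule (MvPolynomial (Fin R × Fin (κ + 2)) K)
        (Fin s → MvPolynomial (Fin R × Fin (κ + 2)) K)) (fun g => (n g : ℤ)) =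
      finrank K (pv K κ R s n) := by
  rw [hd, gpart, ← pv_eq_gp, Submodule.restrictScalars_top, top_inf_eq]

theorem qd_eq (N : Submodule (PA K κ R) (Fin s → PA K κ R)) (n : Fin R → ℕ) :
    (qd N n : ℤ) = (hd (wB κ R) (fun _ : Fin s => (0 : Fin R → ℤ))
      (⊤ : Submodule (MvPolynomial (Fin R × Fin (κ + 2)) K)
        (Fin s → MvPolynomial (Fin R × Fin (κ + 2)) K)) (fun g => (n g : ℤ)) : ℤ) -
      hd (wB κ R) (fun _ : Fin s => (0 : Fin R → ℤ))
      (N : Submodule (MvPolynomial (Fin R × Fin (κ + 2)) K)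
        (Fin s → MvPolynomial (Fin R × Fin (κ + 2)) K)) (fun g => (n g : ℤ)) := by
  have h := hd_mono (pos_wB κ R) (le_top (a := (N : Submodule
    (MvPolynomial (Fin R × Fin (κ + 2)) K) (Fin s → MvPolynomial (Fin R × Fin (κ + 2)) K))))
    (sh := fun _ : Fin s => (0 : Fin R → ℤ)) (fun g => (n g : ℤ))
  rw [hd_wB_top, hd_wB] at h
  rw [hd_wB_top, hd_wB, qd, Nat.cast_sub h]

theorem cmp_wB (u : Fin s → PA K κ R) (n : Fin R → ℕ) :
    cmp (wB κ R) (fun _ : Fin s => (0 : Fin R → ℤ)) (fun g => (n g : ℤ))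
      (u : Fin s → MvPolynomial (Fin R × Fin (κ + 2)) K) = cv K κ R s n u := by
  funext j
  ext e
  rw [coeff_cmp']
  have h1 : dg (wB κ R) e + 0 = (fun g => (n g : ℤ)) ↔ mdeg e = n := by
    rw [add_zero]
    constructor
    · intro h
      funext g
      have := congrFun h g
      rw [dg_wB] at this
      exact_mod_cast this
    · intro h
      funext g
      rw [dg_wB, h]
  have h2 : coeff e ((cv K κ R s n u j : PA K κ R) : MvPolynomial (Fin R × Fin (κ + 2)) K) =
      if mdeg e = n then coeff e (u j : MvPolynomial (Fin R × Fin (κ + 2)) K) else 0 := by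
    change ((u j).coeff.filter fun m => mdeg m = n) e = _
    rw [Finsupp.filter_apply]
    rfl
  rw [h2]
  by_cases he : mdeg e = n
  · rw [if_pos he, if_pos (h1.2 he)]
  · rw [if_neg he, if_neg fun h => he (h1.1 h)]

/-- in degrees with a negative coordinate there is nothing -/
theorem cmp_wB_neg (u : Fin s → MvPolynomial (Fin R × Fin (κ + 2)) K) {ν : Fin R → ℤ}
    (hν : ∀ n : Fin R → ℕ, ν ≠ fun g => (n g : ℤ)) :
    cmp (wB κ R) (fun _ : Fin s => (0 : Fin R → ℤ)) ν u = 0 := by
  funext j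
  ext e
  rw [coeff_cmp', if_neg]
  · rfl
  · intro h
    refine hν (mdeg e) ?_
    rw [add_zero] at h
    rw [← h]
    funext g
    rw [dg_wB]

theorem homS_iff (N : Submodule (PA K κ R) (Fin s → PA K κ R)) :
    HomS (wB κ R) (fun _ : Fin s => (0 : Fin R → ℤ))
      (N : Submodule (MvPolynomial (Fin R × Fin (κ + 2)) K)
        (Fin s → MvPolynomial (Fin R × Fin (κ + 2)) K)) ↔
      ∀ u ∈ N, ∀ n, cv K κ R s n u ∈ N := by
  constructor
  · intro h u hu n
    have := h u hu fun g => (n g : ℤ)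
    rwa [cmp_wB] at this
  · intro h u hu ν
    by_cases hν : ∃ n : Fin R → ℕ, ν = fun g => (n g : ℤ)
    · obtain ⟨n, rfl⟩ := hν
      rw [cmp_wB]
      exact h u hu n
    · rw [cmp_wB_neg]
      · exact N.zero_mem
      · intro n hn
        exact hν ⟨n, hn⟩

theorem bm_eq (g : Fin R) (p : MvPolynomial (Fin (κ + 2)) K) :
    (bm K K κ g p : MvPolynomial (Fin R × Fin (κ + 2)) K) = rename (fun v => (g, v)) p := by
  have h : (bm K K κ g : MvPolynomial (Fin (κ + 2)) K →ₐ[K]
      MvPolynomial (Fin R × Fin (κ + 2)) K) = rename (fun v => (g, v)) := by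
    apply MvPolynomial.algHom_ext
    intro v
    rw [rename_X]
    change AddMonoidAlgebra.mapAlgHom (R := K) (Mon κ R) (Algebra.ofId K K)
      (AddMonoidAlgebra.mapDomainAlgHom K K
      (Finsupp.mapDomain.addMonoidHom fun v : Fin (κ + 2) => (g, v))
        (AddMonoidAlgebra.single (Finsupp.single v 1) 1)) =
      AddMonoidAlgebra.single (Finsupp.single (g, v) 1) 1
    rw [AddMonoidAlgebra.mapDomainAlgHom_apply, AddMonoidAlgebra.mapDomain_single,
      AddMonoidAlgebra.mapAlgHom_single]
    rw [map_one]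
    congr 1
    exact Finsupp.mapDomain_single
  exact DFunLike.congr_fun h p

end

end Vale.Agent.P200.V
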