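import Vale.Agent.P200.V.GrD
import Vale.Agent.P200.V.Act

/-!
The group `Hil k wt J0` generated by the Hilbert functions of the finitely generated graded modules over `k[σ]`
which are killed by the set `J0` of polynomials.
-/

namespace Vale.Agent.P200.V

open Module MvPolynomial

universe u

/-- the group generated by the Hilbert functions of the finitely generated graded modules which
are killed by `J0` -/
noncomputable def Hil (k : Type u) [Field k] {σ ι : Type} [AddCommGroup ι] (wt : σ → ι)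
    (J0 : Set (MvPolynomial σ k)) : AddSubgroup (ι → ℤ) :=
  AddSubgroup.closure {f | ∃ (s : ℕ) (sh : Fin s → ι)
    (N : Submodule (MvPolynomial σ k) (Fin s → MvPolynomial σ k)), HomS wt sh N ∧
    (∀ p ∈ J0, ∀ j, (Pi.single j p : Fin s → MvPolynomial σ k) ∈ N) ∧
    ∀ ν, f ν = (hd wt sh (⊤ : Submodule (MvPolynomial σ k) (Fin s → MvPolynomial σ k)) ν : ℤ) -
      hd wt sh N ν}

section hil
variable {k : Type u} [Field k] {σ ι J : Type} [Fintype σ] [Fintype J] [AddCommGroup ι]
  {wt : σ → ι} {sh : J → ι} {J0 J1 : Set (MvPolynomial σ k)}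

omit [Fintype σ] in
theorem Hil.mono (h : J0 ⊆ J1) : Hil k wt J1 ≤ Hil k wt J0 := by
  apply AddSubgroup.closure_mono
  rintro f ⟨s, sh, N, hN, h1, hf⟩
  exact ⟨s, sh, N, hN, fun p hp j => h1 p (h hp) j, hf⟩

omit [Fintype σ] in
/-- only the ideal generated by `J0` matters -/
theorem Hil.mono_span (h : J0 ⊆ (Ideal.span J1 : Ideal (MvPolynomial σ k))) :
    Hil k wt J1 ≤ Hil k wt J0 := by
  apply AddSubgroup.closure_mono
  rintro f ⟨s, sh, N, hN, h1, hf⟩
  refine ⟨s, sh, N, hN, fun p hp j => ?_, hf⟩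
  have h2 : (Ideal.span J1 : Ideal (MvPolynomial σ k)) ≤
      N.comap (LinearMap.single (MvPolynomial σ k) (fun _ : Fin s => MvPolynomial σ k) j) := by
    refine Submodule.span_le.mpr ?_
    intro q hq
    exact h1 q hq j
  exact h2 (h hp)

omit [Fintype σ] [Fintype J] in
theorem hil_dg_add (e e' : σ →₀ ℕ) : dg wt (e + e') = dg wt e + dg wt e' :=
  Finsupp.sum_add_index' (fun _ => zero_nsmul _) fun _ _ _ => add_nsmul _ _ _

omit [Fintype σ] [Fintype J] in
theorem hil_smul_mem_gp {ν d : ι} {p : MvPolynomial σ k} (hp : ∀ e, coeff e p ≠ 0 → dg wt e + d = ν)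
    {g : J → MvPolynomial σ k} (hg : g ∈ gp k wt sh d) : p • g ∈ gp k wt sh ν := by
  classical
  intro j e he
  rw [Pi.smul_apply, smul_eq_mul, coeff_mul] at he
  obtain ⟨ab, hab, hne⟩ := Finset.exists_ne_zero_of_sum_ne_zero he
  have h1 := hp ab.1 (left_ne_zero_of_mul hne)
  have h2 := hg j ab.2 (right_ne_zero_of_mul hne)
  rw [← Finset.HasAntidiagonal.mem_antidiagonal.mp hab, hil_dg_add, add_assoc, h2, h1]

/-- every subquotient `A / B` killed by `J0` has its Hilbert function in `Hil` -/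
theorem hil_sub (hwt : Pos wt) {A B : Submodule (MvPolynomial σ k) (J → MvPolynomial σ k)}
    (hA : HomS wt sh A) (hB : HomS wt sh B) (hBA : B ≤ A) (h0 : ∀ p ∈ J0, ∀ f ∈ A, p • f ∈ B) :
    (fun ν => (hd wt sh A ν : ℤ) - hd wt sh B ν) ∈ Hil k wt J0 := by
  obtain ⟨S, hS, hdeg⟩ := hA.exists_gen
  have hmem : ∀ i : Fin S.card, ((S.equivFin.symm i : S) : J → MvPolynomial σ k) ∈ A := by
    intro i
    rw [← hS]
    exact Submodule.subset_span (S.equivFin.symm i).2
  have hdeg' : ∀ i : Fin S.card, ∃ ν, ((S.equivFin.symm i : S) : J → MvPolynomial σ k) ∈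
      gp k wt sh ν := fun i => hdeg _ (S.equivFin.symm i).2
  choose sh' hsh' using hdeg'
  set g : Fin S.card → J → MvPolynomial σ k := fun i => ((S.equivFin.symm i : S) :
    J → MvPolynomial σ k) with hg
  set φ : (Fin S.card → MvPolynomial σ k) →ₗ[MvPolynomial σ k] (J → MvPolynomial σ k) :=
    Fintype.linearCombination (MvPolynomial σ k) g with hφ
  have hφd : IsDeg wt sh' sh 0 φ := by
    intro ν f hf
    rw [add_zero, hφ, Fintype.linearCombination_apply]
    exact Submodule.sum_mem _ fun i _ => hil_smul_mem_gp (fun e he => hf i e he) (hsh' i)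
  have hrange : (⊤ : Submodule (MvPolynomial σ k) (Fin S.card → MvPolynomial σ k)).map φ = A := by
    rw [Submodule.map_top, hφ, Fintype.range_linearCombination, ← hS]
    congr 1
    ext x
    constructor
    · rintro ⟨i, rfl⟩
      exact (S.equivFin.symm i).2
    · intro hx
      exact ⟨S.equivFin ⟨x, hx⟩, by rw [hg]; simp⟩
  apply AddSubgroup.subset_closure
  refine ⟨S.card, sh', kerIn φ ⊤ B, HomS.kerIn hφd homS_top hB, ?_, ?_⟩
  · intro p hp j
    refine ⟨Submodule.mem_top, ?_⟩
    rw [SetLike.mem_coe, Submodule.mem_comap, hφ, Fintype.linearCombination_apply_single]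
    exact h0 p hp _ (hmem j)
  · intro ν
    have h3 := hd_kerIn hwt hφd (A := ⊤) homS_top hB ν
    rw [hrange, sup_eq_right.mpr hBA, add_zero] at h3
    have h4 : ((hd wt sh' (⊤ : Submodule (MvPolynomial σ k) (Fin S.card → MvPolynomial σ k)) ν :
      ℕ) : ℤ) + (hd wt sh B ν : ℕ) = (hd wt sh' (kerIn φ ⊤ B) ν : ℕ) + (hd wt sh A ν : ℕ) := by
      exact_mod_cast h3
    linarith

omit [Fintype σ] [Fintype J] in
theorem hil_gp_shift (δ ν : ι) : gp k wt (fun j => sh j + δ) ν = gp k wt sh (ν - δ) := by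
  ext f
  constructor
  · intro hf j e he
    rw [eq_sub_iff_add_eq, add_assoc]
    exact hf j e he
  · intro hf j e he
    have h := hf j e he
    rw [eq_sub_iff_add_eq, add_assoc] at h
    exact h

omit [Fintype σ] [Fintype J] in
theorem hil_cmp_shift (δ ν : ι) (f : J → MvPolynomial σ k) :
    cmp wt (fun j => sh j + δ) ν f = cmp wt sh (ν - δ) f := by
  classical
  funext j
  rw [cmp, cmp]
  refine Finset.sum_congr ?_ fun _ _ => rfl
  ext e
  rw [Finset.mem_filter, Finset.mem_filter, eq_sub_iff_add_eq, add_assoc]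

omit [Fintype σ] [Fintype J] in
theorem hil_hd_shift (A : Submodule (MvPolynomial σ k) (J → MvPolynomial σ k)) (δ ν : ι) :
    hd wt (fun j => sh j + δ) A ν = hd wt sh A (ν - δ) := by
  rw [hd, hd, gpart, gpart, hil_gp_shift]

omit [Fintype σ] in
theorem Hil.shift (δ : ι) {f : ι → ℤ} (hf : f ∈ Hil k wt J0) : act ι (el δ) f ∈ Hil k wt J0 := by
  rw [Hil] at hf
  induction hf using AddSubgroup.closure_induction with
  | mem f hf =>
    obtain ⟨s, sh, N, hN, h1, hf⟩ := hf
    apply AddSubgroup.subset_closure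
    refine ⟨s, fun j => sh j + δ, N, ?_, h1, ?_⟩
    · intro g hg ν
      rw [hil_cmp_shift]
      exact hN g hg _
    · intro ν
      rw [act_el, hf, hil_hd_shift, hil_hd_shift]
  | zero =>
    rw [map_zero]
    exact zero_mem _
  | add f g _ _ h1 h2 =>
    rw [map_add]
    exact add_mem h1 h2
  | neg f _ h1 =>
    rw [map_neg]
    exact neg_mem h1

omit [Fintype σ] in
theorem Hil.act_mem (a : AddMonoidAlgebra ℤ ι) {f : ι → ℤ} (hf : f ∈ Hil k wt J0) :
    act ι a f ∈ Hil k wt J0 := by
  induction a using AddMonoidAlgebra.induction_linear with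
  | zero =>
    rw [map_zero, LinearMap.zero_apply]
    exact zero_mem _
  | add a b h1 h2 =>
    rw [map_add, LinearMap.add_apply]
    exact add_mem h1 h2
  | single δ n =>
    have h : (AddMonoidAlgebra.single δ n : AddMonoidAlgebra ℤ ι) = n • el δ := by
      rw [el, AddMonoidAlgebra.smul_single, smul_eq_mul, mul_one]
    rw [h, map_zsmul, LinearMap.smul_apply]
    exact AddSubgroup.zsmul_mem _ (Hil.shift δ hf) n

end hil

end Vale.Agent.P200.V
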