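import Vale.Agent.P200.V.GrD

/-!
Vanishing in large degrees.
-/

namespace Vale.Agent.P200.V

open Module MvPolynomial

universe u

section van
variable {k : Type u} [Field k] {σ ι J : Type} [Fintype σ] [Fintype J] [Fintype ι]

/-- the number of variables of the block `b` in a monomial -/
noncomputable def bdeg (blk : σ → Option ι) (e : σ →₀ ℕ) (b : ι) : ℕ :=
  open scoped Classical in ∑ v ∈ Finset.univ.filter (fun v => blk v = some b), e v

omit [Fintype J] [Fintype ι] in
/-- the block degree is the component of the degree -/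
theorem dg_fst_eq_bdeg {wt : σ → (ι → ℤ) × ℤ} (blk : σ → Option ι)
    (hblk : ∀ v i, (wt v).1 i = open scoped Classical in if blk v = some i then 1 else 0)
    (e : σ →₀ ℕ) (i : ι) : (dg wt e).1 i = (bdeg blk e i : ℤ) := by
  classical
  unfold dg bdeg
  rw [Finsupp.sum_fintype _ _ (fun v => by simp)]
  rw [Prod.fst_sum, Finset.sum_apply, Finset.sum_filter, Nat.cast_sum]
  refine Finset.sum_congr rfl fun v _ => ?_
  rw [Prod.smul_fst, Pi.smul_apply, hblk v i]
  by_cases h : blk v = some i
  · simp [h]
  · simp [h]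

omit [Fintype σ] [Fintype J] [Fintype ι] in
/-- the component of a vector of another degree is zero -/
theorem van_cmp_eq_zero_of_ne {ι' : Type} [AddCommGroup ι'] {wt : σ → ι'} {sh : J → ι'} {ν ν' : ι'}
    (hne : ν' ≠ ν) {f : J → MvPolynomial σ k} (hf : f ∈ gp k wt sh ν') :
    cmp wt sh ν f = 0 := by
  classical
  funext j
  unfold cmp
  rw [Finset.filter_eq_empty_iff.2, Finset.sum_empty]
  · rfl
  · intro e he h
    exact hne ((hf j e (mem_support_iff.1 he)).symm.trans h)

omit [Fintype σ] [Fintype J] [Fintype ι] in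
/-- multiplication by a monomial -/
theorem monomial_smul_mem_gp {ι' : Type} [AddCommGroup ι'] {wt : σ → ι'} {sh : J → ι'} {ν : ι'}
    (e : σ →₀ ℕ) (c : k) {f : J → MvPolynomial σ k} (hf : f ∈ gp k wt sh ν) :
    (monomial e c : MvPolynomial σ k) • f ∈ gp k wt sh (dg wt e + ν) := by
  classical
  intro j e' he'
  rw [Pi.smul_apply, smul_eq_mul, coeff_monomial_mul'] at he'
  by_cases hle : e ≤ e'
  · rw [if_pos hle] at he'
    have h := hf j (e' - e) (fun h0 => he' (by rw [h0, mul_zero]))
    have h2 : dg wt e' = dg wt e + dg wt (e' - e) := by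
      conv_lhs => rw [← add_tsub_cancel_of_le hle]
      unfold dg
      exact Finsupp.sum_add_index' (fun v => zero_smul _ _) (fun v m m' => add_smul _ _ _)
    rw [h2, add_assoc, h]
  · rw [if_neg hle] at he'
    exact absurd rfl he'

/-- if all monomials with large degrees in all blocks kill `A / B`, then `A / B` is zero in large
degrees.  The variables with `blk v = none` have degree zero in the first component (and are
positive in the second one). -/
theorem hd_eq_of_killed {wt : σ → (ι → ℤ) × ℤ} {sh : J → (ι → ℤ) × ℤ} (hwt : Pos wt)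
    (blk : σ → Option ι)
    (hblk : ∀ v i, (wt v).1 i = open scoped Classical in if blk v = some i then 1 else 0)
    {A B : Submodule (MvPolynomial σ k) (J → MvPolynomial σ k)}
    (hA : HomS wt sh A) (hB : HomS wt sh B) (hBA : B ≤ A) (d : ℕ)
    (hd' : ∀ e : σ →₀ ℕ, (∀ b, d ≤ bdeg blk e b) → ∀ f ∈ A, monomial e (1 : k) • f ∈ B) :
    ∃ n0 : ℤ, ∀ (n : ι → ℤ) (t : ℤ), (∀ i, n0 ≤ n i) → hd wt sh A (n, t) = hd wt sh B (n, t) := by
  classical
  obtain ⟨S, hS, hgen⟩ := hA.exists_gen
  choose! ν hν using hgen
  refine ⟨d + ∑ f ∈ S, ∑ i, |(ν f).1 i|, fun n t hn => ?_⟩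
  have hsum : ∀ f ∈ S, ∀ i, (ν f).1 i ≤ ∑ f ∈ S, ∑ i, |(ν f).1 i| := by
    intro f hf i
    calc (ν f).1 i ≤ |(ν f).1 i| := le_abs_self _
      _ ≤ ∑ i, |(ν f).1 i| :=
          Finset.single_le_sum (f := fun i => |(ν f).1 i|) (fun i _ => abs_nonneg _)
            (Finset.mem_univ i)
      _ ≤ _ := Finset.single_le_sum (f := fun f => ∑ i, |(ν f).1 i|)
            (fun f _ => Finset.sum_nonneg fun i _ => abs_nonneg _) hf
  have key : ∀ g ∈ S, ∀ p : MvPolynomial σ k, cmp wt sh (n, t) (p • g) ∈ B := by
    intro g hg p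
    have hgA : g ∈ A := hS ▸ Submodule.subset_span hg
    induction p using MvPolynomial.induction_on' with
    | monomial e c =>
      have hmem := monomial_smul_mem_gp (k := k) e c (hν g hg)
      by_cases heq : dg wt e + ν g = (n, t)
      · rw [heq] at hmem
        rw [cmp_eq_self hmem]
        have hb : ∀ b, d ≤ bdeg blk e b := by
          intro b
          have h1 := dg_fst_eq_bdeg blk hblk e b
          have h2 : (dg wt e).1 b + (ν g).1 b = n b := by
            have := congrArg (fun q : (ι → ℤ) × ℤ => q.1 b) heq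
            simpa using this
          have h3 := hn b
          have h4 := hsum g hg b
          have h5 : (d : ℤ) ≤ bdeg blk e b := by linarith
          exact_mod_cast h5
        have h6 := hd' e hb g hgA
        have h7 : (monomial e c : MvPolynomial σ k) • g =
            (C c : MvPolynomial σ k) • ((monomial e (1 : k) : MvPolynomial σ k) • g) := by
          rw [← smul_assoc, smul_eq_mul, C_mul_monomial, mul_one]
        rw [h7]
        exact B.smul_mem _ h6
      · rw [van_cmp_eq_zero_of_ne heq hmem]
        exact B.zero_mem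
    | add p q hp hq =>
      rw [add_smul, cmp_add]
      exact B.add_mem hp hq
  have hle : ∀ f ∈ A, cmp wt sh (n, t) f ∈ B := by
    intro f hf
    rw [← hS] at hf
    obtain ⟨c, -, hc⟩ := Submodule.mem_span_finset.1 hf
    rw [← hc]
    have hmap : cmp wt sh (n, t) (∑ g ∈ S, c g • g) = ∑ g ∈ S, cmp wt sh (n, t) (c g • g) :=
      map_sum (AddMonoidHom.mk' (cmp (k := k) wt sh (n, t)) (cmp_add (n, t))) _ S
    rw [hmap]
    exact B.sum_mem fun g hg => key g hg (c g)
  have heq : gpart wt sh A (n, t) = gpart wt sh B (n, t) := by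
    apply le_antisymm
    · intro f hf
      obtain ⟨h1, h2⟩ := Submodule.mem_inf.1 hf
      refine Submodule.mem_inf.2 ⟨?_, h2⟩
      have h3 := hle f h1
      rw [cmp_eq_self h2] at h3
      exact h3
    · exact inf_le_inf_right _ hBA
  unfold hd
  rw [heq]

end van

end Vale.Agent.P200.V
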