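import Vale.Agent.P200.V.DStep
import Vale.Agent.P200.V.Hil
import Vale.Agent.P200.V.Van
import Vale.Agent.P200.V.Br1

/-!
The objects of `Blk.lean` over a commutative field as graded modules over `MvPolynomial`.
-/

namespace Vale.Agent.P200.V

open Module MvPolynomial

universe u

/-- the degrees of the variables of the blocks -/
def wbl (κ R : ℕ) (z : Fin R × Fin (κ + 2)) : Fin R → ℤ := Pi.single z.1 1

section br
variable {K : Type u} [Field K] {κ R : ℕ}

/-- the relations of the blocks -/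
def relS (β : Fin R → Blk K κ) : Set (MvPolynomial (Fin R × Fin (κ + 2)) K) :=
  {p | ∃ g i, p = rename (Prod.mk g) ((β g).rel i)}

/-- a submodule over `PA K κ R` as a submodule over `MvPolynomial` -/
def toMv {s : ℕ} (N : Submodule (PA K κ R) (Fin s → PA K κ R)) :
    Submodule (MvPolynomial (Fin R × Fin (κ + 2)) K)
      (Fin s → MvPolynomial (Fin R × Fin (κ + 2)) K) where
  carrier := {u | (show Fin s → PA K κ R from u) ∈ N}
  add_mem' ha hb := N.add_mem ha hb
  zero_mem' := N.zero_mem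
  smul_mem' c _ ha := N.smul_mem (show PA K κ R from c) ha

/-- a submodule over `MvPolynomial` as a submodule over `PA K κ R` -/
def ofMv {s : ℕ} (N : Submodule (MvPolynomial (Fin R × Fin (κ + 2)) K)
      (Fin s → MvPolynomial (Fin R × Fin (κ + 2)) K)) :
    Submodule (PA K κ R) (Fin s → PA K κ R) where
  carrier := {u | (show Fin s → MvPolynomial (Fin R × Fin (κ + 2)) K from u) ∈ N}
  add_mem' ha hb := N.add_mem ha hb
  zero_mem' := N.zero_mem
  smul_mem' c _ ha := N.smul_mem (show MvPolynomial (Fin R × Fin (κ + 2)) K from c) ha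

theorem toMv_ofMv {s : ℕ} (N : Submodule (MvPolynomial (Fin R × Fin (κ + 2)) K)
      (Fin s → MvPolynomial (Fin R × Fin (κ + 2)) K)) : toMv (ofMv N) = N := rfl

theorem bm_self (g : Fin R) (p : MvPolynomial (Fin (κ + 2)) K) :
    (show MvPolynomial (Fin R × Fin (κ + 2)) K from bm K K κ g p) = rename (Prod.mk g) p :=
  bm_eq g p

theorem homS_toMv {β : Fin R → Blk K κ} {s : ℕ}
    {N : Submodule (PA K κ R) (Fin s → PA K κ R)} (h : IsG β N) :
    HomS (wbl κ R) (fun _ => (0 : Fin R → ℤ)) (toMv N) :=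
  (homS_iff N).2 h.hom

theorem rel_toMv {β : Fin R → Blk K κ} {s : ℕ}
    {N : Submodule (PA K κ R) (Fin s → PA K κ R)} (h : IsG β N) :
    ∀ p ∈ relS β, ∀ j, (Pi.single j p : Fin s → MvPolynomial (Fin R × Fin (κ + 2)) K) ∈
      toMv N := by
  rintro p ⟨g, i, rfl⟩ j
  have h1 := h.rel g i j
  have h2 : (bm K K κ g ((β g).rel i) : MvPolynomial (Fin R × Fin (κ + 2)) K) =
      rename (Prod.mk g) ((β g).rel i) := bm_eq g _
  rw [← h2]
  exact h1

theorem isG_ofMv {β : Fin R → Blk K κ} {s : ℕ}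
    {N : Submodule (MvPolynomial (Fin R × Fin (κ + 2)) K)
      (Fin s → MvPolynomial (Fin R × Fin (κ + 2)) K)}
    (hN : HomS (wbl κ R) (fun _ => (0 : Fin R → ℤ)) N)
    (h : ∀ p ∈ relS β, ∀ j, (Pi.single j p : Fin s → MvPolynomial (Fin R × Fin (κ + 2)) K) ∈ N) :
    IsG β (ofMv N) := by
  refine ⟨(homS_iff (ofMv N)).1 hN, fun g i j => ?_⟩
  have h1 := h _ ⟨g, i, rfl⟩ j
  have h2 : (bm K K κ g ((β g).rel i) : MvPolynomial (Fin R × Fin (κ + 2)) K) =
      rename (Prod.mk g) ((β g).rel i) := bm_eq g _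
  rw [← h2] at h1
  exact h1

theorem qd_toMv {s : ℕ} (N : Submodule (PA K κ R) (Fin s → PA K κ R)) (n : Fin R → ℕ) :
    (qd N n : ℤ) = (hd (wbl κ R) (fun _ : Fin s => (0 : Fin R → ℤ))
      (⊤ : Submodule (MvPolynomial (Fin R × Fin (κ + 2)) K)
        (Fin s → MvPolynomial (Fin R × Fin (κ + 2)) K)) (fun g => (n g : ℤ)) : ℤ) -
      hd (wbl κ R) (fun _ : Fin s => (0 : Fin R → ℤ)) (toMv N) (fun g => (n g : ℤ)) :=
  qd_eq N n

end br

end Vale.Agent.P200.V
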