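import Vale.Agent.P200.V.BrA

/-!
Integrality for all graded modules (with arbitrary shifts): the proof.
-/

namespace Vale.Agent.P200.V

open Module MvPolynomial

universe u

section aux
variable {k : Type u} [Field k] {σ ι J : Type} [AddCommGroup ι] {wt : σ → ι} {sh : J → ι}

theorem dg_add_br (e e' : σ →₀ ℕ) : dg wt (e + e') = dg wt e + dg wt e' := by
  classical
  unfold dg
  rw [Finsupp.sum_add_index']
  · intro b; exact zero_smul _ _
  · intro b m n; exact add_smul _ _ _

theorem smul_mem_gp_br {p : MvPolynomial σ k} {ν δ : ι} (hp : ∀ e, coeff e p ≠ 0 → dg wt e = ν)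
    {v : J → MvPolynomial σ k} (hv : v ∈ gp k wt sh δ) : p • v ∈ gp k wt sh (ν + δ) := by
  classical
  intro j e he
  rw [Pi.smul_apply, smul_eq_mul, coeff_mul] at he
  obtain ⟨x, hx, hne⟩ := Finset.exists_ne_zero_of_sum_ne_zero he
  replace hx : x.1 + x.2 = e := Finset.HasAntidiagonal.mem_antidiagonal.1 hx
  have h1 := hp x.1 (left_ne_zero_of_mul hne)
  have h2 := hv j x.2 (right_ne_zero_of_mul hne)
  rw [← hx, dg_add_br, h1, add_assoc, h2]

theorem isDeg_lin_br [Fintype J] {s : ℕ} {a : ι} (b : Fin s → J → MvPolynomial σ k)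
    (hb : ∀ i, b i ∈ gp k wt sh a) :
    IsDeg wt (fun _ => 0) sh a (Fintype.linearCombination (MvPolynomial σ k) b) := by
  intro ν f hf
  rw [Fintype.linearCombination_apply]
  refine Submodule.sum_mem _ fun i _ => ?_
  refine smul_mem_gp_br (fun e he => ?_) (hb i)
  have := hf i e he
  rwa [add_zero] at this

end aux

section wbl
variable {K : Type u} [Field K] {κ R : ℕ}

theorem dg_wbl (e : (Fin R × Fin (κ + 2)) →₀ ℕ) (g : Fin R) :
    dg (wbl κ R) e g = ∑ v, (e (g, v) : ℤ) := by
  unfold dg
  rw [Finsupp.sum_fintype e (fun v m => m • wbl κ R v) (fun i => zero_smul ℕ _),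
    Finset.sum_apply, Fintype.sum_prod_type, Finset.sum_eq_single g]
  · refine Finset.sum_congr rfl fun v _ => ?_
    rw [Pi.smul_apply]
    unfold wbl
    rw [Pi.single_eq_same, nsmul_eq_mul, mul_one]
  · intro g' _ hg'
    refine Finset.sum_eq_zero fun v _ => ?_
    rw [Pi.smul_apply]
    unfold wbl
    rw [Pi.single_eq_of_ne (Ne.symm hg'), smul_zero]
  · intro h
    exact absurd (Finset.mem_univ g) h

theorem pos_wbl : Pos (wbl κ R) := by
  refine ⟨∑ g, Pi.evalAddMonoidHom (fun _ : Fin R => ℤ) g, fun z => ?_⟩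
  rw [AddMonoidHom.finsetSum_apply]
  have h1 : ∑ g, (Pi.evalAddMonoidHom (fun _ : Fin R => ℤ) g) (wbl κ R z) = 1 := by
    rw [Finset.sum_eq_single z.1]
    · change wbl κ R z z.1 = 1
      unfold wbl
      rw [Pi.single_eq_same]
    · intro g _ hg
      change wbl κ R z g = 0
      unfold wbl
      rw [Pi.single_eq_of_ne hg]
    · intro h
      exact absurd (Finset.mem_univ _) h
  rw [h1]
  exact zero_lt_one

/-- splitting of a monomial -/
theorem exists_split_br (e : (Fin R × Fin (κ + 2)) →₀ ℕ) (c : Fin R → ℕ)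
    (h : ∀ g, (c g : ℤ) ≤ dg (wbl κ R) e g) :
    ∃ e1 e2, e = e1 + e2 ∧ ∀ g, dg (wbl κ R) e1 g = c g := by
  classical
  have h1 : ∀ g, ∃ u : Fin (κ + 2) →₀ ℕ, u ≤ Finsupp.equivFunOnFinite.symm (fun v => e (g, v)) ∧
      u.degree = c g := by
    intro g
    refine Finsupp.exists_le_degree_eq _ (c g) ?_
    have h2 := h g
    rw [dg_wbl] at h2
    rw [Finsupp.degree_eq_sum]
    have h3 : ((c g : ℕ) : ℤ) ≤ ((∑ v, e (g, v) : ℕ) : ℤ) := by
      rw [Nat.cast_sum]; exact h2
    exact_mod_cast h3
  choose w hw hw' using h1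
  set e1 : (Fin R × Fin (κ + 2)) →₀ ℕ := Finsupp.equivFunOnFinite.symm fun z => w z.1 z.2 with he1
  have hle : e1 ≤ e := by
    intro z
    exact hw z.1 z.2
  refine ⟨e1, e - e1, (add_tsub_cancel_of_le hle).symm, fun g => ?_⟩
  rw [dg_wbl, ← hw' g, Finsupp.degree_eq_sum, Nat.cast_sum]
  rfl

end wbl

/-- **Integrality for all graded modules**, from the closure properties of the lattice. -/
theorem hil_of_intP_aux {K : Type u} [Field K] {κ R : ℕ} (β : Fin R → Blk K κ) (h : IntP K β)
    (lam0 : Lam R (fun g => (β g).e) (0 : (Fin R → ℤ) → ℤ))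
    (lamA : ∀ F G : (Fin R → ℤ) → ℤ, Lam R (fun g => (β g).e) F → Lam R (fun g => (β g).e) G →
      Lam R (fun g => (β g).e) (F + G))
    (lamN : ∀ F : (Fin R → ℤ) → ℤ, Lam R (fun g => (β g).e) F → Lam R (fun g => (β g).e) (-F))
    (lamS : ∀ (δ : Fin R → ℤ) (F : (Fin R → ℤ) → ℤ), Lam R (fun g => (β g).e) F →
      Lam R (fun g => (β g).e) fun n => F (n - δ)) :
    ∀ f ∈ Hil K (wbl κ R) (relS β), ∃ F, Lam R (fun g => (β g).e) F ∧ EvEq f F := by
  classical
  intro f hf
  unfold Hil at hf
  induction hf using AddSubgroup.closure_induction with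
  | zero => exact ⟨0, lam0, 0, fun n _ => rfl⟩
  | add f g _ _ hf hg =>
    obtain ⟨F, hF, n0, h0⟩ := hf
    obtain ⟨G, hG, n1, h1⟩ := hg
    refine ⟨F + G, lamA _ _ hF hG, max n0 n1, fun n hn => ?_⟩
    rw [Pi.add_apply, Pi.add_apply, h0 n fun i => (le_max_left _ _).trans (hn i),
      h1 n fun i => (le_max_right _ _).trans (hn i)]
  | neg f _ hf =>
    obtain ⟨F, hF, n0, h0⟩ := hf
    refine ⟨-F, lamN _ hF, n0, fun n hn => ?_⟩
    rw [Pi.neg_apply, Pi.neg_apply, h0 n hn]
  | mem f hf =>
    obtain ⟨s, sh, N, hN, hJ, hf⟩ := hf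
    -- a degree which is larger than all shifts
    set a : Fin R → ℤ := fun g => ∑ j, |sh j g| with ha
    have ha' : ∀ j g, sh j g ≤ a g := by
      intro j g
      refine (le_abs_self _).trans ?_
      exact Finset.single_le_sum (f := fun j => |sh j g|) (fun j _ => abs_nonneg _)
        (Finset.mem_univ j)
    have hfin : FiniteDimensional K (gp K (wbl κ R) sh a) := finite_gp pos_wbl a
    set s' := finrank K (gp K (wbl κ R) sh a) with hs'
    set b := Module.finBasis K (gp K (wbl κ R) sh a) with hb
    set v : Fin s' → Fin s → MvPolynomial (Fin R × Fin (κ + 2)) K := fun i => (b i).1 with hv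
    set φ := Fintype.linearCombination (MvPolynomial (Fin R × Fin (κ + 2)) K) v with hφ
    have hdeg : IsDeg (wbl κ R) (fun _ => 0) sh a φ := isDeg_lin_br v fun i => (b i).2
    set N' := kerIn φ ⊤ N with hN'
    have homN' : HomS (wbl κ R) (fun _ => (0 : Fin R → ℤ)) N' := HomS.kerIn hdeg homS_top hN
    have smulN : ∀ p ∈ relS β, ∀ w : Fin s → MvPolynomial (Fin R × Fin (κ + 2)) K,
        p • w ∈ N := by
      intro p hp w
      have h1 : p • w = ∑ j, w j • (Pi.single j p :
          Fin s → MvPolynomial (Fin R × Fin (κ + 2)) K) := by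
        rw [← Finset.univ_sum_single (p • w)]
        refine Finset.sum_congr rfl fun j _ => ?_
        rw [← Pi.single_smul, Pi.smul_apply, smul_eq_mul, smul_eq_mul, mul_comm]
      rw [h1]
      exact N.sum_mem fun j _ => N.smul_mem _ (hJ p hp j)
    have relN' : ∀ p ∈ relS β, ∀ j,
        (Pi.single j p : Fin s' → MvPolynomial (Fin R × Fin (κ + 2)) K) ∈ N' := by
      intro p hp j
      refine ⟨trivial, ?_⟩
      change φ (Pi.single j p) ∈ N
      rw [hφ, Fintype.linearCombination_apply_single]
      exact smulN p hp _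
    obtain ⟨f0, hf0, n0, hn0⟩ := h s' (ofMv N') (isG_ofMv homN' relN')
    -- the generators generate everything in large degrees
    have hgen : ∀ ν : Fin R → ℤ, (∀ g, 0 ≤ ν g) →
        hd (wbl κ R) sh (N ⊔ (⊤ : Submodule (MvPolynomial (Fin R × Fin (κ + 2)) K) _).map φ) (ν + a)
          = hd (wbl κ R) sh (⊤ : Submodule (MvPolynomial (Fin R × Fin (κ + 2)) K) _) (ν + a) := by
      intro ν hν
      have key : gpart (wbl κ R) sh
          (N ⊔ (⊤ : Submodule (MvPolynomial (Fin R × Fin (κ + 2)) K) _).map φ) (ν + a) =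
          gpart (wbl κ R) sh (⊤ : Submodule (MvPolynomial (Fin R × Fin (κ + 2)) K) _) (ν + a) := ?_
      · unfold hd
        rw [key]
      unfold gpart
      apply le_antisymm
      · exact inf_le_inf_right _ (fun x _ => trivial)
      · rintro x ⟨-, hx⟩
        refine ⟨?_, hx⟩
        change x ∈ N ⊔ (⊤ : Submodule (MvPolynomial (Fin R × Fin (κ + 2)) K) _).map φ
        refine Submodule.mem_sup_right ?_
        rw [← Finset.univ_sum_single x]
        refine Submodule.sum_mem _ fun j _ => ?_
        rw [(x j).as_sum]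
        have h1 : (Pi.single j (∑ e ∈ (x j).support, monomial e (coeff e (x j))) :
            Fin s → MvPolynomial (Fin R × Fin (κ + 2)) K) =
            ∑ e ∈ (x j).support, Pi.single j (monomial e (coeff e (x j))) := by
          exact map_sum (AddMonoidHom.single (fun _ : Fin s =>
            MvPolynomial (Fin R × Fin (κ + 2)) K) j) _ _
        rw [h1]
        refine Submodule.sum_mem _ fun e he => ?_
        have hdg := hx j e (MvPolynomial.mem_support_iff.1 he)
        have hdg' : ∀ g, dg (wbl κ R) e g = ν g + a g - sh j g := by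
          intro g
          have := congrFun hdg g
          rw [Pi.add_apply, Pi.add_apply] at this
          linarith
        obtain ⟨e1, e2, he12, he1⟩ := exists_split_br e (fun g => (a g - sh j g).toNat) (by
          intro g
          rw [hdg' g, Int.toNat_of_nonneg (by linarith [ha' j g])]
          linarith [hν g])
        have hgp : (Pi.single j (monomial e1 1) :
            Fin s → MvPolynomial (Fin R × Fin (κ + 2)) K) ∈ gp K (wbl κ R) sh a := by
          intro j' m hm
          by_cases hj : j' = j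
          · subst hj
            rw [Pi.single_eq_same, coeff_monomial] at hm
            split_ifs at hm with hem
            · rw [← hem]
              funext g
              rw [Pi.add_apply, he1 g, Int.toNat_of_nonneg (by linarith [ha' j' g])]
              ring
            · exact absurd rfl hm
          · rw [Pi.single_eq_of_ne hj, coeff_zero] at hm
            exact absurd rfl hm
        have hrange : (Pi.single j (monomial e1 1) :
            Fin s → MvPolynomial (Fin R × Fin (κ + 2)) K) ∈
            (⊤ : Submodule (MvPolynomial (Fin R × Fin (κ + 2)) K) _).map φ := by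
          refine ⟨fun i => C (b.repr ⟨_, hgp⟩ i), trivial, ?_⟩
          rw [hφ, Fintype.linearCombination_apply]
          have h2 := congrArg Subtype.val (b.sum_repr ⟨_, hgp⟩)
          rw [Submodule.coe_sum] at h2
          refine Eq.trans (Finset.sum_congr rfl fun i _ => ?_) h2
          rw [Submodule.coe_smul]
          funext j'
          rw [Pi.smul_apply, Pi.smul_apply, smul_eq_mul, MvPolynomial.smul_eq_C_mul]
        have h3 : (Pi.single j (monomial e (coeff e (x j))) :
            Fin s → MvPolynomial (Fin R × Fin (κ + 2)) K) =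
            monomial e2 (coeff e (x j)) • Pi.single j (monomial e1 1) := by
          rw [← Pi.single_smul, smul_eq_mul, monomial_mul, mul_one, ← he12.trans (add_comm _ _)]
        rw [h3]
        exact Submodule.smul_mem _ _ hrange
    refine ⟨fun n => f0 (n - a), lamS a _ hf0, n0 + ∑ g, |a g|, fun ν hν => ?_⟩
    have hν' : ∀ g, (n0 : ℤ) ≤ ν g - a g := by
      intro g
      have h1 : a g ≤ ∑ g, |a g| := (le_abs_self _).trans
        (Finset.single_le_sum (f := fun g => |a g|) (fun j _ => abs_nonneg _) (Finset.mem_univ g))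
      linarith [hν g]
    have hnn : ∀ g, (0 : ℤ) ≤ ν g - a g := fun g => (Int.natCast_nonneg n0).trans (hν' g)
    set n : Fin R → ℕ := fun g => (ν g - a g).toNat with hn
    have hnν : (fun g => (n g : ℤ)) = ν - a := by
      funext g
      rw [hn]
      exact Int.toNat_of_nonneg (hnn g)
    have h4 := hn0 n fun g => by
      have := hν' g
      have h5 : ((n g : ℕ) : ℤ) = ν g - a g := congrFun hnν g
      omega
    rw [qd_toMv, toMv_ofMv, hnν] at h4
    have h6 := hd_kerIn pos_wbl hdeg homS_top hN (ν - a)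
    rw [hgen (ν - a) hnn, sub_add_cancel] at h6
    rw [hf ν]
    change _ = f0 (ν - a)
    rw [← h4]
    have h7 : (hd (wbl κ R) (fun _ : Fin s' => (0 : Fin R → ℤ))
        (⊤ : Submodule (MvPolynomial (Fin R × Fin (κ + 2)) K) _) (ν - a) : ℤ) +
        hd (wbl κ R) sh N ν = hd (wbl κ R) (fun _ : Fin s' => (0 : Fin R → ℤ)) N' (ν - a) +
        hd (wbl κ R) sh (⊤ : Submodule (MvPolynomial (Fin R × Fin (κ + 2)) K) _) ν := by
      exact_mod_cast h6
    linarith

end Vale.Agent.P200.V
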