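import Vale.Agent.P200.V.BrBLam
import Vale.Agent.P200.V.BrBHil

/-!
Integrality for all graded modules (with arbitrary shifts).
-/

namespace Vale.Agent.P200.V

open Module MvPolynomial

universe u

/-- **Integrality for all graded modules.**  (A module generated in several degrees agrees in large
degrees with a shift of a module generated in degree zero.) -/
theorem hil_of_intP {K : Type u} [Field K] {κ R : ℕ} (β : Fin R → Blk K κ) (h : IntP K β) :
    ∀ f ∈ Hil K (wbl κ R) (relS β), ∃ F, Lam R (fun g => (β g).e) F ∧ EvEq f F :=
  hil_of_intP_aux β h (lam_zero_fun _) (fun _ _ => lam_add) (fun _ => lam_neg)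
    fun δ _ => lam_sft δ

end Vale.Agent.P200.V
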