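import Vale.Agent.P200.V.Blk

/-!
The lattice `Lam` is a group of functions which is stable under shifts.
-/

namespace Vale.Agent.P200.V

open Module

/-- the lattice is stable under sums -/
theorem lam_add {κ R : ℕ} {e : Fin R → Fin κ → ℕ} {F G : (Fin R → ℤ) → ℤ} (hF : Lam R e F)
    (hG : Lam R e G) : Lam R e (F + G) := by
  induction R with
  | zero => exact (lam_zero e _).2 trivial
  | succ R ih =>
    obtain ⟨A, B, hA, hB, h⟩ := (lam_succ R e F).1 hF
    obtain ⟨A', B', hA', hB', h'⟩ := (lam_succ R e G).1 hG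
    refine (lam_succ R e _).2 ⟨A + A', B + B', ih hA hA', ih hB hB', fun n => ?_⟩
    rw [Pi.add_apply, h, h', Pi.add_apply, Pi.add_apply]
    ring

/-- the lattice is stable under integer multiples -/
theorem lam_mul {κ R : ℕ} {e : Fin R → Fin κ → ℕ} {F : (Fin R → ℤ) → ℤ} (c : ℤ)
    (hF : Lam R e F) : Lam R e fun n => c * F n := by
  induction R with
  | zero => exact (lam_zero e _).2 trivial
  | succ R ih =>
    obtain ⟨A, B, hA, hB, h⟩ := (lam_succ R e F).1 hF
    refine (lam_succ R e _).2 ⟨fun n => c * A n, fun n => c * B n, ih hA, ih hB, fun n => ?_⟩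
    show c * F n = _
    rw [h]
    ring

/-- the lattice is stable under negation -/
theorem lam_neg {κ R : ℕ} {e : Fin R → Fin κ → ℕ} {F : (Fin R → ℤ) → ℤ} (hF : Lam R e F) :
    Lam R e (-F) := by
  have h := lam_mul (-1) hF
  have h1 : (-F) = fun n => (-1) * F n := by
    funext n
    rw [Pi.neg_apply, neg_one_mul]
  rw [h1]
  exact h

/-- the lattice contains zero -/
theorem lam_zero_fun {κ R : ℕ} (e : Fin R → Fin κ → ℕ) : Lam R e (0 : (Fin R → ℤ) → ℤ) := by
  induction R with
  | zero => exact (lam_zero e _).2 trivial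
  | succ R ih =>
    refine (lam_succ R e _).2 ⟨0, 0, ih _, ih _, fun n => ?_⟩
    rw [Pi.zero_apply, Pi.zero_apply, zero_mul, zero_mul, zero_add]

theorem hO_sub {κ : ℕ} (e : Fin κ → ℕ) (n d : ℤ) : hO e (n - d) = hO e n - dl e * d := by
  unfold hO
  ring

/-- the lattice is stable under shifts -/
theorem lam_sft {κ R : ℕ} {e : Fin R → Fin κ → ℕ} {F : (Fin R → ℤ) → ℤ} (δ : Fin R → ℤ)
    (hF : Lam R e F) : Lam R e fun n => F (n - δ) := by
  induction R with
  | zero => exact (lam_zero e _).2 trivial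
  | succ R ih =>
    obtain ⟨A, B, hA, hB, h⟩ := (lam_succ R e F).1 hF
    have hA' := ih (Fin.tail δ) hA
    have hB' := ih (Fin.tail δ) hB
    refine (lam_succ R e _).2 ⟨fun n => A (n - Fin.tail δ),
      (fun n => B (n - Fin.tail δ)) + fun n => (-(δ 0)) * A (n - Fin.tail δ), hA',
      lam_add hB' (lam_mul (-(δ 0)) hA'), fun n => ?_⟩
    show F (n - δ) = _
    have ht : Fin.tail (n - δ) = Fin.tail n - Fin.tail δ := rfl
    rw [h, ht, Pi.sub_apply, hO_sub, Pi.add_apply]
    ring

end Vale.Agent.P200.V
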