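import Vale.Agent.P200.V.BrA

/-!
Variables which act as zero; the operators `Φ_e` on the lattice; the points of the blocks.
-/

namespace Vale.Agent.P200.V

open Module MvPolynomial

universe u

section drop
variable {k : Type u} [Field k] {Z Z' ι J : Type} [AddCommGroup ι] {wt : Z → ι}

theorem coeff_cmp_drop (wt : Z → ι) (sh : J → ι) (ν : ι) (f : J → MvPolynomial Z k) (j : J)
    (e : Z →₀ ℕ) (h : dg wt e + sh j = ν) : coeff e (cmp wt sh ν f j) = coeff e (f j) := by
  classical
  unfold cmp
  rw [coeff_sum]
  simp only [coeff_monomial]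
  rw [Finset.sum_ite_eq']
  split_ifs with h1
  · rfl
  · rw [Finset.mem_filter, not_and] at h1
    by_contra hne
    exact h1 (MvPolynomial.mem_support_iff.2 fun h2 => hne h2.symm) h

theorem coeff_cmp_drop' (wt : Z → ι) (sh : J → ι) (ν : ι) (f : J → MvPolynomial Z k) (j : J)
    (e : Z →₀ ℕ) (h : dg wt e + sh j ≠ ν) : coeff e (cmp wt sh ν f j) = 0 := by
  classical
  unfold cmp
  rw [coeff_sum]
  simp only [coeff_monomial]
  rw [Finset.sum_ite_eq']
  split_ifs with h1
  · rw [Finset.mem_filter] at h1
    exact absurd h1.2 h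
  · rfl

theorem dg_mapDomain_drop (i : Z' → Z) (e : Z' →₀ ℕ) :
    dg wt (e.mapDomain i) = dg (fun z => wt (i z)) e := by
  unfold dg
  rw [Finsupp.sum_mapDomain_index]
  · intro b; exact zero_smul _ _
  · intro b m n; exact add_smul _ _ _

/-- renaming of the variables in all components -/
noncomputable def rnm (k : Type u) [Field k] (J : Type) (i : Z' → Z) :
    (J → MvPolynomial Z' k) →ₗ[k] (J → MvPolynomial Z k) :=
  LinearMap.pi fun j => (rename i).toLinearMap ∘ₗ LinearMap.proj j

theorem rnm_apply (i : Z' → Z) (g : J → MvPolynomial Z' k) (j : J) :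
    rnm k J i g j = rename i (g j) := rfl

theorem rnm_inj (i : Z' → Z) (hi : Function.Injective i) :
    Function.Injective (rnm k J i) := by
  intro a b h
  funext j
  exact rename_injective i hi (congrFun h j)

theorem cmp_rnm (i : Z' → Z) (hi : Function.Injective i) (sh : J → ι) (ν : ι)
    (g : J → MvPolynomial Z' k) :
    cmp wt sh ν (rnm k J i g) = rnm k J i (cmp (fun z => wt (i z)) sh ν g) := by
  funext j
  ext d
  by_cases hd : ∃ u : Z' →₀ ℕ, u.mapDomain i = d
  · obtain ⟨u, rfl⟩ := hd
    rw [rnm_apply, coeff_rename_mapDomain i hi]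
    by_cases h : dg (fun z => wt (i z)) u + sh j = ν
    · rw [coeff_cmp_drop wt sh ν _ j _ (by rw [dg_mapDomain_drop]; exact h),
        coeff_cmp_drop _ sh ν _ j _ h, rnm_apply, coeff_rename_mapDomain i hi]
    · rw [coeff_cmp_drop' wt sh ν _ j _ (by rw [dg_mapDomain_drop]; exact h),
        coeff_cmp_drop' _ sh ν _ j _ h]
  · have h0 : ∀ p : MvPolynomial Z' k, coeff d (rename i p) = 0 := fun p =>
      coeff_rename_eq_zero i p d fun u hu => absurd ⟨u, hu⟩ hd
    rw [rnm_apply, h0]
    by_cases h : dg wt d + sh j = ν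
    · rw [coeff_cmp_drop wt sh ν _ j _ h, rnm_apply, h0]
    · rw [coeff_cmp_drop' wt sh ν _ j _ h]

theorem rnm_mem_gp (i : Z' → Z) (hi : Function.Injective i) (sh : J → ι) (ν : ι)
    (g : J → MvPolynomial Z' k) :
    rnm k J i g ∈ gp k wt sh ν ↔ g ∈ gp k (fun z => wt (i z)) sh ν := by
  constructor
  · intro h j e he
    have h1 := h j (e.mapDomain i) (by rw [rnm_apply, coeff_rename_mapDomain i hi]; exact he)
    rwa [dg_mapDomain_drop] at h1
  · intro h j e he
    rw [rnm_apply] at he
    obtain ⟨u, rfl, hu⟩ := coeff_rename_ne_zero i (g j) e he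
    rw [dg_mapDomain_drop]
    exact h j u hu

theorem sub_killCompl_mem (i : Z' → Z) (hi : Function.Injective i) (p : MvPolynomial Z k) :
    p - rename i (killCompl hi p) ∈ Ideal.span (X '' (Set.range i)ᶜ : Set (MvPolynomial Z k)) := by
  rw [mem_ideal_span_X_image]
  intro m hm
  by_contra hno
  push Not at hno
  have hsub : (↑m.support : Set Z) ⊆ Set.range i := by
    intro z hz
    by_contra hz'
    exact (Finsupp.mem_support_iff.1 hz) (hno z hz')
  have h1 := Finsupp.mapDomain_comapDomain i hi m hsub
  rw [MvPolynomial.mem_support_iff] at hm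
  apply hm
  rw [coeff_sub, ← h1, coeff_rename_mapDomain i hi, coeff_killCompl, sub_self]

theorem single_mem_of_ideal [DecidableEq J] {N : Submodule (MvPolynomial Z k) (J → MvPolynomial Z k)}
    {I : Set (MvPolynomial Z k)}
    (h : ∀ p ∈ I, ∀ j, (Pi.single j p : J → MvPolynomial Z k) ∈ N) {r : MvPolynomial Z k}
    (hr : r ∈ Ideal.span I) (j : J) : (Pi.single j r : J → MvPolynomial Z k) ∈ N := by
  have h1 : Ideal.span I ≤ N.comap (LinearMap.single (MvPolynomial Z k)
      (fun _ : J => MvPolynomial Z k) j) := by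
    unfold Ideal.span
    rw [Submodule.span_le]
    intro p hp
    exact h p hp j
  exact h1 hr

/-- the submodule over the smaller polynomial ring -/
def dropS (i : Z' → Z) (N : Submodule (MvPolynomial Z k) (J → MvPolynomial Z k)) :
    Submodule (MvPolynomial Z' k) (J → MvPolynomial Z' k) where
  carrier := {g | rnm k J i g ∈ N}
  add_mem' := by
    intro a b ha hb
    change rnm k J i (a + b) ∈ N
    rw [map_add]
    exact N.add_mem ha hb
  zero_mem' := by
    change rnm k J i 0 ∈ N
    rw [map_zero]
    exact N.zero_mem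
  smul_mem' := by
    intro c a ha
    have h1 : rnm k J i (c • a) = rename i c • rnm k J i a := by
      funext j
      rw [rnm_apply, Pi.smul_apply, Pi.smul_apply, smul_eq_mul, smul_eq_mul, map_mul, rnm_apply]
    change rnm k J i (c • a) ∈ N
    rw [h1]
    exact N.smul_mem _ ha

theorem mem_dropS (i : Z' → Z) (N : Submodule (MvPolynomial Z k) (J → MvPolynomial Z k))
    (g : J → MvPolynomial Z' k) : g ∈ dropS i N ↔ rnm k J i g ∈ N := Iff.rfl

end drop

/-- modules killed by the variables outside of the image of `i` are modules over the smaller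
polynomial ring -/
theorem Hil.drop {k : Type u} [Field k] {Z Z' ι : Type} [Fintype Z] [Fintype Z'] [AddCommGroup ι]
    {wt : Z → ι} (hwt : Pos wt) (i : Z' → Z) (hi : Function.Injective i)
    {J0 : Set (MvPolynomial Z k)} {J0' : Set (MvPolynomial Z' k)}
    (h1 : ∀ z, z ∉ Set.range i → (X z : MvPolynomial Z k) ∈ J0)
    (h2 : ∀ p ∈ J0', rename i p ∈ J0) : Hil k wt J0 ≤ Hil k (fun z => wt (i z)) J0' := by
  have hwt' : Pos (fun z => wt (i z)) := by
    obtain ⟨φ, hφ⟩ := hwt
    exact ⟨φ, fun v => hφ (i v)⟩
  unfold Hil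
  refine AddSubgroup.closure_mono ?_
  rintro f ⟨s, sh, N, hN, hJ, hf⟩
  refine ⟨s, sh, dropS i N, ?_, ?_, ?_⟩
  · intro g hg ν
    rw [mem_dropS, ← cmp_rnm i hi]
    exact hN _ hg ν
  · intro p hp j
    rw [mem_dropS]
    have h3 : rnm k (Fin s) i (Pi.single j p) = Pi.single j (rename i p) := by
      funext j'
      rw [rnm_apply]
      by_cases hj : j' = j
      · subst hj
        rw [Pi.single_eq_same, Pi.single_eq_same]
      · rw [Pi.single_eq_of_ne hj, Pi.single_eq_of_ne hj, map_zero]
    rw [h3]
    exact hJ _ (h2 p hp) j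
  · intro ν
    rw [hf ν]
    set L := rnm k (Fin s) i with hL
    have hLi : Function.Injective L := rnm_inj i hi
    set V := gp k wt sh ν with hV
    set V' := gp k (fun z => wt (i z)) sh ν with hV'
    set W := gpart wt sh N ν with hW
    set W' := gpart (fun z => wt (i z)) sh (dropS i N) ν with hW'
    have top1 : gpart wt sh (⊤ : Submodule (MvPolynomial Z k) (Fin s → MvPolynomial Z k)) ν = V := by
      unfold gpart
      rw [Submodule.restrictScalars_top, top_inf_eq]
    have top2 : gpart (fun z => wt (i z)) sh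
        (⊤ : Submodule (MvPolynomial Z' k) (Fin s → MvPolynomial Z' k)) ν = V' := by
      unfold gpart
      rw [Submodule.restrictScalars_top, top_inf_eq]
    have fV : FiniteDimensional k V := finite_gp hwt ν
    have fV' : FiniteDimensional k V' := finite_gp hwt' ν
    have fW : FiniteDimensional k W := finite_gpart hwt N ν
    have hWV : W ≤ V := inf_le_right
    have hmem : ∀ g, g ∈ V' ↔ L g ∈ V := fun g => (rnm_mem_gp i hi sh ν g).symm
    have e1 : V'.map L ⊔ W = V := by
      apply le_antisymm
      · rw [sup_le_iff]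
        refine ⟨?_, hWV⟩
        rintro _ ⟨g, hg, rfl⟩
        exact (hmem g).1 hg
      · intro v hv
        set g : Fin s → MvPolynomial Z' k := fun j => killCompl hi (v j) with hg
        have hgV : g ∈ V' := by
          intro j e he
          rw [hg] at he
          simp only [coeff_killCompl] at he
          have := hv j _ he
          rwa [dg_mapDomain_drop] at this
        have hN' : v - L g ∈ N := by
          have h4 : v - L g = ∑ j, Pi.single j (v j - rename i (killCompl hi (v j))) := by
            exact (Finset.univ_sum_single (v - L g)).symm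
          rw [h4]
          refine N.sum_mem fun j _ => ?_
          refine single_mem_of_ideal (I := X '' (Set.range i)ᶜ) ?_ (sub_killCompl_mem i hi (v j)) j
          rintro _ ⟨z, hz, rfl⟩ j'
          exact hJ _ (h1 z hz) j'
        have h5 : v - L g ∈ W := ⟨hN', V.sub_mem hv ((hmem g).1 hgV)⟩
        have h6 : v = L g + (v - L g) := by abel
        rw [h6]
        exact Submodule.add_mem_sup ⟨g, hgV, rfl⟩ h5
    have e2 : V'.map L ⊓ W = W'.map L := by
      ext v
      constructor
      · rintro ⟨⟨g, hg, rfl⟩, hgW⟩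
        exact ⟨g, ⟨hgW.1, hg⟩, rfl⟩
      · rintro ⟨g, hg, rfl⟩
        exact ⟨⟨g, hg.2, rfl⟩, ⟨hg.1, (hmem g).1 hg.2⟩⟩
    have d1 : finrank k (V'.map L) = finrank k V' :=
      (Submodule.equivMapOfInjective L hLi V').finrank_eq.symm
    have d2 : finrank k (W'.map L) = finrank k W' :=
      (Submodule.equivMapOfInjective L hLi W').finrank_eq.symm
    have d3 := Submodule.finrank_sup_add_finrank_inf_eq (V'.map L) W
    rw [e1, e2, d1, d2] at d3
    unfold hd
    rw [top1, top2]
    change (finrank k V : ℤ) - finrank k W = finrank k V' - finrank k W'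
    have d4 : (finrank k V : ℤ) + finrank k W' = finrank k V' + finrank k W := by
      exact_mod_cast d3
    linarith

end Vale.Agent.P200.V
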