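import Vale.Agent.P200.V.DStep
import Vale.Agent.P200.V.Act

/-!
The operators `Φ_e` on the lattice.
-/

namespace Vale.Agent.P200.V

open Module MvPolynomial

universe u

theorem dl_snoc {κ : ℕ} (e : Fin κ → ℕ) (m : ℕ) :
    dl (Fin.snoc (α := fun _ => ℕ) e m : Fin (κ + 1) → ℕ) = dl e * m := by
  rw [dl, Fin.prod_univ_castSucc, Fin.snoc_last, dl]
  congr 1
  refine Finset.prod_congr rfl fun i _ => ?_
  rw [Fin.snoc_castSucc]

theorem even_dl_mul {κ : ℕ} (e : Fin κ → ℕ) : Even (dl e * ∑ i, ((e i : ℤ) - 1)) := by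
  by_cases h : ∃ i, Even (e i : ℤ)
  · obtain ⟨i, hi⟩ := h
    refine Even.mul_right ?_ _
    rw [dl, ← Finset.mul_prod_erase Finset.univ (fun i => (e i : ℤ)) (Finset.mem_univ i)]
    exact Even.mul_right hi _
  · refine Even.mul_left ?_ _
    refine Finset.even_sum _ fun i _ => ?_
    have h1 : ¬ Even (e i : ℤ) := fun h2 => h ⟨i, h2⟩
    rw [Int.not_even_iff_odd] at h1
    exact h1.sub_odd odd_one

/-- `∑_(i < m) h_O (n - i)` -/
theorem hO_snoc {κ : ℕ} (e : Fin κ → ℕ) (m : ℕ) (n : ℤ) :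
    hO (Fin.snoc (α := fun _ => ℕ) e m : Fin (κ + 1) → ℕ) n =
      ∑ i ∈ Finset.range m, hO e (n - i) := by
  obtain ⟨c, hc⟩ := even_dl_mul e
  have h1 : ∀ x : ℤ, hO e x = dl e * (x + 1) - c := by
    intro x
    rw [hO, hc, ← two_mul, Int.mul_ediv_cancel_left _ two_ne_zero]
  have h2 : ∑ i, (((Fin.snoc (α := fun _ => ℕ) e m : Fin (κ + 1) → ℕ) i : ℤ) - 1) =
      (∑ i, ((e i : ℤ) - 1)) + ((m : ℤ) - 1) := by
    rw [Fin.sum_univ_castSucc, Fin.snoc_last]
    congr 1
    refine Finset.sum_congr rfl fun i _ => ?_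
    rw [Fin.snoc_castSucc]
  have h3 : ∀ k : ℕ, 2 * ∑ i ∈ Finset.range k, hO e (n - i) =
      2 * (dl e * k * (n + 1)) - (dl e * k * ((k : ℤ) - 1)) - 2 * (k * c) := by
    intro k
    induction k with
    | zero => simp
    | succ k ih =>
      rw [Finset.sum_range_succ, mul_add, ih, h1]
      push_cast
      ring
  have h4 : ∃ d : ℤ, (m : ℤ) * ((m : ℤ) - 1) = 2 * d := by
    obtain ⟨d, hd⟩ := Int.even_mul_pred_self (m : ℤ)
    exact ⟨d, by rw [hd, two_mul]⟩
  obtain ⟨d, hd⟩ := h4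
  have h5 := h3 m
  rw [hO, dl_snoc, h2]
  have h6 : dl e * m * ((∑ i, ((e i : ℤ) - 1)) + ((m : ℤ) - 1)) = 2 * (m * c + dl e * d) := by
    linear_combination (m : ℤ) * hc + dl e * hd
  rw [h6, Int.mul_ediv_cancel_left _ two_ne_zero]
  have h7 : 2 * ∑ i ∈ Finset.range m, hO e (n - i) =
      2 * (dl e * m * (n + 1) - (m * c + dl e * d)) := by
    rw [h5]
    linear_combination (- dl e) * hd
  linarith

theorem act_ph {G : Type} [AddCommGroup G] (k : ℕ) (δ : G) (f : G → ℤ) (ν : G) :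
    act G (ph k δ) f ν = ∑ i ∈ Finset.range k, f (ν - i • δ) := by
  rw [ph, map_sum, LinearMap.sum_apply, Finset.sum_apply]
  refine Finset.sum_congr rfl fun i _ => ?_
  rw [← el_nsmul, act_el]

theorem act_tail {R : ℕ} (m : Fin R → ℕ) (A : (Fin R → ℤ) → ℤ) (h : ℤ → ℤ) (s : Finset (Fin R)) :
    act (Fin (R + 1) → ℤ) (∏ g ∈ s, ph (m g) (Pi.single g.succ (1 : ℤ)))
        (fun n => A (Fin.tail n) * h (n 0)) =
      fun n => act (Fin R → ℤ) (∏ g ∈ s, ph (m g) (Pi.single g (1 : ℤ))) A (Fin.tail n) *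
        h (n 0) := by
  classical
  induction s using Finset.induction_on with
  | empty => simp
  | insert g s hg ih =>
    rw [Finset.prod_insert hg, Finset.prod_insert hg, map_mul, map_mul, Module.End.mul_apply,
      Module.End.mul_apply, ih]
    funext n
    rw [act_ph, act_ph, Finset.sum_mul]
    refine Finset.sum_congr rfl fun i _ => ?_
    have h1 : Fin.tail (n - i • (Pi.single g.succ (1 : ℤ) : Fin (R + 1) → ℤ)) =
        Fin.tail n - i • (Pi.single g (1 : ℤ) : Fin R → ℤ) := by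
      funext j
      simp only [Fin.tail, Pi.sub_apply, Pi.smul_apply]
      congr 2
      by_cases hj : j = g
      · subst hj
        rw [Pi.single_eq_same, Pi.single_eq_same]
      · rw [Pi.single_eq_of_ne hj, Pi.single_eq_of_ne fun h => hj (Fin.succ_injective _ h)]
    have h2 : (n - i • (Pi.single g.succ (1 : ℤ) : Fin (R + 1) → ℤ)) 0 = n 0 := by
      rw [Pi.sub_apply, Pi.smul_apply, Pi.single_eq_of_ne (Fin.succ_ne_zero g).symm, smul_zero,
        sub_zero]
    rw [h1, h2]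

/-- the operators `Φ_m` in the blocks of `C` -/
theorem lam_ph {κ R : ℕ} {e : Fin R → Fin κ → ℕ} {F : (Fin R → ℤ) → ℤ} (hF : Lam R e F)
    (m : Fin R → ℕ) :
    Lam R (fun g => (Fin.snoc (α := fun _ => ℕ) (e g) (m g) : Fin (κ + 1) → ℕ))
      (act (Fin R → ℤ) (∏ g, ph (m g) (Pi.single g (1 : ℤ))) F) := by
  induction R with
  | zero =>
    rw [lam_zero]
    trivial
  | succ R ih =>
    rw [lam_succ] at hF
    obtain ⟨A, B, hA, hB, hF⟩ := hF
    rw [lam_succ]
    refine ⟨_, _, ih hA (Fin.tail m), ih hB (Fin.tail m), ?_⟩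
    intro n
    have h1 : F = (fun n => A (Fin.tail n) * hO (e 0) (n 0)) +
        fun n => B (Fin.tail n) * (fun _ : ℤ => dl (e 0)) (n 0) := by
      funext n
      exact hF n
    have hp : ∏ i : Fin R, ph (m i.succ) (Pi.single i.succ (1 : ℤ) : Fin (R + 1) → ℤ) =
        ∏ i : Fin R, ph (Fin.tail m i) (Pi.single i.succ (1 : ℤ) : Fin (R + 1) → ℤ) := rfl
    rw [Fin.prod_univ_succ, hp, map_mul, Module.End.mul_apply, h1, map_add,
      act_tail (Fin.tail m) A (hO (e 0)) Finset.univ,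
      act_tail (Fin.tail m) B (fun _ => dl (e 0)) Finset.univ, act_ph]
    have h2 : ∀ i : ℕ, Fin.tail (n - i • (Pi.single 0 (1 : ℤ) : Fin (R + 1) → ℤ)) =
        Fin.tail n := by
      intro i
      funext j
      simp only [Fin.tail, Pi.sub_apply, Pi.smul_apply]
      rw [Pi.single_eq_of_ne (Fin.succ_ne_zero j), smul_zero, sub_zero]
    have h3 : ∀ i : ℕ, (n - i • (Pi.single 0 (1 : ℤ) : Fin (R + 1) → ℤ)) 0 = n 0 - i := by
      intro i
      rw [Pi.sub_apply, Pi.smul_apply, Pi.single_eq_same, nsmul_eq_mul, mul_one]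
    simp only [Pi.add_apply, h2, h3]
    rw [Finset.sum_add_distrib, ← Finset.mul_sum, Finset.sum_const, Finset.card_range, nsmul_eq_mul]
    rw [hO_snoc, dl_snoc]
    ring

end Vale.Agent.P200.V
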