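import Vale.Agent.P200.V.DStep

/-!
Points of the blocks.
-/

namespace Vale.Agent.P200.V

open Module MvPolynomial

universe u

private theorem bre_aeval_congr {K : Type u} [Field K] {n : ℕ} {Ω : Type u} [Field Ω] [Algebra K Ω]
    (p : MvPolynomial (Fin n) K) (g h : Fin n → Ω) (H : ∀ j ∈ p.vars, g j = h j) :
    aeval g p = aeval h p :=
  eval₂Hom_congr' rfl (fun j hj _ => H j hj) rfl

private theorem bre_rel {K : Type u} [Field K] {κ : ℕ} (β : Blk K κ) {Ω : Type u} [Field Ω]
    [Algebra K Ω] (pt : Fin (κ + 2) → Ω) (i : Fin κ) :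
    aeval pt (β.rel i) = 0 ↔ pt i.succ.succ ^ β.e i = aeval pt (β.Phi i) := by
  rw [Blk.rel, map_sub, map_pow, aeval_X, sub_eq_zero]

/-- a point of a block with `x = y = 0` is zero -/
theorem blk_point_zero {K : Type u} [Field K] {κ : ℕ} (β : Blk K κ) {Ω : Type u} [Field Ω]
    [Algebra K Ω] (pt : Fin (κ + 2) → Ω) (h : ∀ i, aeval pt (β.rel i) = 0) (h0 : pt 0 = 0)
    (h1 : pt 1 = 0) : pt = 0 := by
  have key : ∀ n : ℕ, ∀ j : Fin (κ + 2), (j : ℕ) < n → pt j = 0 := by
    intro n
    induction n with
    | zero => intro j hj; exact absurd hj (Nat.not_lt_zero _)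
    | succ n ih =>
      intro j hj
      induction j using Fin.cases with
      | zero => exact h0
      | succ j =>
        induction j using Fin.cases with
        | zero => exact h1
        | succ i =>
          have hi := (bre_rel β pt i).1 (h i)
          have h2 : aeval pt (β.Phi i) = aeval (0 : Fin (κ + 2) → Ω) (β.Phi i) := by
            refine bre_aeval_congr _ _ _ fun j hj' => ?_
            refine ih j ?_
            have := β.tri i j hj'
            rw [Fin.val_succ, Fin.val_succ] at hj
            omega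
          have h3 : aeval (0 : Fin (κ + 2) → Ω) (β.Phi i) = 0 := by
            have h4 : constantCoeff (β.Phi i) = 0 := by
              rw [constantCoeff_eq]
              by_contra h5
              have h6 := (β.hom i) h5
              rw [map_zero] at h6
              exact (β.e_pos i).ne h6
            rw [aeval_zero, h4, map_zero]
          rw [h2, h3] at hi
          exact eq_zero_of_pow_eq_zero hi
  funext j
  exact key (κ + 2) j j.2

/-- every block has a point over an algebraically closed field -/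
theorem blk_exists_point {K : Type u} [Field K] {κ : ℕ} (β : Blk K κ) {Ω : Type u} [Field Ω]
    [IsAlgClosed Ω] [Algebra K Ω] (a b : Ω) : ∃ pt : Fin (κ + 2) → Ω,
      (∀ i, aeval pt (β.rel i) = 0) ∧ pt 0 = a ∧ pt 1 = b := by
  classical
  have key : ∀ m : ℕ, ∃ pt : Fin (κ + 2) → Ω,
      (∀ i : Fin κ, (i : ℕ) < m → aeval pt (β.rel i) = 0) ∧ pt 0 = a ∧ pt 1 = b := by
    intro m
    induction m with
    | zero =>
      refine ⟨Fin.cons a fun _ => b, fun i hi => absurd hi (Nat.not_lt_zero _), rfl, rfl⟩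
    | succ m ih =>
      obtain ⟨pt, h1, h2, h3⟩ := ih
      by_cases hm : m < κ
      · obtain ⟨z, hz⟩ := IsAlgClosed.exists_pow_nat_eq (aeval pt (β.Phi ⟨m, hm⟩)) (β.e_pos ⟨m, hm⟩)
        have hvar : ∀ i : Fin κ, (i : ℕ) ≤ m →
            aeval (Function.update pt (⟨m, hm⟩ : Fin κ).succ.succ z) (β.Phi i) = aeval pt (β.Phi i) := by
          intro i hi
          refine bre_aeval_congr _ _ _ fun j hj => ?_
          have := β.tri i j hj
          rw [Function.update_of_ne]
          intro hc
          have hc' := congrArg Fin.val hc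
          rw [Fin.val_succ, Fin.val_succ] at hc'
          simp only at hc'
          omega
        refine ⟨Function.update pt (⟨m, hm⟩ : Fin κ).succ.succ z, fun i hi => ?_, ?_, ?_⟩
        · rw [bre_rel, hvar i (by omega)]
          by_cases hi' : (i : ℕ) = m
          · have : i = ⟨m, hm⟩ := Fin.ext hi'
            subst this
            rw [Function.update_self, hz]
          · rw [Function.update_of_ne]
            · exact (bre_rel β pt i).1 (h1 i (by omega))
            · intro hc
              have hc' := congrArg Fin.val hc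
              simp only [Fin.val_succ] at hc'
              omega
        · rw [Function.update_of_ne, h2]
          intro hc
          have hc' := congrArg Fin.val hc
          simp at hc'
        · rw [Function.update_of_ne, h3]
          intro hc
          have hc' := congrArg Fin.val hc
          simp at hc'
      · exact ⟨pt, fun i _ => h1 i (by have := i.2; omega), h2, h3⟩
  obtain ⟨pt, h1, h2, h3⟩ := key κ
  exact ⟨pt, fun i => h1 i i.2, h2, h3⟩

/-- the hypothesis of the level lemma for a subset of the blocks -/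
theorem ind_sub {K : Type u} [Field K] {κ R : ℕ} (β : Fin R → Blk K κ) {ι : Type} [Fintype ι]
    (C : Fin R → Prop) (a : Fin R → ι → MvPolynomial (Fin (κ + 2)) K)
    (hI : ∀ (Ω : Type u) [Field Ω] [IsAlgClosed Ω] [Algebra K Ω] (pt : Fin R → Fin (κ + 2) → Ω),
        (∀ g i, aeval (pt g) ((β g).rel i) = 0) → (∀ g, pt g 0 ≠ 0 ∨ pt g 1 ≠ 0) →
        ∀ c : Fin R → Ω, (∀ g, ¬ C g → c g = 0) →
          (∀ j, ∑ g, c g * aeval (pt g) (a g j) = 0) → ∀ g, c g = 0)
    {R' : ℕ} (σ : Fin R' → Fin R) (hσ : Function.Injective σ) :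
    ∀ (Ω : Type u) [Field Ω] [IsAlgClosed Ω] [Algebra K Ω] (pt : Fin R' → Fin (κ + 2) → Ω),
        (∀ g i, aeval (pt g) ((β (σ g)).rel i) = 0) → (∀ g, pt g 0 ≠ 0 ∨ pt g 1 ≠ 0) →
        ∀ c : Fin R' → Ω, (∀ g, ¬ C (σ g) → c g = 0) →
          (∀ j, ∑ g, c g * aeval (pt g) (a (σ g) j) = 0) → ∀ g, c g = 0 := by
  classical
  intro Ω _ _ _ pt h1 h2 c h3 h4 g0
  choose q hq1 hq2 _ using fun g : Fin R => blk_exists_point (β g) (1 : Ω) (1 : Ω)
  set pt' : Fin R → Fin (κ + 2) → Ω := fun g => Function.extend σ pt q g with hpt'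
  set c' : Fin R → Ω := Function.extend σ c (0 : Fin R → Ω) with hc'
  have e1 : ∀ g, pt' (σ g) = pt g := fun g => hσ.extend_apply pt q g
  have e2 : ∀ g, c' (σ g) = c g := fun g => hσ.extend_apply c (0 : Fin R → Ω) g
  have e3 : ∀ g, (¬ ∃ g', σ g' = g) → pt' g = q g := fun g hg => Function.extend_apply' pt q g hg
  have e4 : ∀ g, (¬ ∃ g', σ g' = g) → c' g = 0 := fun g hg => Function.extend_apply' c (0 : Fin R → Ω) g hg
  have h5 := hI Ω pt' ?_ ?_ c' ?_ ?_ (σ g0)
  · rw [← e2, h5]
  · intro g i
    by_cases hg : ∃ g', σ g' = g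
    · obtain ⟨g', rfl⟩ := hg
      rw [e1]
      exact h1 g' i
    · rw [e3 g hg]
      exact hq1 g i
  · intro g
    by_cases hg : ∃ g', σ g' = g
    · obtain ⟨g', rfl⟩ := hg
      rw [e1]
      exact h2 g'
    · rw [e3 g hg, hq2 g]
      exact Or.inl one_ne_zero
  · intro g hg0
    by_cases hg : ∃ g', σ g' = g
    · obtain ⟨g', rfl⟩ := hg
      rw [e2]
      exact h3 g' hg0
    · exact e4 g hg
  · intro j
    rw [← h4 j]
    symm
    refine Fintype.sum_of_injective σ hσ _ _ (fun g hg => ?_) (fun g => ?_)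
    · rw [e4 g fun ⟨g', hg'⟩ => hg ⟨g', hg'⟩, zero_mul]
    · rw [e1, e2]

end Vale.Agent.P200.V
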