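import Vale.Agent.P200.M.Compound

/-!
The Koszul complexes of the variables and of commuting forms: bijection from the matrices `Φ`.
-/

namespace Vale.Agent.P200.V

open MvPolynomial Module
open Vale.Agent.P200.M

section mat
variable {D : Type*} [DivisionRing D] {n : ℕ}

/-- right multiplication by the matrix `P` -/
noncomputable def mz (P : Finset (Fin n) → Finset (Fin n) → D) (c : Finset (Fin n) → YR D n) :
    Finset (Fin n) → YR D n := fun t => ∑ s, c s * AddMonoidAlgebra.single 0 (P s t)

theorem mz_apply (P : Finset (Fin n) → Finset (Fin n) → D) (c : Finset (Fin n) → YR D n)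
    (t : Finset (Fin n)) : mz P c t = ∑ s, c s * AddMonoidAlgebra.single 0 (P s t) := rfl

/-- `mz` as a `D`-linear map -/
noncomputable def mzL (P : Finset (Fin n) → Finset (Fin n) → D) :
    (Finset (Fin n) → YR D n) →ₗ[D] (Finset (Fin n) → YR D n) where
  toFun := mz P
  map_add' a b := by
    funext t
    rw [Pi.add_apply, mz_apply, mz_apply, mz_apply, ← Finset.sum_add_distrib]
    refine Finset.sum_congr rfl fun s _ => ?_
    rw [Pi.add_apply, add_mul]
  map_smul' k a := by
    funext t
    rw [RingHom.id_apply, Pi.smul_apply, mz_apply, mz_apply, Finset.smul_sum]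
    refine Finset.sum_congr rfl fun s _ => ?_
    rw [Pi.smul_apply, smul_mul_assoc]

theorem mzL_apply (P : Finset (Fin n) → Finset (Fin n) → D) (c : Finset (Fin n) → YR D n) :
    mzL P c = mz P c := rfl

theorem mz_card {P : Finset (Fin n) → Finset (Fin n) → D}
    (hP : ∀ s t, s.card ≠ t.card → P s t = 0) {c : Finset (Fin n) → YR D n} {p : ℕ}
    (hc : ∀ s, s.card ≠ p → c s = 0) (t : Finset (Fin n)) (ht : t.card ≠ p) : mz P c t = 0 := by
  rw [mz_apply]
  refine Finset.sum_eq_zero fun s _ => ?_
  by_cases hs : s.card = p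
  · rw [hP s t fun h => ht (h ▸ hs), AddMonoidAlgebra.single_zero, mul_zero]
  · rw [hc s hs, zero_mul]

theorem mz_mem (P : Finset (Fin n) → Finset (Fin n) → D) {W : Submodule D (YR D n)}
    (hW : ∀ u ∈ W, ∀ c : D, u * AddMonoidAlgebra.single 0 c ∈ W)
    {c : Finset (Fin n) → YR D n} (hc : ∀ s, c s ∈ W) (t : Finset (Fin n)) : mz P c t ∈ W := by
  rw [mz_apply]
  exact W.sum_mem fun s _ => hW _ (hc s) _

/-- the identity for the linear forms -/
theorem lin_key (E : Fin n → Fin n → D) (P : Finset (Fin n) → Finset (Fin n) → D)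
    (hP : ∀ s t k, ∑ i ∈ s, ((-1 : ℤ) ^ ((s.erase i).filter (fun j => j < i)).card) •
      (E i k * P (s.erase i) t) =
      if k ∈ t then 0 else ((-1 : ℤ) ^ (t.filter (fun j => j < k)).card) • P s (insert k t))
    (s t : Finset (Fin n)) :
    ∑ i ∈ s, ((-1 : ℤ) ^ ((s.erase i).filter (fun j => j < i)).card) •
      (M.lin (E i) * AddMonoidAlgebra.single 0 (P (s.erase i) t)) =
    ∑ k ∈ tᶜ, ((-1 : ℤ) ^ (t.filter (fun j => j < k)).card) •
      ((AddMonoidAlgebra.single 0 (P s (insert k t)) : YR D n) * zv D n k) := by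
  classical
  have h1 : ∀ i, M.lin (E i) * AddMonoidAlgebra.single 0 (P (s.erase i) t) =
      ∑ k, (AddMonoidAlgebra.single (Finsupp.single k 1) (E i k * P (s.erase i) t) : YR D n) := by
    intro i
    rw [M.lin, Finset.sum_mul]
    refine Finset.sum_congr rfl fun k _ => ?_
    rw [AddMonoidAlgebra.single_mul_single, add_zero]
  have h2 : ∀ k, ((AddMonoidAlgebra.single 0 (P s (insert k t)) : YR D n) * zv D n k) =
      AddMonoidAlgebra.single (Finsupp.single k 1) (P s (insert k t)) := by
    intro k
    rw [zv, AddMonoidAlgebra.single_mul_single, zero_add, mul_one]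
  simp only [h1, h2, Finset.smul_sum]
  rw [Finset.sum_comm]
  have h3 : ∀ k, ∑ i ∈ s, ((-1 : ℤ) ^ ((s.erase i).filter (fun j => j < i)).card) •
      (AddMonoidAlgebra.single (Finsupp.single k 1) (E i k * P (s.erase i) t) : YR D n) =
      AddMonoidAlgebra.single (Finsupp.single k 1) (if k ∈ t then 0 else
        ((-1 : ℤ) ^ (t.filter (fun j => j < k)).card) • P s (insert k t)) := by
    intro k
    rw [← hP s t k]
    have h4 := map_sum (AddMonoidAlgebra.singleAddHom (R := D) (Finsupp.single k 1 : Fin n →₀ ℕ))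
      (fun i => ((-1 : ℤ) ^ ((s.erase i).filter (fun j => j < i)).card) •
      (E i k * P (s.erase i) t)) s
    simp only [map_zsmul] at h4
    exact h4.symm
  rw [Finset.sum_congr rfl fun k _ => h3 k, ← Finset.sum_compl_add_sum t, add_comm,
    Finset.sum_eq_zero, zero_add]
  · refine Finset.sum_congr rfl fun k hk => ?_
    rw [if_neg (Finset.mem_compl.1 hk)]
    exact map_zsmul (AddMonoidAlgebra.singleAddHom (R := D) (Finsupp.single k 1 : Fin n →₀ ℕ)) _ _
  · intro k hk
    rw [if_pos hk, AddMonoidAlgebra.single_zero]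

/-- reindexing -/
theorem cb_reindex {M : Type*} [AddCommMonoid M] (F : Finset (Fin n) → Fin n → M) :
    ∑ s' : Finset (Fin n), ∑ i ∈ s'ᶜ, F s' i = ∑ s : Finset (Fin n), ∑ i ∈ s, F (s.erase i) i := by
  classical
  rw [Finset.sum_sigma', Finset.sum_sigma']
  refine Finset.sum_bij' (fun a _ => ⟨insert a.2 a.1, a.2⟩) (fun a _ => ⟨a.1.erase a.2, a.2⟩)
    ?_ ?_ ?_ ?_ ?_
  · rintro ⟨I, i⟩ h
    simp
  · rintro ⟨I, i⟩ h
    simp
  · rintro ⟨I, i⟩ h
    have hi : i ∉ I := by simpa using h
    simp [Finset.erase_insert hi]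
  · rintro ⟨I, i⟩ h
    have hi : i ∈ I := by simpa using h
    simp [Finset.insert_erase hi]
  · rintro ⟨I, i⟩ h
    have hi : i ∉ I := by simpa using h
    simp [Finset.erase_insert hi]

/-- the chain map -/
theorem mz_chain (E : Fin n → Fin n → D) (P : Finset (Fin n) → Finset (Fin n) → D)
    (hP : ∀ s t k, ∑ i ∈ s, ((-1 : ℤ) ^ ((s.erase i).filter (fun j => j < i)).card) •
      (E i k * P (s.erase i) t) =
      if k ∈ t then 0 else ((-1 : ℤ) ^ (t.filter (fun j => j < k)).card) • P s (insert k t))
    (c : Finset (Fin n) → YR D n) :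
    kr (zv D n) (mz P c) = mz P (kr (fun i => M.lin (E i)) c) := by
  classical
  funext t
  have h1 : mz P (kr (fun i => M.lin (E i)) c) t = ∑ s : Finset (Fin n), ∑ i ∈ sᶜ,
      ((-1 : ℤ) ^ (s.filter fun k => k < i).card) •
        (c (insert i s) * (M.lin (E i) * AddMonoidAlgebra.single 0 (P s t))) := by
    rw [mz_apply]
    refine Finset.sum_congr rfl fun s _ => ?_
    rw [cp_kr, Finset.sum_mul]
    refine Finset.sum_congr rfl fun i _ => ?_
    rw [smul_mul_assoc, mul_assoc]
  rw [h1, cb_reindex, cp_kr]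
  have h2 : ∀ s : Finset (Fin n), ∑ i ∈ s, ((-1 : ℤ) ^ ((s.erase i).filter fun k => k < i).card) •
        (c (insert i (s.erase i)) * (M.lin (E i) * AddMonoidAlgebra.single 0 (P (s.erase i) t))) =
      ∑ k ∈ tᶜ, ((-1 : ℤ) ^ (t.filter (fun j => j < k)).card) •
      (c s * (AddMonoidAlgebra.single 0 (P s (insert k t)) : YR D n) * zv D n k) := by
    intro s
    have h3 := congrArg (fun x => c s * x) (lin_key E P hP s t)
    simp only [Finset.mul_sum, mul_smul_comm] at h3
    refine Eq.trans (Finset.sum_congr rfl fun i hi => ?_) (h3.trans ?_)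
    · rw [Finset.insert_erase hi]
    · refine Finset.sum_congr rfl fun k _ => ?_
      rw [mul_assoc]
  rw [Finset.sum_congr rfl fun s _ => h2 s, Finset.sum_comm]
  refine Finset.sum_congr rfl fun k _ => ?_
  rw [mz_apply, Finset.sum_mul, Finset.smul_sum]

/-- injectivity on constants -/
theorem mz_inj_const (E : Fin n → Fin n → D) (P : Finset (Fin n) → Finset (Fin n) → D)
    (hP1 : P ∅ ∅ = 1)
    (hP : ∀ s t k, ∑ i ∈ s, ((-1 : ℤ) ^ ((s.erase i).filter (fun j => j < i)).card) •
      (E i k * P (s.erase i) t) =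
      if k ∈ t then 0 else ((-1 : ℤ) ^ (t.filter (fun j => j < k)).card) • P s (insert k t))
    (hind : LinearIndependent D E) (p : ℕ) :
    ∀ c : Finset (Fin n) → D, (∀ s, s.card ≠ p → c s = 0) → (∀ t, ∑ s, c s * P s t = 0) →
      c = 0 := by
  classical
  induction p with
  | zero =>
    intro c hc h
    have h1 := h ∅
    rw [Finset.sum_eq_single ∅, hP1, mul_one] at h1
    · funext s
      by_cases hs : s = ∅
      · rw [hs, h1, Pi.zero_apply]
      · exact hc s (by simpa using hs)
    · intro I _ hI
      rw [hc I (by simpa using hI), zero_mul]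
    · simp
  | succ p ih =>
    intro c hc h
    have h1 : ∀ k : Fin n, kr (fun i => E i k) c = 0 := by
      intro k
      apply ih
      · intro s hs
        rw [cp_kr]
        refine Finset.sum_eq_zero fun i hi => ?_
        rw [hc, zero_mul, smul_zero]
        rw [Finset.card_insert_of_notMem (Finset.mem_compl.1 hi)]
        omega
      · intro t
        have h2 : ∑ s, kr (fun i => E i k) c s * P s t = ∑ s : Finset (Fin n), ∑ i ∈ sᶜ,
            ((-1 : ℤ) ^ (s.filter fun k => k < i).card) •
              (c (insert i s) * (E i k * P s t)) := by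
          refine Finset.sum_congr rfl fun s _ => ?_
          rw [cp_kr, Finset.sum_mul]
          refine Finset.sum_congr rfl fun i _ => ?_
          rw [smul_mul_assoc, mul_assoc]
        rw [h2, cb_reindex]
        have h3 : ∀ s : Finset (Fin n), ∑ i ∈ s,
            ((-1 : ℤ) ^ ((s.erase i).filter fun k => k < i).card) •
              (c (insert i (s.erase i)) * (E i k * P (s.erase i) t)) =
            if k ∈ t then 0 else ((-1 : ℤ) ^ (t.filter (fun j => j < k)).card) •
              (c s * P s (insert k t)) := by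
          intro s
          have h4 := congrArg (fun x => c s * x) (hP s t k)
          simp only [Finset.mul_sum, mul_smul_comm, mul_ite, mul_zero] at h4
          refine Eq.trans (Finset.sum_congr rfl fun i hi => ?_) h4
          rw [Finset.insert_erase hi]
        rw [Finset.sum_congr rfl fun s _ => h3 s]
        by_cases hk : k ∈ t
        · simp [hk]
        · simp only [hk, if_false]
          rw [← Finset.smul_sum, h, smul_zero]
    funext s
    by_cases hs : s.card = p + 1
    · obtain ⟨i₀, hi₀⟩ : s.Nonempty := Finset.card_pos.1 (by omega)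
      have hi₁ : i₀ ∉ s.erase i₀ := Finset.notMem_erase _ _
      have h4 : ∑ i, (if i ∈ s.erase i₀ then (0 : D) else
          ((-1 : ℤ) ^ ((s.erase i₀).filter fun k => k < i).card) • c (insert i (s.erase i₀))) •
          E i = 0 := by
        funext k
        rw [Finset.sum_apply, Pi.zero_apply]
        have h5 := congrFun (h1 k) (s.erase i₀)
        rw [cp_kr, Pi.zero_apply] at h5
        refine Eq.trans ?_ h5
        rw [← Finset.sum_compl_add_sum (s.erase i₀)]
        rw [Finset.sum_eq_zero (s := s.erase i₀)]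
        · rw [add_zero]
          refine Finset.sum_congr rfl fun i hi => ?_
          rw [if_neg (Finset.mem_compl.1 hi), Pi.smul_apply, smul_eq_mul, smul_mul_assoc]
        · intro i hi
          rw [if_pos hi, zero_smul, Pi.zero_apply]
      have h6 := (Fintype.linearIndependent_iff.1 hind) _ h4 i₀
      rw [if_neg hi₁, Finset.insert_erase hi₀] at h6
      rcases neg_one_pow_eq_or ℤ ((s.erase i₀).filter fun k => k < i₀).card with h7 | h7
      · rw [h7, one_smul] at h6
        exact h6
      · rw [h7, neg_one_smul, neg_eq_zero] at h6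
        exact h6
    · exact hc s hs

/-- injectivity -/
theorem mz_inj (E : Fin n → Fin n → D) (P : Finset (Fin n) → Finset (Fin n) → D)
    (hP1 : P ∅ ∅ = 1)
    (hP : ∀ s t k, ∑ i ∈ s, ((-1 : ℤ) ^ ((s.erase i).filter (fun j => j < i)).card) •
      (E i k * P (s.erase i) t) =
      if k ∈ t then 0 else ((-1 : ℤ) ^ (t.filter (fun j => j < k)).card) • P s (insert k t))
    (hind : LinearIndependent D E) (p : ℕ) (c : Finset (Fin n) → YR D n)
    (hc : ∀ s, s.card ≠ p → c s = 0) (h : mz P c = 0) : c = 0 := by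
  funext s
  ext m
  have h1 : (fun t => (c t).coeff m) = 0 := by
    apply mz_inj_const E P hP1 hP hind p
    · intro t ht
      rw [hc t ht, AddMonoidAlgebra.coeff_zero, Finsupp.zero_apply]
    · intro t
      have h2 := congrArg (fun u : YR D n => u.coeff m) (congrFun h t)
      simp only [mz_apply, Pi.zero_apply, AddMonoidAlgebra.coeff_zero, Finsupp.zero_apply] at h2
      let φ : YR D n →+ D := AddMonoidHom.mk' (fun u => u.coeff m) (fun u v => by
        rw [AddMonoidAlgebra.coeff_add, Finsupp.add_apply])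
      have h3 := map_sum φ (fun s => c s * AddMonoidAlgebra.single 0 (P s t)) Finset.univ
      have h4 : ∀ s, φ (c s * AddMonoidAlgebra.single 0 (P s t)) = (c s).coeff m * P s t :=
        fun s => coeff_mul_single_zero _ _ _
      rw [Finset.sum_congr rfl fun s _ => h4 s] at h3
      rw [← h3]
      exact h2
  exact congrFun h1 s

/-- the bijection -/
theorem compound_of_phi (E : Fin n → Fin n → D) (P : Finset (Fin n) → Finset (Fin n) → D)
    (hP1 : P ∅ ∅ = 1) (hP0 : ∀ s t, s.card ≠ t.card → P s t = 0)
    (hP : ∀ s t k, ∑ i ∈ s, ((-1 : ℤ) ^ ((s.erase i).filter (fun j => j < i)).card) •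
      (E i k * P (s.erase i) t) =
      if k ∈ t then 0 else ((-1 : ℤ) ^ (t.filter (fun j => j < k)).card) • P s (insert k t))
    (hind : LinearIndependent D E) {d p : ℕ} (V : Submodule D (M.YR D n))
    (hV : V ≤ M.YD D n (d + 1))
    (hVr : ∀ u ∈ V, ∀ c : D, u * AddMonoidAlgebra.single 0 c ∈ V) :
    finrank D (M.rd (M.zv D n) V (M.YD D n d) p) =
      finrank D (M.rd (fun i => M.lin (E i)) V (M.YD D n d) p) := by
  classical
  rcases p with _ | q
  · rw [rd_zero, rd_zero]
  have hchain := mz_chain E P hP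
  have hinj := fun (r : ℕ) (c : Finset (Fin n) → YR D n) => mz_inj E P hP1 hP hind r c
  -- surjectivity
  have hsurj : ∀ (r : ℕ) (W : Submodule D (YR D n)) [Module.Finite D W],
      (∀ u ∈ W, ∀ a : D, u * AddMonoidAlgebra.single 0 a ∈ W) → ∀ c ∈ chD n r W,
        ∃ c' ∈ chD n r W, mz P c' = c := by
    intro r W _ hW c hc
    have := finite_chD r W
    let g : chD n r W →ₗ[D] chD n r W := (mzL P).restrict fun c hc =>
      ⟨fun s hs => mz_card hP0 hc.1 s hs, fun s => mz_mem P hW hc.2 s⟩
    have hg : Function.Injective g := by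
      rw [← LinearMap.ker_eq_bot, LinearMap.ker_eq_bot']
      intro c hc
      apply Subtype.ext
      exact hinj r c.1 c.2.1 (congrArg Subtype.val hc)
    obtain ⟨c', hc'⟩ := (LinearMap.injective_iff_surjective.1 hg) ⟨c, hc⟩
    exact ⟨c'.1, c'.2, congrArg Subtype.val hc'⟩
  have hYA : ∀ u ∈ YD D n d, ∀ a : D, u * AddMonoidAlgebra.single 0 a ∈ YD D n d := by
    intro u hu a m hm
    refine hu m fun h => hm ?_
    rw [coeff_mul_single_zero, h, zero_mul]
  have hfV : Module.Finite D V := by
    have := finite_YD (D := D) (n := n) (d + 1)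
    exact Module.Finite.of_injective (Submodule.inclusion hV) (Submodule.inclusion_injective hV)
  have hmap : (rd (fun i => M.lin (E i)) V (YD D n d) (q + 1)).map (mzL P) =
      rd (zv D n) V (YD D n d) (q + 1) := by
    ext c
    rw [Submodule.mem_map]
    constructor
    · rintro ⟨c, hc, rfl⟩
      rw [mzL_apply, mem_rd]
      refine ⟨⟨fun s hs => mz_card hP0 hc.1.1 s hs, fun s => mz_mem P hYA hc.1.2 s⟩, ?_⟩
      intro t
      rw [hchain]
      exact mz_mem P hVr hc.2 t
    · intro hc
      obtain ⟨c', hc', rfl⟩ := hsurj (q + 1) (YD D n d) hYA c hc.1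
      refine ⟨c', ⟨hc', ?_⟩, rfl⟩
      have h1 : kr (zv D n) (mz P c') ∈ chD n q V :=
        ⟨fun t ht => kr_card _ hc.1.1 t ht, hc.2⟩
      obtain ⟨w, hw, hw'⟩ := hsurj q V hVr _ h1
      rw [hchain] at hw'
      have h2 : kr (fun i => M.lin (E i)) c' - w = 0 := by
        apply hinj q
        · intro s hs
          rw [Pi.sub_apply, kr_card _ hc'.1 s hs, hw.1 s hs, sub_zero]
        · have h3 : mz P (kr (fun i => M.lin (E i)) c' - w) =
              mz P (kr (fun i => M.lin (E i)) c') - mz P w := map_sub (mzL P) _ _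
          rw [h3, hw', sub_self]
      rw [sub_eq_zero] at h2
      rw [h2]
      exact hw.2
  rw [← hmap, ← LinearMap.range_domRestrict]
  refine LinearMap.finrank_range_of_inj ?_
  rw [← LinearMap.ker_eq_bot, LinearMap.ker_eq_bot']
  intro c hc
  apply Subtype.ext
  exact hinj (q + 1) c.1 c.2.1.1 hc

end mat

end Vale.Agent.P200.V
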