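import Vale.Agent.P200.V.CmpdA
import Vale.Agent.P200.V.CmpdB

/-!
The Koszul complexes of the variables and of commuting forms `ξ_i = ∑ E_ik z_k` (commuting as elements of
`D[z_1, …, z_n]`, not coefficientwise) are isomorphic.
-/

namespace Vale.Agent.P200.V

open MvPolynomial Module
open Vale.Agent.P200.M

/-- The Koszul complexes of `z` and of the `ξ_i = ∑ E_ik z_k` are isomorphic. -/
theorem compound_comm {D : Type*} [DivisionRing D] {n : ℕ} (E : Fin n → Fin n → D)
    (hcomm : ∀ i j, M.lin (E i) * M.lin (E j) = M.lin (E j) * M.lin (E i))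
    (hind : LinearIndependent D E) {d p : ℕ} (V : Submodule D (M.YR D n))
    (hV : V ≤ M.YD D n (d + 1))
    (hVr : ∀ u ∈ V, ∀ c : D, u * AddMonoidAlgebra.single 0 c ∈ V) :
    finrank D (M.rd (M.zv D n) V (M.YD D n d) p) =
      finrank D (M.rd (fun i => M.lin (E i)) V (M.YD D n d) p) := by
  obtain ⟨P, hP1, hP0, hP⟩ := qa_exists_phi hcomm
  exact compound_of_phi E P hP1 hP0 hP hind V hV hVr

end Vale.Agent.P200.V
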