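import Vale.Agent.P200.M.Defs

/-!
The matrices of the isomorphism between the Koszul complexes of the variables and of commuting
forms `ξ_i = ∑ E_ik z_k`: existence of `Φ`.

`qaT E k f s = ∑_(i ∈ s) ± E_ik f(s - i)`.  Since the `ξ_i` commute, `T_k T_l = - T_l T_k` and
`T_k T_k = 0`; `Φ(·, {k_1 < … < k_p}) = T_(k_1) … T_(k_p) δ`.
-/

namespace Vale.Agent.P200.V

open Module
open Vale.Agent.P200.M

section sgn
variable {n : ℕ}

/-- the number of the elements of `s` before `i` -/
def qaP (s : Finset (Fin n)) (i : Fin n) : ℕ := (s.filter fun j => j < i).card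

theorem qaP_erase_lt {s : Finset (Fin n)} {i j : Fin n} (hi : i ∈ s) (h : i < j) :
    qaP s j = qaP (s.erase i) j + 1 := by
  have h1 : s.filter (fun k => k < j) = insert i ((s.erase i).filter fun k => k < j) := by
    ext k
    simp only [Finset.mem_filter, Finset.mem_erase, Finset.mem_insert]
    constructor
    · rintro ⟨h5, h6⟩
      by_cases hki : k = i
      · exact Or.inl hki
      · exact Or.inr ⟨⟨hki, h5⟩, h6⟩
    · rintro (rfl | ⟨⟨_, h5⟩, h6⟩)
      · exact ⟨hi, h⟩
      · exact ⟨h5, h6⟩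
  unfold qaP
  rw [h1, Finset.card_insert_of_notMem]
  simp

theorem qaP_erase_ge {s : Finset (Fin n)} {i j : Fin n} (h : j ≤ i) :
    qaP (s.erase i) j = qaP s j := by
  unfold qaP
  congr 1
  ext k
  simp only [Finset.mem_filter, Finset.mem_erase]
  constructor
  · rintro ⟨⟨_, h5⟩, h6⟩
    exact ⟨h5, h6⟩
  · rintro ⟨h5, h6⟩
    exact ⟨⟨(lt_of_lt_of_le h6 h).ne, h5⟩, h6⟩

theorem qaP_insert_lt {s : Finset (Fin n)} {i j : Fin n} (hi : i ∉ s) (h : i < j) :
    qaP (insert i s) j = qaP s j + 1 := by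
  rw [qaP_erase_lt (Finset.mem_insert_self i s) h, Finset.erase_insert hi]

/-- the sign rule -/
theorem qaP_swap {s : Finset (Fin n)} {i j : Fin n} (hi : i ∈ s) (hj : j ∈ s) (h : i ≠ j) :
    (-1 : ℤ) ^ (qaP (s.erase i) i + qaP ((s.erase i).erase j) j) +
      (-1 : ℤ) ^ (qaP (s.erase j) j + qaP ((s.erase j).erase i) i) = 0 := by
  rw [qaP_erase_ge (le_refl i), qaP_erase_ge (le_refl j), qaP_erase_ge (le_refl j),
    qaP_erase_ge (le_refl i)]
  rcases lt_or_gt_of_ne h with hlt | hlt
  · rw [qaP_erase_lt hi hlt, qaP_erase_ge hlt.le]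
    ring
  · rw [qaP_erase_lt hj hlt, qaP_erase_ge hlt.le]
    ring

end sgn

section ops
variable {D : Type*} [DivisionRing D] {n : ℕ}

/-- an antisymmetric double sum vanishes -/
theorem qa_double (s : Finset (Fin n)) (X : Fin n → Fin n → D) (hX : ∀ i j, X i j = X j i)
    (f : Finset (Fin n) → D) :
    ∑ i ∈ s, ∑ j ∈ s.erase i, ((-1 : ℤ) ^ (qaP (s.erase i) i + qaP ((s.erase i).erase j) j)) •
      (X i j * f ((s.erase i).erase j)) = 0 := by
  rw [Finset.sum_sigma']
  refine Finset.sum_involution (fun a _ => (⟨a.2, a.1⟩ : (_ : Fin n) × Fin n)) ?_ ?_ ?_ ?_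
  · rintro ⟨i, j⟩ h
    obtain ⟨h1, h2⟩ := Finset.mem_sigma.1 h
    obtain ⟨h3, h4⟩ := Finset.mem_erase.1 h2
    change ((-1 : ℤ) ^ (qaP (s.erase i) i + qaP ((s.erase i).erase j) j)) •
      (X i j * f ((s.erase i).erase j)) +
        ((-1 : ℤ) ^ (qaP (s.erase j) j + qaP ((s.erase j).erase i) i)) •
      (X j i * f ((s.erase j).erase i)) = 0
    have h5 : (s.erase j).erase i = (s.erase i).erase j := Finset.erase_right_comm
    have h6 := qaP_swap h1 h4 (Ne.symm h3)
    rw [h5] at h6 ⊢
    rw [hX j i, ← add_smul, h6, zero_smul]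
  · rintro ⟨i, j⟩ h _ h'
    obtain ⟨h1, h2⟩ := Finset.mem_sigma.1 h
    obtain ⟨h3, h4⟩ := Finset.mem_erase.1 h2
    exact h3 (congrArg Sigma.fst h')
  · rintro ⟨i, j⟩ h
    obtain ⟨h1, h2⟩ := Finset.mem_sigma.1 h
    obtain ⟨h3, h4⟩ := Finset.mem_erase.1 h2
    exact Finset.mem_sigma.2 ⟨h4, Finset.mem_erase.2 ⟨Ne.symm h3, h1⟩⟩
  · rintro ⟨i, j⟩ _
    rfl

/-- the operators -/
def qaT (E : Fin n → Fin n → D) (k : Fin n) (f : Finset (Fin n) → D) : Finset (Fin n) → D :=
  fun s => ∑ i ∈ s, ((-1 : ℤ) ^ qaP (s.erase i) i) • (E i k * f (s.erase i))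

theorem qaT_apply (E : Fin n → Fin n → D) (k : Fin n) (f : Finset (Fin n) → D)
    (s : Finset (Fin n)) : qaT E k f s =
      ∑ i ∈ s, ((-1 : ℤ) ^ qaP (s.erase i) i) • (E i k * f (s.erase i)) := rfl

theorem qaT_zero (E : Fin n → Fin n → D) (k : Fin n) : qaT E k 0 = 0 := by
  funext s
  rw [qaT_apply]
  apply Finset.sum_eq_zero
  intro i _
  rw [Pi.zero_apply, mul_zero, smul_zero]

theorem qaT_smul (E : Fin n → Fin n → D) (k : Fin n) (c : ℤ) (f : Finset (Fin n) → D) :
    qaT E k (c • f) = c • qaT E k f := by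
  funext s
  rw [Pi.smul_apply, qaT_apply, qaT_apply, Finset.smul_sum]
  refine Finset.sum_congr rfl fun i _ => ?_
  rw [Pi.smul_apply, mul_smul_comm, smul_comm]

/-- composition -/
theorem qaT_qaT (E : Fin n → Fin n → D) (k l : Fin n) (f : Finset (Fin n) → D)
    (s : Finset (Fin n)) : qaT E k (qaT E l f) s =
      ∑ i ∈ s, ∑ j ∈ s.erase i, ((-1 : ℤ) ^ (qaP (s.erase i) i + qaP ((s.erase i).erase j) j)) •
        (E i k * E j l * f ((s.erase i).erase j)) := by
  rw [qaT_apply]
  refine Finset.sum_congr rfl fun i _ => ?_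
  rw [qaT_apply, Finset.mul_sum, Finset.smul_sum]
  refine Finset.sum_congr rfl fun j _ => ?_
  rw [mul_smul_comm, smul_smul, pow_add, mul_assoc]

variable {E : Fin n → Fin n → D}

/-- the coefficients of the products of the `ξ_i` -/
theorem qa_coeff (E : Fin n → Fin n → D) (i j k l : Fin n) :
    (M.lin (E i) * M.lin (E j) : YR D n).coeff (Finsupp.single k 1 + Finsupp.single l 1) =
      ∑ a, ∑ b, if (a = k ∧ b = l) ∨ (a = l ∧ b = k) then E i a * E j b else 0 := by
  classical
  unfold M.lin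
  rw [Finset.sum_mul, AddMonoidAlgebra.coeff_sum, Finsupp.finsetSum_apply]
  refine Finset.sum_congr rfl fun a _ => ?_
  rw [Finset.mul_sum, AddMonoidAlgebra.coeff_sum, Finsupp.finsetSum_apply]
  refine Finset.sum_congr rfl fun b _ => ?_
  rw [AddMonoidAlgebra.single_mul_single, AddMonoidAlgebra.coeff_single, Finsupp.single_apply]
  have h : (Finsupp.single a 1 + Finsupp.single b 1 : Fin n →₀ ℕ) =
      Finsupp.single k 1 + Finsupp.single l 1 ↔ (a = k ∧ b = l) ∨ (a = l ∧ b = k) := by
    rw [Finsupp.single_add_single_eq_single_add_single one_ne_zero one_ne_zero]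
    constructor
    · rintro (h | h | h)
      · exact Or.inl h
      · exact Or.inr h.2
      · exact absurd h.1 (by norm_num)
    · rintro (h | h)
      · exact Or.inl h
      · exact Or.inr (Or.inl ⟨rfl, h⟩)
  by_cases h1 : (a = k ∧ b = l) ∨ (a = l ∧ b = k)
  · rw [if_pos h1, if_pos (h.2 h1)]
  · rw [if_neg h1, if_neg (fun h2 => h1 (h.1 h2))]

theorem qa_coeff_ne (E : Fin n → Fin n → D) (i j k l : Fin n) (hkl : k ≠ l) :
    (M.lin (E i) * M.lin (E j) : YR D n).coeff (Finsupp.single k 1 + Finsupp.single l 1) =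
      E i k * E j l + E i l * E j k := by
  rw [qa_coeff, Finset.sum_eq_add k l hkl]
  · rw [Finset.sum_eq_single l, Finset.sum_eq_single k, if_pos (Or.inl ⟨rfl, rfl⟩),
      if_pos (Or.inr ⟨rfl, rfl⟩)]
    · intro b _ hb
      rw [if_neg]
      rintro (⟨h, _⟩ | ⟨_, h⟩)
      · exact hkl h.symm
      · exact hb h
    · intro h
      exact absurd (Finset.mem_univ _) h
    · intro b _ hb
      rw [if_neg]
      rintro (⟨_, h⟩ | ⟨h, _⟩)
      · exact hb h
      · exact hkl h
    · intro h
      exact absurd (Finset.mem_univ _) h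
  · intro a _ ha
    apply Finset.sum_eq_zero
    intro b _
    rw [if_neg]
    rintro (⟨h, _⟩ | ⟨h, _⟩)
    · exact ha.1 h
    · exact ha.2 h
  · intro h
    exact absurd (Finset.mem_univ _) h
  · intro h
    exact absurd (Finset.mem_univ _) h

theorem qa_coeff_eq (E : Fin n → Fin n → D) (i j k : Fin n) :
    (M.lin (E i) * M.lin (E j) : YR D n).coeff (Finsupp.single k 1 + Finsupp.single k 1) =
      E i k * E j k := by
  rw [qa_coeff, Finset.sum_eq_single k]
  · rw [Finset.sum_eq_single k, if_pos (Or.inl ⟨rfl, rfl⟩)]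
    · intro b _ hb
      rw [if_neg]
      rintro (⟨_, h⟩ | ⟨_, h⟩) <;> exact hb h
    · intro h
      exact absurd (Finset.mem_univ _) h
  · intro a _ ha
    apply Finset.sum_eq_zero
    intro b _
    rw [if_neg]
    rintro (⟨h, _⟩ | ⟨h, _⟩) <;> exact ha h
  · intro h
    exact absurd (Finset.mem_univ _) h

variable {E : Fin n → Fin n → D}

theorem qa_sym (hcomm : ∀ i j, M.lin (E i) * M.lin (E j) = M.lin (E j) * M.lin (E i))
    {k l : Fin n} (hkl : k ≠ l) (i j : Fin n) :
    E i k * E j l + E i l * E j k = E j k * E i l + E j l * E i k := by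
  rw [← qa_coeff_ne E i j k l hkl, ← qa_coeff_ne E j i k l hkl, hcomm]

theorem qa_sym_eq (hcomm : ∀ i j, M.lin (E i) * M.lin (E j) = M.lin (E j) * M.lin (E i))
    (k : Fin n) (i j : Fin n) : E i k * E j k = E j k * E i k := by
  rw [← qa_coeff_eq E i j k, ← qa_coeff_eq E j i k, hcomm]

/-- the operators anticommute -/
theorem qaT_anti (hcomm : ∀ i j, M.lin (E i) * M.lin (E j) = M.lin (E j) * M.lin (E i))
    {k l : Fin n} (hkl : k ≠ l) (f : Finset (Fin n) → D) :
    qaT E k (qaT E l f) = - qaT E l (qaT E k f) := by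
  rw [eq_neg_iff_add_eq_zero]
  funext s
  rw [Pi.add_apply, Pi.zero_apply, qaT_qaT, qaT_qaT, ← Finset.sum_add_distrib,
    ← qa_double s (fun i j => E i k * E j l + E i l * E j k) (fun i j => by
      rw [qa_sym hcomm hkl]) f]
  refine Finset.sum_congr rfl fun i _ => ?_
  rw [← Finset.sum_add_distrib]
  refine Finset.sum_congr rfl fun j _ => ?_
  rw [← smul_add, ← add_mul]

theorem qaT_sq (hcomm : ∀ i j, M.lin (E i) * M.lin (E j) = M.lin (E j) * M.lin (E i))
    (k : Fin n) (f : Finset (Fin n) → D) : qaT E k (qaT E k f) = 0 := by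
  funext s
  rw [Pi.zero_apply, qaT_qaT]
  exact qa_double s (fun i j => E i k * E j k) (fun i j => qa_sym_eq hcomm k i j) f

/-- the unit family -/
def qaDelta (D : Type*) [DivisionRing D] (n : ℕ) : Finset (Fin n) → D :=
  fun s => if s = ∅ then 1 else 0

/-- the columns of `Φ` -/
def qaW (E : Fin n → Fin n → D) (t : Finset (Fin n)) : Finset (Fin n) → D :=
  (t.sort (· ≤ ·)).foldr (qaT E) (qaDelta D n)

theorem qaW_empty (E : Fin n → Fin n → D) : qaW E ∅ = qaDelta D n := by
  unfold qaW
  rw [Finset.sort_empty]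
  rfl

theorem qaW_insert (E : Fin n → Fin n → D) {a : Fin n} {t : Finset (Fin n)}
    (h : ∀ b ∈ t, a < b) : qaW E (insert a t) = qaT E a (qaW E t) := by
  unfold qaW
  rw [Finset.sort_insert (r := (· ≤ ·)) (fun b hb => (h b hb).le)
    (fun ha => lt_irrefl a (h a ha))]
  rfl

/-- the rule of `Φ` -/
theorem qaT_W (hcomm : ∀ i j, M.lin (E i) * M.lin (E j) = M.lin (E j) * M.lin (E i))
    (t : Finset (Fin n)) : ∀ k, qaT E k (qaW E t) =
      if k ∈ t then 0 else ((-1 : ℤ) ^ qaP t k) • qaW E (insert k t) := by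
  induction t using Finset.induction_on_min with
  | empty =>
    intro k
    rw [if_neg (Finset.notMem_empty k), qaW_insert E (by simp)]
    unfold qaP
    rw [Finset.filter_empty, Finset.card_empty, pow_zero, one_smul]
  | insert a t ha ih =>
    intro k
    have hat : a ∉ t := fun h => lt_irrefl a (ha a h)
    rcases lt_trichotomy k a with hk | hk | hk
    · have hk' : ∀ b ∈ insert a t, k < b := by
        intro b hb
        rcases Finset.mem_insert.1 hb with rfl | hb
        · exact hk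
        · exact hk.trans (ha b hb)
      have h0 : qaP (insert a t) k = 0 := by
        unfold qaP
        rw [Finset.card_eq_zero, Finset.filter_eq_empty_iff]
        intro b hb
        exact not_lt.2 (hk' b hb).le
      rw [if_neg (fun h => lt_irrefl k (hk' k h)), qaW_insert E hk', h0, pow_zero, one_smul]
    · subst hk
      rw [if_pos (Finset.mem_insert_self k t), qaW_insert E ha, qaT_sq hcomm]
    · rw [qaW_insert E ha, qaT_anti hcomm hk.ne', ih k]
      by_cases hkt : k ∈ t
      · rw [if_pos hkt, if_pos (Finset.mem_insert_of_mem hkt), qaT_zero, neg_zero]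
      · have h1 : k ∉ insert a t := by
          rw [Finset.mem_insert]
          rintro (h | h)
          · exact hk.ne' h
          · exact hkt h
        have h2 : ∀ b ∈ insert k t, a < b := by
          intro b hb
          rcases Finset.mem_insert.1 hb with rfl | hb
          · exact hk
          · exact ha b hb
        rw [if_neg hkt, if_neg h1, qaT_smul, ← qaW_insert E h2, Finset.insert_comm a k t,
          qaP_insert_lt hat hk, pow_succ, mul_neg_one, neg_smul]

theorem qaW_card (E : Fin n → Fin n → D) (t : Finset (Fin n)) :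
    ∀ s, s.card ≠ t.card → qaW E t s = 0 := by
  induction t using Finset.induction_on_min with
  | empty =>
    intro s hs
    rw [qaW_empty]
    unfold qaDelta
    rw [if_neg]
    rintro rfl
    exact hs rfl
  | insert a t ha ih =>
    intro s hs
    rw [qaW_insert E ha, qaT_apply]
    apply Finset.sum_eq_zero
    intro i hi
    rw [ih, mul_zero, smul_zero]
    intro h
    apply hs
    rw [Finset.card_insert_of_notMem (fun h => lt_irrefl a (ha a h)), ← h,
      Finset.card_erase_add_one hi]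

/-- **Existence of `Φ`.** -/
theorem qa_exists_phi (hcomm : ∀ i j, M.lin (E i) * M.lin (E j) = M.lin (E j) * M.lin (E i)) :
    ∃ Phi : Finset (Fin n) → Finset (Fin n) → D, Phi ∅ ∅ = 1 ∧
      (∀ s t, s.card ≠ t.card → Phi s t = 0) ∧
      ∀ s t k, ∑ i ∈ s, ((-1 : ℤ) ^ ((s.erase i).filter fun j => j < i).card) •
          (E i k * Phi (s.erase i) t) =
        if k ∈ t then 0 else ((-1 : ℤ) ^ (t.filter fun j => j < k).card) • Phi s (insert k t) := by
  refine ⟨fun s t => qaW E t s, ?_, fun s t h => qaW_card E t s h, fun s t k => ?_⟩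
  · change qaW E ∅ ∅ = 1
    rw [qaW_empty]
    unfold qaDelta
    rw [if_pos rfl]
  · have h := congrFun (qaT_W hcomm t k) s
    rw [qaT_apply] at h
    change ∑ i ∈ s, ((-1 : ℤ) ^ qaP (s.erase i) i) • (E i k * qaW E t (s.erase i)) = _
    rw [h]
    by_cases hk : k ∈ t
    · rw [if_pos hk, if_pos hk]
      rfl
    · rw [if_neg hk, if_neg hk]
      rfl

end ops

end Vale.Agent.P200.V
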