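import Vale.Agent.P200.V.LevelSpec
import Vale.Agent.P200.V.BrB
import Vale.Agent.P200.V.BrC
import Vale.Agent.P200.V.BrD
import Vale.Agent.P200.V.BrE

/-!
The level lemma for blocks, from the level lemma for groups of Hilbert functions.
-/

namespace Vale.Agent.P200.V

open Module MvPolynomial

universe u

/-! ### equality in large degrees -/

theorem EvEq.act {ι : Type} [Fintype ι] (p : AddMonoidAlgebra ℤ (ι → ℤ)) {f g : (ι → ℤ) → ℤ}
    (h : EvEq f g) : EvEq (V.act (ι → ℤ) p f) (V.act (ι → ℤ) p g) := by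
  obtain ⟨n0, h⟩ := h
  induction p using AddMonoidAlgebra.induction_linear with
  | zero =>
    refine ⟨0, fun n _ => ?_⟩
    rw [map_zero]
    rfl
  | add p q hp hq =>
    obtain ⟨n1, hp⟩ := hp
    obtain ⟨n2, hq⟩ := hq
    refine ⟨max n1 n2, fun n hn => ?_⟩
    rw [map_add, LinearMap.add_apply, LinearMap.add_apply, Pi.add_apply, Pi.add_apply,
      hp n fun i => (le_max_left _ _).trans (hn i), hq n fun i => (le_max_right _ _).trans (hn i)]
  | single δ c =>
    refine ⟨n0 + ∑ i, |δ i|, fun n hn => ?_⟩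
    have h1 : (AddMonoidAlgebra.single δ c : AddMonoidAlgebra ℤ (ι → ℤ)) = c • el δ := by
      rw [el, AddMonoidAlgebra.smul_single, smul_eq_mul, mul_one]
    have h2 : ∀ i, n0 ≤ (n - δ) i := by
      intro i
      have h3 : |δ i| ≤ ∑ i, |δ i| :=
        Finset.single_le_sum (f := fun i => |δ i|) (fun i _ => abs_nonneg _) (Finset.mem_univ i)
      have h4 := le_abs_self (δ i)
      have h5 := hn i
      rw [Pi.sub_apply]
      omega
    rw [h1, map_smul, LinearMap.smul_apply, LinearMap.smul_apply, Pi.smul_apply, Pi.smul_apply,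
      act_el, act_el, h _ h2]

theorem ph_one {G : Type} [AddCommGroup G] (δ : G) : ph 1 δ = 1 := by
  rw [ph, Finset.sum_range_one, pow_zero]

/-! ### the set of the new variables -/

section core
variable {K : Type u} [Field K] {κ R : ℕ} {ι : Type} [Fintype ι]

/-- the last variable -/
def lastv (κ : ℕ) : Fin (κ + 1 + 2) := (Fin.last κ).succ.succ

/-- the inclusion of the variables -/
def incv (κ : ℕ) (g : Fin R) (v : Fin (κ + 2)) : Fin R × Fin (κ + 1 + 2) :=
  (g, (Fin.castSucc v : Fin (κ + 2 + 1)))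

theorem castSucc_ne_lastv (κ : ℕ) (v : Fin (κ + 2)) :
    (Fin.castSucc v : Fin (κ + 2 + 1)) ≠ lastv κ := by
  intro h
  have h1 := congrArg Fin.val h
  have h2 := v.2
  simp only [Fin.val_castSucc, lastv, Fin.val_succ, Fin.val_last] at h1
  omega

theorem eq_lastv_or (κ : ℕ) (v : Fin (κ + 1 + 2)) :
    v = lastv κ ∨ ∃ w : Fin (κ + 2), (Fin.castSucc w : Fin (κ + 2 + 1)) = v := by
  by_cases h : (v : ℕ) < κ + 2
  · exact Or.inr ⟨⟨v, h⟩, rfl⟩
  · left
    apply Fin.ext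
    have h2 := v.2
    simp only [lastv, Fin.val_succ, Fin.val_last]
    omega

theorem incv_injective (κ : ℕ) (g : Fin R) : Function.Injective (incv (R := R) κ g) := by
  intro v w h
  have h1 := congrArg Prod.snd h
  exact Fin.castSucc_injective _ h1

/-- the degrees of a form in the variables of one block -/
theorem incv_hom {p : MvPolynomial (Fin (κ + 2)) K} {d : ℕ} (hp : p.IsHomogeneous d) (g : Fin R)
    (m : Fin R × Fin (κ + 1 + 2) →₀ ℕ) (hm : coeff m (rename (incv κ g) p) ≠ 0) :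
    dg (wb (Prod.fst : Fin R × Fin (κ + 1 + 2) → Fin R)) m = Pi.single g (d : ℤ) ∧
      ∀ g' : Fin R, m (g', lastv κ) = 0 := by
  obtain ⟨u, rfl, hu⟩ := coeff_rename_ne_zero _ _ _ hm
  refine ⟨?_, fun g' => ?_⟩
  · have h1 : dg (wb (Prod.fst : Fin R × Fin (κ + 1 + 2) → Fin R)) (u.mapDomain (incv κ g)) =
        u.sum fun _ m => m • (Pi.single g (1 : ℤ) : Fin R → ℤ) := by
      rw [dg, Finsupp.sum_mapDomain_index]
      · rfl
      · intro b
        rw [zero_smul]
      · intro b m1 m2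
        rw [add_smul]
    rw [h1]
    have h2 : u.degree = d :=
      (congrArg (fun f : (Fin (κ + 2) →₀ ℕ) →+ ℕ => f u)
        (Finsupp.degree_eq_weight_one (σ := Fin (κ + 2)) (R := ℕ))).trans (hp hu)
    have h3 : u.degree = ∑ x ∈ u.support, u x := rfl
    rw [← h2, h3, Finsupp.sum]
    funext i
    rw [Finset.sum_apply]
    simp only [Pi.smul_apply]
    by_cases hi : i = g
    · subst hi
      simp
    · rw [Pi.single_eq_of_ne hi, Pi.single_eq_of_ne hi]
      simp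
  · apply Finsupp.mapDomain_of_notMem_range
    rintro ⟨v, hv⟩
    exact castSucc_ne_lastv κ v (congrArg Prod.snd hv)


/-- the new variables -/
def newC (C : Fin R → Prop) [DecidablePred C] (κ : ℕ) : Finset (Fin R × Fin (κ + 1 + 2)) :=
  Finset.univ.filter fun z => C z.1 ∧ z.2 = lastv κ

theorem mem_newC {C : Fin R → Prop} [DecidablePred C] {z : Fin R × Fin (κ + 1 + 2)} :
    z ∈ newC C κ ↔ C z.1 ∧ z.2 = lastv κ := by
  rw [newC, Finset.mem_filter]
  exact ⟨fun h => h.2, fun h => ⟨Finset.mem_univ _, h⟩⟩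

/-- the old relations, and the variables of the trivial elements -/
def oldG (β : Fin R → Blk K κ) (C : Fin R → Prop) :
    Set (MvPolynomial (Fin R × Fin (κ + 1 + 2)) K) :=
  {p | ∃ g i, p = rename (incv κ g) ((β g).rel i)} ∪ {p | ∃ g, ¬ C g ∧ p = X (g, lastv κ)}

/-- the coefficients of the new relations -/
noncomputable def newH (a : Fin R → ι → MvPolynomial (Fin (κ + 2)) K)
    (z : Fin R × Fin (κ + 1 + 2)) (j : ι) : MvPolynomial (Fin R × Fin (κ + 1 + 2)) K :=
  rename (incv κ z.1) (a z.1 j)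

theorem rel_hom (β : Blk K κ) (i : Fin κ) : (β.rel i).IsHomogeneous (β.e i) := by
  rw [Blk.rel]
  refine IsHomogeneous.sub ?_ (β.hom i)
  have h := (isHomogeneous_X K (i.succ.succ : Fin (κ + 2))).pow (β.e i)
  rwa [one_mul] at h

theorem prod_newC {M : Type*} [CommMonoid M] (C : Fin R → Prop) [DecidablePred C]
    (f : Fin R → M) : ∏ c ∈ newC C κ, f c.1 = ∏ g, if C g then f g else 1 := by
  rw [← Finset.prod_filter]
  refine Finset.prod_bij (fun c _ => c.1) ?_ ?_ ?_ ?_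
  · intro c hc
    rw [Finset.mem_filter]
    exact ⟨Finset.mem_univ _, (mem_newC.1 hc).1⟩
  · intro c hc c' hc' h
    exact Prod.ext h ((mem_newC.1 hc).2.trans (mem_newC.1 hc').2.symm)
  · intro g hg
    exact ⟨(g, lastv κ), mem_newC.2 ⟨(Finset.mem_filter.1 hg).2, rfl⟩, rfl⟩
  · intro c _
    rfl

theorem sum_newC {M : Type*} [AddCommMonoid M] (C : Fin R → Prop) [DecidablePred C]
    (f : Fin R × Fin (κ + 1 + 2) → M) :
    ∑ c ∈ newC C κ, f c = ∑ g, if C g then f (g, lastv κ) else 0 := by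
  rw [← Finset.sum_filter]
  refine Finset.sum_bij (fun c _ => c.1) ?_ ?_ ?_ ?_
  · intro c hc
    rw [Finset.mem_filter]
    exact ⟨Finset.mem_univ _, (mem_newC.1 hc).1⟩
  · intro c hc c' hc' h
    exact Prod.ext h ((mem_newC.1 hc).2.trans (mem_newC.1 hc').2.symm)
  · intro g hg
    exact ⟨(g, lastv κ), mem_newC.2 ⟨(Finset.mem_filter.1 hg).2, rfl⟩, rfl⟩
  · intro c hc
    rw [← (mem_newC.1 hc).2]

/-- the new relations are relations of the new blocks -/
theorem rels_subset (β : Fin R → Blk K κ) (C : Fin R → Prop) [DecidablePred C] (e : ℕ)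
    (he : 0 < e) (a : Fin R → ι → MvPolynomial (Fin (κ + 2)) K)
    (ha : ∀ g j, (a g j).IsHomogeneous e) :
    (MvPolynomial.map (algebraMap K (KF K ι)) '' oldG β C) ∪
        (lrel e (newH a) '' (newC C κ : Set (Fin R × Fin (κ + 1 + 2)))) ⊆
      relS (newBlk β C e he a ha) := by
  have hlast : ∀ g, (newBlk β C e he a ha g).rel (Fin.last κ) =
      X (lastv κ) ^ (if C g then e else 1) - rename (Fin.castSucc : Fin (κ + 2) → Fin (κ + 2 + 1))
        (newPhi C a g) := by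
    intro g
    rw [Blk.rel, newBlk, Blk.snoc]
    dsimp only
    rw [Fin.snoc_last, Fin.snoc_last]
    rfl
  have hold : ∀ g (i : Fin κ), (newBlk β C e he a ha g).rel (Fin.castSucc i) =
      rename (Fin.castSucc : Fin (κ + 2) → Fin (κ + 2 + 1))
        (MvPolynomial.map (algebraMap K (KF K ι)) ((β g).rel i)) := by
    intro g i
    rw [Blk.rel, newBlk, Blk.snoc]
    dsimp only
    rw [Fin.snoc_castSucc, Fin.snoc_castSucc, Blk.rel, map_sub, map_sub, map_pow, map_pow, map_X,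
      rename_X]
    rfl
  have hcomp : ∀ (g : Fin R) (p : MvPolynomial (Fin (κ + 2)) (KF K ι)),
      rename (Prod.mk g) (rename (Fin.castSucc : Fin (κ + 2) → Fin (κ + 2 + 1)) p) =
        rename (incv κ g) p := by
    intro g p
    rw [rename_rename]
    rfl
  rintro _ (⟨p, (⟨g, i, rfl⟩ | ⟨g, hg, rfl⟩), rfl⟩ | ⟨z, hz, rfl⟩)
  · refine ⟨g, Fin.castSucc i, ?_⟩
    rw [hold, hcomp, map_rename]
  · refine ⟨g, Fin.last κ, ?_⟩
    rw [hlast, if_neg hg, newPhi, if_neg hg, map_zero, sub_zero, pow_one, rename_X, map_X]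
  · obtain ⟨h1, h2⟩ := mem_newC.1 hz
    obtain ⟨g, v⟩ := z
    dsimp only at h1 h2
    subst h2
    refine ⟨g, Fin.last κ, ?_⟩
    rw [hlast, if_pos h1, newPhi, if_pos h1, map_sub, hcomp, map_pow, rename_X, lrel, map_sum]
    congr 1
    refine Finset.sum_congr rfl fun j _ => ?_
    rw [map_mul, rename_C, newH, map_rename]

theorem pos_wb {Z ι : Type} [Fintype ι] [DecidableEq ι] (blk : Z → ι) : Pos (wb blk) := by
  refine ⟨{ toFun := fun f => ∑ i, f i, map_zero' := ?_, map_add' := ?_ }, fun v => ?_⟩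
  · exact Finset.sum_const_zero
  · intro f g
    exact Finset.sum_add_distrib
  · change 0 < ∑ i, (Pi.single (blk v) (1 : ℤ) : ι → ℤ) i
    rw [Finset.sum_pi_single']
    simp

theorem core_drop (β : Fin R → Blk K κ) (C : Fin R → Prop) [DecidablePred C] :
    Hil K (wb (Prod.fst : Fin R × Fin (κ + 1 + 2) → Fin R))
      (oldG β C ∪ (X '' (newC C κ : Set (Fin R × Fin (κ + 1 + 2))))) ≤
      Hil K (wbl κ R) (relS β) := by
  have h1 : Function.Injective fun z : Fin R × Fin (κ + 2) => incv κ z.1 z.2 := by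
    intro z w h
    have h' : incv κ z.1 z.2 = incv κ w.1 w.2 := h
    have h1 : (incv κ z.1 z.2).1 = (incv κ w.1 w.2).1 := by rw [h']
    have h2 : (incv κ z.1 z.2).2 = (incv κ w.1 w.2).2 := by rw [h']
    exact Prod.ext h1 (Fin.castSucc_injective _ h2)
  have h2 : ∀ z, z ∉ Set.range (fun z : Fin R × Fin (κ + 2) => incv κ z.1 z.2) →
      (X z : MvPolynomial (Fin R × Fin (κ + 1 + 2)) K) ∈
        oldG β C ∪ (X '' (newC C κ : Set (Fin R × Fin (κ + 1 + 2)))) := by
    intro z hz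
    have hz2 : z.2 = lastv κ := by
      rcases eq_lastv_or κ z.2 with h | ⟨w, h⟩
      · exact h
      · exact absurd ⟨(z.1, w), Prod.ext rfl h⟩ hz
    by_cases hC : C z.1
    · exact Or.inr ⟨z, mem_newC.2 ⟨hC, hz2⟩, rfl⟩
    · refine Or.inl (Or.inr ⟨z.1, hC, ?_⟩)
      rw [← hz2]
  have h3 : ∀ p ∈ relS β, rename (fun z : Fin R × Fin (κ + 2) => incv κ z.1 z.2) p ∈
      oldG β C ∪ (X '' (newC C κ : Set (Fin R × Fin (κ + 1 + 2)))) := by
    rintro p ⟨g, i, rfl⟩
    refine Or.inl (Or.inl ⟨g, i, ?_⟩)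
    rw [rename_rename]
    rfl
  have h4 := Hil.drop (k := K) (wt := wb (Prod.fst : Fin R × Fin (κ + 1 + 2) → Fin R)) (pos_wb _)
    (fun z : Fin R × Fin (κ + 2) => incv κ z.1 z.2) h1 h2 h3
  exact h4

theorem core_hom0 (β : Fin R → Blk K κ) (C : Fin R → Prop) [DecidablePred C] :
    ∀ p ∈ oldG β C, (∃ δ : Fin R → ℤ, ∀ m, coeff m p ≠ 0 →
        dg (wb (Prod.fst : Fin R × Fin (κ + 1 + 2) → Fin R)) m = δ) ∧
        ∀ m, coeff m p ≠ 0 → ∀ c ∈ newC C κ, m c = 0 := by
  rintro p (⟨g, i, rfl⟩ | ⟨g, hg, rfl⟩)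
  · refine ⟨⟨_, fun m hm => (incv_hom (rel_hom (β g) i) g m hm).1⟩, fun m hm c hc => ?_⟩
    obtain ⟨h1, h2⟩ := mem_newC.1 hc
    have h3 := (incv_hom (rel_hom (β g) i) g m hm).2 c.1
    rw [← h2] at h3
    exact h3
  · have hm1 : ∀ m, coeff m (X (g, lastv κ) : MvPolynomial (Fin R × Fin (κ + 1 + 2)) K) ≠ 0 →
        m = Finsupp.single (g, lastv κ) 1 := by
      intro m hm
      rw [coeff_X] at hm
      by_contra h
      exact hm (if_neg fun h' => h h'.symm)
    refine ⟨⟨_, fun m hm => by rw [hm1 m hm]⟩, fun m hm c hc => ?_⟩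
    rw [hm1 m hm, Finsupp.single_apply]
    refine if_neg fun h => hg ?_
    rw [← h] at hc
    exact (mem_newC.1 hc).1

omit [Fintype ι] in
theorem core_homh (C : Fin R → Prop) [DecidablePred C] (e : ℕ)
    (a : Fin R → ι → MvPolynomial (Fin (κ + 2)) K) (ha : ∀ g j, (a g j).IsHomogeneous e) :
    ∀ c ∈ newC C κ, ∀ j m, coeff m (newH a c j) ≠ 0 →
      dg (wb (Prod.fst : Fin R × Fin (κ + 1 + 2) → Fin R)) m = Pi.single (Prod.fst c) (e : ℤ) ∧
        ∀ c' ∈ newC C κ, m c' = 0 := by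
  intro c hc j m hm
  refine ⟨(incv_hom (ha c.1 j) c.1 m hm).1, fun c' hc' => ?_⟩
  obtain ⟨h1, h2⟩ := mem_newC.1 hc'
  have h3 := (incv_hom (ha c.1 j) c.1 m hm).2 c'.1
  rw [← h2] at h3
  exact h3

omit [Fintype ι] in
theorem core_ind (β : Fin R → Blk K κ) (C : Fin R → Prop) [DecidablePred C]
    (a : Fin R → ι → MvPolynomial (Fin (κ + 2)) K)
    (hind : ∀ (Ω : Type u) [Field Ω] [IsAlgClosed Ω] [Algebra K Ω]
        (pt : Fin R → Fin (κ + 2) → Ω),
        (∀ g i, aeval (pt g) ((β g).rel i) = 0) → (∀ g, pt g 0 ≠ 0 ∨ pt g 1 ≠ 0) →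
        ∀ c : Fin R → Ω, (∀ g, ¬ C g → c g = 0) →
          (∀ j, ∑ g, c g * aeval (pt g) (a g j) = 0) → ∀ g, c g = 0) :
    ∀ (Ω : Type u) [Field Ω] [IsAlgClosed Ω] [Algebra K Ω]
      (p : Fin R × Fin (κ + 1 + 2) → Ω),
      (∀ g ∈ oldG β C, aeval p g = 0) → (∀ c ∈ newC C κ, p c = 0) →
      (∀ b, ∃ z, Prod.fst z = b ∧ p z ≠ 0) →
      ∀ l : Fin R × Fin (κ + 1 + 2) → Ω,
        (∀ j, ∑ c ∈ newC C κ, l c * aeval p (newH a c j) = 0) → ∀ c ∈ newC C κ, l c = 0 := by
  intro Ω _ _ _ p hp hpC hpb l hl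
  have haev : ∀ (g : Fin R) (q : MvPolynomial (Fin (κ + 2)) K),
      aeval p (rename (incv κ g) q) = aeval (fun v => p (incv κ g v)) q := by
    intro g q
    rw [aeval_rename]
    rfl
  have h1 : ∀ g i, aeval (fun v => p (incv κ g v)) ((β g).rel i) = 0 := by
    intro g i
    rw [← haev]
    exact hp _ (Or.inl ⟨g, i, rfl⟩)
  have h2 : ∀ g, p (g, lastv κ) = 0 := by
    intro g
    by_cases hC : C g
    · exact hpC _ (mem_newC.2 ⟨hC, rfl⟩)
    · have := hp (X (g, lastv κ)) (Or.inr ⟨g, hC, rfl⟩)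
      rwa [aeval_X] at this
  have h3 : ∀ g, p (incv κ g 0) ≠ 0 ∨ p (incv κ g 1) ≠ 0 := by
    intro g
    by_contra hcon
    rw [not_or, not_not, not_not] at hcon
    have h4 := blk_point_zero (β g) (fun v => p (incv κ g v)) (h1 g) hcon.1 hcon.2
    obtain ⟨z, hz, hz2⟩ := hpb g
    apply hz2
    obtain ⟨g', v⟩ := z
    dsimp only at hz
    subst hz
    rcases eq_lastv_or κ v with h | ⟨w, h⟩
    · rw [h]
      exact h2 _
    · rw [← h]
      exact congrFun h4 w
  have h5 := hind Ω (fun g v => p (incv κ g v)) h1 h3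
    (fun g => if C g then l (g, lastv κ) else 0) (fun g hg => if_neg hg) (fun j => by
      have h6 := hl j
      rw [sum_newC C fun c => l c * aeval p (newH a c j)] at h6
      refine (Finset.sum_congr rfl fun g _ => ?_).trans h6
      split_ifs
      · rw [newH, haev]
      · rw [zero_mul])
  intro c hc
  obtain ⟨h6, h7⟩ := mem_newC.1 hc
  have h8 := h5 c.1
  rw [if_pos h6, ← h7] at h8
  exact h8

theorem core_lam (β : Fin R → Blk K κ) (C : Fin R → Prop)
    [DecidablePred C] (e : ℕ) {F : (Fin R → ℤ) → ℤ} (hF : Lam R (fun g => (β g).e) F)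
    {f g : (Fin R → ℤ) → ℤ} (hfg : EvEq f (act (Fin R → ℤ)
      (∏ c ∈ newC C κ, ph e (Pi.single c.1 (1 : ℤ) : Fin R → ℤ)) g)) (hgF : EvEq g F) :
    ∃ F', Lam R (fun g => (Fin.snoc (α := fun _ => ℕ) (β g).e (if C g then e else 1) :
      Fin (κ + 1) → ℕ)) F' ∧ EvEq f F' := by
  refine ⟨_, lam_ph hF fun g => if C g then e else 1, ?_⟩
  have hprod : (∏ c ∈ newC C κ, ph e (Pi.single c.1 (1 : ℤ) : Fin R → ℤ)) =
      ∏ g : Fin R, ph (if C g then e else 1) (Pi.single g (1 : ℤ) : Fin R → ℤ) := by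
    rw [prod_newC C fun g => ph e (Pi.single g (1 : ℤ) : Fin R → ℤ)]
    refine Finset.prod_congr rfl fun g _ => ?_
    split_ifs
    · rfl
    · rw [ph_one]
  rw [← hprod]
  exact hfg.trans (EvEq.act _ hgF)

/-- the level lemma for one collection of blocks -/
theorem core (hL : LevelLemma.{u}) (β : Fin R → Blk K κ) (hI : IntP K β) (C : Fin R → Prop)
    [DecidablePred C] (e : ℕ) (he : 0 < e) (a : Fin R → ι → MvPolynomial (Fin (κ + 2)) K)
    (ha : ∀ g j, (a g j).IsHomogeneous e)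
    (hind : ∀ (Ω : Type u) [Field Ω] [IsAlgClosed Ω] [Algebra K Ω]
        (pt : Fin R → Fin (κ + 2) → Ω),
        (∀ g i, aeval (pt g) ((β g).rel i) = 0) → (∀ g, pt g 0 ≠ 0 ∨ pt g 1 ≠ 0) →
        ∀ c : Fin R → Ω, (∀ g, ¬ C g → c g = 0) →
          (∀ j, ∑ g, c g * aeval (pt g) (a g j) = 0) → ∀ g, c g = 0) :
    IntP (KF K ι) (newBlk β C e he a ha) := by
  intro s N hN
  have hf1 : (fun ν => (hd (wbl (κ + 1) R) (fun _ : Fin s => (0 : Fin R → ℤ))
      (⊤ : Submodule (MvPolynomial (Fin R × Fin (κ + 1 + 2)) (KF K ι))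
        (Fin s → MvPolynomial (Fin R × Fin (κ + 1 + 2)) (KF K ι))) ν : ℤ) -
      hd (wbl (κ + 1) R) (fun _ : Fin s => (0 : Fin R → ℤ)) (toMv N) ν) ∈
      Hil (KF K ι) (wb (Prod.fst : Fin R × Fin (κ + 1 + 2) → Fin R))
      (relS (newBlk β C e he a ha)) := by
    apply AddSubgroup.subset_closure
    exact ⟨s, fun _ => 0, toMv N, homS_toMv hN, rel_toMv hN, fun ν => rfl⟩
  have hf2 := Hil.mono (rels_subset β C e he a ha) hf1
  obtain ⟨g, hg, hfg⟩ := hL K (Fin R × Fin (κ + 1 + 2)) (Fin R) ι Prod.fst (newC C κ) e he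
    (oldG β C) (core_hom0 β C) (newH a) (core_homh C e a ha) (core_ind β C a hind) _ hf2
  obtain ⟨F, hF, hgF⟩ := hil_of_intP β hI g (core_drop β C hg)
  obtain ⟨F', hF', n0, hn0⟩ := core_lam β C e hF hfg hgF
  refine ⟨F', hF', n0.toNat, fun n hn => ?_⟩
  rw [qd_toMv]
  refine hn0 (fun g => (n g : ℤ)) fun i => ?_
  have := hn i
  omega

end core

/-- **Bridge.** -/
theorem dstep_of_levelLemma (hL : LevelLemma.{u}) (K : Type u) [Field K] (κ : ℕ) : DStep K κ := by
  intro R β hI ι _ C _ e he a ha hind R' σ hσ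
  exact core hL (fun g => β (σ g)) (hI R' σ hσ) (fun g => C (σ g)) e he (fun g => a (σ g))
    (fun g j => ha (σ g) j) (ind_sub β C a hind σ hσ)

end Vale.Agent.P200.V
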