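import Vale.Agent.P200.V.Blk

/-!
The level lemma (statement): adding one element to every block of a set `C` (and a trivial element to the other
blocks), `w_g ^ e = ∑_j T_j a_(g,j)` with new transcendental parameters `T_j`.
-/

namespace Vale.Agent.P200.V

open MvPolynomial

universe u

section ops
variable {K K' : Type u} [Field K] [Field K'] {κ : ℕ}

/-- change of the field -/
noncomputable def Blk.map (β : Blk K κ) (f : K →+* K') : Blk K' κ where
  e := β.e
  e_pos := β.e_pos
  Phi i := MvPolynomial.map f (β.Phi i)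
  hom i := (β.hom i).map f
  tri i j hj := by
    classical
    exact β.tri i j (vars_map (β.Phi i) f hj)

/-- one more element -/
noncomputable def Blk.snoc (β : Blk K κ) (e : ℕ) (he : 0 < e) (P : MvPolynomial (Fin (κ + 2)) K)
    (hP : P.IsHomogeneous e) : Blk K (κ + 1) where
  e := Fin.snoc (α := fun _ => ℕ) β.e e
  e_pos := by
    intro i
    refine Fin.lastCases ?_ (fun i => ?_) i
    · rw [Fin.snoc_last]
      exact he
    · rw [Fin.snoc_castSucc]
      exact β.e_pos i
  Phi := Fin.snoc (α := fun _ => MvPolynomial (Fin (κ + 1 + 2)) K)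
    (fun i => rename (Fin.castSucc : Fin (κ + 2) → Fin (κ + 2 + 1)) (β.Phi i))
    (rename (Fin.castSucc : Fin (κ + 2) → Fin (κ + 2 + 1)) P)
  hom := by
    intro i
    refine Fin.lastCases ?_ (fun i => ?_) i
    · rw [Fin.snoc_last, Fin.snoc_last]
      exact hP.rename_isHomogeneous
    · rw [Fin.snoc_castSucc, Fin.snoc_castSucc]
      exact (β.hom i).rename_isHomogeneous
  tri := by
    classical
    intro i
    refine Fin.lastCases ?_ (fun i => ?_) i
    · intro j hj
      rw [Fin.snoc_last] at hj
      obtain ⟨j', -, rfl⟩ := Finset.mem_image.1 (vars_rename _ _ hj)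
      rw [Fin.val_castSucc, Fin.val_last]
      exact j'.2
    · intro j hj
      rw [Fin.snoc_castSucc] at hj
      obtain ⟨j', hj', rfl⟩ := Finset.mem_image.1 (vars_rename _ _ hj)
      rw [Fin.val_castSucc, Fin.val_castSucc]
      exact β.tri i j' hj'

end ops

/-- the field of rational functions in the new parameters -/
abbrev KF (K : Type u) [Field K] (ι : Type) : Type u := FractionRing (MvPolynomial ι K)

/-- the parameters -/
noncomputable def Tv (K : Type u) [Field K] {ι : Type} (j : ι) : KF K ι :=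
  algebraMap (MvPolynomial ι K) (KF K ι) (X j)

section new
variable {K : Type u} [Field K] {κ R : ℕ} {ι : Type} [Fintype ι]

/-- the right-hand side of the new relation -/
noncomputable def newPhi (C : Fin R → Prop) [DecidablePred C]
    (a : Fin R → ι → MvPolynomial (Fin (κ + 2)) K) (g : Fin R) :
    MvPolynomial (Fin (κ + 2)) (KF K ι) :=
  if C g then ∑ j, MvPolynomial.C (Tv K j) * MvPolynomial.map (algebraMap K (KF K ι)) (a g j)
  else 0

theorem newPhi_hom (C : Fin R → Prop) [DecidablePred C]
    (a : Fin R → ι → MvPolynomial (Fin (κ + 2)) K) {e : ℕ} (ha : ∀ g j, (a g j).IsHomogeneous e)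
    (g : Fin R) : (newPhi C a g).IsHomogeneous (if C g then e else 1) := by
  unfold newPhi
  split_ifs
  · refine IsHomogeneous.sum _ _ _ fun j _ => ?_
    have h := (isHomogeneous_C (Fin (κ + 2)) (Tv K j)).mul ((ha g j).map (algebraMap K (KF K ι)))
    rwa [zero_add] at h
  · exact isHomogeneous_zero _ _ _

/-- the new blocks -/
noncomputable def newBlk (β : Fin R → Blk K κ) (C : Fin R → Prop) [DecidablePred C] (e : ℕ)
    (he : 0 < e) (a : Fin R → ι → MvPolynomial (Fin (κ + 2)) K)
    (ha : ∀ g j, (a g j).IsHomogeneous e) (g : Fin R) : Blk (KF K ι) (κ + 1) :=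
  ((β g).map (algebraMap K (KF K ι))).snoc (if C g then e else 1)
    (by split_ifs <;> omega) (newPhi C a g) (newPhi_hom C a ha g)

end new

/-- **The level lemma.** -/
def DStep (K : Type u) [Field K] (κ : ℕ) : Prop :=
  ∀ (R : ℕ) (β : Fin R → Blk K κ), IntAll K β →
    ∀ (ι : Type) [Fintype ι] (C : Fin R → Prop) [DecidablePred C] (e : ℕ) (he : 0 < e)
      (a : Fin R → ι → MvPolynomial (Fin (κ + 2)) K) (ha : ∀ g j, (a g j).IsHomogeneous e),
      (∀ (Ω : Type u) [Field Ω] [IsAlgClosed Ω] [Algebra K Ω] (pt : Fin R → Fin (κ + 2) → Ω),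
        (∀ g i, aeval (pt g) ((β g).rel i) = 0) → (∀ g, pt g 0 ≠ 0 ∨ pt g 1 ≠ 0) →
        ∀ c : Fin R → Ω, (∀ g, ¬ C g → c g = 0) →
          (∀ j, ∑ g, c g * aeval (pt g) (a g j) = 0) → ∀ g, c g = 0) →
      IntAll (KF K ι) (newBlk β C e he a ha)

end Vale.Agent.P200.V
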