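import Vale.Agent.P200.M.Compound

/-!
Polynomials with central variables over a finite dimensional algebra.
`AR A n` is the polynomial ring in `n` central variables over the `K`-algebra `A`; all spaces are
`K`-spaces, all differentials are given by right multiplications (`M.kr`, `M.rd` with `D := K`).
-/

namespace Vale.Agent.P200.V

open MvPolynomial Module
open Vale.Agent.P200.B Vale.Agent.P200.G Vale.Agent.P200.L Vale.Agent.P200.M

/-- polynomials with central variables over `A` -/
abbrev AR (A : Type*) [Ring A] (n : ℕ) : Type _ := AddMonoidAlgebra A (Fin n →₀ ℕ)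

variable {K : Type*} [Field K] {A : Type*} [Ring A] [Algebra K A] {n : ℕ}

/-- forms of degree `d` -/
def YA (K A : Type*) [Field K] [Ring A] [Algebra K A] (n d : ℕ) : Submodule K (AR A n) where
  carrier := {u | ∀ m, u.coeff m ≠ 0 → ∑ i, m i = d}
  add_mem' := by
    intro a b ha hb m hm
    by_contra h
    have h1 : a.coeff m = 0 := by
      by_contra h'
      exact h (ha m h')
    have h2 : b.coeff m = 0 := by
      by_contra h'
      exact h (hb m h')
    apply hm
    rw [AddMonoidAlgebra.coeff_add, Finsupp.add_apply, h1, h2, add_zero]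
  zero_mem' := by
    intro m hm
    exact absurd (by rw [AddMonoidAlgebra.coeff_zero, Finsupp.zero_apply]) hm
  smul_mem' := by
    intro k a ha m hm
    refine ha m fun h => hm ?_
    rw [AddMonoidAlgebra.coeff_smul_apply, h, smul_zero]

/-- the linear form with coefficients `e` -/
noncomputable def linA (e : Fin n → A) : AR A n :=
  ∑ k, AddMonoidAlgebra.single (Finsupp.single k 1) (e k)

/-- the variables -/
noncomputable def zA (A : Type*) [Ring A] (n : ℕ) : Fin n → AR A n := fun k =>
  AddMonoidAlgebra.single (Finsupp.single k 1) 1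

/-- extension of coefficients -/
noncomputable def bA (A : Type*) [Ring A] [Algebra K A] {n : ℕ} :
    MvPolynomial (Fin n) K →+* AR A n :=
  AddMonoidAlgebra.mapRingHom (Fin n →₀ ℕ) (algebraMap K A)

/-- apply a linear functional to all coefficients -/
noncomputable def co (φ : A →ₗ[K] K) : AR A n →ₗ[K] MvPolynomial (Fin n) K where
  toFun u := AddMonoidAlgebra.map φ.toAddMonoidHom u
  map_add' u v := AddMonoidAlgebra.map_add _ _ _
  map_smul' k u := by
    refine MvPolynomial.ext _ _ fun m => ?_
    change φ ((k • u).coeff m) = MvPolynomial.coeff m (k • _)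
    rw [MvPolynomial.coeff_smul, AddMonoidAlgebra.coeff_smul_apply, map_smul]
    rfl

theorem co_coeff (φ : A →ₗ[K] K) (u : AR A n) (m : Fin n →₀ ℕ) :
    MvPolynomial.coeff m (co φ u) = φ (u.coeff m) := rfl

/-- the space `A ⊗ V` -/
noncomputable def VA (A : Type*) [Ring A] [Algebra K A] {n : ℕ}
    (V : Submodule K (MvPolynomial (Fin n) K)) : Submodule K (AR A n) :=
  ⨅ φ : A →ₗ[K] K, V.comap (co φ)

theorem mem_VA {V : Submodule K (MvPolynomial (Fin n) K)} {u : AR A n} :
    u ∈ VA A V ↔ ∀ φ : A →ₗ[K] K, co φ u ∈ V := by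
  rw [VA, Submodule.mem_iInf]
  rfl

end Vale.Agent.P200.V
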