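import Vale.Agent.P200.V.LevelSpec

/-!
The level lemma: weights over the ring of parameters, minors.
-/

namespace Vale.Agent.P200.V

open Module MvPolynomial

universe u

/-- the degrees over the ring of parameters: the variables of `C` have `T`-degree one, the
parameters have `T`-degree `e` -/
def wT {Z ι : Type} [DecidableEq Z] [DecidableEq ι] (J : Type) (blk : Z → ι) (C : Finset Z)
    (e : ℕ) : Z ⊕ J → (ι → ℤ) × ℤ :=
  Sum.elim (fun z => (wb blk z, if z ∈ C then 1 else 0)) fun _ => (0, (e : ℤ))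

/-- the blocks of the variables -/
def tblk {Z ι : Type} (J : Type) (blk : Z → ι) : Z ⊕ J → Option ι :=
  Sum.elim (fun z => some (blk z)) fun _ => none

/-- the maximal minors of the rows `0, …, j` -/
def mins {P : Type*} [CommRing P] {r N : ℕ} (h : Fin r → Fin N → P) (j : Fin r) : Set P :=
  {x | ∃ g : Fin (j + 1) → Fin N,
    x = (Matrix.of fun (a b : Fin (j + 1)) => h (Fin.castLE j.2 a) (g b)).det}

/-- the hypothesis (IND) of the level lemma -/
def LvInd {k : Type u} [Field k] {Z ι J : Type} (blk : Z → ι) (C : Finset Z)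
    (G0 : Set (MvPolynomial Z k)) (h : Z → J → MvPolynomial Z k) : Prop :=
  ∀ (Ω : Type u) [Field Ω] [IsAlgClosed Ω] [Algebra k Ω] (p : Z → Ω),
    (∀ g ∈ G0, aeval p g = 0) → (∀ c ∈ C, p c = 0) → (∀ b, ∃ z, blk z = b ∧ p z ≠ 0) →
    ∀ l : Z → Ω, (∀ j, ∑ c ∈ C, l c * aeval p (h c j) = 0) → ∀ c ∈ C, l c = 0

/-- the relations over the ring of parameters -/
noncomputable def trelT {k : Type u} [Field k] {Z J : Type} [Fintype J] (e : ℕ)
    (h : Z → J → MvPolynomial Z k) (c : Z) : MvPolynomial (Z ⊕ J) k :=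
  X (Sum.inl c) ^ e - ∑ j, X (Sum.inr j) * rename Sum.inl (h c j)

end Vale.Agent.P200.V
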