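import Vale.Agent.P200.V.KosHd
import Vale.Agent.P200.V.LvDefs

/-!
The Koszul lemma: Hilbert functions of modules killed by the forms `∑ Y_m h_(c,m)`.
-/

namespace Vale.Agent.P200.V

open Module MvPolynomial Vale.Agent.P200.S

universe u

section ev
variable {ι : Type}

theorem EvEq2.add_k {f g f' g' : (ι → ℤ) × ℤ → ℤ} (h : EvEq2 f g) (h' : EvEq2 f' g') :
    EvEq2 (f + f') (g + g') := by
  obtain ⟨n0, h⟩ := h
  obtain ⟨n1, h'⟩ := h'
  exact ⟨max n0 n1, fun n t hn => congrArg₂ (· + ·)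
    (h n t fun i => (le_max_left _ _).trans (hn i)) (h' n t fun i => (le_max_right _ _).trans (hn i))⟩

theorem EvEq2.act_k [Fintype ι] {f g : (ι → ℤ) × ℤ → ℤ} (h : EvEq2 f g)
    (a : AddMonoidAlgebra ℤ ((ι → ℤ) × ℤ)) : EvEq2 (act _ a f) (act _ a g) := by
  classical
  induction a using AddMonoidAlgebra.induction_linear with
  | zero =>
    rw [map_zero]
    exact ⟨0, fun _ _ _ => rfl⟩
  | add a b ha hb =>
    rw [map_add]
    exact ha.add_k hb
  | single δ c =>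
    obtain ⟨n0, h⟩ := h
    refine ⟨n0 + ∑ i, |δ.1 i|, fun n t hn => ?_⟩
    rw [act_single, act_single]
    have h1 : f ((n, t) - δ) = g ((n, t) - δ) := by
      apply h
      intro i
      have h2 := hn i
      have h3 : |δ.1 i| ≤ ∑ i, |δ.1 i| :=
        Finset.single_le_sum (f := fun i => |δ.1 i|) (fun i _ => abs_nonneg _)
          (Finset.mem_univ i)
      have h4 := le_abs_self (δ.1 i)
      change n0 ≤ n i - δ.1 i
      linarith
    rw [h1]

end ev

section kos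
variable {k : Type u} [Field k] {σ ι J : Type} [Fintype σ] [Fintype J] [Fintype ι]
  {wt : σ → (ι → ℤ) × ℤ} {sh : J → (ι → ℤ) × ℤ} {N r : ℕ}

/-- the Euler characteristic of `𝒦 / N_j` -/
noncomputable def chiK (wt : σ → (ι → ℤ) × ℤ) (sh : J → (ι → ℤ) × ℤ) (δ : (ι → ℤ) × ℤ)
    (h : Fin r → Fin N → MvPolynomial σ k)
    (X Y : Submodule (MvPolynomial σ k) (J → MvPolynomial σ k)) (j : ℕ)
    (ν : (ι → ℤ) × ℤ) : ℤ :=
  ((hd wt (shK N δ sh) (pwp N X 1) ν : ℤ) - hd wt (shK N δ sh) (Nn h X Y j 1) ν) -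
    ((hd wt (shK N δ sh) (pwp N X (-1)) ν : ℤ) - hd wt (shK N δ sh) (Nn h X Y j (-1)) ν)

variable {δ : (ι → ℤ) × ℤ} {α : Fin r → (ι → ℤ) × ℤ} {h : Fin r → Fin N → MvPolynomial σ k}
  {X Y : Submodule (MvPolynomial σ k) (J → MvPolynomial σ k)} {J0 : Set (MvPolynomial σ k)}

omit [Fintype ι] in
theorem homS_Nn (hh : ∀ c m e, coeff e (h c m) ≠ 0 → dg wt e = α c) (hX : HomS wt sh X)
    (hY : HomS wt sh Y) :
    ∀ (j : ℕ), j ≤ r → ∀ (p : ℤˣ), HomS wt (shK N δ sh) (Nn h X Y j p) := by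
  intro j
  induction j with
  | zero =>
    intro _ p
    rw [Nn_zero]
    exact hY.pwp δ p
  | succ j ih =>
    intro hj p
    have h1 := Nn_succ h X Y ⟨j, hj⟩ p
    change Nn h X Y (j + 1) p = _ at h1
    rw [h1]
    exact (ih (Nat.le_of_succ_le hj) p).sup ((hX.pwp δ (-p)).map (isDeg_true δ (hh ⟨j, hj⟩)))

omit [Fintype σ] [Fintype J] [Fintype ι] in
/-- the ideal generated by `J0` maps `X` into `Y` -/
theorem span_smul_mem (h0 : ∀ q ∈ J0, ∀ f ∈ X, q • f ∈ Y) {q : MvPolynomial σ k}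
    (hq : q ∈ (Ideal.span J0 : Ideal (MvPolynomial σ k))) {f : J → MvPolynomial σ k}
    (hf : f ∈ X) : q • f ∈ Y := by
  induction hq using Submodule.span_induction with
  | mem q hq => exact h0 q hq f hf
  | zero =>
    rw [zero_smul]
    exact Y.zero_mem
  | add a b _ _ ha hb =>
    rw [add_smul]
    exact Y.add_mem ha hb
  | smul c a _ ha =>
    rw [smul_eq_mul, mul_smul]
    exact Y.smul_mem c ha

/-- the kernel of `η_j` on `𝒦 / N_j` is eventually `N_(j+1)` -/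
theorem ker_eta (hwt : Pos wt) (blk : σ → Option ι)
    (hblk : ∀ v i, (wt v).1 i = open scoped Classical in if blk v = some i then 1 else 0)
    (hh : ∀ c m e, coeff e (h c m) ≠ 0 → dg wt e = α c) (hX : HomS wt sh X) (hY : HomS wt sh Y)
    (hYX : Y ≤ X) (h0 : ∀ q ∈ J0, ∀ f ∈ X, q • f ∈ Y) (j : Fin r)
    (hmin : ∃ d : ℕ, ∀ mon : σ →₀ ℕ, (∀ b, d ≤ bdeg blk mon b) →
      monomial mon (1 : k) ∈ (Ideal.span (J0 ∪ {q | ∃ g : Fin (j + 1) → Fin N,
        q = (Matrix.of fun (a b : Fin (j + 1)) => h (Fin.castLE j.2 a) (g b)).det}) :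
        Ideal (MvPolynomial σ k))) (p : ℤˣ) :
    ∃ n0 : ℤ, ∀ (n : ι → ℤ) (t : ℤ), (∀ i, n0 ≤ n i) →
      hd wt (shK N δ sh) (kerIn (OpU true (h j)) (pwp N X p) (Nn h X Y j (-p))) (n, t) =
        hd wt (shK N δ sh) (Nn h X Y (j + 1) p) (n, t) := by
  obtain ⟨d, hd'⟩ := hmin
  refine hd_eq_of_killed hwt blk hblk
    (HomS.kerIn (isDeg_true δ (hh j)) (hX.pwp δ p) (homS_Nn hh hX hY j j.2.le (-p)))
    (homS_Nn hh hX hY (j + 1) j.2 p) ?_ d ?_
  · intro x hx
    exact ⟨Nn_le h hYX _ _ hx, eta_mem h j p hx⟩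
  · intro e he f hf
    have h1 : ∀ q ∈ (Ideal.span (J0 ∪ {q | ∃ g : Fin (j + 1) → Fin N,
        q = (Matrix.of fun (a b : Fin (j + 1)) => h (Fin.castLE j.2 a) (g b)).det}) :
        Ideal (MvPolynomial σ k)), q • f ∈ Nn h X Y (j + 1) p := by
      intro q hq
      induction hq using Submodule.span_induction with
      | mem q hq =>
        rcases hq with hq | ⟨g, rfl⟩
        · exact Submodule.mem_sup_left (smul_mem_pwp (h0 q hq) hf.1)
        · exact minor_smul_mem_Nn h j g p hf.1 hf.2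
      | zero =>
        rw [zero_smul]
        exact Submodule.zero_mem _
      | add a b _ _ ha hb =>
        rw [add_smul]
        exact Submodule.add_mem _ ha hb
      | smul c a _ ha =>
        rw [smul_eq_mul, mul_smul]
        exact Submodule.smul_mem _ c ha
    exact h1 _ (hd' e he)

/-- one step -/
theorem chiK_step (hwt : Pos wt) (blk : σ → Option ι)
    (hblk : ∀ v i, (wt v).1 i = open scoped Classical in if blk v = some i then 1 else 0)
    (hh : ∀ c m e, coeff e (h c m) ≠ 0 → dg wt e = α c) (hX : HomS wt sh X) (hY : HomS wt sh Y)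
    (hYX : Y ≤ X) (h0 : ∀ q ∈ J0, ∀ f ∈ X, q • f ∈ Y) (j : Fin r)
    (hmin : ∃ d : ℕ, ∀ mon : σ →₀ ℕ, (∀ b, d ≤ bdeg blk mon b) →
      monomial mon (1 : k) ∈ (Ideal.span (J0 ∪ {q | ∃ g : Fin (j + 1) → Fin N,
        q = (Matrix.of fun (a b : Fin (j + 1)) => h (Fin.castLE j.2 a) (g b)).det}) :
        Ideal (MvPolynomial σ k))) :
    EvEq2 (chiK wt sh δ h X Y j) (act _ (1 - el (α j + δ)) (chiK wt sh δ h X Y (j + 1))) := by
  obtain ⟨n0, hn0⟩ := ker_eta (δ := δ) hwt blk hblk hh hX hY hYX h0 j hmin 1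
  obtain ⟨n1, hn1⟩ := ker_eta (δ := δ) hwt blk hblk hh hX hY hYX h0 j hmin (-1)
  refine ⟨max n0 n1 + ∑ i, |(α j + δ).1 i|, fun n t hn => ?_⟩
  have hsub : ((n, t) : (ι → ℤ) × ℤ) - (α j + δ) = (n - (α j + δ).1, t - (α j + δ).2) := rfl
  have hle : ∀ i, max n0 n1 ≤ (n - (α j + δ).1) i := by
    intro i
    have h2 := hn i
    have h3 : |(α j + δ).1 i| ≤ ∑ i, |(α j + δ).1 i| :=
      Finset.single_le_sum (f := fun i => |(α j + δ).1 i|) (fun i _ => abs_nonneg _)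
        (Finset.mem_univ i)
    have h4 := le_abs_self ((α j + δ).1 i)
    change max n0 n1 ≤ n i - (α j + δ).1 i
    linarith
  have e0 := hn0 _ (t - (α j + δ).2) fun i => (le_max_left _ _).trans (hle i)
  have e1 := hn1 _ (t - (α j + δ).2) fun i => (le_max_right _ _).trans (hle i)
  have key : ∀ p : ℤˣ, hd wt (shK N δ sh) (pwp N X p) ((n, t) - (α j + δ)) +
      hd wt (shK N δ sh) (Nn h X Y j (-p)) (n, t) =
      hd wt (shK N δ sh) (kerIn (OpU true (h j)) (pwp N X p) (Nn h X Y j (-p)))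
        ((n, t) - (α j + δ)) + hd wt (shK N δ sh) (Nn h X Y (j + 1) (-p)) (n, t) := by
    intro p
    have h1 := hd_kerIn hwt (isDeg_true (sh := sh) δ (hh j)) (hX.pwp δ p)
      (homS_Nn (δ := δ) hh hX hY j j.2.le (-p)) ((n, t) - (α j + δ))
    rw [sub_add_cancel] at h1
    rw [Nn_succ, neg_neg]
    exact h1
  have k0 := key 1
  have k1 := key (-1)
  rw [hsub, e0] at k0
  rw [neg_neg, hsub] at k1
  rw [neg_neg] at e1
  rw [e1] at k1
  rw [map_sub, map_one, LinearMap.sub_apply, Pi.sub_apply, Module.End.one_apply, act_el, hsub]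
  unfold chiK
  zify at k0 k1
  linarith

/-- all steps -/
theorem chiK_prod (hwt : Pos wt) (blk : σ → Option ι)
    (hblk : ∀ v i, (wt v).1 i = open scoped Classical in if blk v = some i then 1 else 0)
    (hh : ∀ c m e, coeff e (h c m) ≠ 0 → dg wt e = α c) (hX : HomS wt sh X) (hY : HomS wt sh Y)
    (hYX : Y ≤ X) (h0 : ∀ q ∈ J0, ∀ f ∈ X, q • f ∈ Y)
    (hmin : ∀ j : Fin r, ∃ d : ℕ, ∀ mon : σ →₀ ℕ, (∀ b, d ≤ bdeg blk mon b) →
      monomial mon (1 : k) ∈ (Ideal.span (J0 ∪ {q | ∃ g : Fin (j + 1) → Fin N,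
        q = (Matrix.of fun (a b : Fin (j + 1)) => h (Fin.castLE j.2 a) (g b)).det}) :
        Ideal (MvPolynomial σ k))) :
    EvEq2 (chiK wt sh δ h X Y 0)
      (act _ (∏ j : Fin r, (1 - el (α j + δ))) (chiK wt sh δ h X Y r)) := by
  have h1 : ∀ j ≤ r, EvEq2 (chiK wt sh δ h X Y 0)
      (act _ (∏ i ∈ Finset.range j, if hi : i < r then (1 - el (α ⟨i, hi⟩ + δ)) else 1)
        (chiK wt sh δ h X Y j)) := by
    intro j
    induction j with
    | zero =>
      intro _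
      rw [Finset.prod_range_zero, map_one]
      exact ⟨0, fun _ _ _ => rfl⟩
    | succ j ih =>
      intro hj
      have h2 := (chiK_step (δ := δ) hwt blk hblk hh hX hY hYX h0 ⟨j, hj⟩ (hmin ⟨j, hj⟩)).act_k
        (∏ i ∈ Finset.range j, if hi : i < r then (1 - el (α ⟨i, hi⟩ + δ)) else 1)
      refine (ih (Nat.le_of_succ_le hj)).trans (h2.trans ?_)
      rw [Finset.prod_range_succ, dif_pos (Nat.lt_of_succ_le hj), map_mul, Module.End.mul_apply]
      exact ⟨0, fun _ _ _ => rfl⟩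
  have h3 := h1 r le_rfl
  rw [Finset.prod_range] at h3
  have h4 : (∏ i : Fin r, if hi : (i : ℕ) < r then (1 - el (α ⟨i, hi⟩ + δ)) else 1) =
      ∏ j : Fin r, (1 - el (α j + δ)) := by
    apply Finset.prod_congr rfl
    intro i _
    rw [dif_pos i.2]
  rw [h4] at h3
  exact h3

omit [Fintype ι] in
/-- the homology of `𝒦 / N_r` is killed by the `Y_m` -/
theorem chiK_mem (hwt : Pos wt) (hh : ∀ c m e, coeff e (h c m) ≠ 0 → dg wt e = α c)
    (hX : HomS wt sh X) (hY : HomS wt sh Y) (hYX : Y ≤ X)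
    (h0 : ∀ q ∈ J0, ∀ f ∈ X, q • f ∈ Y) (y : Fin N → MvPolynomial σ k)
    (hy : ∀ m e, coeff e (y m) ≠ 0 → dg wt e = δ)
    (hF : ∀ c, ∑ m, y m * h c m ∈ (Ideal.span J0 : Ideal (MvPolynomial σ k))) :
    chiK wt sh δ h X Y r ∈ Hil k wt (J0 ∪ Set.range y) := by
  -- `d` preserves `N_r`
  have hd1 : ∀ p, ∀ f ∈ Nn h X Y r p, OpU false y f ∈ Nn h X Y r (-p) :=
    Nn_stable h r false y fun i _ p f hf => by
      have h1 := OpU_contr false y (h i) f
      change OpU false y (OpU true (h i) f) + OpU true (h i) (OpU false y f) = _ at h1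
      rw [h1]
      exact smul_mem_pwp (fun g hg => span_smul_mem h0 (hF i) hg) hf
  have hN : ∀ p, HomS wt (shK N δ sh) (Nn h X Y r p) := homS_Nn hh hX hY r le_rfl
  have hdeg : IsDeg wt (shK N δ sh) (shK N δ sh) 0 (OpU false y) := isDeg_false δ hy
  have hZ : ∀ p, HomS wt (shK N δ sh) (kerIn (OpU false y) (pwp N X p) (Nn h X Y r (-p))) :=
    fun p => HomS.kerIn hdeg (hX.pwp δ p) (hN (-p))
  have hB : ∀ p, HomS wt (shK N δ sh) (Nn h X Y r p ⊔ (pwp N X (-p)).map (OpU false y)) :=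
    fun p => (hN p).sup (HomS.map hdeg (hX.pwp δ (-p)))
  have hBZ : ∀ p, Nn h X Y r p ⊔ (pwp N X (-p)).map (OpU false y) ≤
      kerIn (OpU false y) (pwp N X p) (Nn h X Y r (-p)) := by
    intro p
    refine sup_le (fun f hf => ⟨Nn_le h hYX _ _ hf, hd1 p f hf⟩) ?_
    rintro _ ⟨f, hf, rfl⟩
    refine ⟨?_, ?_⟩
    · have := OpU_mem hf false y
      rwa [neg_neg] at this
    · rw [SetLike.mem_coe, Submodule.mem_comap, OpU_self]
      exact Submodule.zero_mem _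
  have hkill : ∀ p, ∀ q ∈ J0 ∪ Set.range y,
      ∀ f ∈ kerIn (OpU false y) (pwp N X p) (Nn h X Y r (-p)),
        q • f ∈ Nn h X Y r p ⊔ (pwp N X (-p)).map (OpU false y) := by
    rintro p q (hq | ⟨m, rfl⟩) f hf
    · exact Submodule.mem_sup_left (Submodule.mem_sup_left (smul_mem_pwp (h0 q hq) hf.1))
    · classical
      have h1 := OpU_contr false y (Pi.single m 1) f
      change OpU false y (OpU true (Pi.single m 1) f) +
        OpU true (Pi.single m 1) (OpU false y f) = _ at h1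
      have h2 : ∑ m', y m' * (Pi.single m 1 : Fin N → MvPolynomial σ k) m' = y m := by
        rw [Finset.sum_eq_single m]
        · rw [Pi.single_eq_same, mul_one]
        · intro m' _ hm'
          rw [Pi.single_eq_of_ne hm', mul_zero]
        · intro h'
          exact absurd (Finset.mem_univ _) h'
      rw [h2] at h1
      rw [← h1]
      refine Submodule.add_mem _ (Submodule.mem_sup_right ⟨_, OpU_mem hf.1 true _, rfl⟩)
        (Submodule.mem_sup_left ?_)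
      have h3 := Nn_stable h (X := X) (Y := Y) r true (Pi.single m 1) (fun i _ p f _ => by
        rw [OpU_anti]
        exact Submodule.zero_mem _) (-p) _ hf.2
      rwa [neg_neg] at h3
  have hmem := fun p => hil_sub hwt (hZ p) (hB p) (hBZ p) (hkill p)
  have heq : chiK wt sh δ h X Y r =
      (fun ν => (hd wt (shK N δ sh) (kerIn (OpU false y) (pwp N X 1) (Nn h X Y r (-1))) ν : ℤ) -
        hd wt (shK N δ sh) (Nn h X Y r 1 ⊔ (pwp N X (-1)).map (OpU false y)) ν) -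
      (fun ν => (hd wt (shK N δ sh)
        (kerIn (OpU false y) (pwp N X (-1)) (Nn h X Y r (- (-1)))) ν : ℤ) -
        hd wt (shK N δ sh) (Nn h X Y r (-1) ⊔ (pwp N X (- (-1))).map (OpU false y)) ν) := by
    funext ν
    have k0 := hd_kerIn hwt hdeg (hX.pwp δ 1) (hN (-1)) ν
    have k1 := hd_kerIn hwt hdeg (hX.pwp δ (-1)) (hN 1) ν
    rw [add_zero] at k0 k1
    rw [Pi.sub_apply, neg_neg]
    unfold chiK
    zify at k0 k1
    linarith
  rw [heq]
  exact sub_mem (hmem 1) (hmem (-1))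

omit [Fintype ι] in
theorem chiK_zero (hwt : Pos wt) : chiK wt sh δ h X Y 0 =
    act _ ((1 - el δ) ^ N) (fun ν => (hd wt sh X ν : ℤ) - hd wt sh Y ν) := by
  have h1 : (fun ν => (hd wt sh X ν : ℤ) - hd wt sh Y ν) =
      (fun ν => (hd wt sh X ν : ℤ)) - fun ν => (hd wt sh Y ν : ℤ) := rfl
  funext ν
  rw [h1, map_sub, Pi.sub_apply, ← hd_pwp_sub hwt, ← hd_pwp_sub hwt]
  unfold chiK
  rw [Nn_zero, Nn_zero]
  ring

end kos

section final
variable {k : Type u} [Field k] {σ ι : Type} [Fintype σ] [Fintype ι]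
  {wt : σ → (ι → ℤ) × ℤ} {N r : ℕ}

/-- the Koszul lemma, general degrees -/
theorem koszul_gen (hwt : Pos wt) (blk : σ → Option ι)
    (hblk : ∀ v i, (wt v).1 i = open scoped Classical in if blk v = some i then 1 else 0)
    {δ : (ι → ℤ) × ℤ} {α : Fin r → (ι → ℤ) × ℤ} (h : Fin r → Fin N → MvPolynomial σ k)
    (hh : ∀ c m e, coeff e (h c m) ≠ 0 → dg wt e = α c)
    (y : Fin N → MvPolynomial σ k) (hy : ∀ m e, coeff e (y m) ≠ 0 → dg wt e = δ)
    (J0 : Set (MvPolynomial σ k))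
    (hF : ∀ c, ∑ m, y m * h c m ∈ (Ideal.span J0 : Ideal (MvPolynomial σ k)))
    (hmin : ∀ j : Fin r, ∃ d : ℕ, ∀ mon : σ →₀ ℕ, (∀ b, d ≤ bdeg blk mon b) →
      monomial mon (1 : k) ∈ (Ideal.span (J0 ∪ {q | ∃ g : Fin (j + 1) → Fin N,
        q = (Matrix.of fun (a b : Fin (j + 1)) => h (Fin.castLE j.2 a) (g b)).det}) :
        Ideal (MvPolynomial σ k))) {f : (ι → ℤ) × ℤ → ℤ} (hf : f ∈ Hil k wt J0) :
    ∃ g ∈ Hil k wt (J0 ∪ Set.range y),
      EvEq2 (act _ ((1 - el δ) ^ N) f) (act _ (∏ c : Fin r, (1 - el (α c + δ))) g) := by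
  unfold Hil at hf
  induction hf using AddSubgroup.closure_induction with
  | mem f hf =>
    obtain ⟨s, sh, M, hM, hM0, hfM⟩ := hf
    have h0 : ∀ q ∈ J0, ∀ f ∈ (⊤ : Submodule (MvPolynomial σ k) (Fin s → MvPolynomial σ k)),
        q • f ∈ M := by
      intro q hq f _
      have h1 : q • f = ∑ j, f j • (Pi.single j q : Fin s → MvPolynomial σ k) := by
        funext i
        rw [Finset.sum_apply, Finset.sum_eq_single i]
        · rw [Pi.smul_apply, Pi.smul_apply, Pi.single_eq_same, smul_eq_mul, smul_eq_mul, mul_comm]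
        · intro j _ hj
          rw [Pi.smul_apply, Pi.single_eq_of_ne hj.symm, smul_zero]
        · intro h'
          exact absurd (Finset.mem_univ _) h'
      rw [h1]
      exact Submodule.sum_mem _ fun j _ => M.smul_mem _ (hM0 q hq j)
    have hf' : f = fun ν => (hd wt sh
        (⊤ : Submodule (MvPolynomial σ k) (Fin s → MvPolynomial σ k)) ν : ℤ) -
        hd wt sh M ν := funext hfM
    refine ⟨chiK wt sh δ h ⊤ M r, chiK_mem hwt hh homS_top hM le_top h0 y hy hF, ?_⟩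
    rw [hf', ← chiK_zero (h := h) hwt]
    exact chiK_prod hwt blk hblk hh homS_top hM le_top h0 hmin
  | zero =>
    refine ⟨0, AddSubgroup.zero_mem _, ?_⟩
    rw [map_zero, map_zero]
    exact ⟨0, fun _ _ _ => rfl⟩
  | add f f' _ _ hf hf' =>
    obtain ⟨g, hg, h1⟩ := hf
    obtain ⟨g', hg', h2⟩ := hf'
    refine ⟨g + g', AddSubgroup.add_mem _ hg hg', ?_⟩
    rw [map_add, map_add]
    exact h1.add_k h2
  | neg f _ hf =>
    obtain ⟨g, hg, n0, h1⟩ := hf
    refine ⟨-g, AddSubgroup.neg_mem _ hg, n0, ?_⟩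
    intro n t hn
    rw [map_neg, map_neg, Pi.neg_apply, Pi.neg_apply, h1 n t hn]

/-- **The Koszul lemma.** -/
theorem koszul {k : Type u} [Field k] {σ ι : Type} [Fintype σ] [Fintype ι] [DecidableEq ι]
    {wt : σ → (ι → ℤ) × ℤ} (hwt : Pos wt) {blk : σ → Option ι}
    (hblk : ∀ v i, (wt v).1 i = open scoped Classical in if blk v = some i then 1 else 0)
    {N r : ℕ} {Y : Fin N → MvPolynomial σ k} {h : Fin r → Fin N → MvPolynomial σ k}
    {b : Fin r → ι} {e : ℕ} {J0 : Set (MvPolynomial σ k)}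
    (hY : ∀ m mon, coeff mon (Y m) ≠ 0 → dg wt mon = (0, (e : ℤ)))
    (hh : ∀ c m mon, coeff mon (h c m) ≠ 0 → dg wt mon = (Pi.single (b c) (e : ℤ), 0))
    (hF : ∀ c, ∑ m, Y m * h c m ∈ (Ideal.span J0 : Ideal (MvPolynomial σ k)))
    (hmin : ∀ j : Fin r, ∃ d : ℕ, ∀ mon : σ →₀ ℕ, (∀ i, d ≤ bdeg blk mon i) →
      monomial mon (1 : k) ∈ (Ideal.span (J0 ∪ mins h j) : Ideal (MvPolynomial σ k)))
    {f : (ι → ℤ) × ℤ → ℤ} (hf : f ∈ Hil k wt J0) :
    ∃ g ∈ Hil k wt (J0 ∪ Set.range Y),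
      EvEq2 (act ((ι → ℤ) × ℤ) ((1 - el ((0 : ι → ℤ), (e : ℤ))) ^ N) f)
        (act ((ι → ℤ) × ℤ) (∏ c, (1 - el ((Pi.single (b c) (e : ℤ) : ι → ℤ), (e : ℤ)))) g) := by
  obtain ⟨g, hg, h1⟩ := koszul_gen hwt blk (fun v i => by
    rw [hblk v i]
    by_cases hv : blk v = some i
    · rw [if_pos hv, if_pos hv]
    · rw [if_neg hv, if_neg hv]) (δ := ((0 : ι → ℤ), (e : ℤ)))
    (α := fun c => ((Pi.single (b c) (e : ℤ) : ι → ℤ), (0 : ℤ))) h hh Y hY J0 hF hmin hf
  refine ⟨g, hg, ?_⟩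
  have h2 : ∀ c, ((Pi.single (b c) (e : ℤ) : ι → ℤ), (0 : ℤ)) + ((0 : ι → ℤ), (e : ℤ)) =
      ((Pi.single (b c) (e : ℤ) : ι → ℤ), (e : ℤ)) := by
    intro c
    rw [Prod.mk_add_mk, add_zero, zero_add]
  simp only [h2] at h1
  exact h1

end final

end Vale.Agent.P200.V
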