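import Vale.Agent.P200.S.IndRad
import Vale.Agent.P200.V.LvDefs

/-!
Linearly independent rows at every point: the monomials of large degree are in the ideal of the
maximal minors.
-/

namespace Vale.Agent.P200.V

open Module MvPolynomial

universe u

/-- independent rows at all points over algebraically closed fields -/
theorem ind_radical_closed {k : Type u} [Field k] {σ : Type} (J0 : Set (MvPolynomial σ k))
    {C N : Type} [Fintype C] [DecidableEq C] [Fintype N] (h : C → N → MvPolynomial σ k) {B : Type}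
    [Fintype B] (v : B → σ)
    (hind : ∀ (Ω : Type u) [Field Ω] [IsAlgClosed Ω] [Algebra k Ω] (p : σ → Ω),
      (∀ q ∈ J0, aeval p q = 0) → (∀ b, p (v b) ≠ 0) →
        LinearIndependent Ω fun c m => aeval p (h c m)) :
    ∏ b, (X (v b) : MvPolynomial σ k) ∈ (Ideal.span (J0 ∪ {q | ∃ g : C → N,
      q = (Matrix.of fun a b => h a (g b)).det}) : Ideal (MvPolynomial σ k)).radical := by
  have h1 := S.ind_radical (k := k) (Ideal.span J0 : Ideal (MvPolynomial σ k)) h
    (fun b => (X (v b) : MvPolynomial σ k)) ?_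
  · refine Ideal.radical_mono ?_ h1
    rw [Ideal.span_union]
    refine sup_le_sup le_rfl (Ideal.span_mono ?_)
    rintro q ⟨g, -, rfl⟩
    exact ⟨g, rfl⟩
  · intro Ω _ _ φ hφ hv
    let Ω' := AlgebraicClosure Ω
    let ψ : MvPolynomial σ k →ₐ[k] Ω' := (IsScalarTower.toAlgHom k Ω Ω').comp φ
    have hψ : ∀ q, aeval (fun s => ψ (X s)) q = algebraMap Ω Ω' (φ q) := by
      intro q
      have h2 : aeval (fun s => ψ (X s)) = ψ := by
        apply MvPolynomial.algHom_ext
        intro s
        rw [aeval_X]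
      rw [h2]
      rfl
    have h3 := hind Ω' (fun s => ψ (X s)) (fun q hq => by
      rw [hψ, hφ q (Ideal.subset_span hq), map_zero]) (fun b hb => by
      have h4 := hψ (X (v b))
      rw [aeval_X, hb] at h4
      exact hv b ((map_eq_zero _).1 h4.symm))
    rw [Fintype.linearIndependent_iff] at h3 ⊢
    intro l hl c
    have h5 := h3 (fun c => algebraMap Ω Ω' (l c)) (by
      funext m
      have h6 := congrFun hl m
      rw [Finset.sum_apply] at h6 ⊢
      have h7 := congrArg (algebraMap Ω Ω') h6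
      rw [map_sum] at h7
      rw [Pi.zero_apply, map_zero] at h7
      rw [Pi.zero_apply, ← h7]
      apply Finset.sum_congr rfl
      intro c _
      rw [Pi.smul_apply, Pi.smul_apply, smul_eq_mul, smul_eq_mul, map_mul, hψ]) c
    exact (map_eq_zero _).1 h5

/-- monomials of large degree -/
theorem monomials_mem {k : Type u} [Field k] {σ ι : Type} [Fintype σ] [Fintype ι]
    (blk : σ → Option ι) (I : Ideal (MvPolynomial σ k))
    (hI : ∀ v : ι → σ, (∀ b, blk (v b) = some b) →
      ∏ b, (X (v b) : MvPolynomial σ k) ∈ I.radical) :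
    ∃ d : ℕ, ∀ mon : σ →₀ ℕ, (∀ b, d ≤ bdeg blk mon b) → monomial mon (1 : k) ∈ I := by
  classical
  have h1 : ∀ v : ι → σ, ∃ n : ℕ, (∀ b, blk (v b) = some b) →
      (∏ b, (X (v b) : MvPolynomial σ k)) ^ n ∈ I := by
    intro v
    by_cases hv : ∀ b, blk (v b) = some b
    · obtain ⟨n, hn⟩ := hI v hv
      exact ⟨n, fun _ => hn⟩
    · exact ⟨0, fun h => absurd h hv⟩
  choose n hn using h1
  obtain ⟨M, hM⟩ : ∃ M : ℕ, ∀ v, n v ≤ M :=
    ⟨Finset.univ.sup n, fun v => Finset.le_sup (f := n) (Finset.mem_univ v)⟩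
  refine ⟨M * Fintype.card σ + 1, fun mon hmon => ?_⟩
  have h2 : ∀ b, ∃ v, blk v = some b ∧ M ≤ mon v := by
    intro b
    by_contra hcon
    push Not at hcon
    have h3 := hmon b
    unfold bdeg at h3
    have h4 : ∑ v ∈ Finset.univ.filter (fun v => blk v = some b), mon v ≤
        ∑ v ∈ Finset.univ.filter (fun v => blk v = some b), M := by
      apply Finset.sum_le_sum
      intro v hv
      exact (hcon v (Finset.mem_filter.1 hv).2).le
    rw [Finset.sum_const, smul_eq_mul] at h4
    have h5 : (Finset.univ.filter (fun v => blk v = some b)).card ≤ Fintype.card σ :=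
      Finset.card_le_univ _
    have h6 : (Finset.univ.filter (fun v => blk v = some b)).card * M ≤
        M * Fintype.card σ := by
      rw [mul_comm M]
      exact Nat.mul_le_mul_right M h5
    have h7 : (∑ v ∈ Finset.univ.filter (fun v => blk v = some b), mon v) =
        ∑ v with blk v = some b, mon v := rfl
    omega
  choose v hv1 hv2 using h2
  have hinj : Function.Injective v := by
    intro b b' h
    have h3 := hv1 b
    rw [h, hv1 b'] at h3
    exact (Option.some.inj h3).symm
  -- the product divides the monomial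
  have hle : (∑ b, Finsupp.single (v b) M : σ →₀ ℕ) ≤ mon := by
    intro s
    rw [Finsupp.finsetSum_apply]
    by_cases hs : ∃ b, v b = s
    · obtain ⟨b, rfl⟩ := hs
      rw [Finset.sum_eq_single b]
      · rw [Finsupp.single_eq_same]
        exact hv2 b
      · intro b' _ hb'
        rw [Finsupp.single_eq_of_ne (fun h => hb' (hinj h).symm)]
      · intro h
        exact absurd (Finset.mem_univ b) h
    · push Not at hs
      rw [Finset.sum_eq_zero fun b _ => Finsupp.single_eq_of_ne (hs b).symm]
      exact Nat.zero_le _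
  have h8 : monomial mon (1 : k) = monomial (mon - ∑ b, Finsupp.single (v b) M) (1 : k) *
      (∏ b, (X (v b) : MvPolynomial σ k)) ^ M := by
    have h9 : (∏ b, (X (v b) : MvPolynomial σ k)) ^ M =
        monomial (∑ b, Finsupp.single (v b) M) (1 : k) := by
      rw [← Finset.prod_pow, monomial_sum_one]
      exact Finset.prod_congr rfl fun b _ => X_pow_eq_monomial
    rw [h9, monomial_mul, mul_one, tsub_add_cancel_of_le hle]
  rw [h8]
  refine I.mul_mem_left _ ?_
  have h10 := hn v hv1
  rw [← Nat.add_sub_of_le (hM v), pow_add]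
  exact I.mul_mem_right _ h10

/-- **The hypothesis on the minors of the Koszul lemma.** -/
theorem hmin_of_ind {k : Type u} [Field k] {σ ι : Type} [Fintype σ] [Fintype ι]
    (blk : σ → Option ι) (J0 : Set (MvPolynomial σ k)) {N r : ℕ}
    (h : Fin r → Fin N → MvPolynomial σ k)
    (hind : ∀ (Ω : Type u) [Field Ω] [IsAlgClosed Ω] [Algebra k Ω] (p : σ → Ω),
      (∀ q ∈ J0, aeval p q = 0) → (∀ b, ∃ v, blk v = some b ∧ p v ≠ 0) →
        LinearIndependent Ω fun c m => aeval p (h c m)) (j : Fin r) :
    ∃ d : ℕ, ∀ mon : σ →₀ ℕ, (∀ b, d ≤ bdeg blk mon b) →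
      monomial mon (1 : k) ∈ (Ideal.span (J0 ∪ {q | ∃ g : Fin (j + 1) → Fin N,
        q = (Matrix.of fun (a b : Fin (j + 1)) => h (Fin.castLE j.2 a) (g b)).det}) :
        Ideal (MvPolynomial σ k)) := by
  refine monomials_mem blk _ fun v hv => ?_
  refine ind_radical_closed J0 (fun a : Fin (j + 1) => h (Fin.castLE j.2 a)) v
    fun Ω _ _ _ p hp hpv => ?_
  have h1 := hind Ω p hp fun b => ⟨v b, hv b, hpv b⟩
  exact h1.comp (fun a : Fin (j + 1) => Fin.castLE j.2 a) (Fin.castLE_injective j.2)

/-- the level lemma: monomials of large degree are in the ideal of the minors -/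
theorem lv_min {k : Type u} [Field k] {Z ι J : Type} [Fintype Z] [Fintype ι] [Fintype J]
    {blk : Z → ι} {C : Finset Z} {G0 : Set (MvPolynomial Z k)} {h : Z → J → MvPolynomial Z k}
    (hind : LvInd blk C G0 h) {r N : ℕ} {cc : Fin r → Z} (hcc : Function.Injective cc)
    (hC : ∀ i, cc i ∈ C) {θ : Fin N → J} (hθ : Function.Surjective θ)
    {J0 : Set (MvPolynomial (Z ⊕ J) k)} (hG : ∀ g ∈ G0, rename Sum.inl g ∈ J0)
    (hX : ∀ c ∈ C, X (Sum.inl c) ∈ J0) (j : Fin r) :
    ∃ d : ℕ, ∀ mon : Z ⊕ J →₀ ℕ, (∀ b, d ≤ bdeg (tblk J blk) mon b) →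
      monomial mon (1 : k) ∈ Ideal.span (J0 ∪
        mins (fun i m => rename (Sum.inl : Z → Z ⊕ J) (h (cc i) (θ m))) j) := by
  classical
  refine hmin_of_ind (tblk J blk) J0
    (fun i m => rename (Sum.inl : Z → Z ⊕ J) (h (cc i) (θ m))) (fun Ω _ _ _ p hp hpv => ?_) j
  have hren : ∀ q : MvPolynomial Z k, aeval p (rename (Sum.inl : Z → Z ⊕ J) q) =
      aeval (fun z => p (Sum.inl z)) q := by
    intro q
    rw [aeval_rename]
    rfl
  have h1 := hind Ω (fun z => p (Sum.inl z)) (fun g hg => by
      rw [← hren]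
      exact hp _ (hG g hg)) (fun c hc => by
      have h2 := hp _ (hX c hc)
      rw [aeval_X] at h2
      exact h2) (fun b => by
      obtain ⟨v, hv, hpv⟩ := hpv b
      rcases v with z | z
      · exact ⟨z, Option.some.inj hv, hpv⟩
      · exact absurd hv (by simp [tblk]))
  rw [Fintype.linearIndependent_iff]
  intro l hl i
  have h3 := h1 (fun z => if hz : ∃ i, cc i = z then l hz.choose else 0) (fun jj => by
    obtain ⟨m, rfl⟩ := hθ jj
    have h4 := congrFun hl m
    rw [Finset.sum_apply, Pi.zero_apply] at h4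
    refine Eq.trans ?_ h4
    symm
    have h5 : ∑ i, (l i • fun m => aeval p (rename (Sum.inl : Z → Z ⊕ J) (h (cc i) (θ m)))) m =
        ∑ z ∈ Finset.univ.image cc, (if hz : ∃ i, cc i = z then l hz.choose else 0) *
          aeval (fun z => p (Sum.inl z)) (h z (θ m)) := by
      rw [Finset.sum_image fun a _ b _ hab => hcc hab]
      apply Finset.sum_congr rfl
      intro i _
      have hz : ∃ i', cc i' = cc i := ⟨i, rfl⟩
      rw [dif_pos hz, hcc hz.choose_spec, Pi.smul_apply, smul_eq_mul, hren]
    rw [h5]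
    apply Finset.sum_subset
    · intro z hz
      obtain ⟨i, -, rfl⟩ := Finset.mem_image.1 hz
      exact hC i
    · intro z _ hz
      rw [dif_neg, zero_mul]
      rintro ⟨i, rfl⟩
      exact hz (Finset.mem_image_of_mem _ (Finset.mem_univ i))) (cc i) (hC i)
  have hz : ∃ i', cc i' = cc i := ⟨i, rfl⟩
  rw [dif_pos hz, hcc hz.choose_spec] at h3
  exact h3

end Vale.Agent.P200.V
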