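import Vale.Agent.P200.V.Act

/-!
The level lemma: cancellation of `1 - L T` and `T = 1`.
-/

namespace Vale.Agent.P200.V

section canc
variable {ι : Type}

/-- functions which are zero outside of a bounded interval for the last degree -/
def TB (F : (ι → ℤ) × ℤ → ℤ) : Prop := ∃ t0 t1 : ℤ, ∀ n t, t < t0 ∨ t1 < t → F (n, t) = 0

theorem TB.add {F G : (ι → ℤ) × ℤ → ℤ} (hF : TB F) (hG : TB G) : TB (F + G) := by
  obtain ⟨a, b, hF⟩ := hF
  obtain ⟨c, d, hG⟩ := hG
  refine ⟨min a c, max b d, fun n t ht => ?_⟩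
  rw [Pi.add_apply, hF n t, hG n t, add_zero]
  · rcases ht with h | h
    · exact Or.inl (lt_of_lt_of_le h (min_le_right _ _))
    · exact Or.inr (lt_of_le_of_lt (le_max_right _ _) h)
  · rcases ht with h | h
    · exact Or.inl (lt_of_lt_of_le h (min_le_left _ _))
    · exact Or.inr (lt_of_le_of_lt (le_max_left _ _) h)

theorem TB.smul {F : (ι → ℤ) × ℤ → ℤ} (hF : TB F) (c : ℤ) : TB (c • F) := by
  obtain ⟨a, b, hF⟩ := hF
  refine ⟨a, b, fun n t ht => ?_⟩
  rw [Pi.smul_apply, hF n t ht, smul_zero]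

theorem act_add_apply {G : Type} [AddCommGroup G] (p q : AddMonoidAlgebra ℤ G) (f : G → ℤ) :
    act G (p + q) f = act G p f + act G q f := by
  rw [map_add, LinearMap.add_apply]

theorem act_mul_apply {G : Type} [AddCommGroup G] (p q : AddMonoidAlgebra ℤ G) (f : G → ℤ) :
    act G (p * q) f = act G p (act G q f) := by
  rw [map_mul, Module.End.mul_apply]

theorem act_smul_apply {G : Type} [AddCommGroup G] (c : ℤ) (p : AddMonoidAlgebra ℤ G)
    (f : G → ℤ) : act G (c • p) f = c • act G p f := by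
  rw [map_smul, LinearMap.smul_apply]

/-- induction over the group ring -/
theorem grp_induction {G : Type} [AddCommGroup G] {M : AddMonoidAlgebra ℤ G → Prop}
    (h1 : ∀ δ, M (el δ)) (h2 : ∀ p q, M p → M q → M (p + q)) (h3 : ∀ (c : ℤ) p, M p → M (c • p))
    (p : AddMonoidAlgebra ℤ G) : M p := by
  refine AddMonoidAlgebra.induction_on (motive := M) p (fun g => h1 _)
    (fun f g hf hg => h2 f g hf hg) (fun r f hf => h3 r f hf)

theorem TB.act {F : (ι → ℤ) × ℤ → ℤ} (hF : TB F) (p : AddMonoidAlgebra ℤ ((ι → ℤ) × ℤ)) :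
    TB (V.act ((ι → ℤ) × ℤ) p F) := by
  induction p using grp_induction with
  | h1 δ =>
    obtain ⟨a, b, hF⟩ := hF
    refine ⟨a + δ.2, b + δ.2, fun n t ht => ?_⟩
    rw [act_el]
    refine hF (n - δ.1) (t - δ.2) ?_
    rcases ht with h | h
    · exact Or.inl (by linarith)
    · exact Or.inr (by linarith)
  | h2 p q hp hq =>
    rw [act_add_apply]
    exact hp.add hq
  | h3 c p hp =>
    rw [act_smul_apply]
    exact hp.smul c

/-- cancellation of `1 - L T` -/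
theorem canc_one [Fintype ι] (β : ι → ℤ) {X : (ι → ℤ) × ℤ → ℤ} (hX : TB X)
    (h : EvEq2 (act ((ι → ℤ) × ℤ) (1 - el (β, (1 : ℤ))) X) 0) : EvEq2 X 0 := by
  obtain ⟨t0, t1, hX⟩ := hX
  obtain ⟨n0, h⟩ := h
  set B : ℤ := ∑ i, |β i| with hB
  have hB0 : 0 ≤ B := Finset.sum_nonneg fun i _ => abs_nonneg _
  have hBi : ∀ i, β i ≤ B := fun i => (le_abs_self _).trans
    (Finset.single_le_sum (f := fun i => |β i|) (fun j _ => abs_nonneg _) (Finset.mem_univ i))
  have key : ∀ (m : ℕ) (n : ι → ℤ) (t : ℤ), (∀ i, n0 + m * B ≤ n i) → t ≤ t0 - 1 + m →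
      X (n, t) = 0 := by
    intro m
    induction m with
    | zero =>
      intro n t _ ht
      exact hX n t (Or.inl (by push_cast at ht; linarith))
    | succ m ih =>
      intro n t hn ht
      have h1 := h n t fun i => by
        have h2 := hn i
        have h3 : (0 : ℤ) ≤ ((m + 1 : ℕ) : ℤ) * B := mul_nonneg (Int.natCast_nonneg _) hB0
        linarith
      rw [map_sub, map_one, LinearMap.sub_apply, Pi.sub_apply, Module.End.one_apply, act_el,
        Pi.zero_apply] at h1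
      have h4 : X ((n, t) - (β, (1 : ℤ))) = 0 := by
        refine ih (n - β) (t - 1) (fun i => ?_) (by push_cast at ht; linarith)
        have h5 := hn i
        have h6 := hBi i
        push_cast at h5
        rw [Pi.sub_apply]
        linarith
      rw [h4, sub_zero] at h1
      exact h1
  refine ⟨n0 + (t1 - t0 + 1).toNat * B, fun n t hn => ?_⟩
  rw [Pi.zero_apply]
  by_cases ht : t1 < t
  · exact hX n t (Or.inr ht)
  · refine key _ n t hn ?_
    have := Int.self_le_toNat (t1 - t0 + 1)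
    push Not at ht
    linarith

/-- cancellation of a product -/
theorem canc_prod {κ : Type} [Fintype ι] (C : Finset κ) (b : κ → ι → ℤ)
    {X : (ι → ℤ) × ℤ → ℤ} (hX : TB X)
    (h : EvEq2 (act ((ι → ℤ) × ℤ) (∏ c ∈ C, (1 - el (b c, (1 : ℤ)))) X) 0) : EvEq2 X 0 := by
  classical
  induction C using Finset.induction_on with
  | empty =>
    rw [Finset.prod_empty, map_one, Module.End.one_apply] at h
    exact h
  | insert a s ha ih =>
    rw [Finset.prod_insert ha, act_mul_apply] at h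
    exact ih (canc_one (b a) (hX.act _) h)

/-- the sum over the last degree -/
noncomputable def tsm (F : (ι → ℤ) × ℤ → ℤ) (n : ι → ℤ) : ℤ := ∑ᶠ t, F (n, t)

theorem TB.fin {F : (ι → ℤ) × ℤ → ℤ} (hF : TB F) (n : ι → ℤ) :
    (Function.support fun t => F (n, t)).Finite := by
  obtain ⟨t0, t1, hF⟩ := hF
  refine (Set.finite_Icc t0 t1).subset fun t ht => ?_
  rw [Function.mem_support] at ht
  rw [Set.mem_Icc]
  by_contra hno
  refine ht (hF n t ?_)
  rw [not_and_or, not_le, not_le] at hno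
  exact hno

theorem tsm_act {F : (ι → ℤ) × ℤ → ℤ} (hF : TB F) (p : AddMonoidAlgebra ℤ ((ι → ℤ) × ℤ)) :
    tsm (act ((ι → ℤ) × ℤ) p F) = act (ι → ℤ)
      (AddMonoidAlgebra.mapDomainAlgHom ℤ ℤ (AddMonoidHom.fst (ι → ℤ) ℤ) p) (tsm F) := by
  induction p using grp_induction with
  | h1 δ =>
    have e1 : AddMonoidAlgebra.mapDomainAlgHom ℤ ℤ (AddMonoidHom.fst (ι → ℤ) ℤ) (el δ) =
        el δ.1 := by
      unfold el
      exact AddMonoidAlgebra.mapDomain_single
    rw [e1]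
    funext n
    rw [act_el]
    unfold tsm
    have e2 : (fun t => act ((ι → ℤ) × ℤ) (el δ) F (n, t)) =
        fun t => F (n - δ.1, (Equiv.subRight δ.2) t) := by
      funext t
      rw [act_el]
      rfl
    rw [e2]
    exact finsum_comp_equiv (Equiv.subRight δ.2) (f := fun t => F (n - δ.1, t))
  | h2 p q hp hq =>
    rw [act_add_apply, map_add, act_add_apply, ← hp, ← hq]
    funext n
    rw [Pi.add_apply]
    unfold tsm
    rw [← finsum_add_distrib ((hF.act p).fin n) ((hF.act q).fin n)]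
    rfl
  | h3 c p hp =>
    rw [act_smul_apply, map_smul, act_smul_apply, ← hp]
    funext n
    rw [Pi.smul_apply]
    unfold tsm
    rw [smul_finsum]
    rfl

theorem tsm_eq {F : (ι → ℤ) × ℤ → ℤ} {t0 t1 : ℤ} (hF : ∀ n t, t < t0 ∨ t1 < t → F (n, t) = 0) :
    tsm F = fun n => ∑ t ∈ Finset.Icc t0 t1, F (n, t) := by
  funext n
  unfold tsm
  refine finsum_eq_sum_of_support_subset _ fun t ht => ?_
  rw [Function.mem_support] at ht
  rw [Finset.coe_Icc, Set.mem_Icc]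
  by_contra hno
  refine ht (hF n t ?_)
  rw [not_and_or, not_le, not_le] at hno
  exact hno

theorem map_ph {G G' : Type} [AddCommGroup G] [AddCommGroup G'] (φ : G →+ G') (e : ℕ) (δ : G) :
    AddMonoidAlgebra.mapDomainAlgHom ℤ ℤ φ (ph e δ) = ph e (φ δ) := by
  unfold ph
  rw [map_sum]
  refine Finset.sum_congr rfl fun i _ => ?_
  rw [map_pow]
  congr 1
  unfold el
  exact AddMonoidAlgebra.mapDomain_single

end canc

/-- cancellation of `1 - L T` and `T = 1` -/
theorem lv_num {ι κ : Type} [Fintype ι] (C : Finset κ) (b : κ → ι → ℤ) (e : ℕ)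
    {Q A : (ι → ℤ) × ℤ → ℤ} {t0 t1 : ℤ} (hQ : ∀ n t, t < t0 ∨ t1 < t → Q (n, t) = 0)
    (hA : ∀ n t, t < t0 ∨ t1 < t → A (n, t) = 0)
    (h : EvEq2 (act ((ι → ℤ) × ℤ) (∏ c ∈ C, (1 - el (b c, (1 : ℤ)))) Q)
      (act ((ι → ℤ) × ℤ) (∏ c ∈ C, (1 - el (e • b c, (e : ℤ)))) A)) :
    EvEq (fun n => ∑ t ∈ Finset.Icc t0 t1, Q (n, t))
      (act (ι → ℤ) (∏ c ∈ C, ph e (b c)) fun n => ∑ t ∈ Finset.Icc t0 t1, A (n, t)) := by
  have tQ : TB Q := ⟨t0, t1, hQ⟩
  have tA : TB A := ⟨t0, t1, hA⟩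
  have e1 : (∏ c ∈ C, (1 - el (e • b c, (e : ℤ)))) =
      (∏ c ∈ C, (1 - el (b c, (1 : ℤ)))) * ∏ c ∈ C, ph e (b c, (1 : ℤ)) := by
    rw [← Finset.prod_mul_distrib]
    refine Finset.prod_congr rfl fun c _ => ?_
    rw [ph_mul]
    congr 2
    rw [Prod.smul_mk, nsmul_one]
  rw [e1, act_mul_apply] at h
  set Φ : AddMonoidAlgebra ℤ ((ι → ℤ) × ℤ) := ∏ c ∈ C, ph e (b c, (1 : ℤ)) with hΦ
  have tX : TB (Q + (-1 : ℤ) • act ((ι → ℤ) × ℤ) Φ A) := tQ.add ((tA.act Φ).smul _)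
  have h1 : EvEq2 (act ((ι → ℤ) × ℤ) (∏ c ∈ C, (1 - el (b c, (1 : ℤ))))
      (Q + (-1 : ℤ) • act ((ι → ℤ) × ℤ) Φ A)) 0 := by
    obtain ⟨n0, h⟩ := h
    refine ⟨n0, fun n t hn => ?_⟩
    rw [map_add, map_smul, Pi.add_apply, Pi.smul_apply, h n t hn, Pi.zero_apply, neg_one_smul,
      add_neg_cancel]
  obtain ⟨n0, h2⟩ := canc_prod C b tX h1
  refine ⟨n0, fun n hn => ?_⟩
  have h3 : tsm Q n = tsm (act ((ι → ℤ) × ℤ) Φ A) n := by
    unfold tsm
    refine finsum_congr fun t => ?_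
    have h4 := h2 n t hn
    rw [Pi.add_apply, Pi.smul_apply, Pi.zero_apply, neg_one_smul] at h4
    linarith
  rw [tsm_act tA, tsm_eq hQ, tsm_eq hA, hΦ, map_prod] at h3
  rw [h3]
  have h5 : ∏ c ∈ C, (AddMonoidAlgebra.mapDomainAlgHom ℤ ℤ (AddMonoidHom.fst (ι → ℤ) ℤ))
      (ph e (b c, (1 : ℤ))) = ∏ c ∈ C, ph e (b c) := Finset.prod_congr rfl fun c _ =>
    map_ph (AddMonoidHom.fst (ι → ℤ) ℤ) e (b c, (1 : ℤ))
  rw [h5]

end Vale.Agent.P200.V
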