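import Vale.Agent.P200.V.Hil

/-!
The level lemma: boundedness of Hilbert functions in the last degree.
-/

namespace Vale.Agent.P200.V

open Module MvPolynomial

universe u

section lvt
variable {k : Type u} [Field k] {σ ι : Type} [Fintype σ] {wt : σ → (ι → ℤ) × ℤ}

/-- the last degree of a monomial -/
theorem lvt_dg_snd (e : σ →₀ ℕ) : (dg wt e).2 = ∑ v, (e v : ℤ) * (wt v).2 := by
  rw [dg, Finsupp.sum_fintype e (fun v m => m • wt v) (fun _ => zero_nsmul _), Prod.snd_sum]
  refine Finset.sum_congr rfl fun v _ => ?_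
  rw [Prod.smul_snd, nsmul_eq_mul]

/-- a bound for finitely many integers -/
theorem lvt_bound {s : ℕ} (a : Fin s → ℤ) : ∃ B : ℤ, ∀ j, |a j| ≤ B :=
  ⟨∑ j, |a j|, fun j => Finset.single_le_sum (f := fun j => |a j|) (fun _ _ => abs_nonneg _)
    (Finset.mem_univ j)⟩

theorem lv_below (h0 : ∀ v, 0 ≤ (wt v).2) {J0 : Set (MvPolynomial σ k)} {f : (ι → ℤ) × ℤ → ℤ}
    (hf : f ∈ Hil k wt J0) : ∃ t0 : ℤ, ∀ n t, t < t0 → f (n, t) = 0 := by
  unfold Hil at hf
  induction hf using AddSubgroup.closure_induction with
  | mem f hf =>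
    obtain ⟨s, sh, N, hN, hJ, hfe⟩ := hf
    obtain ⟨B, hB⟩ := lvt_bound fun j => (sh j).2
    refine ⟨-B, fun n t ht => ?_⟩
    have h1 : ∀ A : Submodule (MvPolynomial σ k) (Fin s → MvPolynomial σ k),
        hd wt sh A (n, t) = 0 := by
      intro A
      have h2 : gpart wt sh A (n, t) = ⊥ := by
        rw [eq_bot_iff]
        rintro g ⟨-, hg⟩
        rw [Submodule.mem_bot]
        funext j
        ext e
        rw [Pi.zero_apply, coeff_zero]
        by_contra hne
        have h3 := hg j e hne
        have h4 : (dg wt e).2 + (sh j).2 = t := by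
          have := congrArg Prod.snd h3
          rwa [Prod.snd_add] at this
        have h5 : 0 ≤ (dg wt e).2 := by
          rw [lvt_dg_snd]
          exact Finset.sum_nonneg fun v _ => mul_nonneg (Int.natCast_nonneg _) (h0 v)
        have h6 := neg_abs_le (sh j).2
        have h7 := hB j
        linarith
      rw [hd, h2, finrank_bot]
    rw [hfe, h1, h1, sub_self]
  | zero => exact ⟨0, fun _ _ _ => rfl⟩
  | add f g _ _ hf hg =>
    obtain ⟨t0, h1⟩ := hf
    obtain ⟨t1, h2⟩ := hg
    refine ⟨min t0 t1, fun n t ht => ?_⟩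
    rw [Pi.add_apply, h1 n t (ht.trans_le (min_le_left _ _)),
      h2 n t (ht.trans_le (min_le_right _ _)), add_zero]
  | neg f _ hf =>
    obtain ⟨t0, h1⟩ := hf
    refine ⟨t0, fun n t ht => ?_⟩
    rw [Pi.neg_apply, h1 n t ht, neg_zero]

theorem lv_above {J0 : Set (MvPolynomial σ k)}
    (h0 : ∀ v, (wt v).2 ≠ 0 → (X v : MvPolynomial σ k) ∈ J0)
    {f : (ι → ℤ) × ℤ → ℤ} (hf : f ∈ Hil k wt J0) : ∃ t1 : ℤ, ∀ n t, t1 < t → f (n, t) = 0 := by
  classical
  unfold Hil at hf
  induction hf using AddSubgroup.closure_induction with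
  | mem f hf =>
    obtain ⟨s, sh, N, hN, hJ, hfe⟩ := hf
    obtain ⟨B, hB⟩ := lvt_bound fun j => (sh j).2
    refine ⟨B, fun n t ht => ?_⟩
    -- the monomials with a variable of nonzero last degree
    have hmon : ∀ (e : σ →₀ ℕ) (c : k) (j : Fin s), (∃ v, e v ≠ 0 ∧ (wt v).2 ≠ 0) →
        (Pi.single j (monomial e c) : Fin s → MvPolynomial σ k) ∈ N := by
      rintro e c j ⟨v, hv, hw⟩
      have h1 : (monomial e c : MvPolynomial σ k) =
          monomial (e - Finsupp.single v 1) c * X v := by
        rw [X, monomial_mul, mul_one, tsub_add_cancel_of_le]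
        rw [Finsupp.single_le_iff]
        exact Nat.one_le_iff_ne_zero.2 hv
      have h2 : (Pi.single j (monomial e c) : Fin s → MvPolynomial σ k) =
          monomial (e - Finsupp.single v 1) c •
            (Pi.single j (X v) : Fin s → MvPolynomial σ k) := by
        rw [← Pi.single_smul, smul_eq_mul, h1]
      rw [h2]
      exact N.smul_mem _ (hJ _ (h0 v hw) j)
    have h1 : gpart wt sh (⊤ : Submodule (MvPolynomial σ k) (Fin s → MvPolynomial σ k)) (n, t) =
        gpart wt sh N (n, t) := by
      apply le_antisymm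
      · rintro g ⟨-, hg⟩
        refine ⟨?_, hg⟩
        change g ∈ N
        have h2 : g = ∑ j, ∑ e ∈ (g j).support,
            (Pi.single j (monomial e (coeff e (g j))) : Fin s → MvPolynomial σ k) := by
          have h3 : g = ∑ j, (Pi.single j (g j) : Fin s → MvPolynomial σ k) :=
            (Finset.univ_sum_single g).symm
          conv_lhs => rw [h3]
          refine Finset.sum_congr rfl fun j _ => ?_
          conv_lhs => rw [(g j).as_sum]
          exact map_sum (AddMonoidHom.single (fun _ : Fin s => MvPolynomial σ k) j) _ _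
        rw [h2]
        refine Submodule.sum_mem _ fun j _ => Submodule.sum_mem _ fun e he => hmon e _ j ?_
        by_contra hno
        push Not at hno
        have h4 : (dg wt e).2 + (sh j).2 = t := by
          have := congrArg Prod.snd (hg j e (mem_support_iff.1 he))
          rwa [Prod.snd_add] at this
        have h5 : (dg wt e).2 = 0 := by
          rw [lvt_dg_snd]
          refine Finset.sum_eq_zero fun v _ => ?_
          by_cases hv : e v = 0
          · rw [hv]
            simp
          · rw [hno v hv, mul_zero]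
        have h6 := le_abs_self (sh j).2
        have h7 := hB j
        linarith
      · exact inf_le_inf_right _ fun g _ => trivial
    have h2 : hd wt sh (⊤ : Submodule (MvPolynomial σ k) (Fin s → MvPolynomial σ k)) (n, t) =
        hd wt sh N (n, t) := by
      rw [hd, hd, h1]
    rw [hfe, h2, sub_self]
  | zero => exact ⟨0, fun _ _ _ => rfl⟩
  | add f g _ _ hf hg =>
    obtain ⟨t0, h1⟩ := hf
    obtain ⟨t1, h2⟩ := hg
    refine ⟨max t0 t1, fun n t ht => ?_⟩
    rw [Pi.add_apply, h1 n t ((le_max_left _ _).trans_lt ht),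
      h2 n t ((le_max_right _ _).trans_lt ht), add_zero]
  | neg f _ hf =>
    obtain ⟨t0, h1⟩ := hf
    refine ⟨t0, fun n t ht => ?_⟩
    rw [Pi.neg_apply, h1 n t ht, neg_zero]

end lvt

end Vale.Agent.P200.V
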