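import Vale.Agent.P200.V.Hil

/-!
Kernels and cokernels of homogeneous elements: devissage of Hilbert functions.
-/

namespace Vale.Agent.P200.V

open Module MvPolynomial

universe u

section hil
variable {k : Type u} [Field k] {σ ι J : Type} [Fintype σ] [Fintype J] [AddCommGroup ι]
  {wt : σ → ι} {sh : J → ι} {J0 J1 : Set (MvPolynomial σ k)}

omit [Fintype σ] [AddCommGroup ι] in
/-- `p F ⊆ N` as soon as `p e_j ∈ N` for all basis vectors -/
theorem d4_smul_mem {N : Submodule (MvPolynomial σ k) (J → MvPolynomial σ k)}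
    {p : MvPolynomial σ k} (h : ∀ [DecidableEq J] (j : J), (Pi.single j p : J → MvPolynomial σ k) ∈ N)
    (g : J → MvPolynomial σ k) : p • g ∈ N := by
  classical
  have h1 : p • g = ∑ j, g j • (Pi.single j p : J → MvPolynomial σ k) := by
    funext i
    rw [Finset.sum_apply, Pi.smul_apply, smul_eq_mul, Finset.sum_eq_single i]
    · rw [Pi.smul_apply, Pi.single_eq_same, smul_eq_mul, mul_comm]
    · intro j _ hj
      rw [Pi.smul_apply, Pi.single_eq_of_ne (Ne.symm hj), smul_zero]
    · intro hi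
      exact absurd (Finset.mem_univ i) hi
  rw [h1]
  exact Submodule.sum_mem _ fun j _ => N.smul_mem _ (h j)

omit [Fintype σ] [Fintype J] in
theorem d4_pow_mem_gp {v : MvPolynomial σ k} {δ : ι}
    (hv : ∀ e, coeff e v ≠ 0 → dg wt e = δ) (i : ℕ) {ν : ι} {f : J → MvPolynomial σ k}
    (hf : f ∈ gp k wt sh ν) : v ^ i • f ∈ gp k wt sh (ν + i • δ) := by
  induction i with
  | zero =>
    rw [pow_zero, one_smul, zero_smul, add_zero]
    exact hf
  | succ i ih =>
    rw [pow_succ', mul_smul]
    refine hil_smul_mem_gp (d := ν + i • δ) (fun e he => ?_) ih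
    rw [hv e he, succ_nsmul]
    abel

omit [Fintype σ] [Fintype J] in
theorem d4_isDeg {v : MvPolynomial σ k} {δ : ι}
    (hv : ∀ e, coeff e v ≠ 0 → dg wt e = δ) (i : ℕ) :
    IsDeg wt sh sh (i • δ) (LinearMap.lsmul (MvPolynomial σ k) (J → MvPolynomial σ k) (v ^ i)) := by
  intro ν f hf
  rw [LinearMap.lsmul_apply]
  exact d4_pow_mem_gp hv i hf

/-- kernel and cokernel of a homogeneous element `v` of degree `δ` -/
theorem Hil.dev (hwt : Pos wt) {v : MvPolynomial σ k} {δ : ι}
    (hv : ∀ e, coeff e v ≠ 0 → dg wt e = δ) {f : ι → ℤ} (hf : f ∈ Hil k wt J0) :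
    V.act ι (1 - el δ) f ∈ Hil k wt (insert v J0) := by
  rw [Hil] at hf
  induction hf using AddSubgroup.closure_induction with
  | mem f hf =>
    obtain ⟨s, sh, N, hN, h1, hf⟩ := hf
    have hφ : IsDeg wt sh sh δ
        (LinearMap.lsmul (MvPolynomial σ k) (Fin s → MvPolynomial σ k) v) := by
      have h := d4_isDeg (sh := sh) hv 1
      rw [pow_one, one_smul] at h
      exact h
    set φ := LinearMap.lsmul (MvPolynomial σ k) (Fin s → MvPolynomial σ k) v with hφd
    have hJ : ∀ p ∈ J0, ∀ g : Fin s → MvPolynomial σ k, p • g ∈ N := by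
      intro p hp g
      refine d4_smul_mem ?_ g
      intro hD j
      have h0 := h1 p hp j
      have hE : hD = instDecidableEqFin s := Subsingleton.elim _ _
      subst hE
      exact h0
    have hh : (fun ν => (hd wt sh (⊤ : Submodule (MvPolynomial σ k) (Fin s → MvPolynomial σ k)) ν :
        ℤ) - hd wt sh (N ⊔ (⊤ : Submodule (MvPolynomial σ k) (Fin s → MvPolynomial σ k)).map φ) ν) ∈
        Hil k wt (insert v J0) := by
      refine hil_sub hwt homS_top (hN.sup (HomS.map hφ homS_top)) le_top ?_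
      intro p hp g _
      rcases Set.mem_insert_iff.1 hp with rfl | hp
      · exact Submodule.mem_sup_right ⟨g, Submodule.mem_top, rfl⟩
      · exact Submodule.mem_sup_left (hJ p hp g)
    have hg : (fun ν => (hd wt sh (kerIn φ ⊤ N) ν : ℤ) - hd wt sh N ν) ∈
        Hil k wt (insert v J0) := by
      refine hil_sub hwt (HomS.kerIn hφ homS_top hN) hN ?_ ?_
      · intro x hx
        exact ⟨Submodule.mem_top, N.smul_mem v hx⟩
      · intro p hp g hg
        rcases Set.mem_insert_iff.1 hp with rfl | hp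
        · exact hg.2
        · exact hJ p hp g
    have hfun : V.act ι (1 - el δ) f =
        (fun ν => (hd wt sh (⊤ : Submodule (MvPolynomial σ k) (Fin s → MvPolynomial σ k)) ν :
        ℤ) - hd wt sh (N ⊔ (⊤ : Submodule (MvPolynomial σ k) (Fin s → MvPolynomial σ k)).map φ) ν) -
        V.act ι (el δ) (fun ν => (hd wt sh (kerIn φ ⊤ N) ν : ℤ) - hd wt sh N ν) := by
      funext ν
      have h3 := hd_kerIn hwt hφ (A := ⊤) homS_top hN (ν - δ)
      rw [sub_add_cancel] at h3
      rw [map_sub, map_one, LinearMap.sub_apply, Module.End.one_apply, Pi.sub_apply, Pi.sub_apply,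
        act_el, act_el, hf, hf]
      have h4 : ((hd wt sh (⊤ : Submodule (MvPolynomial σ k) (Fin s → MvPolynomial σ k)) (ν - δ) :
          ℕ) : ℤ) + (hd wt sh N ν : ℕ) = (hd wt sh (kerIn φ ⊤ N) (ν - δ) : ℕ) +
          (hd wt sh (N ⊔ (⊤ : Submodule (MvPolynomial σ k) (Fin s → MvPolynomial σ k)).map φ) ν :
          ℕ) := by
        exact_mod_cast h3
      linarith
    rw [hfun]
    exact sub_mem hh (Hil.shift δ hg)
  | zero =>
    rw [map_zero]
    exact zero_mem _
  | add f g _ _ h1 h2 =>
    rw [map_add]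
    exact add_mem h1 h2
  | neg f _ h1 =>
    rw [map_neg]
    exact neg_mem h1

omit [Fintype σ] in
theorem d4_set {κ : Type} [DecidableEq κ] (J0 : Set (MvPolynomial σ k)) (c : κ) (S : Finset κ)
    (v : κ → MvPolynomial σ k) :
    J0 ∪ v '' ((insert c S : Finset κ) : Set κ) = insert (v c) (J0 ∪ v '' S) := by
  rw [Finset.coe_insert, Set.image_insert_eq, Set.union_insert]

/-- kernels and cokernels for a finite family -/
theorem Hil.dev_fam (hwt : Pos wt) {κ : Type} [DecidableEq κ] (S : Finset κ)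
    (v : κ → MvPolynomial σ k) (δ : κ → ι)
    (hv : ∀ c ∈ S, ∀ e, coeff e (v c) ≠ 0 → dg wt e = δ c) {f : ι → ℤ}
    (hf : f ∈ Hil k wt J0) :
    V.act ι (∏ c ∈ S, (1 - el (δ c))) f ∈ Hil k wt (J0 ∪ v '' S) := by
  induction S using Finset.induction_on with
  | empty =>
    rw [Finset.prod_empty, map_one, Module.End.one_apply]
    simpa using hf
  | insert c S hc ih =>
    rw [Finset.prod_insert hc, map_mul, Module.End.mul_apply, d4_set]
    exact Hil.dev hwt (hv c (Finset.mem_insert_self c S))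
      (ih fun d hd => hv d (Finset.mem_insert_of_mem hd))

/-- a homogeneous element which is nilpotent modulo `J0` -/
theorem Hil.nil (hwt : Pos wt) {v : MvPolynomial σ k} {δ : ι}
    (hv : ∀ e, coeff e v ≠ 0 → dg wt e = δ) {n : ℕ}
    (hn : v ^ n ∈ (Ideal.span J0 : Ideal (MvPolynomial σ k))) :
    Hil k wt J0 ≤ Hil k wt (insert v J0) := by
  rw [Hil, AddSubgroup.closure_le]
  rintro f ⟨s, sh, N, hN, h1, hf⟩
  have hJ : ∀ p ∈ (Ideal.span J0 : Ideal (MvPolynomial σ k)),
      ∀ g : Fin s → MvPolynomial σ k, p • g ∈ N := by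
    intro p hp g
    refine Submodule.span_induction (p := fun p _ => p • g ∈ N) ?_ ?_ ?_ ?_ hp
    · intro q hq
      refine d4_smul_mem ?_ g
      intro hD j
      have h0 := h1 q hq j
      have hE : hD = instDecidableEqFin s := Subsingleton.elim _ _
      subst hE
      exact h0
    · rw [zero_smul]
      exact N.zero_mem
    · intro a b _ _ ha hb
      rw [add_smul]
      exact N.add_mem ha hb
    · intro a b _ hb
      rw [smul_eq_mul, mul_smul]
      exact N.smul_mem a hb
  set A : ℕ → Submodule (MvPolynomial σ k) (Fin s → MvPolynomial σ k) := fun i =>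
    N ⊔ (⊤ : Submodule (MvPolynomial σ k) (Fin s → MvPolynomial σ k)).map
      (LinearMap.lsmul (MvPolynomial σ k) (Fin s → MvPolynomial σ k) (v ^ i)) with hA
  have hAh : ∀ i, HomS wt sh (A i) := fun i => hN.sup (HomS.map (d4_isDeg hv i) homS_top)
  have hA0 : A 0 = ⊤ := by
    rw [eq_top_iff]
    intro x _
    exact Submodule.mem_sup_right ⟨x, Submodule.mem_top, by
      rw [LinearMap.lsmul_apply, pow_zero, one_smul]⟩
  have hAn : A n = N := by
    refine le_antisymm (sup_le le_rfl ?_) le_sup_left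
    rintro _ ⟨x, _, rfl⟩
    rw [LinearMap.lsmul_apply]
    exact hJ _ hn x
  have hle : ∀ i, A (i + 1) ≤ A i := by
    intro i
    refine sup_le le_sup_left ?_
    rintro _ ⟨x, _, rfl⟩
    refine Submodule.mem_sup_right ⟨v • x, Submodule.mem_top, ?_⟩
    rw [LinearMap.lsmul_apply, LinearMap.lsmul_apply, ← mul_smul, pow_succ]
  have hvA : ∀ i, ∀ x ∈ A i, v • x ∈ A (i + 1) := by
    intro i x hx
    obtain ⟨a, ha, b, ⟨c, _, rfl⟩, rfl⟩ := Submodule.mem_sup.1 hx
    rw [smul_add]
    refine add_mem (Submodule.mem_sup_left (N.smul_mem v ha))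
      (Submodule.mem_sup_right ⟨c, Submodule.mem_top, ?_⟩)
    rw [LinearMap.lsmul_apply, LinearMap.lsmul_apply, ← mul_smul, pow_succ']
  have hstep : ∀ i, (fun ν => (hd wt sh (A i) ν : ℤ) - hd wt sh (A (i + 1)) ν) ∈
      Hil k wt (insert v J0) := by
    intro i
    refine hil_sub hwt (hAh i) (hAh (i + 1)) (hle i) ?_
    intro p hp g hg
    rcases Set.mem_insert_iff.1 hp with rfl | hp
    · exact hvA i g hg
    · exact Submodule.mem_sup_left (hJ p (Ideal.subset_span hp) g)
  have hsum : f = ∑ i ∈ Finset.range n,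
      (fun ν => (hd wt sh (A i) ν : ℤ) - hd wt sh (A (i + 1)) ν) := by
    funext ν
    rw [Finset.sum_apply, hf, Finset.sum_range_sub' (fun i => (hd wt sh (A i) ν : ℤ)) n, hA0, hAn]
  rw [hsum]
  exact sum_mem fun i _ => hstep i

/-- finitely many homogeneous elements which are nilpotent modulo `J0` -/
theorem Hil.nil_fam (hwt : Pos wt) {κ : Type} [DecidableEq κ] (S : Finset κ)
    (v : κ → MvPolynomial σ k) (δ : κ → ι)
    (hv : ∀ c ∈ S, ∀ e, coeff e (v c) ≠ 0 → dg wt e = δ c) (n : ℕ)
    (hn : ∀ c ∈ S, v c ^ n ∈ (Ideal.span J0 : Ideal (MvPolynomial σ k))) :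
    Hil k wt J0 ≤ Hil k wt (J0 ∪ v '' S) := by
  induction S using Finset.induction_on with
  | empty =>
    rw [Finset.coe_empty, Set.image_empty, Set.union_empty]
  | insert c S hc ih =>
    rw [d4_set]
    refine (ih (fun d hd => hv d (Finset.mem_insert_of_mem hd))
      (fun d hd => hn d (Finset.mem_insert_of_mem hd))).trans ?_
    refine Hil.nil hwt (hv c (Finset.mem_insert_self c S)) (n := n) ?_
    exact Ideal.span_mono Set.subset_union_left (hn c (Finset.mem_insert_self c S))

end hil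

end Vale.Agent.P200.V
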