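import Vale.Agent.P200.V.SLG
import Vale.Agent.P200.V.HilD

/-!
Passage from the field of rational functions to the ring of parameters: the Hilbert functions over the field are
the values at `T = 1` of the Hilbert functions over the ring.
-/

namespace Vale.Agent.P200.V

open Module MvPolynomial

universe u

/-- the property proved by induction -/
def SL.PP {k : Type u} [Field k] {Z ι J : Type} [Fintype Z] [DecidableEq Z] [Fintype ι]
    [DecidableEq ι] [Fintype J] (blk : Z → ι) (C : Finset Z) (e : ℕ)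
    (R : Set (MvPolynomial (Z ⊕ J) k)) (f : (ι → ℤ) → ℤ) : Prop :=
  ∃ f' ∈ Hil k (wT J blk C e) R,
    (∀ n t, t < 0 → f' (n, t) = 0) ∧ ∀ n (t1 : ℤ), (∀ t, t1 < t → act ((ι → ℤ) × ℤ)
      ((1 - el ((0 : ι → ℤ), (e : ℤ))) ^ Fintype.card J) f' (n, t) = 0) →
      f n = ∑ t ∈ Finset.Icc 0 t1, act ((ι → ℤ) × ℤ)
        ((1 - el ((0 : ι → ℤ), (e : ℤ))) ^ Fintype.card J) f' (n, t)

section
variable {k : Type u} [Field k] {Z ι J : Type} [Fintype Z] [DecidableEq Z] [Fintype ι]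
  [DecidableEq ι] [Fintype J] {blk : Z → ι} {C : Finset Z} {e : ℕ}

theorem SL.bdd (he : 0 < e) {R : Set (MvPolynomial (Z ⊕ J) k)} {f : (ι → ℤ) × ℤ → ℤ}
    (hf : f ∈ Hil k (wT J blk C e) R) (n : ι → ℤ) : ∃ t1 : ℤ, ∀ t, t1 < t →
      act ((ι → ℤ) × ℤ) ((1 - el ((0 : ι → ℤ), (e : ℤ))) ^ Fintype.card J) f (n, t) = 0 := by
  classical
  have h := Hil.dev_fam (SL.pos_wT (J := J) (blk := blk) (C := C) he) (Finset.univ : Finset J)
    (fun j => (X (Sum.inr j) : MvPolynomial (Z ⊕ J) k)) (fun _ => ((0 : ι → ℤ), (e : ℤ)))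
    (fun j _ => SL.homD_X (k := k) (wt := wT J blk C e) (Sum.inr j)) hf
  rw [Finset.prod_const, Finset.card_univ] at h
  exact SL.fin_supp (fun j => Or.inr ⟨j, Finset.mem_coe.mpr (Finset.mem_univ _), rfl⟩) h n

/-- the sum does not depend on the bound -/
theorem SL.sum_ext {g : ℤ → ℤ} {a b : ℤ} (hab : a ≤ b) (h : ∀ t, a < t → g t = 0) :
    ∑ t ∈ Finset.Icc 0 b, g t = ∑ t ∈ Finset.Icc 0 a, g t := by
  symm
  refine Finset.sum_subset (Finset.Icc_subset_Icc_right hab) fun t _ ht => ?_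
  refine h t ?_
  by_contra h2
  exact ht (Finset.mem_Icc.mpr ⟨(Finset.mem_Icc.mp ‹_›).1, not_lt.mp h2⟩)

theorem SL.PP_add (he : 0 < e) {R : Set (MvPolynomial (Z ⊕ J) k)} {f g : (ι → ℤ) → ℤ}
    (hf : SL.PP blk C e R f) (hg : SL.PP blk C e R g) : SL.PP blk C e R (f + g) := by
  obtain ⟨f', hf', hf0, hf1⟩ := hf
  obtain ⟨g', hg', hg0, hg1⟩ := hg
  refine ⟨f' + g', AddSubgroup.add_mem _ hf' hg', fun n t ht => ?_, fun n t1 h1 => ?_⟩
  · rw [Pi.add_apply, hf0 n t ht, hg0 n t ht, add_zero]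
  · obtain ⟨a, ha⟩ := SL.bdd he hf' n
    obtain ⟨b, hb⟩ := SL.bdd he hg' n
    set T := max t1 (max a b) with hT
    have hf2 := hf1 n T fun t ht =>
      ha t (lt_of_le_of_lt ((le_max_left a b).trans (le_max_right t1 _)) ht)
    have hg2 := hg1 n T fun t ht =>
      hb t (lt_of_le_of_lt ((le_max_right a b).trans (le_max_right t1 _)) ht)
    rw [Pi.add_apply, hf2, hg2, ← Finset.sum_add_distrib]
    rw [← SL.sum_ext (le_max_left t1 (max a b)) h1]
    refine Finset.sum_congr rfl fun t _ => ?_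
    rw [map_add, Pi.add_apply]

theorem SL.PP_neg {R : Set (MvPolynomial (Z ⊕ J) k)} {f : (ι → ℤ) → ℤ}
    (hf : SL.PP blk C e R f) : SL.PP blk C e R (-f) := by
  obtain ⟨f', hf', hf0, hf1⟩ := hf
  refine ⟨-f', AddSubgroup.neg_mem _ hf', fun n t ht => ?_, fun n t1 h1 => ?_⟩
  · rw [Pi.neg_apply, hf0 n t ht, neg_zero]
  · rw [Pi.neg_apply, hf1 n t1 fun t ht => by
      have := h1 t ht
      rw [map_neg, Pi.neg_apply, neg_eq_zero] at this
      exact this, ← Finset.sum_neg_distrib]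
    refine Finset.sum_congr rfl fun t _ => ?_
    rw [map_neg, Pi.neg_apply]

theorem SL.PP_zero {R : Set (MvPolynomial (Z ⊕ J) k)} :
    SL.PP blk C e R (0 : (ι → ℤ) → ℤ) := by
  refine ⟨0, AddSubgroup.zero_mem _, fun n t ht => rfl, fun n t1 _ => ?_⟩
  rw [map_zero]
  simp

/-- **From the field of rational functions to the ring of parameters.** -/
theorem sl1 (he : 0 < e)
    (G0 : Set (MvPolynomial Z k)) (h : Z → J → MvPolynomial Z k)
    (hG0 : ∀ p ∈ G0, (∃ δ : ι → ℤ, ∀ m, coeff m p ≠ 0 → dg (wb blk) m = δ) ∧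
      ∀ m, coeff m p ≠ 0 → ∀ c ∈ C, m c = 0)
    (hh : ∀ c ∈ C, ∀ j m, coeff m (h c j) ≠ 0 →
      dg (wb blk) m = Pi.single (blk c) (e : ℤ) ∧ ∀ c' ∈ C, m c' = 0)
    {f : (ι → ℤ) → ℤ} (hf : f ∈ Hil (KF k J) (wb blk)
      ((MvPolynomial.map (algebraMap k (KF k J)) '' G0) ∪ (lrel e h '' (C : Set Z)))) :
    ∃ f' ∈ Hil k (wT J blk C e) ((rename Sum.inl '' G0) ∪ (trelT e h '' (C : Set Z))),
      (∀ n t, t < 0 → f' (n, t) = 0) ∧ ∀ n (t1 : ℤ), (∀ t, t1 < t → act ((ι → ℤ) × ℤ)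
        ((1 - el ((0 : ι → ℤ), (e : ℤ))) ^ Fintype.card J) f' (n, t) = 0) →
        f n = ∑ t ∈ Finset.Icc 0 t1, act ((ι → ℤ) × ℤ)
          ((1 - el ((0 : ι → ℤ), (e : ℤ))) ^ Fintype.card J) f' (n, t) := by
  change SL.PP blk C e _ f
  induction hf using AddSubgroup.closure_induction with
  | mem f hf =>
    obtain ⟨s, sh, N, hN, hrel, hfν⟩ := hf
    refine ⟨SL.fg blk C e sh N, AddSubgroup.subset_closure ⟨s, SL.sh0 sh,
      SL.initM (wT J blk C e) (SL.sh0 sh) (SL.NAo k N), SL.homS_initM, ?_, fun ν => rfl⟩,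
      SL.fg_neg blk C e sh he N, fun n t1 h1 => ?_⟩
    · intro p hp j
      have hmem : ∀ q : MvPolynomial Z (KF k J), SL.toK k Z J p = q →
          (Pi.single j q : Fin s → MvPolynomial Z (KF k J)) ∈ N →
          (Pi.single j p : Fin s → MvPolynomial (Z ⊕ J) k) ∈ SL.NAo k N := by
        intro q hq hqN
        have h1 : (fun i => SL.toK k Z J ((Pi.single j p : Fin s → MvPolynomial (Z ⊕ J) k) i)) =
            Pi.single j q := by
          funext i
          by_cases hi : i = j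
          · subst hi
            rw [Pi.single_eq_same, Pi.single_eq_same, hq]
          · rw [Pi.single_eq_of_ne hi, Pi.single_eq_of_ne hi, map_zero]
        change (fun i => SL.toK k Z J ((Pi.single j p : Fin s → MvPolynomial (Z ⊕ J) k) i)) ∈ N
        rw [h1]
        exact hqN
      rcases hp with ⟨g, hg, rfl⟩ | ⟨c, hc, rfl⟩
      · obtain ⟨⟨δ, h1⟩, h2⟩ := hG0 g hg
        exact SL.mem_initM_of_hom (SL.single_mem_gp (SL.homD_rename h1 h2) j)
          (hmem _ (SL.toK_rename g) (hrel _ (Or.inl ⟨g, hg, rfl⟩) j))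
      · exact SL.mem_initM_of_hom (SL.single_mem_gp (SL.homD_trelT hh hc) j)
          (hmem _ (SL.toK_trelT h c) (hrel _ (Or.inr ⟨c, hc, rfl⟩) j))
    · rw [hfν]
      exact SL.fg_sum blk C e sh he N n t1 h1
  | zero => exact SL.PP_zero
  | add f g _ _ hf hg => exact SL.PP_add he hf hg
  | neg f _ hf => exact SL.PP_neg hf

end

end Vale.Agent.P200.V
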