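import Vale.Agent.P200.V.SysB

/-!
# Uniqueness of expansions for one block

`hfree` : if `∑ mon m • g_m(1) = 0` then the `g_m` vanish in the localization.
-/

open CategoryTheory CategoryTheory.Limits

universe v' u' u

namespace Vale.Agent.P200.E.Ob

variable {D P : Type u} [Ring D] [Ring P] {𝒮 : Sys D P}

/-- the morphism given by the images of the basis vectors -/
noncomputable def mkHom (X Z : Ob 𝒮) (v : Fin X.m → Fin Z.m → D)
    (h : ∀ p ∈ X.N, ∑ j, p j • Z.cst (v j) = 0) : X ⟶ Z :=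
  ofLin (X.N.liftQ (Fintype.linearCombination P fun j => Z.cst (v j)) (fun p hp => by
    rw [LinearMap.mem_ker, Fintype.linearCombination_apply]
    exact h p hp)) (fun w => ⟨∑ j, w j • v j, by
      rw [cst_sum]
      change Fintype.linearCombination P (fun j => Z.cst (v j)) (fun j => 𝒮.C (w j)) = _
      rw [Fintype.linearCombination_apply]
      exact Finset.sum_congr rfl fun j _ => (cst_smul Z (w j) (v j)).symm⟩)

lemma lin_mkHom (X Z : Ob 𝒮) (v : Fin X.m → Fin Z.m → D)
    (h : ∀ p ∈ X.N, ∑ j, p j • Z.cst (v j) = 0) (j : Fin X.m) :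
    lin (mkHom X Z v h) (X.cst (Pi.single j 1)) = Z.cst (v j) := by
  change Fintype.linearCombination P (fun j => Z.cst (v j))
    (fun i => 𝒮.C ((Pi.single j (1 : D) : Fin X.m → D) i)) = _
  rw [Fintype.linearCombination_apply, Finset.sum_eq_single j]
  · rw [Pi.single_eq_same, map_one, one_smul]
  · intro i _ hi
    rw [Pi.single_eq_of_ne hi, map_zero, zero_smul]
  · intro hj
    exact absurd (Finset.mem_univ _) hj

end Vale.Agent.P200.E.Ob

namespace Vale.Agent.P200.V.SB

open Module Vale.Agent.P200.E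

variable {K : Type u} [Field K] {D : Type u} [DivisionRing D] [Algebra K D] {κ : ℕ}

/-- the exponents of `x`, `y` -/
noncomputable def emb (κ : ℕ) : (Fin 2 →₀ ℕ) →+ Mon κ 1 :=
  Finsupp.mapDomain.addMonoidHom fun v : Fin 2 =>
    ((0 : Fin 1), (Fin.castLE (Nat.le_add_left 2 κ) v : Fin (κ + 2)))

/-- the monomials in `x`, `y` -/
noncomputable def monB (D : Type u) [DivisionRing D] (κ : ℕ) :
    Multiplicative (Fin 2 →₀ ℕ) →* PA D κ 1 where
  toFun m := AddMonoidAlgebra.single (emb κ m.toAdd) 1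
  map_one' := by
    rw [toAdd_one, map_zero]
    rfl
  map_mul' m m' := by
    rw [toAdd_mul, map_add, AddMonoidAlgebra.single_mul_single, one_mul]

theorem monB_ofAdd (m : Fin 2 →₀ ℕ) :
    monB D κ (Multiplicative.ofAdd m) = AddMonoidAlgebra.single (emb κ m) 1 := rfl

theorem emb_single_zero : emb κ (Finsupp.single 0 1) = Finsupp.single (0, 0) 1 := by
  change Finsupp.mapDomain _ _ = _
  rw [Finsupp.mapDomain_single]
  rfl

theorem emb_single_one : emb κ (Finsupp.single 1 1) = Finsupp.single (0, 1) 1 := by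
  change Finsupp.mapDomain _ _ = _
  rw [Finsupp.mapDomain_single]
  congr 2

theorem monB_x : monB D κ (Multiplicative.ofAdd (Finsupp.single 0 1)) = va D κ 1 (0, 0) := by
  rw [monB_ofAdd, emb_single_zero]
  rfl

theorem monB_y : monB D κ (Multiplicative.ofAdd (Finsupp.single 1 1)) = va D κ 1 (0, 1) := by
  rw [monB_ofAdd, emb_single_one]
  rfl

/-- the `j`-th exponent of degree `n` -/
noncomputable def mm (n j : ℕ) : Fin 2 →₀ ℕ := Finsupp.single 0 (n - j) + Finsupp.single 1 j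

theorem mm_zero (n j : ℕ) : mm n j 0 = n - j := by simp [mm]

theorem mm_one (n j : ℕ) : mm n j 1 = j := by simp [mm]

theorem mm_eq (m : Fin 2 →₀ ℕ) : mm (m 0 + m 1) (m 1) = m := by
  ext i
  fin_cases i
  · change mm _ _ 0 = m 0
    rw [mm_zero]
    omega
  · change mm _ _ 1 = m 1
    rw [mm_one]

theorem monB_mm (n : ℕ) (j : Fin (n + 1)) :
    monB D κ (Multiplicative.ofAdd (mm n j)) = mv D κ n j := by
  have h0 : (Finsupp.single 0 (n - (j : ℕ)) : Fin 2 →₀ ℕ) =
      (n - (j : ℕ)) • Finsupp.single 0 1 := by simp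
  have h1 : (Finsupp.single 1 (j : ℕ) : Fin 2 →₀ ℕ) = (j : ℕ) • Finsupp.single 1 1 := by simp
  rw [mm, h0, h1, ofAdd_add, ofAdd_nsmul, ofAdd_nsmul, map_mul, map_pow, map_pow, monB_x, monB_y]
  rfl

theorem mdeg_emb (m : Fin 2 →₀ ℕ) : mdeg (emb κ m) = fun _ => m 0 + m 1 := by
  induction m using Finsupp.induction_linear with
  | zero =>
    rw [map_zero]
    funext g
    simp [mdeg]
  | add a b ha hb =>
    rw [map_add, mdeg_add, ha, hb]
    funext g
    simp only [Pi.add_apply, Finsupp.add_apply]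
    omega
  | single i n =>
    funext g
    unfold mdeg
    change ∑ v, Finsupp.mapDomain _ (Finsupp.single i n) (g, v) = _
    rw [Finsupp.mapDomain_single]
    have hg : g = 0 := Subsingleton.elim _ _
    subst hg
    rw [Finset.sum_eq_single (Fin.castLE (Nat.le_add_left 2 κ) i)]
    · rw [Finsupp.single_eq_same]
      fin_cases i <;> simp
    · intro v _ hv
      rw [Finsupp.single_eq_of_ne]
      intro h
      exact hv (Prod.ext_iff.1 h).2
    · intro h
      exact absurd (Finset.mem_univ _) h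

/-- `mon m • (constant vector)` is homogeneous -/
theorem mon_smul_mem {s : ℕ} (m : Fin 2 →₀ ℕ) (v : Fin s → D) :
    monB D κ (Multiplicative.ofAdd m) • cst κ 1 v ∈ pvi D κ 1 (Fin s) (fun _ => m 0 + m 1) := by
  intro i
  have h := mul_mem (single_mem (emb κ m) (1 : D)) (const_mem (κ := κ) (R := 1) v i)
  rw [mdeg_emb, add_zero] at h
  exact h

theorem mv_mem (n : ℕ) : mv D κ n ∈ pvi D κ 1 (Fin (n + 1)) (fun _ => n) := by
  intro j
  rw [← monB_mm, monB_ofAdd]
  have h := single_mem (R := 1) (emb κ (mm n j)) (1 : D)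
  rw [mdeg_emb, mm_zero, mm_one] at h
  have h1 : n - (j : ℕ) + j = n := Nat.sub_add_cancel (Nat.lt_succ_iff.1 j.2)
  rw [h1] at h
  exact h

/-- the object `O^(n+1) / (x^n, x^(n-1) y, …)` -/
noncomputable abbrev En (D : Type u) [DivisionRing D] [Algebra K D] (β : Blk K κ) (n : ℕ) :
    Ob (sysB D β) :=
  ⟨n + 1, N0 D (fun _ : Fin 1 => β) (n + 1) ⊔ Submodule.span (PA D κ 1) {mv D κ n},
    isGi_sup_span (isGi_N0 _) (by
      rintro u rfl
      exact ⟨_, mv_mem n⟩)⟩

theorem rk_En {β : Blk K κ} (h : RkAx D β) (n : ℕ) : (rkD h).rk (En D β n) = 0 :=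
  rkD_eq h _ (h.mono n)

theorem En_kill {β : Blk K κ} (n : ℕ) (Z : Ob (sysB D β)) (v : Fin (n + 1) → Fin Z.m → D)
    (h : ∑ j, mv D κ n j • Z.cst (v j) = 0) (p : Fin (n + 1) → PA D κ 1)
    (hp : p ∈ N0 D (fun _ : Fin 1 => β) (n + 1) ⊔ Submodule.span (PA D κ 1) {mv D κ n}) :
    ∑ j, p j • Z.cst (v j) = 0 := by
  obtain ⟨a, ha, b, hb, rfl⟩ := Submodule.mem_sup.1 hp
  obtain ⟨c, rfl⟩ := Submodule.mem_span_singleton.1 hb
  have h1 : ∀ j, (a + c • mv D κ n) j • Z.cst (v j) =
      a j • Z.cst (v j) + c • (mv D κ n j • Z.cst (v j)) := by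
    intro j
    rw [Pi.add_apply, add_smul, Pi.smul_apply, smul_eq_mul, mul_smul]
  have h2 : ∑ j, a j • Z.cst (v j) = 0 := N0_kill Z (fun j => Z.cst (v j)) a ha
  rw [Finset.sum_congr rfl fun j _ => h1 j, Finset.sum_add_distrib, h2, ← Finset.smul_sum, h,
    smul_zero, add_zero]

/-- the morphism from `En` -/
noncomputable def fromEn {β : Blk K κ} (n : ℕ) (Z : Ob (sysB D β)) (v : Fin (n + 1) → Fin Z.m → D)
    (h : ∑ j, mv D κ n j • Z.cst (v j) = 0) : En D β n ⟶ Z :=
  Ob.mkHom (En D β n) Z v (fun p hp => En_kill n Z v h p hp)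

theorem lin_fromEn {β : Blk K κ} (n : ℕ) (Z : Ob (sysB D β)) (v : Fin (n + 1) → Fin Z.m → D)
    (h : ∑ j, mv D κ n j • Z.cst (v j) = 0) (j : Fin (n + 1)) :
    Ob.lin (fromEn n Z v h) ((En D β n).cst (Pi.single j 1)) = Z.cst (v j) :=
  Ob.lin_mkHom (En D β n) Z v (fun p hp => En_kill n Z v h p hp) j

/-- the basis maps of `En` -/
noncomputable def toEn (D : Type u) [DivisionRing D] [Algebra K D] (β : Blk K κ) (n : ℕ)
    (j : Fin (n + 1)) : (free1 D β).O ⟶ En D β n :=
  (free1 D β).hom (En D β n) (Pi.single j 1)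

theorem lin_toEn (β : Blk K κ) (n : ℕ) (j : Fin (n + 1)) :
    Ob.lin (toEn D β n j) (free1 D β).one = (En D β n).cst (Pi.single j 1) :=
  (free1 D β).lin_hom_one _ _

/-- an object of rank zero becomes zero -/
theorem map_eq_zero_of_rk {𝒟 : Type u'} [Category.{v'} 𝒟] [Preadditive 𝒟] {β : Blk K κ}
    (h : RkAx D β)
    (L : Ob (sysB D β) ⥤ 𝒟) [L.IsLocalization (rkD h).toRankFn.S] [L.Additive]
    {X Y Z : Ob (sysB D β)} (hY : (rkD h).rk Y = 0) (f : X ⟶ Y) (g : Y ⟶ Z) :
    L.map (f ≫ g) = 0 := by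
  have h1 : cokernel.π (𝟙 Y) = 0 := by
    have h2 := cokernel.condition (𝟙 Y)
    rwa [Category.id_comp] at h2
  have h2 : (rkD h).toRankFn.S (cokernel.π (𝟙 Y)) :=
    (rkD h).toRankFn.S_cokernel_π (𝟙 Y) hY
  have h3 := (rkD h).toRankFn.isIso_map L _ h2
  have h4 : 𝟙 (L.obj Y) = 0 := by
    rw [← cancel_mono (L.map (cokernel.π (𝟙 Y)))]
    rw [h1, L.map_zero, comp_zero, comp_zero]
  rw [L.map_comp, ← Category.comp_id (L.map f), h4, comp_zero, zero_comp]

/-- **uniqueness of expansions** -/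
theorem hfree {𝒟 : Type u'} [Category.{v'} 𝒟] [Preadditive 𝒟] {β : Blk K κ} (h : RkAx D β)
    (L : Ob (sysB D β) ⥤ 𝒟) [L.IsLocalization (rkD h).toRankFn.S] [L.Additive]
    (Z : Ob (sysB D β)) (g : (Fin 2 →₀ ℕ) →₀ ((free1 D β).O ⟶ Z))
    (hg : tot (free1 D β) (monB D κ) Z g = 0) (m : Fin 2 →₀ ℕ) : L.map (g m) = 0 := by
  classical
  choose v hv using fun m' => (free1 D β).lin_one Z (g m')
  let n := m 0 + m 1
  -- the sum of the terms of degree `n`
  have h1 : ∑ m' ∈ g.support, monB D κ (Multiplicative.ofAdd m') • cst κ 1 (v m') ∈ Z.N := by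
    apply (Submodule.Quotient.mk_eq_zero Z.N).1
    change Z.N.mkQ _ = 0
    rw [map_sum, ← hg, tot, Finsupp.liftAddHom_apply, Finsupp.sum]
    refine Finset.sum_congr rfl fun m' _ => ?_
    rw [map_smul]
    change _ = monB D κ (Multiplicative.ofAdd m') • Ob.lin (g m') (free1 D β).one
    rw [hv]
    rfl
  have h2 := Z.h.hom _ h1 (fun _ => n)
  rw [map_sum] at h2
  have h3 : ∀ m' ∈ g.support,
      cvi D κ 1 (Fin Z.m) (fun _ => n) (monB D κ (Multiplicative.ofAdd m') • cst κ 1 (v m')) =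
      if m' 0 + m' 1 = n then monB D κ (Multiplicative.ofAdd m') • cst κ 1 (v m') else 0 := by
    intro m' _
    split_ifs with hn
    · apply cvi_of_mem
      rw [← hn]
      exact mon_smul_mem m' (v m')
    · apply cvi_of_mem_ne (mon_smul_mem m' (v m'))
      intro h'
      exact hn (congrFun h' 0).symm
  rw [Finset.sum_congr rfl h3, ← Finset.sum_filter] at h2
  -- pass to the quotient
  have h4 : ∑ m' ∈ g.support.filter (fun m' => m' 0 + m' 1 = n),
      monB D κ (Multiplicative.ofAdd m') • Z.cst (v m') = 0 := by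
    have h5 := (Submodule.Quotient.mk_eq_zero Z.N).2 h2
    change Z.N.mkQ _ = 0 at h5
    rw [map_sum] at h5
    rw [← h5]
    refine Finset.sum_congr rfl fun m' _ => ?_
    rw [map_smul]
    rfl
  have h5 : ∑ j : Fin (n + 1), mv D κ n j • Z.cst (v (mm n j)) = 0 := by
    rw [← h4]
    symm
    apply Finset.sum_of_injOn (fun m' => (⟨m' 1 % (n + 1), Nat.mod_lt _ (Nat.succ_pos n)⟩ :
      Fin (n + 1)))
    · intro a ha b hb hab
      rw [Finset.mem_coe, Finset.mem_filter] at ha hb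
      have h6 : a 1 % (n + 1) = b 1 % (n + 1) := congrArg Fin.val hab
      rw [Nat.mod_eq_of_lt (by omega), Nat.mod_eq_of_lt (by omega)] at h6
      rw [← mm_eq a, ← mm_eq b, ha.2, hb.2, h6]
    · intro a _
      exact Finset.mem_coe.2 (Finset.mem_univ _)
    · intro j _ hj
      have h6 : g (mm n j) = 0 := by
        by_contra hne
        apply hj
        refine ⟨mm n j, ?_, ?_⟩
        · rw [Finset.mem_coe, Finset.mem_filter, Finsupp.mem_support_iff]
          refine ⟨hne, ?_⟩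
          rw [mm_zero, mm_one]
          omega
        · apply Fin.ext
          change mm n j 1 % (n + 1) = j
          rw [mm_one, Nat.mod_eq_of_lt j.2]
      rw [← hv, h6, Ob.lin_zero, LinearMap.zero_apply, smul_zero]
    · intro a ha
      rw [Finset.mem_filter] at ha
      have h6 : a 1 % (n + 1) = a 1 := Nat.mod_eq_of_lt (by omega)
      have h7 : mm n (a 1 % (n + 1)) = a := by
        rw [h6, ← ha.2, mm_eq]
      have h8 := monB_mm (D := D) (κ := κ) n ⟨a 1 % (n + 1), Nat.mod_lt _ (Nat.succ_pos n)⟩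
      rw [← h8]
      change _ = monB D κ (Multiplicative.ofAdd (mm n (a 1 % (n + 1)))) •
        Z.cst (v (mm n (a 1 % (n + 1))))
      rw [h7]
  have h6 : g m = toEn D β n ⟨m 1, by omega⟩ ≫ fromEn n Z (fun j => v (mm n j)) h5 := by
    apply (free1 D β).hom_ext_one
    rw [Ob.lin_comp, LinearMap.comp_apply, lin_toEn, lin_fromEn, hv]
    have h8 : mm n (m 1) = m := mm_eq m
    change Z.cst (v m) = Z.cst (v (mm n (m 1)))
    rw [h8]
  rw [h6]
  exact map_eq_zero_of_rk h L (rk_En h n) _ _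

end Vale.Agent.P200.V.SB
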