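import Vale.Agent.P200.V.EvA

/-!
# The elements of one block in the localization
-/

open CategoryTheory CategoryTheory.Limits

universe v' u' w u

namespace Vale.Agent.P200.V.SB

open Module Vale.Agent.P200.E

variable {K : Type u} [Field K] {D : Type u} [DivisionRing D] [Algebra K D] {κ : ℕ}

theorem va_mem (v : Fin (κ + 2)) : va D κ 1 (0, v) ∈ pp D κ 1 (fun _ => 1) := by
  have h := single_mem (R := 1) (Finsupp.single ((0 : Fin 1), v) 1) (1 : D)
  have h1 : mdeg (Finsupp.single ((0 : Fin 1), v) 1 : Mon κ 1) = fun _ => 1 := by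
    funext g
    unfold mdeg
    have hg : g = 0 := Subsingleton.elim _ _
    subst hg
    rw [Finset.sum_eq_single v]
    · rw [Finsupp.single_eq_same]
    · intro v' _ hv
      rw [Finsupp.single_eq_of_ne]
      intro h
      exact hv (Prod.ext_iff.1 h).2
    · intro h
      exact absurd (Finset.mem_univ _) h
  rw [h1] at h
  exact h

theorem ev3_mem (i : Fin κ) : ev3 D κ i ∈ pvi D κ 1 (Fin 3) (fun _ => 1) := by
  intro j
  fin_cases j
  · exact va_mem 0
  · exact va_mem 1
  · exact Submodule.neg_mem _ (va_mem i.succ.succ)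

/-- the object `O^3 / (x, y, -η_i)` -/
noncomputable abbrev E3 (D : Type u) [DivisionRing D] [Algebra K D] (β : Blk K κ) (i : Fin κ) :
    Ob (sysB D β) :=
  ⟨3, N0 D (fun _ : Fin 1 => β) 3 ⊔ Submodule.span (PA D κ 1) {ev3 D κ i},
    isGi_sup_span (isGi_N0 _) (by
      rintro u rfl
      exact ⟨_, ev3_mem i⟩)⟩

/-- the basis maps of `E3` -/
noncomputable def toE3 (D : Type u) [DivisionRing D] [Algebra K D] (β : Blk K κ) (i : Fin κ)
    (j : Fin 3) : (free1 D β).O ⟶ E3 D β i :=
  (free1 D β).hom (E3 D β i) (Pi.single j 1)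

theorem lin_toE3 (β : Blk K κ) (i : Fin κ) (j : Fin 3) :
    Ob.lin (toE3 D β i j) (free1 D β).one = (E3 D β i).cst (Pi.single j 1) :=
  (free1 D β).lin_hom_one _ _

/-- elements of `E3` -/
theorem E3_mkQ (β : Blk K κ) (i : Fin κ) (p : Fin 3 → PA D κ 1) :
    (E3 D β i).N.mkQ p = p 0 • Ob.lin (toE3 D β i 0) (free1 D β).one +
      p 1 • Ob.lin (toE3 D β i 1) (free1 D β).one +
      p 2 • Ob.lin (toE3 D β i 2) (free1 D β).one := by
  rw [lin_toE3, lin_toE3, lin_toE3]
  have h := Ob.mkQ_eq_sum (E3 D β i) p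
  rw [h]
  exact Fin.sum_univ_three (fun j : Fin 3 => p j • (E3 D β i).cst (Pi.single j 1))

theorem E3_rel (β : Blk K κ) (i : Fin κ) :
    va D κ 1 (0, i.succ.succ) • Ob.lin (toE3 D β i 2) (free1 D β).one =
      va D κ 1 (0, 0) • Ob.lin (toE3 D β i 0) (free1 D β).one +
      va D κ 1 (0, 1) • Ob.lin (toE3 D β i 1) (free1 D β).one := by
  have h1 : (E3 D β i).N.mkQ (ev3 D κ i) = 0 :=
    (Submodule.Quotient.mk_eq_zero (E3 D β i).N).2
      (Submodule.mem_sup_right (Submodule.mem_span_singleton_self _))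
  rw [E3_mkQ] at h1
  have h2 : ev3 D κ i 0 = va D κ 1 (0, 0) := rfl
  have h3 : ev3 D κ i 1 = va D κ 1 (0, 1) := rfl
  have h4 : ev3 D κ i 2 = - va D κ 1 (0, i.succ.succ) := rfl
  rw [h2, h3, h4, neg_smul, add_neg_eq_zero] at h1
  exact h1.symm

/-- the vectors of the map `En 1 ⟶ coker` -/
noncomputable def w2 (D : Type u) [DivisionRing D] [Algebra K D] (β : Blk K κ) (i : Fin κ)
    (j : Fin (1 + 1)) : Fin (Ob.coker (toE3 D β i 2)).m → D :=
  (Pi.single (Fin.castSucc j) 1 : Fin 3 → D)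

theorem cst_w2 (β : Blk K κ) (i : Fin κ) (j : Fin (1 + 1)) :
    (Ob.coker (toE3 D β i 2)).cst (w2 D β i j) =
      Ob.lin (Ob.cokerπ (toE3 D β i 2))
        (Ob.lin (toE3 D β i (Fin.castSucc j)) (free1 D β).one) := by
  rw [lin_toE3]
  rfl

theorem coker_zero (β : Blk K κ) (i : Fin κ) :
    Ob.lin (Ob.cokerπ (toE3 D β i 2)) (Ob.lin (toE3 D β i 2) (free1 D β).one) = 0 := by
  rw [← LinearMap.comp_apply, ← Ob.lin_comp, Ob.comp_cokerπ]
  rfl

theorem mv_one_zero : mv D κ 1 0 = va D κ 1 (0, 0) := by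
  change va D κ 1 (0, 0) ^ 1 * va D κ 1 (0, 1) ^ 0 = _
  rw [pow_one, pow_zero, mul_one]

theorem mv_one_one : mv D κ 1 1 = va D κ 1 (0, 1) := by
  change va D κ 1 (0, 0) ^ 0 * va D κ 1 (0, 1) ^ 1 = _
  rw [pow_one, pow_zero, one_mul]

theorem coker_rel (β : Blk K κ) (i : Fin κ) :
    ∑ j, mv D κ 1 j • (Ob.coker (toE3 D β i 2)).cst (w2 D β i j) = 0 := by
  have h1 := congrArg (Ob.lin (Ob.cokerπ (toE3 D β i 2))) (E3_rel (D := D) β i)
  rw [map_add, map_smul, map_smul, map_smul, coker_zero, smul_zero] at h1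
  rw [Fin.sum_univ_two, mv_one_zero, mv_one_one, cst_w2, cst_w2]
  exact h1.symm

theorem rk_coker (β : Blk K κ) (h : RkAx D β) (i : Fin κ) :
    (rkD h).rk (Ob.coker (toE3 D β i 2)) = 0 := by
  let φ : En D β 1 ⟶ Ob.coker (toE3 D β i 2) := fromEn 1 _ (w2 D β i) (coker_rel β i)
  have h1 : ∀ j, Ob.lin φ ((En D β 1).cst (Pi.single j 1)) =
      Ob.lin (Ob.cokerπ (toE3 D β i 2))
        (Ob.lin (toE3 D β i (Fin.castSucc j)) (free1 D β).one) := fun j =>
    (lin_fromEn 1 _ (w2 D β i) (coker_rel β i) j).trans (cst_w2 β i j)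
  have hφ : Epi φ := by
    apply Ob.epi_of_surjective
    intro y
    obtain ⟨z, rfl⟩ := Ob.cokerπ_surjective (toE3 D β i 2) y
    obtain ⟨p, rfl⟩ := (E3 D β i).N.mkQ_surjective z
    refine ⟨p 0 • (En D β 1).cst (Pi.single 0 1) + p 1 • (En D β 1).cst (Pi.single 1 1), ?_⟩
    rw [map_add, map_smul, map_smul, h1, h1, E3_mkQ, map_add, map_add, map_smul, map_smul,
      map_smul, coker_zero, smul_zero, add_zero]
    rfl
  have h1 := (rkD h).rk_epi φ hφ
  rw [rk_En] at h1
  omega

theorem S_toE3 (β : Blk K κ) (h : RkAx D β) (i : Fin κ) :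
    (rkD h).toRankFn.S (toE3 D β i 2) := by
  have h1 : (rkD h).rk (cokernel (toE3 D β i 2)) = 0 := by
    rw [← (rkD h).rk_iso (Ob.cokerIso (toE3 D β i 2)), rk_coker β h i]
  refine ⟨h1, ?_⟩
  change (rkD h).rk (free1 D β).O = (rkD h).rk (E3 D β i)
  rw [rk_O h]
  have h2 := (rkD h).rk_coker (toE3 D β i 2)
  rw [rk_O h, rk_coker β h i] at h2
  have h3 := h.eta i _ (rkD_spec h (E3 D β i))
  omega

theorem va_comm (v : Fin (κ + 2)) (m : Multiplicative (Fin 2 →₀ ℕ)) :
    Commute (va D κ 1 (0, v)) (monB D κ m) := by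
  change va D κ 1 (0, v) * monB D κ m = monB D κ m * va D κ 1 (0, v)
  rw [← ofAdd_toAdd m, monB_ofAdd, va, AddMonoidAlgebra.single_mul_single,
    AddMonoidAlgebra.single_mul_single, add_comm]

theorem const_comm (β : Blk K κ) (d : D) (m : Multiplicative (Fin 2 →₀ ℕ)) :
    Commute ((sysB D β).C d) (monB D κ m) := by
  change AddMonoidAlgebra.single 0 d * monB D κ m = monB D κ m * AddMonoidAlgebra.single 0 d
  rw [← ofAdd_toAdd m, monB_ofAdd, AddMonoidAlgebra.single_mul_single,
    AddMonoidAlgebra.single_mul_single, add_comm, mul_one, one_mul]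

/-- multiplication by an element of `K` -/
noncomputable def zK {β : Blk K κ} (k : K) (X : Ob (sysB D β)) : X ⟶ X :=
  Ob.ofLin
    { toFun := fun z => ((sysB D β).C (algebraMap K D k)) • z
      map_add' := fun a b => smul_add _ _ _
      map_smul' := fun c z => by
        have h : (sysB D β).C (algebraMap K D k) * c = c * (sysB D β).C (algebraMap K D k) := by
          have h1 : (sysB D β).C (algebraMap K D k) = algebraMap K (PA D κ 1) k := rfl
          rw [h1]
          exact Algebra.commutes k c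
        rw [RingHom.id_apply, smul_smul, h, ← smul_smul] }
    (fun v => ⟨(algebraMap K D k) • v, (Ob.cst_smul X _ v).symm⟩)

theorem zK_natural {β : Blk K κ} (k : K) {X Y : Ob (sysB D β)} (f : X ⟶ Y) :
    f ≫ zK k Y = zK k X ≫ f := by
  apply Ob.hom_ext
  refine LinearMap.ext fun z => ?_
  change (sysB D β).C (algebraMap K D k) • Ob.lin f z =
    Ob.lin f ((sysB D β).C (algebraMap K D k) • z)
  rw [map_smul]

theorem rm_eq_zK {β : Blk K κ} (k : K) :
    (free1 D β).rm (algebraMap K D k) = zK k (free1 D β).O := by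
  apply (free1 D β).hom_ext_one
  rw [Ob.Free1.lin_rm_one]
  rfl

section ev

variable {β : Blk K κ} (h : RkAx D β) {𝒟 : Type u'} [Category.{v'} 𝒟] [Preadditive 𝒟]
  (L : Ob (sysB D β) ⥤ 𝒟) [L.IsLocalization (rkD h).toRankFn.S] [L.Additive]
  {U : Type u} [DivisionRing U] (θ : U ≃+* (End (L.obj (free1 D β).O))ᵐᵒᵖ)

include h in
theorem central (k : K) (u : U) :
    ιU (free1 D β) L θ (algebraMap K D k) * u = u * ιU (free1 D β) L θ (algebraMap K D k) := by
  apply mo_injective (free1 D β) L θ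
  rw [mo_mul, mo_mul, mo_ιU, rm_eq_zK]
  exact ((rkD h).toRankFn.comm_natural L (fun X => zK k X) (fun f => zK_natural k f)
    (mo (free1 D β) L θ u)).symm

/-- `U` as an algebra over `K` -/
@[instance_reducible]
noncomputable def algU : Algebra K U :=
  ((ιU (free1 D β) L θ).comp (algebraMap K D)).toAlgebra' (central h L θ)

/-- the expansion of every polynomial over `K` -/
theorem exists_Wt (q : MvPolynomial (Fin (κ + 2)) K) :
    ∃ E : AddMonoidAlgebra U (Fin 2 →₀ ℕ),
      Wt (free1 D β) (monB D κ) (rkD h) L θ (bm K D κ (0 : Fin 1) q) E := by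
  induction q using MvPolynomial.induction_on with
  | C k =>
    refine ⟨AddMonoidAlgebra.single 0 (ιU (free1 D β) L θ (algebraMap K D k)), ?_⟩
    have h1 : bm K D κ (0 : Fin 1) (MvPolynomial.C k) = (sysB D β).C (algebraMap K D k) := by
      rw [← MvPolynomial.algebraMap_eq, AlgHom.commutes]
      rfl
    rw [h1]
    exact Wt.scalar (algebraMap K D k) (fun m => const_comm β _ m)
  | add p q hp hq =>
    obtain ⟨E, hE⟩ := hp
    obtain ⟨E', hE'⟩ := hq
    exact ⟨E + E', by rw [map_add]; exact hE.add hE'⟩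
  | mul_X p v hp =>
    obtain ⟨E, hE⟩ := hp
    have hv : ∃ E' : AddMonoidAlgebra U (Fin 2 →₀ ℕ),
        Wt (free1 D β) (monB D κ) (rkD h) L θ (bm K D κ (0 : Fin 1) (MvPolynomial.X v)) E' := by
      rw [bm_X]
      refine Fin.cases ?_ (fun v => ?_) v
      · refine ⟨AddMonoidAlgebra.single (Finsupp.single 0 1) 1, ?_⟩
        rw [← monB_x]
        exact Wt.monomial _
      · refine Fin.cases ?_ (fun i => ?_) v
        · refine ⟨AddMonoidAlgebra.single (Finsupp.single 1 1) 1, ?_⟩
          have h1 : va D κ 1 (0, (0 : Fin (κ + 1)).succ) = va D κ 1 (0, 1) := rfl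
          rw [h1, ← monB_y]
          exact Wt.monomial _
        · obtain ⟨u0, u1, hu⟩ := Wt.eta (F := free1 D β) (mon := monB D κ) (ρ := rkD h) (L := L)
            (θ := θ) (Finsupp.single 0 1) (Finsupp.single 1 1) (va D κ 1 (0, i.succ.succ))
            (fun m => va_comm _ m) (E3 D β i) (toE3 D β i 2) (toE3 D β i 0) (toE3 D β i 1)
            (S_toE3 β h i) (by rw [monB_x, monB_y]; exact E3_rel β i)
          exact ⟨_, hu⟩
    obtain ⟨E', hE'⟩ := hv
    exact ⟨E * E', by rw [map_mul]; exact hE.mul hE'⟩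

/-- **the elements of the block** -/
theorem exists_ev :
    letI := algU h L θ
    ∃ (ι : D →ₐ[K] U) (V : Fin κ → Fin 2 → U), (∀ d, ι d = ιU (free1 D β) L θ d) ∧
      (∀ i ε d, V i ε * ι d = ι d * V i ε) ∧ IsEv β V := by
  let _ := algU h L θ
  have hfr := hfree h L
  obtain ⟨ev, hev, hev0⟩ := exists_hom (F := free1 D β) (mon := monB D κ) (ρ := rkD h) (L := L)
    (θ := θ) ((bm K D κ (0 : Fin 1) : MvPolynomial (Fin (κ + 2)) K →ₐ[K] PA D κ 1) :
      MvPolynomial (Fin (κ + 2)) K →+* PA D κ 1) hfr (exists_Wt h L θ)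
  have hV : ∀ i : Fin κ, ∃ u0 u1 : U,
      Wt (free1 D β) (monB D κ) (rkD h) L θ (va D κ 1 (0, i.succ.succ))
      (AddMonoidAlgebra.single (Finsupp.single 0 1) u0 +
        AddMonoidAlgebra.single (Finsupp.single 1 1) u1) := by
    intro i
    exact Wt.eta (F := free1 D β) (mon := monB D κ) (ρ := rkD h) (L := L)
            (θ := θ) (Finsupp.single 0 1) (Finsupp.single 1 1) (va D κ 1 (0, i.succ.succ))
            (fun m => va_comm _ m) (E3 D β i) (toE3 D β i 2) (toE3 D β i 0) (toE3 D β i 1)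
            (S_toE3 β h i) (by rw [monB_x, monB_y]; exact E3_rel β i)
  choose u0 u1 hu using hV
  let ι : D →ₐ[K] U :=
    { ιU (free1 D β) L θ with
      commutes' := fun k => rfl }
  refine ⟨ι, fun i => ![u0 i, u1 i], fun d => rfl, ?_, ?_⟩
  · intro i ε d
    have h1 : Wt (free1 D β) (monB D κ) (rkD h) L θ ((sysB D β).C d)
        (AddMonoidAlgebra.single 0 (ιU (free1 D β) L θ d)) :=
      Wt.scalar d (fun m => const_comm β d m)
    have h2 := Wt.commute hfr (hu i) h1 (by
      change va D κ 1 (0, i.succ.succ) * AddMonoidAlgebra.single 0 d =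
        AddMonoidAlgebra.single 0 d * va D κ 1 (0, i.succ.succ)
      rw [va, AddMonoidAlgebra.single_mul_single, AddMonoidAlgebra.single_mul_single, add_comm,
        mul_one, one_mul])
    rw [add_mul, mul_add, AddMonoidAlgebra.single_mul_single, AddMonoidAlgebra.single_mul_single,
      AddMonoidAlgebra.single_mul_single, AddMonoidAlgebra.single_mul_single, add_zero, zero_add,
      add_zero, zero_add] at h2
    have hne : (Finsupp.single 0 1 : Fin 2 →₀ ℕ) ≠ Finsupp.single 1 1 := by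
      intro h3
      have h4 := DFunLike.congr_fun h3 0
      simp at h4
    have h3 := fun m => DFunLike.congr_fun (congrArg AddMonoidAlgebra.coeff h2) m
    simp only [AddMonoidAlgebra.coeff_add, AddMonoidAlgebra.coeff_single, Finsupp.add_apply] at h3
    fin_cases ε
    · have h4 := h3 (Finsupp.single 0 1)
      rw [Finsupp.single_eq_same, Finsupp.single_eq_same, Finsupp.single_eq_of_ne hne,
        Finsupp.single_eq_of_ne hne, add_zero, add_zero] at h4
      exact h4
    · have h4 := h3 (Finsupp.single 1 1)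
      rw [Finsupp.single_eq_same, Finsupp.single_eq_same, Finsupp.single_eq_of_ne hne.symm,
        Finsupp.single_eq_of_ne hne.symm, zero_add, zero_add] at h4
      exact h4
  · refine ⟨{ ev with commutes' := fun k => ?_ }, ?_, ?_, ?_, ?_⟩
    · change ev (algebraMap K _ k) = algebraMap K (AddMonoidAlgebra U (Fin 2 →₀ ℕ)) k
      refine Wt.unique hfr (hev (algebraMap K _ k)) (p' := (sysB D β).C (algebraMap K D k)) ?_ ?_
      · exact Wt.scalar (algebraMap K D k) (fun m => const_comm β _ m)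
      · change (bm K D κ (0 : Fin 1) (algebraMap K _ k)) • _ = _
        rw [AlgHom.commutes]
        rfl
    · change ev (MvPolynomial.X 0) = _
      refine Wt.unique hfr (hev _) (p' := va D κ 1 (0, 0)) ?_ ?_
      · rw [← monB_x]
        exact Wt.monomial _
      · change (bm K D κ (0 : Fin 1) (MvPolynomial.X 0)) • _ = _
        rw [bm_X]
    · change ev (MvPolynomial.X 1) = _
      refine Wt.unique hfr (hev _) (p' := va D κ 1 (0, 1)) ?_ ?_
      · rw [← monB_y]
        exact Wt.monomial _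
      · change (bm K D κ (0 : Fin 1) (MvPolynomial.X 1)) • _ = _
        rw [bm_X]
    · intro i
      change ev (MvPolynomial.X i.succ.succ) = _
      refine Wt.unique hfr (hev _) (p' := va D κ 1 (0, i.succ.succ)) (hu i) ?_
      change (bm K D κ (0 : Fin 1) (MvPolynomial.X i.succ.succ)) • _ = _
      rw [bm_X]
    · intro i
      change ev (β.rel i) = 0
      apply hev0
      exact Ob.kill (free1 D β).O i (free1 D β).one

end ev

end Vale.Agent.P200.V.SB
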