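import Mathlib

/-!
Substitution of commuting elements in the polynomials over a noncommutative ring.
-/

namespace Vale.Agent.P200.V

open MvPolynomial

section sub
variable {K : Type*} [Field K] {D : Type*} [Ring D] [Algebra K D] {B : Type*} [Ring B]
  [Algebra K B]

/-- monomials in two commuting elements -/
noncomputable def mon2 (Z : Fin 2 → B) (hZ : Commute (Z 0) (Z 1)) :
    Multiplicative (Fin 2 →₀ ℕ) →* B where
  toFun m := Z 0 ^ (m.toAdd 0) * Z 1 ^ (m.toAdd 1)
  map_one' := by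
    rw [toAdd_one, Finsupp.zero_apply, Finsupp.zero_apply, pow_zero, pow_zero, one_mul]
  map_mul' a b := by
    rw [toAdd_mul, Finsupp.add_apply, Finsupp.add_apply, pow_add, pow_add]
    have h := (hZ.pow_pow (b.toAdd 0) (a.toAdd 1)).eq
    calc Z 0 ^ (a.toAdd 0) * Z 0 ^ (b.toAdd 0) * (Z 1 ^ (a.toAdd 1) * Z 1 ^ (b.toAdd 1))
        = Z 0 ^ (a.toAdd 0) * (Z 0 ^ (b.toAdd 0) * Z 1 ^ (a.toAdd 1)) * Z 1 ^ (b.toAdd 1) := by
          simp only [mul_assoc]
      _ = Z 0 ^ (a.toAdd 0) * (Z 1 ^ (a.toAdd 1) * Z 0 ^ (b.toAdd 0)) * Z 1 ^ (b.toAdd 1) := by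
          rw [h]
      _ = _ := by simp only [mul_assoc]

theorem mon2_apply (Z : Fin 2 → B) (hZ : Commute (Z 0) (Z 1)) (m : Fin 2 →₀ ℕ) :
    mon2 Z hZ (Multiplicative.ofAdd m) = Z 0 ^ m 0 * Z 1 ^ m 1 := rfl

theorem commute_mon2 (Z : Fin 2 → B) (hZ : Commute (Z 0) (Z 1)) {b : B}
    (hb : ∀ δ, Commute b (Z δ)) (m : Multiplicative (Fin 2 →₀ ℕ)) : Commute b (mon2 Z hZ m) :=
  ((hb 0).pow_right _).mul_right ((hb 1).pow_right _)

theorem mem_range_mapAlgHom {M : Type*} [AddMonoid M] (S : Subalgebra K D)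
    (u : AddMonoidAlgebra D M) :
    u ∈ (AddMonoidAlgebra.mapAlgHom (R := K) M S.val).range ↔ ∀ m, u.coeff m ∈ S := by
  constructor
  · rintro ⟨v, rfl⟩ m
    have h : ((AddMonoidAlgebra.mapAlgHom (R := K) M S.val) v).coeff m = S.val (v.coeff m) :=
      AddMonoidAlgebra.coeff_mapAlgHom _ _ _
    change ((AddMonoidAlgebra.mapAlgHom (R := K) M S.val) v).coeff m ∈ S
    rw [h]
    exact (v.coeff m).2
  · intro h
    rw [← AddMonoidAlgebra.sum_coeff_single u]
    refine Subalgebra.sum_mem _ fun m _ => ?_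
    refine ⟨AddMonoidAlgebra.single m ⟨u.coeff m, h m⟩, ?_⟩
    exact AddMonoidAlgebra.mapAlgHom_single _ _ _

theorem ev_coeff_mem {M σ : Type*} [AddMonoid M] (S : Subalgebra K D)
    (ev : MvPolynomial σ K →ₐ[K] AddMonoidAlgebra D M)
    (h : ∀ v m, (ev (X v)).coeff m ∈ S) (f : MvPolynomial σ K) (m : M) :
    (ev f).coeff m ∈ S := by
  revert m
  rw [← mem_range_mapAlgHom]
  induction f using MvPolynomial.induction_on with
  | C a =>
    have h1 : ev (C a) = algebraMap K _ a := ev.commutes a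
    rw [h1]
    exact Subalgebra.algebraMap_mem _ _
  | add f g hf hg =>
    rw [map_add]
    exact Subalgebra.add_mem _ hf hg
  | mul_X f v hf =>
    rw [map_mul]
    exact Subalgebra.mul_mem _ hf ((mem_range_mapAlgHom S _).2 (h v))

/-- the elements which commute with `Z 0`, `Z 1` -/
def cen2 (c : D →ₐ[K] B) (Z : Fin 2 → B) : Subalgebra K D :=
  (Subalgebra.centralizer K (Set.range Z)).comap c

theorem mem_cen2 {c : D →ₐ[K] B} {Z : Fin 2 → B} {a : D} :
    a ∈ cen2 c Z ↔ ∀ δ, Commute (c a) (Z δ) := by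
  unfold cen2
  rw [Subalgebra.mem_comap, Subalgebra.mem_centralizer_iff]
  constructor
  · intro h δ
    exact (h (Z δ) ⟨δ, rfl⟩).symm
  · rintro h _ ⟨δ, rfl⟩
    exact (h δ).eq.symm

/-- substitution -/
theorem exists_subst {σ : Type*} (c : D →ₐ[K] B) (Z : Fin 2 → B) (hZ : Commute (Z 0) (Z 1))
    (ev : MvPolynomial σ K →ₐ[K] AddMonoidAlgebra D (Fin 2 →₀ ℕ)) (a : σ → Fin 2 → D)
    (hev : ∀ v, ev (X v) = AddMonoidAlgebra.single (Finsupp.single 0 1) (a v 0) +
      AddMonoidAlgebra.single (Finsupp.single 1 1) (a v 1))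
    (hc : ∀ v ε δ, Commute (c (a v ε)) (Z δ)) :
    ∃ φ : MvPolynomial σ K →ₐ[K] B, (∀ v, φ (X v) = c (a v 0) * Z 0 + c (a v 1) * Z 1) ∧
      ∀ f, ev f = 0 → φ f = 0 := by
  classical
  set F : AddMonoidAlgebra D (Fin 2 →₀ ℕ) →+ B :=
    AddMonoidAlgebra.liftNC (c : D →+* B) (mon2 Z hZ) with hF
  have hco : ∀ f m, (ev f).coeff m ∈ cen2 c Z := by
    refine ev_coeff_mem (cen2 c Z) ev fun v m => ?_
    rw [hev, AddMonoidAlgebra.coeff_add, Finsupp.add_apply, AddMonoidAlgebra.coeff_single,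
      AddMonoidAlgebra.coeff_single, Finsupp.single_apply, Finsupp.single_apply]
    refine Subalgebra.add_mem _ ?_ ?_
    · split_ifs
      · exact mem_cen2.2 (hc v 0)
      · exact Subalgebra.zero_mem _
    · split_ifs
      · exact mem_cen2.2 (hc v 1)
      · exact Subalgebra.zero_mem _
  have hmul : ∀ f g, F (ev f * ev g) = F (ev f) * F (ev g) := by
    intro f g
    refine AddMonoidAlgebra.liftNC_mul (c : D →+* B) (mon2 Z hZ) (ev f) (ev g) ?_
    intro x y _
    exact commute_mon2 Z hZ (mem_cen2.1 (hco g x)) _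
  have hsing : ∀ m b, F (AddMonoidAlgebra.single m b) = c b * mon2 Z hZ (Multiplicative.ofAdd m) :=
    fun m b => AddMonoidAlgebra.liftNC_single _ _ _ _
  have hone : F 1 = 1 := by
    rw [AddMonoidAlgebra.one_def, hsing, map_one, one_mul]
    exact map_one _
  let φ : MvPolynomial σ K →ₐ[K] B := AlgHom.ofLinearMap
    { toFun := fun f => F (ev f)
      map_add' := fun f g => by rw [map_add, map_add]
      map_smul' := fun r f => by
        rw [RingHom.id_apply, MvPolynomial.smul_eq_C_mul, map_mul, hmul]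
        have h1 : ev (C r) = algebraMap K _ r := ev.commutes r
        have h3 : algebraMap K (AddMonoidAlgebra D (Fin 2 →₀ ℕ)) r =
            AddMonoidAlgebra.single 0 (algebraMap K D r) := rfl
        rw [h1, h3, hsing, AlgHom.commutes]
        have h2 : mon2 Z hZ (Multiplicative.ofAdd 0) = 1 := map_one _
        rw [h2, mul_one, Algebra.smul_def] }
    (by
      change F (ev 1) = 1
      rw [map_one, hone])
    (fun f g => by
      change F (ev (f * g)) = F (ev f) * F (ev g)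
      rw [map_mul, hmul])
  have hφ : ∀ f, φ f = F (ev f) := fun f => rfl
  refine ⟨φ, fun v => ?_, fun f hf => ?_⟩
  · rw [hφ, hev, map_add, hsing, hsing, mon2_apply, mon2_apply]
    simp
  · rw [hφ, hf, map_zero]

end sub

end Vale.Agent.P200.V
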