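import Vale.Agent.P200.V.Blk
import Vale.Agent.P200.V.Eval1
import Vale.Agent.P200.M.Theta

/-!
Evaluation of a circuit in the polynomials over a division ring.

`Tix N R κ` : names of the variables `x_a` (`inl a`) and of the elements `i` of the blocks `g` (`inr (g, i)`).
The inputs of the block `g` are the linear forms `∑_v cf g ε v X_v`, with `cf g ε (inr (g', i)) ≠ 0 → g' < g`.
-/

namespace Vale.Agent.P200.V

open MvPolynomial
open Vale.Agent.P200.M

universe u

/-- names of the variables and of the elements -/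
abbrev Tix (N R κ : ℕ) : Type := Fin N ⊕ Fin R × Fin κ

section wiring
variable {K : Type u} [Field K] {N R κ : ℕ}

/-- the inputs of the blocks -/
noncomputable def inpF (cf : Fin R → Fin 2 → Tix N R κ → K) (g : Fin R) (ε : Fin 2) :
    MvPolynomial (Tix N R κ) K := ∑ v, C (cf g ε v) * X v

/-- the variables of the block `g` -/
noncomputable def sbF (cf : Fin R → Fin 2 → Tix N R κ → K) (g : Fin R) :
    Fin (κ + 2) → MvPolynomial (Tix N R κ) K :=
  Fin.cases (inpF cf g 0) (Fin.cases (inpF cf g 1) fun i => X (Sum.inr (g, i)))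

theorem sbF_zero (cf : Fin R → Fin 2 → Tix N R κ → K) (g : Fin R) : sbF cf g 0 = inpF cf g 0 := rfl

theorem sbF_one (cf : Fin R → Fin 2 → Tix N R κ → K) (g : Fin R) : sbF cf g 1 = inpF cf g 1 := rfl

theorem sbF_succ (cf : Fin R → Fin 2 → Tix N R κ → K) (g : Fin R) (i : Fin κ) :
    sbF cf g i.succ.succ = X (Sum.inr (g, i)) := rfl

end wiring

section eval
variable {K : Type u} [Field K] {D : Type u} [DivisionRing D] [Algebra K D] {N R κ : ℕ}

/-- the constants -/
noncomputable def cst0 (K : Type u) [Field K] (D : Type u) [DivisionRing D] [Algebra K D] (N : ℕ) :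
    D →ₐ[K] YR D N where
  toFun d := AddMonoidAlgebra.single 0 d
  map_one' := rfl
  map_mul' a b := by rw [AddMonoidAlgebra.single_mul_single, add_zero]
  map_zero' := AddMonoidAlgebra.single_zero _
  map_add' a b := AddMonoidAlgebra.single_add _ _ _
  commutes' _ := rfl

theorem cst0_apply (d : D) : cst0 K D N d = AddMonoidAlgebra.single 0 d := rfl

theorem smul_eq_cst0 (d : D) (u : YR D N) : d • u = cst0 K D N d * u := by
  induction u using AddMonoidAlgebra.induction_linear with
  | zero => rw [smul_zero, mul_zero]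
  | add a b ha hb => rw [smul_add, mul_add, ha, hb]
  | single m b =>
    rw [cst0_apply, AddMonoidAlgebra.single_mul_single, zero_add, AddMonoidAlgebra.smul_single,
      smul_eq_mul]

theorem commute_zv (a : Fin N) (u : YR D N) : Commute (zv D N a) u := by
  change zv D N a * u = u * zv D N a
  induction u using AddMonoidAlgebra.induction_linear with
  | zero => rw [zero_mul, mul_zero]
  | add b c hb hc => rw [mul_add, add_mul, hb, hc]
  | single m b =>
    unfold zv
    rw [AddMonoidAlgebra.single_mul_single, AddMonoidAlgebra.single_mul_single, one_mul, mul_one,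
      add_comm]

/-- the inputs -/
noncomputable def evX (cf : Fin R → Fin 2 → Tix N R κ → K) (V : Fin R → Fin κ → Fin 2 → D)
    (g : Fin R) (ε : Fin 2) : YR D N :=
  ∑ v : Tix N R κ, cst0 K D N (algebraMap K D (cf g ε v)) * (match v with
    | Sum.inl a => zv D N a
    | Sum.inr p => if _h : p.1 < g then
        cst0 K D N (V p.1 p.2 0) * evX cf V p.1 0 + cst0 K D N (V p.1 p.2 1) * evX cf V p.1 1
      else 0)
termination_by g.val
decreasing_by all_goals exact _h

/-- the elements -/
noncomputable def evW (cf : Fin R → Fin 2 → Tix N R κ → K) (V : Fin R → Fin κ → Fin 2 → D) :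
    Tix N R κ → YR D N
  | Sum.inl a => zv D N a
  | Sum.inr p => cst0 K D N (V p.1 p.2 0) * evX cf V p.1 0 +
      cst0 K D N (V p.1 p.2 1) * evX cf V p.1 1

theorem evX_eq {cf : Fin R → Fin 2 → Tix N R κ → K}
    (hcf : ∀ g ε p, cf g ε (Sum.inr p) ≠ 0 → p.1 < g) (V : Fin R → Fin κ → Fin 2 → D)
    (g : Fin R) (ε : Fin 2) :
    evX cf V g ε = ∑ v, cst0 K D N (algebraMap K D (cf g ε v)) * evW cf V v := by
  rw [evX]
  refine Finset.sum_congr rfl fun v _ => ?_
  rcases v with a | p
  · rfl
  · by_cases h : p.1 < g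
    · simp only [dif_pos h]
      rfl
    · have h0 : cf g ε (Sum.inr p) = 0 := by
        by_contra h1
        exact h (hcf g ε p h1)
      rw [h0, map_zero, map_zero, zero_mul, zero_mul]

section main
variable {cf : Fin R → Fin 2 → Tix N R κ → K}
  (hcf : ∀ g ε p, cf g ε (Sum.inr p) ≠ 0 → p.1 < g) {V : Fin R → Fin κ → Fin 2 → D}

theorem exists_lin_add {u v : YR D N} (hu : ∃ E : Fin N → D, u = M.lin E)
    (hv : ∃ E : Fin N → D, v = M.lin E) : ∃ E : Fin N → D, u + v = M.lin E := by
  obtain ⟨E, rfl⟩ := hu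
  obtain ⟨F, rfl⟩ := hv
  refine ⟨E + F, ?_⟩
  unfold M.lin
  rw [← Finset.sum_add_distrib]
  refine Finset.sum_congr rfl fun k _ => ?_
  rw [Pi.add_apply, AddMonoidAlgebra.single_add]

theorem exists_lin_mul (d : D) {u : YR D N} (hu : ∃ E : Fin N → D, u = M.lin E) :
    ∃ E : Fin N → D, cst0 K D N d * u = M.lin E := by
  obtain ⟨E, rfl⟩ := hu
  refine ⟨fun k => d * E k, ?_⟩
  unfold M.lin
  rw [Finset.mul_sum]
  refine Finset.sum_congr rfl fun k _ => ?_
  rw [cst0_apply, AddMonoidAlgebra.single_mul_single, zero_add]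

theorem exists_lin_sum {ι : Type*} (s : Finset ι) (u : ι → YR D N)
    (hu : ∀ i, ∃ E : Fin N → D, u i = M.lin E) : ∃ E : Fin N → D, ∑ i ∈ s, u i = M.lin E := by
  classical
  induction s using Finset.induction_on with
  | empty =>
    refine ⟨0, ?_⟩
    rw [Finset.sum_empty]
    unfold M.lin
    refine (Finset.sum_eq_zero fun k _ => ?_).symm
    rw [Pi.zero_apply, AddMonoidAlgebra.single_zero]
  | insert i s hi ih =>
    rw [Finset.sum_insert hi]
    exact exists_lin_add (hu i) ih

theorem zv_lin (a : Fin N) : ∃ E : Fin N → D, zv D N a = M.lin E := by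
  classical
  refine ⟨Pi.single a 1, ?_⟩
  unfold M.lin zv
  rw [Finset.sum_eq_single a]
  · rw [Pi.single_eq_same]
  · intro b _ hb
    rw [Pi.single_eq_of_ne hb, AddMonoidAlgebra.single_zero]
  · intro h
    exact absurd (Finset.mem_univ a) h

include hcf in
theorem evX_lin (g : Fin R) (ε : Fin 2) : ∃ E : Fin N → D, evX cf V g ε = M.lin E := by
  induction h : g.val using Nat.strong_induction_on generalizing g ε with
  | _ r ih =>
    subst h
    rw [evX_eq hcf]
    refine exists_lin_sum _ _ fun v => ?_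
    rcases v with a | p
    · exact exists_lin_mul _ (zv_lin a)
    · by_cases h0 : cf g ε (Sum.inr p) = 0
      · refine ⟨0, ?_⟩
        rw [h0, map_zero, map_zero, zero_mul]
        unfold M.lin
        refine (Finset.sum_eq_zero fun k _ => ?_).symm
        rw [Pi.zero_apply, AddMonoidAlgebra.single_zero]
      · have h1 := hcf g ε p h0
        exact exists_lin_mul _ (exists_lin_add (exists_lin_mul _ (ih _ h1 p.1 0 rfl))
          (exists_lin_mul _ (ih _ h1 p.1 1 rfl)))

include hcf in
theorem evW_lin (v : Tix N R κ) : ∃ E : Fin N → D, evW cf V v = M.lin E := by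
  rcases v with a | p
  · exact zv_lin a
  · exact exists_lin_add (exists_lin_mul _ (evX_lin hcf _ _)) (exists_lin_mul _ (evX_lin hcf _ _))

variable (hV : ∀ g h, g ≠ h → ∀ i j ε δ, V g i ε * V h j δ = V h j δ * V g i ε)

include hcf hV in
/-- the constants of the block `g' ≥ g` commute with the inputs of the block `g` -/
theorem commute_evX (g : Fin R) (ε : Fin 2) (g' : Fin R) (hg : g ≤ g') (i : Fin κ) (δ : Fin 2) :
    Commute (cst0 K D N (V g' i δ)) (evX cf V g ε) := by
  induction h : g.val using Nat.strong_induction_on generalizing g ε with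
  | _ r ih =>
    subst h
    rw [evX_eq hcf]
    refine Commute.sum_right _ _ _ fun v _ => ?_
    have hc : Commute (cst0 K D N (V g' i δ)) (cst0 K D N (algebraMap K D (cf g ε v))) := by
      rw [AlgHom.commutes]
      exact (Algebra.commutes _ _).symm
    rcases v with a | p
    · exact hc.mul_right (commute_zv a _).symm
    · by_cases h0 : cf g ε (Sum.inr p) = 0
      · rw [h0, map_zero, map_zero, zero_mul]
        exact Commute.zero_right _
      · have h3 := hcf g ε p h0
        have h2 : g' ≠ p.1 := by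
          intro h'
          rw [← h'] at h3
          exact absurd h3 (not_lt.2 hg)
        have h1 : ∀ ε, Commute (cst0 K D N (V g' i δ))
            (cst0 K D N (V p.1 p.2 ε) * evX cf V p.1 ε) := by
          intro ε
          refine Commute.mul_right ?_ (ih _ h3 p.1 ε (h3.le.trans hg) rfl)
          change _ * _ = _ * _
          rw [← map_mul, ← map_mul, hV g' p.1 h2]
        exact hc.mul_right ((h1 0).add_right (h1 1))

include hcf hV in
theorem commute_cst_evW (g' : Fin R) (i : Fin κ) (δ : Fin 2) (v : Tix N R κ)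
    (hv : ∀ p, v = Sum.inr p → p.1 < g') : Commute (cst0 K D N (V g' i δ)) (evW cf V v) := by
  rcases v with a | p
  · exact (commute_zv a _).symm
  · have h3 := hv p rfl
    have h1 : ∀ ε, Commute (cst0 K D N (V g' i δ))
        (cst0 K D N (V p.1 p.2 ε) * evX cf V p.1 ε) := by
      intro ε
      refine Commute.mul_right ?_ (commute_evX hcf hV _ _ _ h3.le _ _)
      change _ * _ = _ * _
      rw [← map_mul, ← map_mul, hV g' p.1 (ne_of_gt h3)]
    exact (h1 0).add_right (h1 1)

include hcf in
theorem commute_sum_evX (g : Fin R) (ε : Fin 2) {b : YR D N}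
    (hb : ∀ v, (∀ p, v = Sum.inr p → p.1 < g) → Commute (evW cf V v) b)  :
    Commute (evX cf V g ε) b := by
  rw [evX_eq hcf]
  refine Commute.sum_left _ _ _ fun v _ => ?_
  by_cases h0 : cf g ε v = 0
  · rw [h0, map_zero, map_zero, zero_mul]
    exact Commute.zero_left _
  · refine Commute.mul_left ?_ (hb v fun p hp => ?_)
    · rw [AlgHom.commutes]
      exact Algebra.commutes _ _
    · subst hp
      exact hcf g ε p h0

variable {β : Fin R → Blk K κ}

/-- the coefficients of the variables of a block -/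
def cfV (a : Fin κ → Fin 2 → D) : Fin (κ + 2) → Fin 2 → D :=
  Fin.cases (Pi.single 0 1) (Fin.cases (Pi.single 1 1) a)

include hcf hV in
/-- the substitution of a block whose inputs commute -/
theorem exists_phi (g : Fin R) (hg : Commute (evX cf V g 0) (evX cf V g 1))
    (he : IsEv (β g) (V g)) :
    ∃ φ : MvPolynomial (Fin (κ + 2)) K →ₐ[K] YR D N,
      φ (X 0) = evX cf V g 0 ∧ φ (X 1) = evX cf V g 1 ∧
      (∀ i : Fin κ, φ (X i.succ.succ) = evW cf V (Sum.inr (g, i))) ∧
      ∀ i, φ ((β g).rel i) = 0 := by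
  obtain ⟨ev, h0, h1, h2, h3⟩ := he
  obtain ⟨φ, hφ, hφ0⟩ := exists_subst (cst0 K D N) (evX cf V g) hg ev (cfV (V g)) (fun v => by
    refine Fin.cases ?_ (fun v => Fin.cases ?_ (fun i => ?_) v) v
    · rw [h0]
      change _ = AddMonoidAlgebra.single _ ((Pi.single 0 1 : Fin 2 → D) 0) +
        AddMonoidAlgebra.single _ ((Pi.single 0 1 : Fin 2 → D) 1)
      rw [Pi.single_eq_same, Pi.single_eq_of_ne (by decide : (1 : Fin 2) ≠ 0),
        AddMonoidAlgebra.single_zero, add_zero]
    · have h1' : ev (X (Fin.succ 0)) = AddMonoidAlgebra.single (Finsupp.single 1 1) 1 := h1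
      rw [h1']
      change _ = AddMonoidAlgebra.single _ ((Pi.single 1 1 : Fin 2 → D) 0) +
        AddMonoidAlgebra.single _ ((Pi.single 1 1 : Fin 2 → D) 1)
      rw [Pi.single_eq_same, Pi.single_eq_of_ne (by decide : (0 : Fin 2) ≠ 1),
        AddMonoidAlgebra.single_zero, zero_add]
    · exact h2 i) (fun v ε δ => by
    refine Fin.cases ?_ (fun v => Fin.cases ?_ (fun i => ?_) v) v
    · change Commute (cst0 K D N ((Pi.single 0 1 : Fin 2 → D) ε)) _
      by_cases h : ε = 0
      · rw [h, Pi.single_eq_same, map_one]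
        exact Commute.one_left _
      · rw [Pi.single_eq_of_ne h, map_zero]
        exact Commute.zero_left _
    · change Commute (cst0 K D N ((Pi.single 1 1 : Fin 2 → D) ε)) _
      by_cases h : ε = 1
      · rw [h, Pi.single_eq_same, map_one]
        exact Commute.one_left _
      · rw [Pi.single_eq_of_ne h, map_zero]
        exact Commute.zero_left _
    · exact commute_evX hcf hV g δ g le_rfl i ε)
  refine ⟨φ, ?_, ?_, fun i => hφ i.succ.succ, fun i => hφ0 _ (h3 i)⟩
  · rw [hφ]
    change cst0 K D N ((Pi.single 0 1 : Fin 2 → D) 0) * _ +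
      cst0 K D N ((Pi.single 0 1 : Fin 2 → D) 1) * _ = _
    rw [Pi.single_eq_same, Pi.single_eq_of_ne (by decide : (1 : Fin 2) ≠ 0), map_one, map_zero,
      one_mul, zero_mul, add_zero]
  · rw [hφ]
    change cst0 K D N ((Pi.single 1 1 : Fin 2 → D) 0) * _ +
      cst0 K D N ((Pi.single 1 1 : Fin 2 → D) 1) * _ = _
    rw [Pi.single_eq_same, Pi.single_eq_of_ne (by decide : (0 : Fin 2) ≠ 1), map_one, map_zero,
      one_mul, zero_mul, zero_add]

variable (he : ∀ g, IsEv (β g) (V g))

include hcf hV he in
theorem commute_evW_lt (r : ℕ) : ∀ v v' : Tix N R κ, (∀ p, v = Sum.inr p → p.1.val < r) →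
    (∀ p, v' = Sum.inr p → p.1.val < r) → Commute (evW cf V v) (evW cf V v') := by
  induction r with
  | zero =>
    intro v v' hv hv'
    rcases v with a | p
    · exact commute_zv a _
    · exact absurd (hv p rfl) (Nat.not_lt_zero _)
  | succ r ih =>
    have hX : ∀ (g : Fin R) (ε : Fin 2) (v' : Tix N R κ), g.val = r →
        (∀ p, v' = Sum.inr p → p.1.val < r) → Commute (evX cf V g ε) (evW cf V v') := by
      intro g ε v' hg hv'
      refine commute_sum_evX hcf g ε fun v hv => ih v v' (fun p hp => ?_) hv'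
      have := hv p hp
      rw [← hg]
      exact this
    have hXX : ∀ g : Fin R, g.val = r → Commute (evX cf V g 0) (evX cf V g 1) := by
      intro g hg
      refine commute_sum_evX hcf g 0 fun v hv => (hX g 1 v hg fun p hp => ?_).symm
      have := hv p hp
      rw [← hg]
      exact this
    have hmix : ∀ (p : Fin R × Fin κ) (v' : Tix N R κ), p.1.val = r →
        (∀ p, v' = Sum.inr p → p.1.val < r) → Commute (evW cf V (Sum.inr p)) (evW cf V v') := by
      intro p v' hp hv'
      have h1 : ∀ ε, Commute (cst0 K D N (V p.1 p.2 ε) * evX cf V p.1 ε) (evW cf V v') := by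
        intro ε
        refine Commute.mul_left ?_ (hX _ _ _ hp hv')
        refine commute_cst_evW hcf hV _ _ _ _ fun q hq => ?_
        have := hv' q hq
        rw [← hp] at this
        exact this
      exact (h1 0).add_left (h1 1)
    intro v v' hv hv'
    rcases v with a | p
    · exact commute_zv a _
    · rcases v' with a | p'
      · exact (commute_zv a _).symm
      · have hp := hv p rfl
        have hp' := hv' p' rfl
        rcases Nat.lt_succ_iff_lt_or_eq.1 hp with h | h
        · rcases Nat.lt_succ_iff_lt_or_eq.1 hp' with h' | h'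
          · refine ih _ _ (fun q hq => ?_) fun q hq => ?_
            · rw [← Sum.inr_injective hq]
              exact h
            · rw [← Sum.inr_injective hq]
              exact h'
          · refine (hmix p' _ h' fun q hq => ?_).symm
            rw [← Sum.inr_injective hq]
            exact h
        · rcases Nat.lt_succ_iff_lt_or_eq.1 hp' with h' | h'
          · refine hmix p _ h fun q hq => ?_
            rw [← Sum.inr_injective hq]
            exact h'
          · obtain ⟨g, i⟩ := p
            obtain ⟨g', i'⟩ := p'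
            have hgg : g' = g := Fin.ext (h'.trans h.symm)
            subst hgg
            obtain ⟨φ, -, -, h2, -⟩ := exists_phi hcf hV g' (hXX g' h) (he g')
            rw [← h2, ← h2]
            change _ * _ = _ * _
            rw [← map_mul, ← map_mul, mul_comm]

include hcf hV he in
theorem commute_evW (v v' : Tix N R κ) : Commute (evW cf V v) (evW cf V v') :=
  commute_evW_lt hcf hV he R v v' (fun p _ => p.1.2) fun p _ => p.1.2

include hcf hV he in
/-- **Evaluation of the circuit.** -/
theorem exists_eval :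
    ∃ Ψ : MvPolynomial (Tix N R κ) K →ₐ[K] YR D N,
      (∀ a, Ψ (X (Sum.inl a)) = zv D N a) ∧
      (∀ v, ∃ E : Fin N → D, Ψ (X v) = M.lin E) ∧
      ∀ g i, Ψ (aeval (sbF cf g) ((β g).rel i)) = 0 := by
  have hcomm : ∀ a ∈ Set.range (evW cf V), ∀ b ∈ Set.range (evW cf V), a * b = b * a := by
    rintro _ ⟨v, rfl⟩ _ ⟨v', rfl⟩
    exact commute_evW hcf hV he v v'
  obtain ⟨Ψ, hΨ⟩ : ∃ Ψ : MvPolynomial (Tix N R κ) K →ₐ[K] YR D N, ∀ v, Ψ (X v) = evW cf V v := by
    let _ := Algebra.adjoinCommRingOfComm K hcomm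
    refine ⟨(Algebra.adjoin K (Set.range (evW cf V))).val.comp
      (aeval fun v => ⟨evW cf V v, Algebra.subset_adjoin ⟨v, rfl⟩⟩), fun v => ?_⟩
    rw [AlgHom.comp_apply, aeval_X]
    rfl
  refine ⟨Ψ, fun a => hΨ _, fun v => ?_, fun g i => ?_⟩
  · rw [hΨ]
    exact evW_lin hcf v
  · have hX : ∀ ε, Ψ (inpF cf g ε) = evX cf V g ε := by
      intro ε
      rw [evX_eq hcf, inpF, map_sum]
      refine Finset.sum_congr rfl fun v _ => ?_
      rw [map_mul, hΨ]
      have h5 : Ψ (C (cf g ε v)) = cst0 K D N (algebraMap K D (cf g ε v)) :=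
        (Ψ.commutes _).trans ((cst0 K D N).commutes _).symm
      rw [h5]
    have hg : Commute (evX cf V g 0) (evX cf V g 1) := by
      rw [← hX, ← hX]
      change _ * _ = _ * _
      rw [← map_mul, ← map_mul, mul_comm]
    obtain ⟨φ, h0, h1, h2, h3⟩ := exists_phi hcf hV g hg (he g)
    have hφ : Ψ.comp (aeval (sbF cf g)) = φ := by
      refine MvPolynomial.algHom_ext fun v => ?_
      rw [AlgHom.comp_apply, aeval_X]
      refine Fin.cases ?_ (fun v => Fin.cases ?_ (fun j => ?_) v) v
      · rw [sbF_zero, hX, h0]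
      · change Ψ (inpF cf g 1) = φ (X 1)
        rw [hX, h1]
      · rw [sbF_succ, hΨ, h2]
    rw [← h3 i, ← hφ]
    rfl

end main

/-- **The tower and the evaluation.** -/
theorem exists_alg (hstep : Step K κ) (β : Fin R → Blk K κ) (hI : IntAll K β)
    (cf : Fin R → Fin 2 → Tix N R κ → K)
    (hcf : ∀ g ε p, cf g ε (Sum.inr p) ≠ 0 → p.1 < g) :
    ∃ (D : Type u) (_ : DivisionRing D) (_ : Algebra K D)
      (Ψ : MvPolynomial (Tix N R κ) K →ₐ[K] YR D N),
      (∀ a, Ψ (X (Sum.inl a)) = zv D N a) ∧
      (∀ v, ∃ E : Fin N → D, Ψ (X v) = M.lin E) ∧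
      ∀ g i, Ψ (aeval (sbF cf g) ((β g).rel i)) = 0 := by
  obtain ⟨D, i1, i2, -, V, -, hV, he⟩ := tower hstep R β K hI
  obtain ⟨Ψ, h⟩ := exists_eval hcf (fun g h hgh => hV g h hgh) he
  exact ⟨D, i1, i2, Ψ, h⟩

end eval

end Vale.Agent.P200.V
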