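import Vale.Agent.P200.V.TgtInd
import Vale.Agent.P200.W.Degen

/-!
Block F: from linear forms `ξ_i` over a division ring, commuting in the polynomial ring, with
`ξ_i ^ a_i = G_i + ∑_{j > i} L_ij ξ_j ^ a_i`, to the growth inequalities for all ideals which
contain the `G_i`.
-/

namespace Vale.Agent.P200.V

open MvPolynomial Module
open Vale.Agent.P200.B Vale.Agent.P200.G Vale.Agent.P200.L Vale.Agent.P200.M Vale.Agent.P200.W

section degen

variable {K : Type*} [Field K] {D : Type*} [DivisionRing D] [Algebra K D] {n : ℕ}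

/-- the lowest monomials of the elements `u` with `θ u ∈ D ⊗ I` -/
theorem tg_degenerate (a : Fin n → ℕ) (E : Fin n → Fin n → D) (hc : LinComm E)
    (hind : LinearIndependent D E) (I : Ideal (MvPolynomial (Fin n) K))
    (hpow : ∀ i, ∃ u : YR D n, theta E u ∈ VD D (piece I (a i)) ∧
      u.coeff (Finsupp.single i (a i)) ≠ 0 ∧
        ∀ m', cl m' (Finsupp.single i (a i)) → u.coeff m' = 0) :
    ∃ S : Set (Fin n →₀ ℕ), (∀ m ∈ S, ∀ i, m + Finsupp.single i 1 ∈ S) ∧
      (∀ i, Finsupp.single i (a i) ∈ S) ∧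
      ∀ d, finrank K (piece I d) = finrank K (piece (monIdeal K S) d) := by
  have hle : ∀ d, VD D (piece I d) ≤ YD D n d := by
    intro d
    rw [← VD_homogeneous (K := K)]
    exact M.VD_mono (G.piece_le I d)
  have hcle : ∀ d, (VD D (piece I d)).comap (theta E) ≤ YD D n d := fun d =>
    (tg_finrank_comap E hc hind _ (hle d)).1
  have hmul : ∀ d, ∀ v ∈ piece I d, ∀ k, v * X k ∈ piece I (d + 1) := by
    intro d v hv k
    refine ⟨I.mul_mem_right _ hv.1, ?_⟩
    exact ((mem_homogeneousSubmodule _ _).1 hv.2).mul (isHomogeneous_X K k)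
  obtain ⟨S, hS⟩ := w17_exists_set fun m =>
      m ∈ w17low ((VD D (piece I (∑ i, m i))).comap (theta E))
  have hup : ∀ m ∈ S, ∀ i, m + Finsupp.single i 1 ∈ S := by
    intro m hm i
    rw [hS] at hm ⊢
    have h2 : ∑ j, (m + Finsupp.single i 1 : Fin n →₀ ℕ) j = ∑ i, m i + 1 := by
      rw [m4_deg_add, m4_deg_single]
    rw [h2]
    refine w17_low_mul i (fun u hu => ?_) hm
    change theta E (u * zv D n i) ∈ VD D (piece I (∑ i, m i + 1))
    rw [tg_theta_mul_zv E hc]
    exact w17_VD_mul_lin (hmul _) _ hu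
  have hdegm : ∀ d, ∀ m ∈ inm (d + 1) ((VD D (piece I d)).comap (theta E)), ∑ i, m i = d :=
    fun d m hm => inm_subset (hcle d) hm
  have hdeg : ∀ d, {m | m ∈ S ∧ ∑ i, m i = d} =
      inm (d + 1) ((VD D (piece I d)).comap (theta E)) := by
    intro d
    rw [← w17_low_eq (Nat.lt_succ_self d) (hcle d)]
    ext m
    constructor
    · rintro ⟨h1, h2⟩
      rw [hS, h2] at h1
      exact h1
    · intro h1
      have h2 : ∑ i, m i = d := by
        rw [w17_low_eq (Nat.lt_succ_self d) (hcle d)] at h1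
        exact hdegm d m h1
      refine ⟨?_, h2⟩
      rw [hS, h2]
      exact h1
  have hfin : ∀ d, (inm (d + 1) ((VD D (piece I d)).comap (theta E))).Finite := fun d =>
    (deg_finite n d).subset fun m hm => hdegm d m hm
  have hdim : ∀ d, finrank K (piece I d) = finrank K (piece (monIdeal K S) d) := by
    intro d
    have h0 : Module.Finite K (homogeneousSubmodule (Fin n) K d) := v7_finite d
    have h1 : Module.Finite K (piece I d) := Submodule.finiteDimensional_of_le (G.piece_le I d)
    rw [piece_monIdeal hup, hdeg, G.finrank_restrictSupport _ (hfin d),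
      ncard_inm (Nat.lt_succ_self d) (hcle d), (tg_finrank_comap E hc hind _ (hle d)).2,
      M.finrank_VD]
  refine ⟨S, hup, fun i => ?_, hdim⟩
  have h1 : ∑ j, (Finsupp.single i (a i) : Fin n →₀ ℕ) j = a i := by
    classical
    simp only [Finsupp.single_apply]
    simp
  rw [hS, h1]
  obtain ⟨u, hu, hu1, hu2⟩ := hpow i
  exact ⟨u, hu, hu1, hu2⟩

end degen

section target

variable {K : Type*} [Field K] {D : Type*} [DivisionRing D] [Algebra K D] {n : ℕ}

/-- the data of the target: commuting forms with triangular relations -/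
structure TgData (K : Type*) [Field K] (D : Type*) [DivisionRing D] [Algebra K D] (n : ℕ)
    (a : Fin n → ℕ) where
  /-- the rows of coefficients of the forms -/
  E : Fin n → Fin n → D
  comm : LinComm E
  /-- the forms over the centre -/
  G : Fin n → MvPolynomial (Fin n) K
  hom : ∀ i, (G i).IsHomogeneous (a i)
  prim : IsMPrimary (Ideal.span (Set.range G))
  /-- the coefficients of the relations -/
  L : Fin n → Fin n → D
  rel : ∀ i, (M.lin (E i) ^ a i : YR D n) =
    bD D (G i) + ∑ j ∈ Finset.univ.filter (i < ·), L i j • (M.lin (E j) ^ a i : YR D n)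

variable {a : Fin n → ℕ}

theorem TgData.mem_comb (ρ : TgData K D n a) (ha : ∀ i, 1 ≤ a i) (i : Fin n) :
    (bD D (ρ.G i) : YR D n) ∈ tgComb ρ.E (a i - 1) := by
  classical
  have hp : ∀ j, (M.lin (ρ.E j) ^ a i : YR D n) ∈ tgComb ρ.E (a i - 1) := by
    intro j
    refine ⟨fun k => if k = j then M.lin (ρ.E j) ^ (a i - 1) else 0, fun k => ?_, ?_⟩
    · dsimp only
      split_ifs
      · have h := m4_pow_mem (lin_mem (ρ.E j)) (a i - 1)
        rwa [Nat.mul_one] at h
      · exact Submodule.zero_mem _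
    · rw [Finset.sum_eq_single j]
      · dsimp only
        rw [if_pos rfl, ← pow_succ, Nat.sub_add_cancel (ha i)]
      · intro k _ hk
        dsimp only
        rw [if_neg hk, zero_mul]
      · intro h
        exact absurd (Finset.mem_univ j) h
  rw [eq_sub_of_add_eq (ρ.rel i).symm]
  exact Submodule.sub_mem _ (hp i)
    (Submodule.sum_mem _ fun j _ => Submodule.smul_mem _ _ (hp j))

theorem TgData.ind (ρ : TgData K D n a) (ha : ∀ i, 1 ≤ a i) : LinearIndependent D ρ.E := by
  obtain ⟨N, hN⟩ := tg_gen a ha ρ.E ρ.G ρ.hom ρ.prim (ρ.mem_comb ha)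
  exact tg_ind ρ.E ρ.comm N hN

/-- the polynomial in the `z_i` with value `G_i` -/
noncomputable def TgData.init (ρ : TgData K D n a) (i : Fin n) : YR D n :=
  AddMonoidAlgebra.single (Finsupp.single i (a i)) 1 -
    ∑ j ∈ Finset.univ.filter (i < ·), AddMonoidAlgebra.single (Finsupp.single j (a i)) (ρ.L i j)

theorem TgData.theta_init (ρ : TgData K D n a) (i : Fin n) :
    theta ρ.E (ρ.init i) = bD D (ρ.G i) := by
  rw [TgData.init, map_sub, theta_single, one_smul, tg_xim_single ρ.E ρ.comm, map_sum, ρ.rel i,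
    sub_eq_iff_eq_add]
  congr 1
  refine Finset.sum_congr rfl fun j _ => ?_
  rw [theta_single, tg_xim_single ρ.E ρ.comm]

theorem TgData.init_coeff (ρ : TgData K D n a) (i : Fin n) (m : Fin n →₀ ℕ)
    (hm : ∀ j, i < j → Finsupp.single j (a i) ≠ m) :
    (ρ.init i).coeff m = if Finsupp.single i (a i) = m then 1 else 0 := by
  classical
  rw [TgData.init, AddMonoidAlgebra.coeff_sub, Finsupp.sub_apply, AddMonoidAlgebra.coeff_single,
    Finsupp.single_apply, AddMonoidAlgebra.coeff_sum, Finsupp.finsetSum_apply,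
    Finset.sum_eq_zero, sub_zero]
  intro j hj
  rw [AddMonoidAlgebra.coeff_single, Finsupp.single_apply,
    if_neg (hm j (Finset.mem_filter.1 hj).2)]

/-- a monomial ideal with the pure powers and the Hilbert function of `I` -/
theorem TgData.monomial (ρ : TgData K D n a) (ha : ∀ i, 1 ≤ a i)
    (I : Ideal (MvPolynomial (Fin n) K)) (hI : ∀ i, ρ.G i ∈ I) :
    ∃ S : Set (Fin n →₀ ℕ), (∀ m ∈ S, ∀ i, m + Finsupp.single i 1 ∈ S) ∧
      (∀ i, Finsupp.single i (a i) ∈ S) ∧
      ∀ d, finrank K (piece I d) = finrank K (piece (monIdeal K S) d) := by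
  classical
  refine tg_degenerate a ρ.E ρ.comm (ρ.ind ha) I fun i => ⟨ρ.init i, ?_, ?_, fun m' hm' => ?_⟩
  · rw [ρ.theta_init]
    exact Submodule.subset_span ⟨ρ.G i, ⟨hI i, ρ.hom i⟩, rfl⟩
  · rw [ρ.init_coeff, if_pos rfl]
    · exact one_ne_zero
    · intro j hj h
      have h1 := DFunLike.congr_fun h j
      rw [Finsupp.single_eq_same, Finsupp.single_eq_of_ne (ne_of_gt hj)] at h1
      exact absurd h1 (by have := ha i; omega)
  · obtain ⟨k, hk1, hk2⟩ := hm'
    have hki : k = i := by
      by_contra hne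
      rw [Finsupp.single_eq_of_ne hne] at hk1
      omega
    subst hki
    rw [ρ.init_coeff, if_neg]
    · rintro rfl
      exact lt_irrefl _ hk1
    · rintro j hj rfl
      have h1 := hk2 j hj
      rw [Finsupp.single_eq_same, Finsupp.single_eq_of_ne (ne_of_gt hj)] at h1
      exact absurd h1 (by have := ha k; omega)

/-- **Target of block F** -/
theorem TgData.egh (ρ : TgData K D n a) (hmono : Monotone a) (ha : ∀ i, 1 ≤ a i)
    (I : Ideal (MvPolynomial (Fin n) K)) (hI : ∀ i, ρ.G i ∈ I) : EGH a I := by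
  obtain ⟨S, hup, hpw, hdim⟩ := ρ.monomial ha I hI
  exact w17_egh a hmono I hup hpw hdim

/-- the same for ideals over a subfield -/
theorem TgData.egh_ext {k : Type*} [Field k] [Algebra k K] (ρ : TgData K D n a)
    (hmono : Monotone a) (ha : ∀ i, 1 ≤ a i)
    (f : Fin n → MvPolynomial (Fin n) k)
    (hG : ∀ i, ρ.G i ∈ Ideal.span (Set.range fun j => MvPolynomial.map (algebraMap k K) (f j)))
    (I : Ideal (MvPolynomial (Fin n) k)) (hI : HomIdeal I) (hf : ∀ i, f i ∈ I) : EGH a I := by
  have h1 : ∀ i, ρ.G i ∈ I.map (MvPolynomial.map (σ := Fin n) (algebraMap k K)) := by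
    intro i
    refine (Ideal.span_le.2 ?_) (hG i)
    rintro _ ⟨j, rfl⟩
    exact Ideal.mem_map_of_mem _ (hf j)
  have h2 := ρ.egh hmono ha _ h1
  intro d
  have h3 := h2 d
  rw [hilb_baseChange I hI, hilb_baseChange I hI] at h3
  exact h3

end target

end Vale.Agent.P200.V
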