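import Vale.Agent.P200.V.Goal
import Vale.Agent.P200.V.Target

/-! Block F: monomial ideals from commuting linear forms over a division algebra. -/

namespace Vale.Agent.P200.V

open MvPolynomial Module
open Vale.Agent.P200.B Vale.Agent.P200.G Vale.Agent.P200.L Vale.Agent.P200.M

theorem tg_bD_C_mul {K D : Type*} [Field K] [DivisionRing D] [Algebra K D] {n : ℕ} (c : K)
    (u : YR D n) : bD D (C c : MvPolynomial (Fin n) K) * u = algebraMap K D c • u := by
  have h1 : (bD D (C c : MvPolynomial (Fin n) K) : YR D n) =
      AddMonoidAlgebra.single 0 (algebraMap K D c) := bD_monomial 0 c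
  rw [h1]
  ext m
  rw [AddMonoidAlgebra.coeff_single_zero_mul, AddMonoidAlgebra.coeff_smul_apply, smul_eq_mul]

universe u

/-- the data of the target from the interface -/
noncomputable def TgData.ofRoots {K D : Type u} [Field K] [DivisionRing D] [Algebra K D] {n : ℕ}
    {a : Fin n → ℕ} {E : Fin n → Fin n → D} {Lc : Fin n → Fin n → K}
    {G : Fin n → MvPolynomial (Fin n) K} (h : Roots K D a E Lc G) : TgData K D n a where
  E := E
  comm := h.comm
  G := G
  hom := h.hom
  prim := h.prim
  L := fun i j => algebraMap K D (Lc i j)
  rel := by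
    intro i
    rw [h.pow i]
    congr 1
    refine Finset.sum_congr ?_ fun j _ => tg_bD_C_mul _ _
    ext j
    simp

/-- **(F)** -/
theorem fProp (K D : Type u) [Field K] [DivisionRing D] [Algebra K D] : FProp K D := by
  intro n a ha E Lc G h I _ hG
  exact (TgData.ofRoots h).monomial ha I hG

end Vale.Agent.P200.V
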