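import Vale.Agent.P200.V.TrZ

/-!
`Step K κ` from the localization of one block.
-/

namespace Vale.Agent.P200.V

open Module

universe u

/-- **Localization of one block** (target of (B)). -/
def LocB (K : Type u) [Field K] (κ : ℕ) : Prop :=
  ∀ (D : Type u) [DivisionRing D] [Algebra K D] (β0 : Blk K κ), IntP D (fun _ : Fin 1 => β0) →
    ∃ (D' : Type u) (_ : DivisionRing D') (_ : Algebra K D') (ι : D →ₐ[K] D')
      (V : Fin κ → Fin 2 → D'),
      (∀ i ε d, V i ε * ι d = ι d * V i ε) ∧ IsEv β0 V ∧ RKL D β0 D'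

theorem intAll_transfer {K : Type u} [Field K] {D : Type u} [DivisionRing D] [Algebra K D]
    {κ R : ℕ} (β : Fin (R + 1) → Blk K κ) {U : Type u} [DivisionRing U] [Algebra K U]
    (hU : RKL D (β 0) U) (hI : IntAll D β) : IntAll U fun g : Fin R => β g.succ := by
  intro R' σ hσ
  have h1 : IntP D (fun _ : Fin 1 => β 0) := hI 1 (fun _ => 0) fun a b _ => Subsingleton.elim a b
  have h2 : IntP D (Fin.cons (β 0) ((fun g : Fin R => β g.succ) ∘ σ) : Fin (R' + 1) → Blk K κ) := by
    have h3 : (Fin.cons (β 0) ((fun g : Fin R => β g.succ) ∘ σ) : Fin (R' + 1) → Blk K κ) =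
        β ∘ (Fin.cons 0 (fun g => (σ g).succ) : Fin (R' + 1) → Fin (R + 1)) := by
      funext g
      refine Fin.cases ?_ (fun g => ?_) g
      · rfl
      · rfl
    rw [h3]
    refine hI _ _ ?_
    intro a b
    refine Fin.cases ?_ (fun a => ?_) a <;> refine Fin.cases ?_ (fun b => ?_) b
    · intro _
      rfl
    · intro h
      rw [Fin.cons_zero, Fin.cons_succ] at h
      exact absurd h.symm (Fin.succ_ne_zero _)
    · intro h
      rw [Fin.cons_zero, Fin.cons_succ] at h
      exact absurd h (Fin.succ_ne_zero _)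
    · intro h
      rw [Fin.cons_succ, Fin.cons_succ] at h
      rw [hσ (Fin.succ_injective _ h)]
  exact intP_transfer (β 0) _ hU h2 h1

theorem step_of_locB {K : Type u} [Field K] {κ : ℕ} (h : LocB K κ) : Step K κ := by
  intro D _ _ R β hI
  have h1 : IntP D (fun _ : Fin 1 => β 0) := hI 1 (fun _ => 0) fun a b _ => Subsingleton.elim a b
  obtain ⟨D', i1, i2, ι, V, hV, hev, hR⟩ := h D (β 0) h1
  exact ⟨D', i1, i2, ι, V, hV, hev, intAll_transfer β hR hI⟩

end Vale.Agent.P200.V
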