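import Vale.Agent.P200.V.EvB
import Vale.Agent.P200.V.TrS

/-!
# Localization of one block
-/

open CategoryTheory CategoryTheory.Limits

universe u

namespace Vale.Agent.P200.V.SB

open Module Vale.Agent.P200.E

variable {K : Type u} [Field K] {D : Type u} [DivisionRing D] [Algebra K D] {κ : ℕ} {β : Blk K κ}

/-- the localization functor -/
noncomputable abbrev LQ (h : RkAx D β) :
    Ob (sysB D β) ⥤ (rkD h).toRankFn.S.Localization := (rkD h).toRankFn.S.Q

/-- the skew field -/
def UB (h : RkAx D β) : Type u := (End ((LQ h).obj (free1 D β).O))ᵐᵒᵖ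

/-- its ring structure -/
@[instance_reducible]
noncomputable def ringUB (h : RkAx D β) : Ring (UB h) :=
  inferInstanceAs (Ring (End ((LQ h).obj (free1 D β).O))ᵐᵒᵖ)

/-- its division ring structure -/
@[instance_reducible]
noncomputable def divUB (h : RkAx D β) : DivisionRing (UB h) :=
  letI := (rkD h).toRankFn.endDivisionRing (LQ h) (rk_O h)
  inferInstanceAs (DivisionRing (End ((LQ h).obj (free1 D β).O))ᵐᵒᵖ)

/-- the identity of `UB` -/
noncomputable def thUB (h : RkAx D β) :
    letI := divUB h
    UB h ≃+* (End ((LQ h).obj (free1 D β).O))ᵐᵒᵖ :=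
  letI := divUB h
  { toFun := fun u => u
    invFun := fun u => u
    left_inv := fun _ => rfl
    right_inv := fun _ => rfl
    map_mul' := fun _ _ => rfl
    map_add' := fun _ _ => rfl }

/-- its algebra structure -/
@[instance_reducible]
noncomputable def algUB (h : RkAx D β) :
    letI := divUB h
    Algebra K (UB h) :=
  letI := divUB h
  algU h (LQ h) (thUB h)

end Vale.Agent.P200.V.SB

namespace Vale.Agent.P200.V

open Module Vale.Agent.P200.E SB

/-- **Localization of one block** from the rank properties and the rank formula -/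
theorem locB_of (K : Type u) [Field K] (κ : ℕ)
    (hA : ∀ (D : Type u) [DivisionRing D] [Algebra K D] (β0 : Blk K κ),
      IntP D (fun _ : Fin 1 => β0) → RkAx D β0)
    (hR : ∀ (D : Type u) [DivisionRing D] [Algebra K D] (β0 : Blk K κ) (h : RkAx D β0),
      @RKL K _ D _ _ κ β0 (UB h) (divUB h) (algUB h)) : LocB K κ := by
  intro D _ _ β0 hI
  have h := hA D β0 hI
  letI := divUB h
  letI := algUB h
  obtain ⟨ι, V, -, hV, hev⟩ := exists_ev h (LQ h) (thUB h)
  exact ⟨UB h, divUB h, algUB h, ι, V, hV, hev, hR D β0 h⟩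

end Vale.Agent.P200.V
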