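import Vale.Agent.P200.V.RigPt

/-!
Rigid circuits: the recursion over the forms of a complete intersection.
-/

namespace Vale.Agent.P200.V.Rig

open MvPolynomial

universe u

/-- the polynomials in `x_0, …, x_(n-1)` as elements of the ring of the circuits -/
noncomputable def xr (K : Type u) [Field K] (n : ℕ) : MvPolynomial (Fin n) K →ₐ[K] MvPolynomial Gen K :=
  rename fun i : Fin n => Sum.inl (i : ℕ)

namespace Mn

theorem map_xr {K K' : Type u} [Field K] [Field K'] (φ : K →+* K') (n : ℕ)
    (P : MvPolynomial (Fin n) K) :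
    MvPolynomial.map φ (xr K n P) = xr K' n (MvPolynomial.map φ P) := by
  rw [xr, xr, map_rename]

theorem xr_C_mul {K : Type u} [Field K] (n : ℕ) (z : K) (P : MvPolynomial (Fin n) K) :
    xr K n (MvPolynomial.C z * P) = MvPolynomial.C z * xr K n P := by
  rw [map_mul, xr, rename_C]

theorem aeval_xr {K : Type u} [Field K] {Ω : Type u} [Field Ω] [Algebra K Ω] (n : ℕ)
    (q : Gen → Ω) (P : MvPolynomial (Fin n) K) :
    aeval q (xr K n P) = aeval (fun i : Fin n => q (Sum.inl (i : ℕ))) P := by
  rw [xr, aeval_rename]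
  rfl

/-- the state of the recursion: the forms `G_i`, `i ≥ m`, have roots -/
structure St {k : Type u} [Field k] {n : ℕ} (d : Fin n → ℕ) (f : Fin n → MvPolynomial (Fin n) k)
    (m : ℕ) {K : Type u} [Field K] (φ : k →+* K) {κ : ℕ} (C : Circ K n κ)
    (ξ : Fin n → (Gen →₀ K)) (G : Fin n → MvPolynomial (Fin n) K) (L : Fin n → Fin n → K) :
    Prop where
  hom : ∀ j, (G j).IsHomogeneous (d j)
  span : Ideal.span (Set.range G) = Ideal.span (Set.range fun i => MvPolynomial.map φ (f i))
  s : ∀ j, C.S (ξ j)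
  rel : ∀ i : Fin n, m ≤ (i : ℕ) → lin K (ξ i) ^ d i - xr K n (G i) -
    ∑ j ∈ Finset.univ.filter (fun j => i < j), MvPolynomial.C (L i j) * lin K (ξ j) ^ d i ∈ C.I

/-- the family of the stage `i` -/
noncomputable def fam {K : Type u} [Field K] {n : ℕ} (d : Fin n → ℕ) (ξ : Fin n → (Gen →₀ K))
    (G : Fin n → MvPolynomial (Fin n) K) (i : Fin n) (p : Fin n × Fin n) : MvPolynomial Gen K :=
  if p.1 ≤ i then xr K n (X p.2 ^ (d i - d p.1) * G p.1) else lin K (ξ p.1) ^ d i

theorem isHomogeneous_lin {K : Type u} [Field K] (t : Gen →₀ K) : (lin K t).IsHomogeneous 1 := by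
  rw [lin, Finsupp.linearCombination_apply, Finsupp.sum]
  refine IsHomogeneous.sum _ _ _ fun v _ => ?_
  rw [smul_eq_C_mul]
  have h := (isHomogeneous_C Gen (t v)).mul (isHomogeneous_X K v)
  rwa [zero_add] at h

theorem vars_lin {K : Type u} [Field K] {n κ N : ℕ} {t : Gen →₀ K} (ht : Sup n κ N t) :
    ∀ v ∈ (lin K t).vars, Used n κ N v := by
  classical
  intro v hv
  rw [lin, Finsupp.linearCombination_apply, Finsupp.sum] at hv
  obtain ⟨w, hw, hvw⟩ := Finset.mem_biUnion.1 (vars_sum_subset _ _ hv)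
  rw [smul_eq_C_mul] at hvw
  rw [vars_C_mul _ (Finsupp.mem_support_iff.1 hw), vars_X, Finset.mem_singleton] at hvw
  rw [hvw]
  exact ht w hw

theorem vars_xr {K : Type u} [Field K] {n κ N : ℕ} (P : MvPolynomial (Fin n) K) :
    ∀ v ∈ (xr K n P).vars, Used n κ N v := by
  classical
  intro v hv
  rw [xr] at hv
  obtain ⟨j, -, rfl⟩ := Finset.mem_image.1 (vars_rename _ _ hv)
  exact j.2

theorem hm_fam {K : Type u} [Field K] {n κ : ℕ} (C : Circ K n κ) {d : Fin n → ℕ}
    (hmono : Monotone d) {ξ : Fin n → (Gen →₀ K)} {G : Fin n → MvPolynomial (Fin n) K}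
    (hG : ∀ j, (G j).IsHomogeneous (d j)) (hξ : ∀ j, C.S (ξ j)) (i : Fin n) (p : Fin n × Fin n) :
    C.Hm (d i) (fam d ξ G i p) := by
  classical
  unfold fam
  split_ifs with h
  · refine ⟨?_, vars_xr _⟩
    have h1 := ((isHomogeneous_X_pow (R := K) p.2 (d i - d p.1)).mul (hG p.1))
    rw [Nat.sub_add_cancel (hmono h)] at h1
    exact h1.rename_isHomogeneous
  · constructor
    · have h1 := (isHomogeneous_lin (ξ p.1)).pow (d i)
      rwa [one_mul] at h1
    · intro v hv
      exact vars_lin (hξ p.1) v (vars_pow _ _ hv)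

theorem noZ_fam {k : Type u} [Field k] {n : ℕ} {d : Fin n → ℕ} (hd : ∀ i, 0 < d i)
    {f : Fin n → MvPolynomial (Fin n) k}
    (hfin : ∃ m, ∀ P : MvPolynomial (Fin n) k, P.IsHomogeneous m → P ∈ Ideal.span (Set.range f))
    {K : Type u} [Field K] {φ : k →+* K} {κ : ℕ} {C : Circ K n κ}
    {ξ : Fin n → (Gen →₀ K)} {G : Fin n → MvPolynomial (Fin n) K} {L : Fin n → Fin n → K}
    (i : Fin n) (h : St d f (i + 1) φ C ξ G L) {Ω : Type u} [Field Ω] [Algebra K Ω]
    (q : Gen → Ω) (hq : C.Pt q) (hP : ∀ p, aeval q (fam d ξ G i p) = 0) :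
    ∀ t < n, q (Sum.inl t) = 0 := by
  intro t ht
  by_contra hne
  set lam : Fin n → Ω := fun j => q (Sum.inl (j : ℕ)) with hlam
  have hξ : ∀ j, i < j → aeval q (lin K (ξ j)) = 0 := by
    intro j hj
    have h1 := hP (j, j)
    unfold fam at h1
    rw [if_neg (not_le.2 hj), map_pow] at h1
    exact pow_eq_zero_iff (hd i).ne' |>.1 h1
  have hG : ∀ j, aeval lam (G j) = 0 := by
    intro j
    rcases le_or_gt j i with hj | hj
    · have h1 := hP (j, ⟨t, ht⟩)
      unfold fam at h1
      rw [if_pos hj, aeval_xr, map_mul, map_pow, aeval_X] at h1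
      rcases mul_eq_zero.1 h1 with h2 | h2
      · exact absurd (pow_eq_zero_iff (fun h3 => by
          rw [h3, pow_zero] at h2
          exact one_ne_zero h2) |>.1 h2) hne
      · exact h2
    · have h1 := hq _ (h.rel j hj)
      rw [map_sub, map_sub, map_pow, hξ j hj, zero_pow (hd j).ne', map_sum] at h1
      rw [Finset.sum_eq_zero, sub_zero, zero_sub, neg_eq_zero, aeval_xr] at h1
      · exact h1
      · intro l hl
        rw [map_mul, map_pow, hξ l (hj.trans (Finset.mem_filter.1 hl).2), zero_pow (hd j).ne',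
          mul_zero]
  have hI : ∀ P ∈ Ideal.span (Set.range G), aeval lam P = 0 := by
    intro P hP
    have h1 : Ideal.span (Set.range G) ≤ RingHom.ker (aeval lam : MvPolynomial (Fin n) K →ₐ[K] Ω) := by
      rw [Ideal.span_le]
      rintro _ ⟨j, rfl⟩
      exact hG j
    exact h1 hP
  obtain ⟨m, hm⟩ := hfin
  have h1 := hm (X ⟨t, ht⟩ ^ m) (isHomogeneous_X_pow _ _)
  have h2 : (X ⟨t, ht⟩ ^ m : MvPolynomial (Fin n) K) ∈ Ideal.span (Set.range G) := by
    rw [h.span]
    have h3 := Ideal.mem_map_of_mem (MvPolynomial.map φ) h1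
    rw [Ideal.map_span, map_pow, map_X] at h3
    rwa [← Set.range_comp] at h3
  have h3 := hI _ h2
  rw [map_pow, aeval_X] at h3
  rcases Nat.eq_zero_or_pos m with h4 | h4
  · rw [h4, pow_zero] at h3
    exact one_ne_zero h3
  · exact hne ((pow_eq_zero_iff h4.ne').1 h3)

/-- replacing one generator -/
theorem span_update {A : Type*} [CommRing A] {n : ℕ} (G : Fin n → A) (i : Fin n) (c : Fin n → A)
    (hc : IsUnit (c i)) :
    Ideal.span (Set.range (Function.update G i (∑ j, c j * G j))) = Ideal.span (Set.range G) := by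
  apply le_antisymm
  · rw [Ideal.span_le]
    rintro _ ⟨j, rfl⟩
    by_cases hj : j = i
    · subst hj
      rw [Function.update_self]
      exact Ideal.sum_mem _ fun l _ => Ideal.mul_mem_left _ _ (Ideal.subset_span ⟨l, rfl⟩)
    · rw [Function.update_of_ne hj]
      exact Ideal.subset_span ⟨j, rfl⟩
  · have hj : ∀ j, j ≠ i → G j ∈ Ideal.span (Set.range (Function.update G i (∑ j, c j * G j))) := by
      intro j hj
      exact Ideal.subset_span ⟨j, Function.update_of_ne hj _ _⟩
    rw [Ideal.span_le]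
    rintro _ ⟨j, rfl⟩
    by_cases hji : j = i
    · subst hji
      have h0 : (∑ l, c l * G l) ∈ Ideal.span (Set.range (Function.update G j (∑ j, c j * G j))) :=
        Ideal.subset_span ⟨j, Function.update_self _ _ _⟩
      have h1 : c j * G j + (∑ l ∈ Finset.univ.erase j, c l * G l) ∈
          Ideal.span (Set.range (Function.update G j (∑ j, c j * G j))) := by
        rwa [Finset.add_sum_erase _ (fun l => c l * G l) (Finset.mem_univ j)]
      have h2 : (∑ l ∈ Finset.univ.erase j, c l * G l) ∈
          Ideal.span (Set.range (Function.update G j (∑ j, c j * G j))) :=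
        Ideal.sum_mem _ fun l hl => Ideal.mul_mem_left _ _ (hj l (Finset.ne_of_mem_erase hl))
      have h3 := (Ideal.add_mem_iff_left _ h2).1 h1
      exact (Ideal.unit_mul_mem_iff_mem _ hc).1 h3
    · exact hj j hji

theorem s_mapL {K : Type u} [Field K] {n κ : ℕ} {C : Circ K n κ} {K' : Type u} [Field K']
    {κ' : ℕ} {φ : K →+* K'} {C' : Circ K' n κ'} (h : C.Ext φ C') {t : Gen →₀ K} (ht : C.S t) :
    C'.S (mapL φ t) := by
  intro v hv
  have h1 := ht v (Finsupp.support_mapRange hv)
  rcases v with v | p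
  · exact h1
  · exact ⟨lt_of_lt_of_le h1.1 h.le, lt_of_lt_of_le h1.2 h.leκ⟩

/-- the coefficients of the new form -/
noncomputable def cof {K : Type u} [Field K] {n : ℕ} (d : Fin n → ℕ) (i : Fin n)
    (Y : Fin n × Fin n → K) (j : Fin n) : MvPolynomial (Fin n) K :=
  if j ≤ i then ∑ t, C (Y (j, t)) * X t ^ (d i - d j) else 0

/-- one step of the recursion -/
theorem st_step (hS : StageAll.{u}) {k : Type u} [Field k] {n : ℕ}
    {d : Fin n → ℕ} (hd : ∀ i, 0 < d i) (hmono : Monotone d) {f : Fin n → MvPolynomial (Fin n) k}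
    (hfin : ∃ m, ∀ P : MvPolynomial (Fin n) k, P.IsHomogeneous m → P ∈ Ideal.span (Set.range f))
    {K : Type u} [Field K] [Infinite K] {φ : k →+* K} {κ : ℕ} {C : Circ K n κ}
    {ξ : Fin n → (Gen →₀ K)} {G : Fin n → MvPolynomial (Fin n) K} {L : Fin n → Fin n → K}
    (i : Fin n) (h : St d f (i + 1) φ C ξ G L) :
    ∃ (K' : Type u) (_ : Field K') (φ' : K →+* K') (κ' : ℕ) (C' : Circ K' n κ')
      (ξ' : Fin n → (Gen →₀ K')) (G' : Fin n → MvPolynomial (Fin n) K') (L' : Fin n → Fin n → K'),
      St d f i (φ'.comp φ) C' ξ' G' L' := by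
  have hn : 0 < n := i.pos
  obtain ⟨K', _, φ', κ', C', ξ', Y, hext, hs, hY, hrel⟩ := hS (d i) (hd i) K n κ hn C (n * n)
    (fun l => fam d ξ G i (finProdFinEquiv.symm l))
    (fun l => hm_fam C hmono h.hom h.s i _) (by
      intro Ω _ _ _ q hq hP
      refine noZ_fam hd hfin i h q hq fun p => ?_
      have h1 := hP (finProdFinEquiv p)
      simp only [Equiv.symm_apply_apply] at h1
      exact h1)
  set Z : Fin n × Fin n → K' := fun p => Y (finProdFinEquiv p) with hZ
  have hrel' : lin K' ξ' ^ d i - ∑ p, MvPolynomial.C (Z p) *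
      MvPolynomial.map φ' (fam d ξ G i p) ∈ C'.I := by
    rw [← Equiv.sum_comp finProdFinEquiv] at hrel
    simp only [Equiv.symm_apply_apply] at hrel
    exact hrel
  have hZ0 : ∑ t, Z (i, t) ≠ 0 := by
    intro h0
    have h1 := hY (fun l => if (finProdFinEquiv.symm l).1 = i then 1 else 0) (by
      rw [← Equiv.sum_comp finProdFinEquiv]
      simp only [Equiv.symm_apply_apply]
      rw [Fintype.sum_prod_type, Finset.sum_eq_single i]
      · rw [← h0]
        refine Finset.sum_congr rfl fun t _ => ?_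
        rw [if_pos rfl, map_one, one_mul]
      · intro j _ hj
        refine Finset.sum_eq_zero fun t _ => ?_
        rw [if_neg hj, map_zero, zero_mul]
      · intro hi
        exact absurd (Finset.mem_univ i) hi)
    have h2 := congrFun h1 (finProdFinEquiv (i, i))
    simp only [Equiv.symm_apply_apply, if_true, Pi.zero_apply] at h2
    exact one_ne_zero h2
  have hcof : cof d i Z i = MvPolynomial.C (∑ t, Z (i, t)) := by
    unfold cof
    rw [if_pos le_rfl, map_sum]
    refine Finset.sum_congr rfl fun t _ => ?_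
    rw [Nat.sub_self, pow_zero, mul_one]
  set G1 : Fin n → MvPolynomial (Fin n) K' := fun j => MvPolynomial.map φ' (G j) with hG1
  have hspan1 : Ideal.span (Set.range G1) =
      Ideal.span (Set.range fun i => MvPolynomial.map (φ'.comp φ) (f i)) := by
    have h1 := congrArg (Ideal.map (MvPolynomial.map (σ := Fin n) φ')) h.span
    rw [Ideal.map_span, Ideal.map_span, ← Set.range_comp, ← Set.range_comp] at h1
    have h2 : (fun i => MvPolynomial.map (φ'.comp φ) (f i)) =
        ⇑(MvPolynomial.map (σ := Fin n) φ') ∘ fun i => MvPolynomial.map φ (f i) := by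
      funext j
      rw [Function.comp_apply, map_map]
    rw [h2]
    exact h1
  refine ⟨K', inferInstance, φ', κ', C', Function.update (fun j => mapL φ' (ξ j)) i ξ',
    Function.update G1 i (∑ j, cof d i Z j * G1 j),
    Function.update (fun i j => φ' (L i j)) i (fun j => ∑ t, Z (j, t)), ?_, ?_, ?_, ?_⟩
  · intro j
    by_cases hj : j = i
    · subst hj
      rw [Function.update_self]
      refine IsHomogeneous.sum _ _ _ fun l _ => ?_
      unfold cof
      split_ifs with hl
      · rw [Finset.sum_mul]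
        refine IsHomogeneous.sum _ _ _ fun t _ => ?_
        have h1 := ((isHomogeneous_C (Fin n) (Z (l, t))).mul
          (isHomogeneous_X_pow (R := K') t (d j - d l))).mul ((h.hom l).map φ')
        rwa [zero_add, Nat.sub_add_cancel (hmono hl)] at h1
      · rw [zero_mul]
        exact isHomogeneous_zero _ _ _
    · rw [Function.update_of_ne hj]
      exact (h.hom j).map φ'
  · rw [span_update, hspan1]
    rw [hcof]
    exact (isUnit_iff_ne_zero.2 hZ0).map MvPolynomial.C
  · intro j
    by_cases hj : j = i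
    · subst hj
      rw [Function.update_self]
      exact hs
    · rw [Function.update_of_ne hj]
      exact s_mapL hext (h.s j)
  · intro j hj
    have hsum : ∀ c : Fin n → K', ∑ l ∈ Finset.univ.filter (fun l => j < l), MvPolynomial.C (c l) *
        lin K' (Function.update (fun j => mapL φ' (ξ j)) i ξ' l) ^ d j =
        ∑ l ∈ Finset.univ.filter (fun l => j < l), MvPolynomial.C (c l) *
          MvPolynomial.map φ' (lin K (ξ l)) ^ d j := by
      intro c
      refine Finset.sum_congr rfl fun l hl => ?_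
      have h1 : l ≠ i := by
        have h2 := (Finset.mem_filter.1 hl).2
        intro h3
        rw [h3] at h2
        exact absurd h2 (not_lt.2 hj)
      rw [Function.update_of_ne h1, lin_mapL]
    rw [hsum]
    by_cases hji : j = i
    · subst hji
      rw [Function.update_self, Function.update_self, Function.update_self]
      have h1 : ∑ p, MvPolynomial.C (Z p) * MvPolynomial.map φ' (fam d ξ G j p) =
          xr K' n (∑ l, cof d j Z l * G1 l) +
          ∑ l ∈ Finset.univ.filter (fun l => j < l), MvPolynomial.C (∑ t, Z (l, t)) *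
            MvPolynomial.map φ' (lin K (ξ l)) ^ d j := by
        rw [Fintype.sum_prod_type, Finset.sum_filter, map_sum, ← Finset.sum_add_distrib]
        refine Finset.sum_congr rfl fun l _ => ?_
        rcases le_or_gt l j with hl | hl
        · rw [if_neg (not_lt.2 hl), add_zero]
          unfold cof
          rw [if_pos hl, Finset.sum_mul, map_sum]
          refine Finset.sum_congr rfl fun t _ => ?_
          unfold fam
          rw [if_pos hl, map_xr, map_mul, map_pow, map_X, mul_assoc, xr_C_mul]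
        · rw [if_pos hl]
          unfold cof
          rw [if_neg (not_le.2 hl), zero_mul, map_zero, zero_add, map_sum, Finset.sum_mul]
          refine Finset.sum_congr rfl fun t _ => ?_
          unfold fam
          rw [if_neg (not_le.2 hl), map_pow]
      rw [h1, ← sub_sub] at hrel'
      exact hrel'
    · rw [Function.update_of_ne hji, Function.update_of_ne hji, Function.update_of_ne hji,
        lin_mapL]
      have hij : i < j := lt_of_le_of_ne hj (fun h1 => hji h1.symm)
      have h1 := hext.I _ (h.rel j hij)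
      rw [map_sub, map_sub, map_pow, map_xr, map_sum] at h1
      simp only [map_mul, map_pow, map_C] at h1
      exact h1

/-- the recursion -/
theorem st_exists (hS : StageAll.{u}) {k : Type u} [Field k] [Infinite k] {n : ℕ}
    (C0 : Circ k n 0) {d : Fin n → ℕ} (hd : ∀ i, 0 < d i) (hmono : Monotone d)
    {f : Fin n → MvPolynomial (Fin n) k} (hf : ∀ i, (f i).IsHomogeneous (d i))
    (hfin : ∃ m, ∀ P : MvPolynomial (Fin n) k, P.IsHomogeneous m → P ∈ Ideal.span (Set.range f))
    (m : ℕ) (hm : m ≤ n) :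
    ∃ (K : Type u) (_ : Field K) (φ : k →+* K) (κ : ℕ) (C : Circ K n κ)
      (ξ : Fin n → (Gen →₀ K)) (G : Fin n → MvPolynomial (Fin n) K) (L : Fin n → Fin n → K),
      St d f (n - m) φ C ξ G L := by
  induction m with
  | zero =>
    refine ⟨k, inferInstance, RingHom.id k, 0, C0, fun _ => 0, f, fun _ _ => 0, hf, ?_, ?_, ?_⟩
    · simp only [MvPolynomial.map_id]
    · intro j v hv
      rw [Finsupp.support_zero] at hv
      exact absurd hv (Finset.notMem_empty v)
    · intro i hi
      have := i.2
      omega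
  | succ m ih =>
    obtain ⟨K, _, φ, κ, C, ξ, G, L, h⟩ := ih (by omega)
    have hinf : Infinite K := Infinite.of_injective φ φ.injective
    have h1 : n - (m + 1) < n := by omega
    have h2 : n - m = ((⟨n - (m + 1), h1⟩ : Fin n) : ℕ) + 1 := by
      change n - m = n - (m + 1) + 1
      omega
    rw [h2] at h
    obtain ⟨K', _, φ', κ', C', ξ', G', L', h'⟩ := st_step hS hd hmono hfin _ h
    exact ⟨K', inferInstance, φ'.comp φ, κ', C', ξ', G', L', h'⟩

end Mn

/-- **The circuit of a complete intersection.** -/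
theorem exists_circ (hS : StageAll.{u}) {k : Type u} [Field k] [Infinite k] {n : ℕ} (_ : 0 < n)
    (C0 : Circ k n 0)
    (f : Fin n → MvPolynomial (Fin n) k) (d : Fin n → ℕ) (hd : ∀ i, 0 < d i) (hmono : Monotone d)
    (hf : ∀ i, (f i).IsHomogeneous (d i))
    (hfin : ∃ m, ∀ P : MvPolynomial (Fin n) k, P.IsHomogeneous m → P ∈ Ideal.span (Set.range f)) :
    ∃ (K : Type u) (_ : Field K) (φ : k →+* K) (κ : ℕ) (C : Circ K n κ) (ξ : Fin n → (Gen →₀ K))
      (G : Fin n → MvPolynomial (Fin n) K) (L : Fin n → Fin n → K),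
      (∀ i, C.S (ξ i)) ∧ (∀ i, (G i).IsHomogeneous (d i)) ∧
      (∀ i, G i ∈ Ideal.span (Set.range fun i => MvPolynomial.map φ (f i))) ∧
      Ideal.span (Set.range G) = Ideal.span (Set.range fun i => MvPolynomial.map φ (f i)) ∧
      ∀ i, lin K (ξ i) ^ d i - xr K n (G i) -
        ∑ j ∈ Finset.univ.filter (fun j => i < j), MvPolynomial.C (L i j) * lin K (ξ j) ^ d i ∈
          C.I := by
  obtain ⟨K, _, φ, κ, C, ξ, G, L, h⟩ := Mn.st_exists hS C0 hd hmono hf hfin n le_rfl
  refine ⟨K, inferInstance, φ, κ, C, ξ, G, L, h.s, h.hom, fun i => ?_, h.span, fun i => ?_⟩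
  · rw [← h.span]
    exact Ideal.subset_span ⟨i, rfl⟩
  · exact h.rel i (by omega)

/-- the empty circuit -/
theorem exists_circ0 {k : Type u} [Field k] (n : ℕ)
    (h0 : ∀ R, IntAll k fun _ : Fin R => Blk.triv k 0) : Nonempty (Circ k n 0) :=
  ⟨{ N := 0
     β := fun _ => Blk.triv k 0
     inp := fun _ _ => 0
     int := h0
     triv := fun _ _ => rfl
     old := fun g hg => absurd hg (Nat.not_lt_zero g) }⟩

end Vale.Agent.P200.V.Rig
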