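import Vale.Agent.P200.V.RigDefs

/-!
Rigid circuits: the stage lemma for all families follows from the stage lemma with the spanning
hypothesis, by induction on the degree.
-/

namespace Vale.Agent.P200.V

open MvPolynomial

universe u

namespace Rig

namespace Rec

section ext

variable {K K' K'' : Type u} [Field K] [Field K'] [Field K''] {n κ κ' κ'' : ℕ}
  {C : Circ K n κ} {C' : Circ K' n κ'} {C'' : Circ K'' n κ''}

theorem ext_refl (C : Circ K n κ) : C.Ext (RingHom.id K) C where
  le := le_rfl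
  leκ := le_rfl
  I P hP := by
    rw [MvPolynomial.map_id]
    exact hP

theorem ext_trans {φ : K →+* K'} {ψ : K' →+* K''} (h : C.Ext φ C') (h' : C'.Ext ψ C'') :
    C.Ext (ψ.comp φ) C'' where
  le := h.le.trans h'.le
  leκ := h.leκ.trans h'.leκ
  I P hP := by
    rw [← MvPolynomial.map_map]
    exact h'.I _ (h.I _ hP)

theorem noZ_ext {φ : K →+* K'} (h : C.Ext φ C') {r : ℕ} {P : Fin r → MvPolynomial Gen K}
    (hP : C.NoZ P) : C'.NoZ fun l => MvPolynomial.map φ (P l) := by
  intro Ω _ _ _ q hq h0 i hi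
  let _ : Algebra K Ω := ((algebraMap K' Ω).comp φ).toAlgebra
  have key : ∀ Q : MvPolynomial Gen K, aeval q (MvPolynomial.map φ Q) = aeval q Q := by
    intro Q
    rw [aeval_def, aeval_def, eval₂_map]
    rfl
  refine hP Ω q ?_ ?_ i hi
  · intro Q hQ
    rw [← key]
    exact hq _ (h.I _ hQ)
  · intro l
    rw [← key]
    exact h0 l

theorem used_mono {κ κ' N N' : ℕ} (hκ : κ ≤ κ') (hN : N ≤ N') {v : Gen} (h : Used n κ N v) :
    Used n κ' N' v := by
  rcases v with i | p
  · exact h
  · exact ⟨lt_of_lt_of_le h.1 hN, lt_of_lt_of_le h.2 hκ⟩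

theorem hm_ext {φ : K →+* K'} (h : C.Ext φ C') {e : ℕ} {P : MvPolynomial Gen K} (hP : C.Hm e P) :
    C'.Hm e (MvPolynomial.map φ P) :=
  ⟨hP.1.map φ, fun v hv => used_mono h.leκ h.le (hP.2 v (vars_map P φ hv))⟩

/-- the linear form transported to the bigger field -/
noncomputable def mp (φ : K →+* K') (t : Gen →₀ K) : Gen →₀ K' :=
  t.mapRange φ (map_zero φ)

theorem lin_mp (φ : K →+* K') (t : Gen →₀ K) : lin K' (mp φ t) = MvPolynomial.map φ (lin K t) := by
  rw [lin, lin, Finsupp.linearCombination_apply, Finsupp.linearCombination_apply, mp,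
    Finsupp.sum_mapRange_index (fun i => by simp), Finsupp.sum, Finsupp.sum, map_sum]
  refine Finset.sum_congr rfl fun v _ => ?_
  rw [MvPolynomial.smul_eq_C_mul, MvPolynomial.smul_eq_C_mul, map_mul, map_C, map_X]

theorem s_mp {φ : K →+* K'} (h : C.Ext φ C') {t : Gen →₀ K} (ht : C.S t) : C'.S (mp φ t) := by
  intro v hv
  refine used_mono h.leκ h.le (ht v ?_)
  rw [Finsupp.mem_support_iff] at hv ⊢
  intro h0
  apply hv
  rw [mp, Finsupp.mapRange_apply, h0, map_zero]

end ext

/-! ### The chain of the stages of degree `e` -/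

/-- the state after `m` stages -/
def Chain {K : Type u} [Field K] {n κ : ℕ} (C : Circ K n κ) (e : ℕ) {M : ℕ}
    (Q : Fin M → MvPolynomial Gen K) (m : ℕ) : Prop :=
  ∃ (K' : Type u) (_ : Field K') (φ : K →+* K') (κ' : ℕ) (C' : Circ K' n κ')
    (ξ : Fin m → Gen →₀ K') (Y B : Fin m → Fin M → K'), C.Ext φ C' ∧ (∀ j, C'.S (ξ j)) ∧
    (∀ i j, ∑ l, Y i l * B j l = if i = j then 1 else 0) ∧
    ∀ j, lin K' (ξ j) ^ e - ∑ l, MvPolynomial.C (Y j l) * MvPolynomial.map φ (Q l) ∈ C'.I

theorem exists_ker {K : Type*} [Field K] {m M : ℕ} (h : m < M) (Y : Fin m → Fin M → K) :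
    ∃ c : Fin M → K, c ≠ 0 ∧ ∀ i, ∑ l, Y i l * c l = 0 := by
  have h1 : Module.finrank K (Fin m → K) < Module.finrank K (Fin M → K) := by
    rw [Module.finrank_fin_fun, Module.finrank_fin_fun]
    exact h
  obtain ⟨c, hc, hc0⟩ := Submodule.exists_mem_ne_zero_of_ne_bot
    (LinearMap.ker_ne_bot_of_finrank_lt (f := (Matrix.of Y).mulVecLin) h1)
  refine ⟨c, hc0, fun i => ?_⟩
  have := congrFun (LinearMap.mem_ker.1 hc) i
  exact this

theorem chain_zero {K : Type u} [Field K] {n κ : ℕ} (C : Circ K n κ) (e : ℕ) {M : ℕ}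
    (Q : Fin M → MvPolynomial Gen K) : Chain C e Q 0 :=
  ⟨K, inferInstance, RingHom.id K, κ, C, Fin.elim0, Fin.elim0, Fin.elim0, ext_refl C,
    fun j => j.elim0, fun i => i.elim0, fun j => j.elim0⟩

theorem chain_succ {K : Type u} [Field K] [Infinite K] {n κ : ℕ} (hn : 0 < n) (C : Circ K n κ)
    {e : ℕ} {M : ℕ} (Q : Fin M → MvPolynomial Gen K) (hQ : ∀ l, C.Hm e (Q l)) (hZ : C.NoZ Q)
    (IH : ∀ (K : Type u) [Field K] [Infinite K] (n κ : ℕ) (_ : 0 < n) (C : Circ K n κ)
      (r : ℕ) (P : Fin r → MvPolynomial Gen K), (∀ l, C.Hm e (P l)) → C.NoZ P → Out C e P)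
    {m : ℕ} (hm : m < M) (h : Chain C e Q m) : Chain C e Q (m + 1) := by
  obtain ⟨K', _, φ, κ', C', ξ, Y, B, hE, hS, hYB, hξ⟩ := h
  have : Infinite K' := Infinite.of_injective φ φ.injective
  obtain ⟨K'', _, ψ, κ'', C'', ζ, y, hE', hS', hy, hζ⟩ :=
    IH K' n κ' hn C' M (fun l => MvPolynomial.map φ (Q l)) (fun l => hm_ext hE (hQ l))
      (noZ_ext hE hZ)
  obtain ⟨c, hc0, hc⟩ := exists_ker hm Y
  have hδ : ∑ l, ψ (c l) * y l ≠ 0 := fun h0 => hc0 (hy c h0)
  set δ : K'' := ∑ l, ψ (c l) * y l with hδdef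
  let b : Fin M → K'' := fun l => δ⁻¹ * ψ (c l)
  have hYb : ∀ i, ∑ l, ψ (Y i l) * b l = 0 := by
    intro i
    have h1 : ∑ l, ψ (Y i l) * b l = δ⁻¹ * ψ (∑ l, Y i l * c l) := by
      rw [map_sum, Finset.mul_sum]
      refine Finset.sum_congr rfl fun l _ => ?_
      simp only [b, map_mul]
      ring
    rw [h1, hc, map_zero, mul_zero]
  have hyb : ∑ l, y l * b l = 1 := by
    have h1 : ∑ l, y l * b l = δ⁻¹ * δ := by
      rw [hδdef, Finset.mul_sum]
      refine Finset.sum_congr rfl fun l _ => ?_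
      simp only [b]
      rw [← hδdef]
      ring
    rw [h1, inv_mul_cancel₀ hδ]
  refine ⟨K'', inferInstance, ψ.comp φ, κ'', C'',
    Fin.snoc (α := fun _ => Gen →₀ K'') (fun j => mp ψ (ξ j)) ζ,
    Fin.snoc (α := fun _ => Fin M → K'') (fun j l => ψ (Y j l)) y,
    Fin.snoc (α := fun _ => Fin M → K'')
      (fun j l => ψ (B j l) - b l * ∑ l', y l' * ψ (B j l')) b, ext_trans hE hE', ?_, ?_, ?_⟩
  · intro j
    refine Fin.lastCases ?_ (fun j => ?_) j
    · rw [Fin.snoc_last]
      exact hS'
    · rw [Fin.snoc_castSucc]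
      exact s_mp hE' (hS j)
  · intro i j
    refine Fin.lastCases ?_ (fun i => ?_) i
    · refine Fin.lastCases ?_ (fun j => ?_) j
      · rw [Fin.snoc_last, Fin.snoc_last, if_pos rfl]
        exact hyb
      · rw [Fin.snoc_last, Fin.snoc_castSucc, if_neg (Fin.castSucc_lt_last j).ne']
        have h1 : ∑ l, y l * (ψ (B j l) - b l * ∑ l', y l' * ψ (B j l')) =
            ∑ l, y l * ψ (B j l) - (∑ l, y l * b l) * ∑ l', y l' * ψ (B j l') := by
          rw [Finset.sum_mul, ← Finset.sum_sub_distrib]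
          exact Finset.sum_congr rfl fun l _ => by ring
        rw [h1, hyb, one_mul, sub_self]
    · refine Fin.lastCases ?_ (fun j => ?_) j
      · rw [Fin.snoc_last, Fin.snoc_castSucc, if_neg (Fin.castSucc_lt_last i).ne]
        exact hYb i
      · rw [Fin.snoc_castSucc, Fin.snoc_castSucc]
        have h1 : ∑ l, ψ (Y i l) * (ψ (B j l) - b l * ∑ l', y l' * ψ (B j l')) =
            ψ (∑ l, Y i l * B j l) - (∑ l, ψ (Y i l) * b l) * ∑ l', y l' * ψ (B j l') := by
          rw [Finset.sum_mul, map_sum, ← Finset.sum_sub_distrib]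
          exact Finset.sum_congr rfl fun l _ => by rw [map_mul]; ring
        rw [h1, hYb, zero_mul, sub_zero, hYB]
        by_cases hij : i = j
        · rw [if_pos hij, if_pos (congrArg Fin.castSucc hij), map_one]
        · rw [if_neg hij, if_neg fun h => hij (Fin.castSucc_injective _ h), map_zero]
  · intro j
    refine Fin.lastCases ?_ (fun j => ?_) j
    · rw [Fin.snoc_last, Fin.snoc_last]
      have h1 : ∑ l, MvPolynomial.C (y l) * MvPolynomial.map (ψ.comp φ) (Q l) =
          ∑ l, MvPolynomial.C (y l) * MvPolynomial.map ψ (MvPolynomial.map φ (Q l)) :=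
        Finset.sum_congr rfl fun l _ => by rw [MvPolynomial.map_map]
      rw [h1]
      exact hζ
    · rw [Fin.snoc_castSucc, Fin.snoc_castSucc]
      have h2 := hE'.I _ (hξ j)
      rw [map_sub, map_pow, map_sum, ← lin_mp] at h2
      have h1 : ∑ l, MvPolynomial.C (ψ (Y j l)) * MvPolynomial.map (ψ.comp φ) (Q l) =
          ∑ l, MvPolynomial.map ψ (MvPolynomial.C (Y j l) * MvPolynomial.map φ (Q l)) :=
        Finset.sum_congr rfl fun l _ => by rw [map_mul, map_C, MvPolynomial.map_map]
      rw [h1]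
      exact h2

theorem chain_all {K : Type u} [Field K] [Infinite K] {n κ : ℕ} (hn : 0 < n) (C : Circ K n κ)
    {e : ℕ} {M : ℕ} (Q : Fin M → MvPolynomial Gen K) (hQ : ∀ l, C.Hm e (Q l)) (hZ : C.NoZ Q)
    (IH : ∀ (K : Type u) [Field K] [Infinite K] (n κ : ℕ) (_ : 0 < n) (C : Circ K n κ)
      (r : ℕ) (P : Fin r → MvPolynomial Gen K), (∀ l, C.Hm e (P l)) → C.NoZ P → Out C e P) :
    ∀ m ≤ M, Chain C e Q m
  | 0, _ => chain_zero C e Q
  | m + 1, h => chain_succ hn C Q hQ hZ IH h (chain_all hn C Q hQ hZ IH m (Nat.le_of_succ_le h))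

/-! ### The monomials -/

/-- the used generators -/
noncomputable def us (n κ N : ℕ) : Finset Gen :=
  (Finset.range n).image Sum.inl ∪ (Finset.range N ×ˢ Finset.range κ).image Sum.inr

theorem mem_us {n κ N : ℕ} {v : Gen} : v ∈ us n κ N ↔ Used n κ N v := by
  rcases v with i | p
  · simp [us, Used]
  · simp [us, Used]

theorem exists_prod {K : Type u} [Field K] {U : Gen → Prop} : ∀ (e : ℕ) (m : Gen →₀ ℕ),
    m.degree = e → (∀ v ∈ m.support, U v) →
    ∃ t : Fin e → {v // U v}, monomial m (1 : K) = ∏ i, X (t i : Gen)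
  | 0, m, hm, _ => by
    refine ⟨Fin.elim0, ?_⟩
    rw [(Finsupp.degree_eq_zero_iff m).1 hm]
    simp
  | e + 1, m, hm, hU => by
    have hne : m ≠ 0 := by
      rintro rfl
      simp at hm
    obtain ⟨v, hv⟩ := Finsupp.support_nonempty_iff.2 hne
    have hle : Finsupp.single v 1 ≤ m := by
      rw [Finsupp.single_le_iff]
      exact Nat.one_le_iff_ne_zero.2 (Finsupp.mem_support_iff.1 hv)
    have hsum : Finsupp.single v 1 + (m - Finsupp.single v 1) = m := add_tsub_cancel_of_le hle
    have hdeg : (m - Finsupp.single v 1).degree = e := by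
      have h1 := congrArg Finsupp.degree hsum
      rw [map_add, Finsupp.degree_single, hm] at h1
      omega
    have hU' : ∀ w ∈ (m - Finsupp.single v 1).support, U w := by
      intro w hw
      refine hU w ?_
      rw [Finsupp.mem_support_iff] at hw ⊢
      intro h0
      apply hw
      rw [Finsupp.tsub_apply, h0, Nat.zero_sub]
    obtain ⟨t, ht⟩ := exists_prod (K := K) e _ hdeg hU'
    refine ⟨Fin.cons ⟨v, hU v hv⟩ t, ?_⟩
    rw [Fin.prod_univ_succ, Fin.cons_zero]
    simp only [Fin.cons_succ]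
    rw [← ht, X, monomial_mul, one_mul, hsum]

/-- the span (modulo the relations) of the binary forms as a submodule -/
noncomputable def binSub {K : Type u} [Field K] {n κ : ℕ} (C : Circ K n κ) (E : Finset (Gen →₀ K)) (e : ℕ) :
    Submodule K (MvPolynomial Gen K) :=
  Submodule.span K {Q : MvPolynomial Gen K | ∃ y ∈ E, ∃ y' ∈ E, ∃ a b, a + b = e ∧
    Q = lin K y ^ a * lin K y' ^ b} ⊔ C.I.restrictScalars K

theorem bin_iff {K : Type u} [Field K] {n κ : ℕ} (C : Circ K n κ) (E : Finset (Gen →₀ K)) (e : ℕ)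
    (P : MvPolynomial Gen K) : C.Bin E e P ↔ P ∈ binSub C E e := by
  rw [binSub, Submodule.mem_sup, Circ.Bin]
  constructor
  · rintro ⟨Q, hQ, h⟩
    exact ⟨Q, hQ, P - Q, h, by ring⟩
  · rintro ⟨Q, hQ, z, hz, rfl⟩
    refine ⟨Q, hQ, ?_⟩
    rw [add_sub_cancel_left]
    exact hz

theorem lin_single {K : Type u} [Field K] (v : Gen) :
    lin K (Finsupp.single v 1) = (X v : MvPolynomial Gen K) := by
  rw [lin, Finsupp.linearCombination_single, one_smul]

/-- a form is a combination of products of `e` variables and a variable -/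
theorem mem_span_prod {K : Type u} [Field K] {U : Gen → Prop} {e : ℕ} {P : MvPolynomial Gen K}
    (hP : P.IsHomogeneous (e + 1)) (hU : ∀ v ∈ P.vars, U v) :
    P ∈ Submodule.span K (Set.range fun t : (Fin e → {v // U v}) × {v // U v} =>
      (∏ i, X (t.1 i : Gen)) * (X (t.2 : Gen) : MvPolynomial Gen K)) := by
  rw [P.as_sum]
  refine Submodule.sum_mem _ fun m hm => ?_
  have h1 : monomial m (coeff m P) = coeff m P • (monomial m (1 : K)) := by
    rw [smul_monomial, smul_eq_mul, mul_one]
  rw [h1]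
  refine Submodule.smul_mem _ _ ?_
  have hdeg : m.degree = e + 1 := by
    have := hP (mem_support_iff.1 hm)
    rw [← this, Finsupp.degree_eq_weight_one]
    rfl
  obtain ⟨t, ht⟩ := exists_prod (K := K) (U := U) (e + 1) m hdeg fun v hv =>
    hU v ((mem_vars_iff_mem_support v).2 ⟨m, hm, hv⟩)
  rw [ht, Fin.prod_univ_succ]
  refine Submodule.subset_span ⟨(fun i => t i.succ, t 0), ?_⟩
  exact mul_comm _ _

/-- a submodule which contains the degree `e` products times the variables contains the forms of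
degree `e + 1` -/
theorem map_mem {K K' : Type u} [Field K] [Field K'] (φ : K →+* K') {U : Gen → Prop} {e : ℕ}
    {P : MvPolynomial Gen K} (hP : P.IsHomogeneous (e + 1)) (hU : ∀ v ∈ P.vars, U v)
    (W : Submodule K' (MvPolynomial Gen K'))
    (hW : ∀ (t : Fin e → {v // U v}) (v : {v // U v}),
      MvPolynomial.map φ (∏ i, X (t i : Gen)) * (X (v : Gen) : MvPolynomial Gen K') ∈ W) :
    MvPolynomial.map φ P ∈ W := by
  have h := mem_span_prod hP hU
  clear hP hU
  induction h using Submodule.span_induction with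
  | mem x hx =>
    obtain ⟨t, rfl⟩ := hx
    rw [map_mul, map_X]
    exact hW t.1 t.2
  | zero =>
    rw [map_zero]
    exact W.zero_mem
  | add x y _ _ hx hy =>
    rw [map_add]
    exact W.add_mem hx hy
  | smul a x _ hx =>
    rw [MvPolynomial.smul_eq_C_mul, map_mul, map_C, ← MvPolynomial.smul_eq_C_mul]
    exact W.smul_mem _ hx

theorem hm_prod {K : Type u} [Field K] {n κ : ℕ} (C : Circ K n κ) {e : ℕ}
    (t : Fin e → {v // C.U v}) : C.Hm e (∏ i, X (t i : Gen)) := by
  classical
  constructor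
  · have h := IsHomogeneous.prod Finset.univ (fun i => (X (t i : Gen) : MvPolynomial Gen K))
      (fun _ => 1) fun i _ => isHomogeneous_X K _
    simpa using h
  · intro v hv
    have h := vars_prod (s := Finset.univ) (fun i => (X (t i : Gen) : MvPolynomial Gen K)) hv
    rw [Finset.mem_biUnion] at h
    obtain ⟨i, _, hi⟩ := h
    rw [vars_X, Finset.mem_singleton] at hi
    rw [hi]
    exact (t i).2

/-- the conclusion of the stage for an extension -/
theorem out_ext {K K' : Type u} [Field K] [Field K'] {n κ κ' : ℕ} {C : Circ K n κ}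
    {C' : Circ K' n κ'} {φ : K →+* K'} (hE : C.Ext φ C') {e r : ℕ}
    {P : Fin r → MvPolynomial Gen K} (h : Out C' e fun l => MvPolynomial.map φ (P l)) :
    Out C e P := by
  obtain ⟨K'', _, ψ, κ'', C'', ξ, Y, hE', hS, hY, hξ⟩ := h
  refine ⟨K'', inferInstance, ψ.comp φ, κ'', C'', ξ, Y, ext_trans hE hE', hS, ?_, ?_⟩
  · intro c hc
    have h1 := hY (fun l => φ (c l)) hc
    funext l
    have h2 := congrFun h1 l
    have h3 : φ (c l) = φ 0 := by
      rw [map_zero]
      exact h2
    exact φ.injective h3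
  · have h1 : ∑ l, MvPolynomial.C (Y l) * MvPolynomial.map (ψ.comp φ) (P l) =
        ∑ l, MvPolynomial.C (Y l) * MvPolynomial.map ψ (MvPolynomial.map φ (P l)) :=
      Finset.sum_congr rfl fun l _ => by rw [MvPolynomial.map_map]
    rw [h1]
    exact hξ

/-- the transposed identity of a left inverse -/
theorem left_inv {K : Type*} [Field K] {M : ℕ} {Y B : Fin M → Fin M → K}
    (h : ∀ i j, ∑ l, Y i l * B j l = if i = j then 1 else 0) (l l' : Fin M) :
    ∑ j, B j l * Y j l' = if l = l' then 1 else 0 := by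
  have h1 : Matrix.of Y * (Matrix.of B).transpose = 1 := by
    ext i j
    rw [Matrix.mul_apply, Matrix.one_apply]
    exact h i j
  have h2 := mul_eq_one_comm.1 h1
  have h3 := congrFun (congrFun h2 l) l'
  rw [Matrix.mul_apply, Matrix.one_apply] at h3
  exact h3

theorem q_mem {K K' : Type u} [Field K] [Field K'] {n κ' : ℕ} {C' : Circ K' n κ'} {φ : K →+* K'}
    {e M : ℕ} {Q : Fin M → MvPolynomial Gen K} {ξ : Fin M → Gen →₀ K'} {Y B : Fin M → Fin M → K'}
    (h : ∀ i j, ∑ l, Y i l * B j l = if i = j then 1 else 0)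
    (hξ : ∀ j, lin K' (ξ j) ^ e - ∑ l, MvPolynomial.C (Y j l) * MvPolynomial.map φ (Q l) ∈ C'.I)
    (l : Fin M) :
    MvPolynomial.map φ (Q l) - ∑ j, MvPolynomial.C (B j l) * lin K' (ξ j) ^ e ∈ C'.I := by
  have h1 : ∑ j, MvPolynomial.C (B j l) *
      (lin K' (ξ j) ^ e - ∑ l, MvPolynomial.C (Y j l) * MvPolynomial.map φ (Q l)) ∈ C'.I :=
    Ideal.sum_mem _ fun j _ => C'.I.mul_mem_left _ (hξ j)
  have h2 : ∑ j, MvPolynomial.C (B j l) *
      (lin K' (ξ j) ^ e - ∑ l, MvPolynomial.C (Y j l) * MvPolynomial.map φ (Q l)) =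
      ∑ j, MvPolynomial.C (B j l) * lin K' (ξ j) ^ e - MvPolynomial.map φ (Q l) := by
    simp only [mul_sub, Finset.sum_sub_distrib]
    congr 1
    simp only [Finset.mul_sum]
    rw [Finset.sum_comm]
    have h3 : ∀ l', ∑ j, MvPolynomial.C (B j l) *
        (MvPolynomial.C (Y j l') * MvPolynomial.map φ (Q l')) =
        MvPolynomial.C (if l = l' then (1 : K') else 0) * MvPolynomial.map φ (Q l') := by
      intro l'
      rw [← left_inv h l l', map_sum, Finset.sum_mul]
      refine Finset.sum_congr rfl fun j _ => ?_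
      rw [map_mul]
      ring
    rw [Finset.sum_congr rfl fun l' _ => h3 l', Finset.sum_eq_single l]
    · rw [if_pos rfl, map_one, one_mul]
    · intro l' _ hl'
      rw [if_neg hl'.symm, map_zero, zero_mul]
    · intro hl
      exact absurd (Finset.mem_univ l) hl
  rw [h2] at h1
  have h4 := C'.I.neg_mem h1
  rwa [neg_sub] at h4

end Rec

open Rec

/-- **The stage lemma for all families.** -/
theorem stageAll (h : ∀ (K : Type u) [Field K] [Infinite K], StageBin K) : StageAll.{u} := by
  classical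
  intro e he
  induction e, he using Nat.le_induction with
  | base =>
    intro K _ _ n κ hn C r P hP hZ
    refine h K n κ hn C 1 one_pos r P ((us n κ C.N).image fun v => Finsupp.single v 1) ?_ ?_ hZ
    · intro y hy
      obtain ⟨v, hv, rfl⟩ := Finset.mem_image.1 hy
      intro w hw
      rw [Finset.mem_singleton.1 (Finsupp.support_single_subset hw)]
      exact mem_us.1 hv
    · intro l
      rw [bin_iff, ← MvPolynomial.map_id (P l)]
      refine map_mem (e := 0) (RingHom.id K) (hP l).1 (hP l).2 _ fun t v => ?_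
      rw [Finset.univ_eq_empty, Finset.prod_empty, map_one, one_mul]
      refine Submodule.mem_sup_left (Submodule.subset_span ?_)
      have hv : Finsupp.single (v : Gen) (1 : K) ∈
          (us n κ C.N).image fun v => Finsupp.single v (1 : K) :=
        Finset.mem_image_of_mem _ (mem_us.2 v.2)
      refine ⟨_, hv, _, hv, 1, 0, rfl, ?_⟩
      rw [lin_single, pow_one, pow_zero, mul_one]
  | succ e he IH =>
    intro K _ _ n κ hn C r P hP hZ
    have hfin : Finite {v // C.U v} := by
      have h1 : {v | C.U v} = (us n κ C.N : Set Gen) := by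
        ext v
        exact (mem_us (v := v)).symm
      have h2 : {v | C.U v}.Finite := by
        rw [h1]
        exact Finset.finite_toSet _
      exact h2.to_subtype
    have hfin2 : Finite (Fin e → {v // C.U v}) := inferInstance
    obtain ⟨M, ⟨eq⟩⟩ := Finite.exists_equiv_fin (Fin e → {v // C.U v})
    let Q : Fin M → MvPolynomial Gen K := fun l => ∏ i, X (eq.symm l i : Gen)
    have hQ : ∀ l, C.Hm e (Q l) := fun l => hm_prod C _
    have hQZ : C.NoZ Q := by
      intro Ω _ _ _ q _ h0 i hi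
      have h1 := h0 (eq fun _ => ⟨Sum.inl i, hi⟩)
      simp only [Q] at h1
      rw [Equiv.symm_apply_apply, map_prod] at h1
      simp only [aeval_X, Finset.prod_const, Finset.card_univ, Fintype.card_fin] at h1
      exact pow_eq_zero_iff (Nat.one_le_iff_ne_zero.1 he) |>.1 h1
    obtain ⟨K', _, φ, κ', C', ξ, Y, B, hE, hS, hYB, hξ⟩ := chain_all hn C Q hQ hQZ IH M le_rfl
    have : Infinite K' := Infinite.of_injective φ φ.injective
    refine out_ext hE (h K' n κ' hn C' (e + 1) (Nat.succ_pos e) r _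
      (Finset.univ.image ξ ∪ (us n κ C.N).image fun v => Finsupp.single v 1) ?_ ?_
      (noZ_ext hE hZ))
    · intro y hy
      rcases Finset.mem_union.1 hy with hy | hy
      · obtain ⟨j, _, rfl⟩ := Finset.mem_image.1 hy
        exact hS j
      · obtain ⟨v, hv, rfl⟩ := Finset.mem_image.1 hy
        intro w hw
        rw [Finset.mem_singleton.1 (Finsupp.support_single_subset hw)]
        exact used_mono hE.leκ hE.le (mem_us.1 hv)
    · intro l
      rw [bin_iff]
      refine map_mem φ (hP l).1 (hP l).2 _ fun t v => ?_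
      have h1 := q_mem hYB hξ (eq t)
      have h2 : MvPolynomial.map φ (Q (eq t)) = MvPolynomial.map φ (∏ i, X (t i : Gen)) := by
        simp only [Q]
        rw [Equiv.symm_apply_apply]
      rw [h2] at h1
      have h3 : MvPolynomial.map φ (∏ i, X (t i : Gen)) * (X (v : Gen) : MvPolynomial Gen K') =
          ∑ j, (B j (eq t)) • (lin K' (ξ j) ^ e * lin K' (Finsupp.single (v : Gen) 1) ^ 1) +
          X (v : Gen) * (MvPolynomial.map φ (∏ i, X (t i : Gen)) -
            ∑ j, MvPolynomial.C (B j (eq t)) * lin K' (ξ j) ^ e) := by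
        rw [lin_single, pow_one, mul_sub, Finset.mul_sum]
        have h4 : ∑ j, (B j (eq t)) • (lin K' (ξ j) ^ e * (X (v : Gen) : MvPolynomial Gen K')) =
            ∑ j, (X (v : Gen) : MvPolynomial Gen K') *
              (MvPolynomial.C (B j (eq t)) * lin K' (ξ j) ^ e) := by
          refine Finset.sum_congr rfl fun j _ => ?_
          rw [MvPolynomial.smul_eq_C_mul]
          ring
        rw [h4]
        ring
      rw [h3]
      refine Submodule.add_mem _ (Submodule.mem_sup_left (Submodule.sum_mem _ fun j _ =>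
        Submodule.smul_mem _ _ (Submodule.subset_span ?_))) (Submodule.mem_sup_right ?_)
      · exact ⟨ξ j, Finset.mem_union_left _ (Finset.mem_image_of_mem _ (Finset.mem_univ j)),
          Finsupp.single (v : Gen) 1, Finset.mem_union_right _
            (Finset.mem_image_of_mem (fun v => Finsupp.single v (1 : K')) (mem_us.2 v.2)), e, 1, rfl, rfl⟩
      · exact C'.I.mul_mem_left _ h1

end Rig

end Vale.Agent.P200.V
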