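import Vale.Agent.P200.V.RigPoint

/-!
**IND** of the stage of a rigid circuit: the core.
-/

namespace Vale.Agent.P200.V.Rig

open MvPolynomial Module

universe u

section point

variable {K : Type u} [Field K] {n κ : ℕ}

/-- all pairs of the rich set force one point -/
theorem core_point_aux (C : Circ K n κ) (N0 e : ℕ) (he : 0 < e)
    (S : Finset K) (Y : Finset (Gen →₀ K)) (hR : Rich C N0 e S Y) {A : Type u} [CommRing A]
    [Algebra K A] (π : MvPolynomial Gen K →ₐ[K] A) (hπ : ∀ P, π P = 0 ↔ P ∈ C.I)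
    {Ω : Type u} [Field Ω] [Algebra K Ω] (p : ℕ → Fin (κ + 2) → Ω)
    (hker : ∀ Φ : ℕ → MvPolynomial (Fin (κ + 2)) K, (∀ g, (Φ g).IsHomogeneous e) →
      ∑ g ∈ Finset.range C.N, C.ev g (Φ g) ∈ C.I →
      ∑ g ∈ Finset.range C.N, aeval (p g) (Φ g) = 0) :
    ∃ q : Gen → Ω, (∀ v, ¬ Used n κ N0 v → q v = 0) ∧ ∀ g < C.N, ∃ ε : Ω, ε ^ e = 1 ∧
      ∀ s, p g s = ε * aeval q (lin K (C.vl g s)) := by
  classical
  obtain ⟨θ, hθ, hθ'⟩ := exists_theta hR
  obtain ⟨hY1, hY2, hY3⟩ := core_rich hR hθ hθ'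
  obtain ⟨q, hq⟩ := rig_point' (tauS π n κ N0) he (bS K n κ N0) (span_bS N0) (yS hR) hY1 θ hY2
    hY3 (fun g : Fin C.N => p g) (fun g v => π (lin K (C.vl g v)))
    (fun g v => tau_theta hR hθ hθ' π hπ g v) (core_ker C π hπ p hker)
  obtain ⟨q', hq0, hq'⟩ := aeval_TS N0 q
  refine ⟨q', hq0, fun g hg => ?_⟩
  obtain ⟨ε, hε, h1⟩ := hq ⟨g, hg⟩
  refine ⟨ε, hε, fun s => ?_⟩
  rw [h1 s, ← hq']
  rcases lt_or_ge g N0 with h | h
  · rw [hθ ⟨g, hg⟩ h s]
  · obtain ⟨h2, h3, h4⟩ := hθ' ⟨g, hg⟩ h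
    rcases fin_cases_two s with rfl | rfl | ⟨j, rfl⟩
    · rw [h2]
      rfl
    · rw [h3]
      rfl
    · rw [h4, Submodule.coe_zero, map_zero, map_zero, aeval_linear]
      have h5 : Finsupp.linearCombination K q' (C.vl g j.succ.succ) = 0 := by
        change Finsupp.linearCombination K q' (Finsupp.single (Sum.inr (g, (j : ℕ))) 1) = 0
        rw [Finsupp.linearCombination_single, one_smul]
        exact hq0 _ fun h' => absurd h'.1 (not_lt.2 h)
      rw [h5]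

/-- all pairs of the rich set force one point -/
theorem core_point (C : Circ K n κ) (N0 e : ℕ) (he : 0 < e)
    (S : Finset K) (Y : Finset (Gen →₀ K)) (hR : Rich C N0 e S Y) {Ω : Type u} [Field Ω]
    [Algebra K Ω] (p : ℕ → Fin (κ + 2) → Ω)
    (hker : ∀ Φ : ℕ → MvPolynomial (Fin (κ + 2)) K, (∀ g, (Φ g).IsHomogeneous e) →
      ∑ g ∈ Finset.range C.N, C.ev g (Φ g) ∈ C.I →
      ∑ g ∈ Finset.range C.N, aeval (p g) (Φ g) = 0) :
    ∃ q : Gen → Ω, (∀ v, ¬ Used n κ N0 v → q v = 0) ∧ ∀ g < C.N, ∃ ε : Ω, ε ^ e = 1 ∧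
      ∀ s, p g s = ε * aeval q (lin K (C.vl g s)) :=
  core_point_aux C N0 e he S Y hR (Ideal.Quotient.mkₐ K C.I)
    (fun P => by rw [Ideal.Quotient.mkₐ_eq_mk, Ideal.Quotient.eq_zero_iff_mem]) p hker

end point

/-- **IND, core.** -/
theorem core {K : Type u} [Field K] {n κ : ℕ} (C : Circ K n κ) (N0 e : ℕ) (he : 0 < e)
    (S : Finset K) (Y : Finset (Gen →₀ K)) (hR : Rich C N0 e S Y) {r : ℕ}
    (P : Fin r → MvPolynomial Gen K) (hZ : C.NoZ P) (Ω : Type u) [Field Ω] [IsAlgClosed Ω]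
    [Algebra K Ω] (p : ℕ → Fin (κ + 2) → Ω)
    (hp : ∀ g < C.N, ∀ i, aeval (p g) ((C.β g).rel i) = 0)
    (hker : ∀ Φ : ℕ → MvPolynomial (Fin (κ + 2)) K, (∀ g, (Φ g).IsHomogeneous e) →
      ∑ g ∈ Finset.range C.N, C.ev g (Φ g) ∈ C.I →
      ∑ g ∈ Finset.range C.N, aeval (p g) (Φ g) = 0)
    (hP : ∀ l, ∃ Φ : ℕ → MvPolynomial (Fin (κ + 2)) K, (∀ g, (Φ g).IsHomogeneous e) ∧
      P l - ∑ g ∈ Finset.range C.N, C.ev g (Φ g) ∈ C.I ∧
      ∑ g ∈ Finset.range C.N, aeval (p g) (Φ g) = 0) :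
    ∀ g < C.N, p g = 0 := by
  obtain ⟨q, hqv, hq⟩ := core_point C N0 e he S Y hR p hker
  have hPt : C.Pt q := by
    refine pt_of_rel C fun g hg i => ?_
    obtain ⟨ε, hε, h2⟩ := hq g hg
    have h3 := hp g hg i
    have h4 : p g = fun s => ε * aeval q (lin K (C.vl g s)) := funext h2
    rw [h4, aeval_hom_scale (rel_hom _ i)] at h3
    rcases mul_eq_zero.1 h3 with h5 | h5
    · have h6 : ε = 0 := eq_zero_of_pow_eq_zero h5
      rw [h6, zero_pow he.ne'] at hε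
      exact absurd hε zero_ne_one
    · exact h5
  have hPl : ∀ l, aeval q (P l) = 0 := by
    intro l
    obtain ⟨Φ, hΦ, h1, h2⟩ := hP l
    have h3 := hPt _ h1
    rw [map_sub, sub_eq_zero] at h3
    rw [h3, map_sum, ← h2]
    refine Finset.sum_congr rfl fun g hg => ?_
    obtain ⟨ε, hε, h4⟩ := hq g (Finset.mem_range.1 hg)
    have h5 : p g = fun s => ε * aeval q (lin K (C.vl g s)) := funext h4
    rw [aeval_ev, h5, aeval_hom_scale (hΦ g), hε, one_mul]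
  have hall := pt_zero_core C hPt (hZ Ω q hPt hPl)
  have hq0 : ∀ v, q v = 0 := by
    intro v
    by_cases hv : Used n κ N0 v
    · refine hall v ?_
      rcases v with i | ⟨g, j⟩
      · exact hv
      · exact ⟨lt_of_lt_of_le hv.1 hR.le, hv.2⟩
    · exact hqv v hv
  intro g hg
  funext s
  obtain ⟨ε, -, h2⟩ := hq g hg
  rw [h2 s, aeval_linear, linearCombination_zero q _ fun v _ => hq0 v, mul_zero]
  rfl

end Vale.Agent.P200.V.Rig
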