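import Vale.Agent.P200.V.RigDefs

/-!
Rigid circuits: the finite family of a stage (lifts of the given polynomials and generators of the kernel).
-/

namespace Vale.Agent.P200.V.Rig

open MvPolynomial

universe u

/-- **The family of a stage**: lifts of the `P l` and a finite family spanning the kernel. -/
theorem exists_family {K : Type u} [Field K] {n κ : ℕ} (C : Circ K n κ) (e : ℕ) {r : ℕ}
    (P : Fin r → MvPolynomial Gen K) (hP : ∀ l, C.Bl e (P l)) :
    ∃ (t : ℕ) (h : Fin r ⊕ Fin t → ℕ → MvPolynomial (Fin (κ + 2)) K),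
      (∀ m g, (h m g).IsHomogeneous e) ∧
      (∀ l, P l - ∑ g ∈ Finset.range C.N, C.ev g (h (Sum.inl l) g) ∈ C.I) ∧
      (∀ i, ∑ g ∈ Finset.range C.N, C.ev g (h (Sum.inr i) g) ∈ C.I) ∧
      ∀ Φ : ℕ → MvPolynomial (Fin (κ + 2)) K, (∀ g, (Φ g).IsHomogeneous e) →
        ∑ g ∈ Finset.range C.N, C.ev g (Φ g) ∈ C.I →
        ∃ a : Fin t → K, ∀ g < C.N, Φ g = ∑ i, a i • h (Sum.inr i) g := by
  classical
  choose Φ0 hΦ0 hP0 using hP
  let H : Submodule K (MvPolynomial (Fin (κ + 2)) K) := homogeneousSubmodule (Fin (κ + 2)) K e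
  have hH : Module.Finite K H := Module.Finite.iff_fg.2 (homogeneousSubmodule_fg (Fin (κ + 2)) K e)
  let W : Submodule K (Fin C.N → H) :=
    { carrier := {Φ | ∑ g : Fin C.N, C.ev g (Φ g : MvPolynomial (Fin (κ + 2)) K) ∈ C.I}
      add_mem' := by
        intro x y hx hy
        have hxy : ∑ g : Fin C.N, C.ev g ((x + y) g : MvPolynomial (Fin (κ + 2)) K) =
            ∑ g : Fin C.N, C.ev g (x g : MvPolynomial (Fin (κ + 2)) K) +
              ∑ g : Fin C.N, C.ev g (y g : MvPolynomial (Fin (κ + 2)) K) := by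
          rw [← Finset.sum_add_distrib]
          refine Finset.sum_congr rfl fun g _ => ?_
          rw [Pi.add_apply, Submodule.coe_add, map_add]
        change _ ∈ C.I
        rw [hxy]
        exact Ideal.add_mem _ hx hy
      zero_mem' := by
        change _ ∈ C.I
        have h0 : ∑ g : Fin C.N, C.ev g (((0 : Fin C.N → H) g : H) :
            MvPolynomial (Fin (κ + 2)) K) = 0 := by
          refine Finset.sum_eq_zero fun g _ => ?_
          rw [Pi.zero_apply, Submodule.coe_zero, map_zero]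
        rw [h0]
        exact Ideal.zero_mem _
      smul_mem' := by
        intro c x hx
        change _ ∈ C.I
        have hc : ∑ g : Fin C.N, C.ev g ((c • x) g : MvPolynomial (Fin (κ + 2)) K) =
            MvPolynomial.C c * ∑ g : Fin C.N, C.ev g (x g : MvPolynomial (Fin (κ + 2)) K) := by
          rw [Finset.mul_sum]
          refine Finset.sum_congr rfl fun g _ => ?_
          rw [Pi.smul_apply, Submodule.coe_smul, map_smul, MvPolynomial.smul_eq_C_mul]
        rw [hc]
        exact Ideal.mul_mem_left _ _ hx }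
  obtain ⟨s, w, hw⟩ := Submodule.fg_iff_exists_fin_generating_family.1
    (IsNoetherian.noetherian W)
  have hwW : ∀ j, w j ∈ W := fun j => by
    rw [← hw]
    exact Submodule.subset_span ⟨j, rfl⟩
  refine ⟨s, fun j g => Sum.elim (fun l => Φ0 l g)
    (fun j => if hg : g < C.N then (w j ⟨g, hg⟩ : MvPolynomial (Fin (κ + 2)) K) else 0) j,
    ?_, ?_, ?_, ?_⟩
  · intro j g
    rcases j with l | j
    · exact hΦ0 l g
    · change (if hg : g < C.N then (w j ⟨g, hg⟩ : MvPolynomial (Fin (κ + 2)) K) else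
        0).IsHomogeneous e
      split_ifs with hg
      · exact (w j ⟨g, hg⟩).2
      · exact isHomogeneous_zero _ _ _
  · intro l
    exact hP0 l
  · intro j
    have h1 : ∑ g ∈ Finset.range C.N, C.ev g
        (if hg : g < C.N then (w j ⟨g, hg⟩ : MvPolynomial (Fin (κ + 2)) K) else 0) =
        ∑ g : Fin C.N, C.ev g (w j g : MvPolynomial (Fin (κ + 2)) K) := by
      rw [Finset.sum_range]
      refine Finset.sum_congr rfl fun g _ => ?_
      rw [dif_pos g.2]
    change ∑ g ∈ Finset.range C.N, C.ev g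
        (if hg : g < C.N then (w j ⟨g, hg⟩ : MvPolynomial (Fin (κ + 2)) K) else 0) ∈ C.I
    rw [h1]
    exact hwW j
  · intro Φ hΦ hI
    let x : Fin C.N → H := fun g => ⟨Φ g, hΦ g⟩
    have hx : x ∈ W := by
      change ∑ g : Fin C.N, C.ev g (x g : MvPolynomial (Fin (κ + 2)) K) ∈ C.I
      rw [Finset.sum_range] at hI
      exact hI
    rw [← hw] at hx
    obtain ⟨c, hc⟩ := (Submodule.mem_span_range_iff_exists_fun K).1 hx
    refine ⟨c, fun g hg => ?_⟩
    have h2 := congrFun hc ⟨g, hg⟩
    rw [Finset.sum_apply] at h2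
    have h3 := congrArg (fun z : H => (z : MvPolynomial (Fin (κ + 2)) K)) h2
    change ((∑ j, (c j • w j) ⟨g, hg⟩ : H) : MvPolynomial (Fin (κ + 2)) K) = Φ g at h3
    rw [← h3, Submodule.coe_sum]
    refine Finset.sum_congr rfl fun j _ => ?_
    change ((c j • w j) ⟨g, hg⟩ : MvPolynomial (Fin (κ + 2)) K) =
      c j • (if hg : g < C.N then (w j ⟨g, hg⟩ : MvPolynomial (Fin (κ + 2)) K) else 0)
    rw [dif_pos hg, Pi.smul_apply, Submodule.coe_smul]

end Vale.Agent.P200.V.Rig
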