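import Vale.Agent.P200.V.RigCirc

/-!
Rigid circuits: the relations of the new circuit, extension, the equation of the root.
-/

namespace Vale.Agent.P200.V.Rig.Nw

open MvPolynomial

universe u

/-- substitution of the components in the equation of the root -/
theorem root_abs {A : Type*} [CommRing A] (I : Ideal A) {ι : Type*} [Fintype ι] (N : ℕ) (R : A)
    (w S S' : ℕ → A) (Y : ι → A) (H : ι → ℕ → A) (hS : ∀ g < N, S g * S' g = 1)
    (h1 : R - ∑ g ∈ Finset.range N, S g * w g ∈ I)
    (h2 : ∀ g < N, w g - ∑ m, Y m * (S' g * H m g) ∈ I) :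
    R - ∑ m, Y m * ∑ g ∈ Finset.range N, H m g ∈ I := by
  have h3 : ∑ g ∈ Finset.range N, S g * (w g - ∑ m, Y m * (S' g * H m g)) ∈ I :=
    Ideal.sum_mem _ fun g hg => Ideal.mul_mem_left _ _ (h2 g (Finset.mem_range.1 hg))
  have h4 := Ideal.add_mem _ h1 h3
  have h5 : ∀ g ∈ Finset.range N, S g * (w g - ∑ m, Y m * (S' g * H m g)) =
      S g * w g - ∑ m, Y m * H m g := by
    intro g hg
    have h6 := hS g (Finset.mem_range.1 hg)
    rw [mul_sub, Finset.mul_sum]
    congr 1
    refine Finset.sum_congr rfl fun m _ => ?_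
    calc S g * (Y m * (S' g * H m g)) = (S g * S' g) * (Y m * H m g) := by ring
      _ = Y m * H m g := by rw [h6, one_mul]
  have h6 : ∑ m, Y m * ∑ g ∈ Finset.range N, H m g =
      ∑ g ∈ Finset.range N, ∑ m, Y m * H m g := by
    rw [Finset.sum_comm]
    exact Finset.sum_congr rfl fun m _ => Finset.mul_sum _ _ _
  have h7 : R - ∑ g ∈ Finset.range N, S g * w g +
      ∑ g ∈ Finset.range N, S g * (w g - ∑ m, Y m * (S' g * H m g)) =
      R - ∑ m, Y m * ∑ g ∈ Finset.range N, H m g := by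
    rw [Finset.sum_congr rfl h5, Finset.sum_sub_distrib, h6]
    ring
  rw [h7] at h4
  exact h4

section rel
variable {K : Type u} [Field K] {n κ : ℕ} (C : Circ K n κ) (e : ℕ) (he : 0 < e)
variable {ι : Type} [Fintype ι] (h : ι → ℕ → MvPolynomial (Fin (κ + 2)) K)
  (hh : ∀ m g, (h m g).IsHomogeneous e)
  (hint : ∀ R, IntAll (K2 C ι) fun g : Fin R => B2 C e he h hh g)
  (htriv : ∀ g, C.N + (C.N - 1) ≤ g → B2 C e he h hh g = Blk.triv (K2 C ι) (κ + 1 + 1))

theorem nc_ev (g : ℕ) (P : MvPolynomial (Fin (κ + 1 + 2)) (K1 C)) :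
    (newC C e he h hh hint htriv).ev g
      (rename (Fin.castSucc : Fin (κ + 1 + 2) → Fin (κ + 1 + 2 + 1))
        (MvPolynomial.map (algebraMap (K1 C) (K2 C ι)) P)) =
      MvPolynomial.map (algebraMap (K1 C) (K2 C ι)) (evG (vlG (κ + 1) (inp1 C g) g) P) := by
  refine evG_rename (algebraMap (K1 C) (K2 C ι)) (vlG (κ + 1) (inp1 C g) g)
    (vlG (κ + 1 + 1) ((newC C e he h hh hint htriv).inp g) g) ?_ P
  intro s
  exact vlG_castSucc _ _ _ _ (fun ε => rfl) g s

theorem ev_old (g : ℕ) (hg : g < C.N) (P : MvPolynomial (Fin (κ + 2)) K) :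
    evG (vlG (κ + 1) (inp1 C g) g) (rename (Fin.castSucc : Fin (κ + 2) → Fin (κ + 2 + 1))
      (MvPolynomial.map (algebraMap K (K1 C)) P)) =
      MvPolynomial.map (algebraMap K (K1 C)) (C.ev g P) := by
  refine evG_rename (algebraMap K (K1 C)) (vlG κ (C.inp g) g) (vlG (κ + 1) (inp1 C g) g) ?_ P
  intro s
  refine vlG_castSucc _ _ _ _ (fun ε => ?_) g s
  exact if_pos hg

theorem rel_mem (g : ℕ) (hg : g < C.N + (C.N - 1)) (i : Fin (κ + 1 + 1)) :
    (newC C e he h hh hint htriv).ev g ((B2 C e he h hh g).rel i) ∈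
      (newC C e he h hh hint htriv).I :=
  Ideal.subset_span ⟨g, hg, i, rfl⟩

omit [Fintype ι] in
theorem map_ph (P : MvPolynomial Gen K) :
    MvPolynomial.map (algebraMap (K1 C) (K2 C ι)) (MvPolynomial.map (algebraMap K (K1 C)) P) =
      MvPolynomial.map (ph C ι) P := by
  rw [MvPolynomial.map_map]
  rfl

theorem rel_old (g : ℕ) (hg : g < C.N) (i : Fin κ) :
    MvPolynomial.map (ph C ι) (C.ev g ((C.β g).rel i)) ∈ (newC C e he h hh hint htriv).I := by
  have h1 := rel_mem C e he h hh hint htriv g (by omega) i.castSucc.castSucc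
  have h2 : (B2 C e he h hh g).rel i.castSucc.castSucc =
      rename (Fin.castSucc : Fin (κ + 1 + 2) → Fin (κ + 1 + 2 + 1))
        (MvPolynomial.map (algebraMap (K1 C) (K2 C ι)) ((B1 C e he g).rel i.castSucc)) :=
    newB_rel_castSucc _ _ _ _ _ _ _
  have h3 : (B1 C e he g).rel i.castSucc =
      rename (Fin.castSucc : Fin (κ + 2) → Fin (κ + 2 + 1))
        (MvPolynomial.map (algebraMap K (K1 C)) ((C.β g).rel i)) :=
    newB_rel_castSucc _ _ _ _ _ _ _
  rw [h2, nc_ev, h3, ev_old C g hg, map_ph] at h1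
  exact h1

theorem ext : C.Ext (ph C ι) (newC C e he h hh hint htriv) where
  le := Nat.le_add_right _ _
  leκ := by omega
  I := by
    have h1 : C.I ≤ Ideal.comap (MvPolynomial.map (ph C ι)) (newC C e he h hh hint htriv).I := by
      refine Ideal.span_le.2 ?_
      rintro P ⟨g, hg, i, rfl⟩
      exact rel_old C e he h hh hint htriv g hg i
    intro P hP
    exact h1 hP

theorem rel_w (g : ℕ) (hg : g < C.N) :
    X (Sum.inr (g, κ + 1)) ^ e - ∑ m, MvPolynomial.C (Tv (K1 C) m) *
      (MvPolynomial.C (algebraMap (K1 C) (K2 C ι) (Sc (ps C) (ps' C) (C.N - 1) g)⁻¹) *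
        MvPolynomial.map (ph C ι) (C.ev g (h m g))) ∈ (newC C e he h hh hint htriv).I := by
  have h1 := rel_mem C e he h hh hint htriv g (by omega) (Fin.last (κ + 1))
  have h2 : (B2 C e he h hh g).rel (Fin.last (κ + 1)) =
      X (Fin.last (κ + 1 + 2)) ^ e -
        rename (Fin.castSucc : Fin (κ + 1 + 2) → Fin (κ + 1 + 2 + 1))
        (∑ j, MvPolynomial.C (Tv (K1 C) j) *
          MvPolynomial.map (algebraMap (K1 C) (K2 C ι)) (a2 C h g j)) :=
    newB_rel_last _ _ hg _ _ _ _
  have h4 : ∀ j, (newC C e he h hh hint htriv).ev g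
      (rename (Fin.castSucc : Fin (κ + 1 + 2) → Fin (κ + 1 + 2 + 1))
        (MvPolynomial.C (Tv (K1 C) j) *
          MvPolynomial.map (algebraMap (K1 C) (K2 C ι)) (a2 C h g j))) =
      MvPolynomial.C (Tv (K1 C) j) *
      (MvPolynomial.C (algebraMap (K1 C) (K2 C ι) (Sc (ps C) (ps' C) (C.N - 1) g)⁻¹) *
        MvPolynomial.map (ph C ι) (C.ev g (h j g))) := by
    intro j
    have h5 : a2 C h g j = MvPolynomial.C (Sc (ps C) (ps' C) (C.N - 1) g)⁻¹ *
        rename (Fin.castSucc : Fin (κ + 2) → Fin (κ + 2 + 1))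
          (MvPolynomial.map (algebraMap K (K1 C)) (h j g)) := if_pos hg
    have h6 : (newC C e he h hh hint htriv).ev g (rename
        (Fin.castSucc : Fin (κ + 1 + 2) → Fin (κ + 1 + 2 + 1))
        (MvPolynomial.C (Tv (K1 C) j))) = MvPolynomial.C (Tv (K1 C) j) := by
      rw [rename_C]
      exact evG_C _ _
    rw [map_mul (rename (Fin.castSucc : Fin (κ + 1 + 2) → Fin (κ + 1 + 2 + 1))),
      map_mul ((newC C e he h hh hint htriv).ev g), h6, nc_ev, h5, map_mul, evG_C, map_mul, map_C]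
    have h7 := ev_old C g hg (h j g)
    congr 2
    rw [← map_ph]
    exact congrArg _ h7
  rw [h2, map_sub, map_pow] at h1
  have h8 : (newC C e he h hh hint htriv).ev g (X (Fin.last (κ + 1 + 2))) =
      X (Sum.inr (g, κ + 1)) := by
    have h9 : (newC C e he h hh hint htriv).ev g (X (Fin.last (κ + 1 + 2))) =
        lin (K2 C ι) (vlG (κ + 1 + 1) ((newC C e he h hh hint htriv).inp g) g
          (Fin.last (κ + 1 + 2))) := evG_X _ _
    rw [h9, vlG_last, lin_single]
  rw [h8, map_sum, map_sum] at h1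
  have h10 := Finset.sum_congr (rfl : (Finset.univ : Finset ι) = Finset.univ) fun j _ => h4 j
  rw [h10] at h1
  exact h1

theorem rel_Z (t : ℕ) (ht : t < C.N - 1) :
    X (Sum.inr (C.N + t, κ)) ^ e -
      (MvPolynomial.C (algebraMap (K1 C) (K2 C ι) (ps C t)) * X (gR C t) ^ e +
        MvPolynomial.C (algebraMap (K1 C) (K2 C ι) (ps' C t)) * X (Sum.inr (t + 1, κ + 1)) ^ e) ∈
      (newC C e he h hh hint htriv).I := by
  have h1 := rel_mem C e he h hh hint htriv (C.N + t) (by omega) (Fin.last κ).castSucc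
  have h2 : (B2 C e he h hh (C.N + t)).rel (Fin.last κ).castSucc =
      rename (Fin.castSucc : Fin (κ + 1 + 2) → Fin (κ + 1 + 2 + 1))
        (MvPolynomial.map (algebraMap (K1 C) (K2 C ι))
          ((B1 C e he (C.N + t)).rel (Fin.last κ))) :=
    newB_rel_castSucc _ _ _ _ _ _ _
  have h3 : (B1 C e he (C.N + t)).rel (Fin.last κ) =
      X (Fin.last (κ + 2)) ^ e - rename (Fin.castSucc : Fin (κ + 2) → Fin (κ + 2 + 1))
        (∑ j, MvPolynomial.C (Tv K j) * MvPolynomial.map (algebraMap K (K1 C))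
          (jA K κ C.N (C.N - 1) e (C.N + t) j)) :=
    newB_rel_last _ _ ⟨by omega, by omega⟩ _ _ _ _
  have hn : ¬ C.N + t < C.N := by omega
  have hi0 : inp1 C (C.N + t) 0 = Finsupp.single (gR C t) 1 := by
    unfold inp1
    rw [if_neg hn, if_pos rfl, Nat.add_sub_cancel_left]
  have hi1 : inp1 C (C.N + t) 1 = Finsupp.single (Sum.inr (t + 1, κ + 1)) 1 := by
    unfold inp1
    rw [if_neg hn, if_neg (by decide), Nat.add_sub_cancel_left]
  have h4 : evG (vlG (κ + 1) (inp1 C (C.N + t)) (C.N + t)) ((B1 C e he (C.N + t)).rel (Fin.last κ)) =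
      X (Sum.inr (C.N + t, κ)) ^ e - (MvPolynomial.C (ps C t) * X (gR C t) ^ e +
        MvPolynomial.C (ps' C t) * X (Sum.inr (t + 1, κ + 1)) ^ e) := by
    have h5 : ∀ j : JI (C.N - 1), evG (vlG (κ + 1) (inp1 C (C.N + t)) (C.N + t))
        (rename (Fin.castSucc : Fin (κ + 2) → Fin (κ + 2 + 1)) (MvPolynomial.C (Tv K j) *
          MvPolynomial.map (algebraMap K (K1 C)) (jA K κ C.N (C.N - 1) e (C.N + t) j))) =
        if (j.1 : ℕ) = t then MvPolynomial.C (Tv K j) *
          (if j.2 = 0 then X (gR C t) ^ e else X (Sum.inr (t + 1, κ + 1)) ^ e) else 0 := by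
      intro j
      rw [map_mul (rename (Fin.castSucc : Fin (κ + 2) → Fin (κ + 2 + 1))), rename_C,
        map_mul (evG (vlG (κ + 1) (inp1 C (C.N + t)) (C.N + t)))]
      erw [evG_C]
      unfold jA
      by_cases hj : (j.1 : ℕ) = t
      · rw [if_pos hj, if_pos (by omega)]
        congr 1
        split_ifs with hj2
        · rw [map_pow, map_X, map_pow, rename_X, map_pow]
          congr 1
          have h6 : evG (vlG (κ + 1) (inp1 C (C.N + t)) (C.N + t))
              (X ((0 : Fin (κ + 2)).castSucc)) =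
              lin (K1 C) (vlG (κ + 1) (inp1 C (C.N + t)) (C.N + t) 0) := evG_X _ _
          refine Eq.trans h6 ?_
          rw [vlG_zero, hi0, lin_single]
        · rw [map_pow, map_X, map_pow, rename_X, map_pow]
          congr 1
          have h6 : evG (vlG (κ + 1) (inp1 C (C.N + t)) (C.N + t))
              (X ((1 : Fin (κ + 2)).castSucc)) =
              lin (K1 C) (vlG (κ + 1) (inp1 C (C.N + t)) (C.N + t) 1) := evG_X _ _
          refine Eq.trans h6 ?_
          rw [vlG_one, hi1, lin_single]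
      · rw [if_neg hj, if_neg (by omega), map_zero, map_zero, map_zero, mul_zero]
    rw [h3, map_sub, map_pow, map_sum, map_sum]
    have h7 : evG (vlG (κ + 1) (inp1 C (C.N + t)) (C.N + t)) (X (Fin.last (κ + 2))) =
        X (Sum.inr (C.N + t, κ)) := by
      have h8 : evG (vlG (κ + 1) (inp1 C (C.N + t)) (C.N + t)) (X (Fin.last (κ + 2))) =
        lin (K1 C) (vlG (κ + 1) (inp1 C (C.N + t)) (C.N + t) (Fin.last (κ + 2))) := evG_X _ _
      rw [h8, vlG_last, lin_single]
    rw [h7, Finset.sum_congr (rfl : (Finset.univ : Finset (JI (C.N - 1))) = Finset.univ)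
      fun j _ => h5 j]
    congr 1
    have h9 : (Finset.univ : Finset (JI (C.N - 1))) = Finset.univ ×ˢ Finset.univ := by
      ext x
      simp
    rw [h9, Finset.sum_product]
    rw [Finset.sum_eq_single (⟨t, ht⟩ : Fin (C.N - 1))]
    · rw [Fin.sum_univ_two, if_pos rfl, if_pos rfl, if_pos rfl]
      have hne : ¬ (((⟨t, ht⟩, 1) : JI (C.N - 1)).2 = 0) := Fin.zero_ne_one.symm
      rw [if_neg hne]
      unfold ps ps'
      rw [dif_pos ht, dif_pos ht]
    · intro b _ hb
      refine Finset.sum_eq_zero fun ε _ => ?_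
      rw [if_neg]
      intro hb2
      exact hb (Fin.ext hb2)
    · intro h10
      exact absurd (Finset.mem_univ _) h10
  rw [h2, nc_ev, h4, map_sub, map_pow, map_X, map_add, map_mul, map_mul, map_pow, map_pow, map_X,
    map_X, map_C, map_C] at h1
  exact h1

theorem root_pow (T : ℕ) (hT : T ≤ C.N - 1) :
    X (gR C T) ^ e - ∑ g ∈ Finset.range (T + 1),
      MvPolynomial.C (algebraMap (K1 C) (K2 C ι) (Sc (ps C) (ps' C) T g)) *
        X (Sum.inr (g, κ + 1)) ^ e ∈ (newC C e he h hh hint htriv).I := by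
  induction T with
  | zero =>
    rw [zero_add, Finset.sum_range_one]
    have h1 : Sc (ps C) (ps' C) 0 0 = 1 := by
      rw [Sc, if_pos rfl]
    rw [h1, map_one, map_one, one_mul]
    have h2 : gR C 0 = Sum.inr (0, κ + 1) := rfl
    rw [h2, sub_self]
    exact Ideal.zero_mem _
  | succ T ih =>
    have h1 := rel_Z C e he h hh hint htriv T (by omega)
    have h2 := Ideal.mul_mem_left _ (MvPolynomial.C (algebraMap (K1 C) (K2 C ι) (ps C T)))
      (ih (by omega))
    have h3 := Ideal.add_mem _ h1 h2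
    have h4 : Sc (ps C) (ps' C) (T + 1) (T + 1) = ps' C T := by
      rw [Sc, if_pos rfl]
    have h5 : ∀ g ∈ Finset.range (T + 1),
        MvPolynomial.C (algebraMap (K1 C) (K2 C ι) (Sc (ps C) (ps' C) (T + 1) g)) *
          X (Sum.inr (g, κ + 1) : Gen) ^ e =
        MvPolynomial.C (algebraMap (K1 C) (K2 C ι) (ps C T)) *
          (MvPolynomial.C (algebraMap (K1 C) (K2 C ι) (Sc (ps C) (ps' C) T g)) *
            X (Sum.inr (g, κ + 1)) ^ e) := by
      intro g hg
      have hg2 : g ≠ T + 1 := by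
        have := Finset.mem_range.1 hg
        omega
      have h6 : Sc (ps C) (ps' C) (T + 1) g = ps C T * Sc (ps C) (ps' C) T g := by
        rw [Sc, if_neg hg2]
      rw [h6, map_mul, map_mul, mul_assoc]
    rw [Finset.sum_range_succ, h4, Finset.sum_congr rfl h5, ← Finset.mul_sum]
    have h7 : gR C (T + 1) = Sum.inr (C.N + T, κ) := rfl
    rw [h7]
    have h8 : ∀ a b c d p q : MvPolynomial Gen (K2 C ι),
        a - (p * b + q) + p * (b - d) = a - (p * d + q) := by
      intros
      ring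
    rw [h8] at h3
    · exact h3
    · exact 0

theorem root_eq (hN : 0 < C.N) :
    X (gR C (C.N - 1)) ^ e - ∑ m, MvPolynomial.C (Tv (K1 C) m) *
      MvPolynomial.map (ph C ι) (∑ g ∈ Finset.range C.N, C.ev g (h m g)) ∈
        (newC C e he h hh hint htriv).I := by
  have hps : ∀ t < C.N - 1, ps C t ≠ 0 := by
    intro t ht
    unfold ps
    rw [dif_pos ht]
    intro h0
    have h1 : (algebraMap (MvPolynomial (JI (C.N - 1)) K) (KF K (JI (C.N - 1))))
        (X ((⟨t, ht⟩, 0) : JI (C.N - 1))) = 0 := h0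
    rw [map_eq_zero_iff _ (IsFractionRing.injective _ _)] at h1
    exact MvPolynomial.X_ne_zero _ h1
  have hps' : ∀ t < C.N - 1, ps' C t ≠ 0 := by
    intro t ht
    unfold ps'
    rw [dif_pos ht]
    intro h0
    have h1 : (algebraMap (MvPolynomial (JI (C.N - 1)) K) (KF K (JI (C.N - 1))))
        (X ((⟨t, ht⟩, 1) : JI (C.N - 1))) = 0 := h0
    rw [map_eq_zero_iff _ (IsFractionRing.injective _ _)] at h1
    exact MvPolynomial.X_ne_zero _ h1
  have h1 := root_pow C e he h hh hint htriv (C.N - 1) le_rfl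
  have h2 : C.N - 1 + 1 = C.N := by omega
  rw [h2] at h1
  have h8 : ∀ m, MvPolynomial.map (ph C ι) (∑ g ∈ Finset.range C.N, C.ev g (h m g)) =
      ∑ g ∈ Finset.range C.N, MvPolynomial.map (ph C ι) (C.ev g (h m g)) :=
    fun m => map_sum _ _ _
  have h9 := root_abs (newC C e he h hh hint htriv).I C.N (X (gR C (C.N - 1)) ^ e)
    (fun g => X (Sum.inr (g, κ + 1)) ^ e)
    (fun g => MvPolynomial.C (algebraMap (K1 C) (K2 C ι) (Sc (ps C) (ps' C) (C.N - 1) g)))
    (fun g => MvPolynomial.C (algebraMap (K1 C) (K2 C ι) (Sc (ps C) (ps' C) (C.N - 1) g)⁻¹))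
    (fun m => MvPolynomial.C (Tv (K1 C) m)) (fun m g => MvPolynomial.map (ph C ι) (C.ev g (h m g)))
    (fun g hg => by
      have h10 : g ≤ C.N - 1 := by omega
      rw [← map_mul, ← map_mul, mul_inv_cancel₀ (Sc_ne hps hps' g h10), map_one, map_one])
    h1 (fun g hg => rel_w C e he h hh hint htriv g hg)
  rw [Finset.sum_congr (rfl : (Finset.univ : Finset ι) = Finset.univ) fun m _ =>
    congrArg (fun z => MvPolynomial.C (Tv (K1 C) m) * z) (h8 m)]
  exact h9

theorem gR_used (hN : 0 < C.N) (T : ℕ) (hT : T ≤ C.N - 1) :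
    (newC C e he h hh hint htriv).U (gR C T) := by
  cases T with
  | zero =>
    exact ⟨by
      change 0 < C.N + (C.N - 1)
      omega, by
      change κ + 1 < κ + 1 + 1
      omega⟩
  | succ t =>
    exact ⟨by
      change C.N + t < C.N + (C.N - 1)
      omega, by
      change κ < κ + 1 + 1
      omega⟩

/-- the parameters are linearly independent over the old field -/
theorem par_indep (c : ι → K) (hc : ∑ m, ph C ι (c m) * Tv (K1 C) m = 0) : c = 0 := by
  classical
  have h1 : (algebraMap (MvPolynomial ι (K1 C)) (KF (K1 C) ι))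
      (∑ m, MvPolynomial.C (algebraMap K (K1 C) (c m)) * X m) = 0 := by
    rw [map_sum]
    rw [← hc]
    refine Finset.sum_congr rfl fun m _ => ?_
    rw [map_mul]
    rfl
  rw [map_eq_zero_iff _ (IsFractionRing.injective _ _)] at h1
  funext m
  have h2 := congrArg (MvPolynomial.coeff (Finsupp.single m 1)) h1
  rw [MvPolynomial.coeff_zero, MvPolynomial.coeff_sum] at h2
  have h3 : ∀ j, MvPolynomial.coeff (Finsupp.single m 1)
      (MvPolynomial.C (algebraMap K (K1 C) (c j)) * X j : MvPolynomial ι (K1 C)) =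
      if j = m then algebraMap K (K1 C) (c j) else 0 := by
    intro j
    rw [MvPolynomial.coeff_C_mul, MvPolynomial.coeff_X]
    split_ifs with h4 h5 h5
    · rw [mul_one]
    · exact absurd (Finsupp.single_left_injective one_ne_zero h4) h5
    · exact absurd (by rw [h5]) h4
    · rw [mul_zero]
  rw [Finset.sum_congr rfl fun j _ => h3 j, Finset.sum_ite_eq' Finset.univ m,
    if_pos (Finset.mem_univ m)] at h2
  exact (map_eq_zero _).1 h2

end rel

end Vale.Agent.P200.V.Rig.Nw
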