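import Vale.Agent.P200.V.RigInt
import Vale.Agent.P200.V.RigNewR

/-!
Rigid circuits: the new element.
-/

namespace Vale.Agent.P200.V.Rig

open MvPolynomial

universe u

theorem Nw.new_elt_of {K : Type u} [Field K] {n κ : ℕ} (C : Circ K n κ) (hN : 0 < C.N) (e : ℕ)
    (he : 0 < e) {ι : Type} [Fintype ι] (h : ι → ℕ → MvPolynomial (Fin (κ + 2)) K)
    (hh : ∀ m g, (h m g).IsHomogeneous e)
    (hint : ∀ R, IntAll (Nw.K2 C ι) fun g : Fin R => Nw.B2 C e he h hh g)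
    (htriv : ∀ g, C.N + (C.N - 1) ≤ g →
      Nw.B2 C e he h hh g = Blk.triv (Nw.K2 C ι) (κ + 1 + 1)) :
    ∃ (K' : Type u) (_ : Field K') (φ : K →+* K') (κ' : ℕ) (C' : Circ K' n κ') (ξ : Gen →₀ K')
      (Y : ι → K'), C.Ext φ C' ∧ C'.S ξ ∧ (∀ c : ι → K, ∑ m, φ (c m) * Y m = 0 → c = 0) ∧
      lin K' ξ ^ e - ∑ m, MvPolynomial.C (Y m) *
        MvPolynomial.map φ (∑ g ∈ Finset.range C.N, C.ev g (h m g)) ∈ C'.I := by
  refine ⟨Nw.K2 C ι, inferInstance, Nw.ph C ι, κ + 1 + 1, Nw.newC C e he h hh hint htriv,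
    Finsupp.single (Nw.gR C (C.N - 1)) 1, fun m => Tv (Nw.K1 C) m,
    Nw.ext C e he h hh hint htriv, ?_, Nw.par_indep C, ?_⟩
  · exact Nw.sup_single (Nw.gR_used C e he h hh hint htriv hN (C.N - 1) le_rfl)
  · rw [Nw.lin_single]
    exact Nw.root_eq C e he h hh hint htriv hN

/-- **The new element** of a family of forms without scaled common zero. -/
theorem new_elt (hD : ∀ (K : Type u) [Field K] (κ : ℕ), DStep K κ) {K : Type u} [Field K]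
    {n κ : ℕ} (C : Circ K n κ) (hN : 0 < C.N) (e : ℕ) (he : 0 < e) {ι : Type} [Fintype ι]
    (h : ι → ℕ → MvPolynomial (Fin (κ + 2)) K) (hh : ∀ m g, (h m g).IsHomogeneous e)
    (hI : ∀ (Ω : Type u) [Field Ω] [IsAlgClosed Ω] [Algebra K Ω] (p : ℕ → Fin (κ + 2) → Ω),
      (∀ g < C.N, ∀ i, aeval (p g) ((C.β g).rel i) = 0) →
      (∀ m, ∑ g ∈ Finset.range C.N, aeval (p g) (h m g) = 0) → ∀ g < C.N, p g = 0) :
    ∃ (K' : Type u) (_ : Field K') (φ : K →+* K') (κ' : ℕ) (C' : Circ K' n κ') (ξ : Gen →₀ K')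
      (Y : ι → K'), C.Ext φ C' ∧ C'.S ξ ∧ (∀ c : ι → K, ∑ m, φ (c m) * Y m = 0 → c = 0) ∧
      lin K' ξ ^ e - ∑ m, MvPolynomial.C (Y m) *
        MvPolynomial.map φ (∑ g ∈ Finset.range C.N, C.ev g (h m g)) ∈ C'.I :=
  Nw.new_elt_of C hN e he h hh (Nt.hint C e he h hh hD hI) (Nt.htriv C e he h hh)

end Vale.Agent.P200.V.Rig
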