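import Vale.Agent.P200.V.RigNewB

/-!
Rigid circuits: basic properties of points and extensions.
-/

namespace Vale.Agent.P200.V.Rig

open MvPolynomial

universe u

theorem lin_hom {K : Type u} [Field K] (t : Gen →₀ K) : (lin K t).IsHomogeneous 1 := by
  classical
  induction t using Finsupp.induction_linear with
  | zero =>
    rw [map_zero]
    exact isHomogeneous_zero _ _ _
  | add a b ha hb =>
    rw [map_add]
    exact ha.add hb
  | single v c =>
    rw [lin, Finsupp.linearCombination_single, smul_eq_C_mul]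
    have h := (isHomogeneous_C Gen c).mul (isHomogeneous_X K v)
    rwa [zero_add] at h

theorem aeval_lin {K : Type u} [Field K] {Ω : Type u} [Field Ω] [Algebra K Ω] (q : Gen → Ω)
    (t : Gen →₀ K) : aeval q (lin K t) = t.sum fun v c => algebraMap K Ω c * q v := by
  rw [lin, Finsupp.linearCombination_apply, Finsupp.sum, map_sum, Finsupp.sum]
  refine Finset.sum_congr rfl fun v _ => ?_
  rw [map_smul, aeval_X, Algebra.smul_def]

section pt
variable {K : Type u} [Field K] {n κ : ℕ} (C : Circ K n κ)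

theorem Circ.hom_ev {e : ℕ} (g : ℕ) {P : MvPolynomial (Fin (κ + 2)) K} (hP : P.IsHomogeneous e) :
    (C.ev g P).IsHomogeneous e := by
  have h := hP.aeval (fun s => lin K (C.vl g s)) (n := 1) fun s => lin_hom _
  rwa [one_mul] at h

theorem Circ.aeval_ev {Ω : Type u} [Field Ω] [Algebra K Ω] (q : Gen → Ω) (g : ℕ)
    (P : MvPolynomial (Fin (κ + 2)) K) :
    aeval q (C.ev g P) = aeval (fun s => aeval q (lin K (C.vl g s))) P := by
  have h : (aeval q).comp (C.ev g) =
      (aeval (fun s => aeval q (lin K (C.vl g s))) : MvPolynomial (Fin (κ + 2)) K →ₐ[K] Ω) := by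
    refine MvPolynomial.algHom_ext fun s => ?_
    rw [AlgHom.comp_apply, Circ.ev, aeval_X, aeval_X]
  exact DFunLike.congr_fun h P

theorem Circ.pt_iff {Ω : Type u} [Field Ω] [Algebra K Ω] (q : Gen → Ω) :
    C.Pt q ↔ ∀ g < C.N, ∀ i, aeval (fun s => aeval q (lin K (C.vl g s))) ((C.β g).rel i) = 0 := by
  constructor
  · intro h g hg i
    rw [← C.aeval_ev]
    exact h _ (Ideal.subset_span ⟨g, hg, i, rfl⟩)
  · intro h P hP
    have hle : C.I ≤ RingHom.ker (aeval q : MvPolynomial Gen K →ₐ[K] Ω) := by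
      refine Ideal.span_le.2 ?_
      rintro Q ⟨g, hg, i, rfl⟩
      rw [SetLike.mem_coe, RingHom.mem_ker, C.aeval_ev]
      exact h g hg i
    exact (RingHom.mem_ker).1 (hle hP)

theorem Circ.vl_zero (g : ℕ) : C.vl g 0 = C.inp g 0 := rfl

theorem Circ.vl_one (g : ℕ) : C.vl g 1 = C.inp g 1 := rfl

theorem Circ.vl_ss (g : ℕ) (j : Fin κ) :
    C.vl g j.succ.succ = Finsupp.single (Sum.inr (g, (j : ℕ))) 1 := rfl

theorem Circ.aeval_vl_ss {Ω : Type u} [Field Ω] [Algebra K Ω] (q : Gen → Ω) (g : ℕ) (j : Fin κ) :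
    aeval q (lin K (C.vl g j.succ.succ)) = q (Sum.inr (g, (j : ℕ))) := by
  rw [C.vl_ss, aeval_lin, Finsupp.sum_single_index, map_one, one_mul]
  rw [map_zero, zero_mul]

/-- a block with zero inputs has zero elements -/
theorem Blk.pt_zero {Ω : Type u} [Field Ω] [Algebra K Ω] (b : Blk K κ) {p : Fin (κ + 2) → Ω}
    (hp : ∀ i, aeval p (b.rel i) = 0) (h0 : p 0 = 0) (h1 : p 1 = 0) : p = 0 := by
  classical
  have main : ∀ m : ℕ, ∀ s : Fin (κ + 2), (s : ℕ) = m → p s = 0 := by
    intro m
    induction m using Nat.strong_induction_on with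
    | _ m ih =>
      intro s hs
      refine Fin.cases (motive := fun s => (s : ℕ) = m → p s = 0) (fun _ => h0) (fun s => ?_) s hs
      refine Fin.cases (motive := fun s : Fin (κ + 1) => ((s.succ : Fin (κ + 2)) : ℕ) = m →
        p s.succ = 0) (fun _ => h1) (fun i hi => ?_) s
      have hr := hp i
      rw [Blk.rel, map_sub, map_pow, aeval_X] at hr
      have hz : aeval p (b.Phi i) = 0 := by
        have hc : aeval p (b.Phi i) = aeval (fun _ => (0 : Ω)) (b.Phi i) := by
          rw [aeval_def, aeval_def]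
          refine MvPolynomial.eval₂Hom_congr' rfl (fun j hj _ => ?_) rfl
          refine ih (j : ℕ) ?_ j rfl
          have := b.tri i j hj
          rw [← hi, Fin.val_succ, Fin.val_succ]
          omega
        rw [hc]
        have hh := (b.hom i).coeff_eq_zero (d := 0) (by
          have := b.e_pos i
          rw [map_zero]
          omega)
        rw [aeval_def, MvPolynomial.eval₂_eq']
        refine Finset.sum_eq_zero fun d hd => ?_
        have hd0 : d ≠ 0 := by
          rintro rfl
          exact (mem_support_iff.1 hd) hh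
        obtain ⟨j, hj⟩ := Finsupp.ne_iff.1 hd0
        rw [Finset.prod_eq_zero (Finset.mem_univ j) (zero_pow hj), mul_zero]
      rw [hz, sub_zero] at hr
      exact pow_eq_zero_iff (by have := b.e_pos i; omega) |>.1 hr
  funext s
  exact main s s rfl

theorem Circ.pt_zero {Ω : Type u} [Field Ω] [Algebra K Ω] {q : Gen → Ω} (hq : C.Pt q)
    (h : ∀ i < n, q (Sum.inl i) = 0) : ∀ v, C.U v → q v = 0 := by
  have hq' := (C.pt_iff q).1 hq
  have main : ∀ g, g < C.N → ∀ j < κ, q (Sum.inr (g, j)) = 0 := by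
    intro g
    induction g using Nat.strong_induction_on with
    | _ g ih =>
      intro hg j hj
      have hin : ∀ ε, aeval q (lin K (C.inp g ε)) = 0 := by
        intro ε
        rw [aeval_lin, Finsupp.sum]
        refine Finset.sum_eq_zero fun v hv => ?_
        have hu := C.old g hg ε v hv
        have hqv : q v = 0 := by
          rcases v with i | p
          · exact h i hu
          · exact ih p.1 hu.1 (lt_trans hu.1 hg) p.2 hu.2
        rw [hqv, mul_zero]
      have hz := Blk.pt_zero (C.β g) (p := fun s => aeval q (lin K (C.vl g s))) (hq' g hg)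
        (hin 0) (hin 1)
      have hz' := congrFun hz (⟨j, hj⟩ : Fin κ).succ.succ
      rw [C.aeval_vl_ss] at hz'
      exact hz'
  intro v hv
  rcases v with i | p
  · exact h i hv
  · exact main p.1 hv.1 p.2 hv.2

theorem Circ.Ext.refl : C.Ext (RingHom.id K) C where
  le := le_rfl
  leκ := le_rfl
  I := fun P hP => by rwa [MvPolynomial.map_id]

theorem Circ.Ext.trans {K' K'' : Type u} [Field K'] [Field K''] {κ' κ'' : ℕ} {φ : K →+* K'}
    {ψ : K' →+* K''} {C' : Circ K' n κ'} {C'' : Circ K'' n κ''} (h : C.Ext φ C')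
    (h' : C'.Ext ψ C'') : C.Ext (ψ.comp φ) C'' where
  le := h.le.trans h'.le
  leκ := h.leκ.trans h'.leκ
  I := fun P hP => by
    rw [← MvPolynomial.map_map]
    exact h'.I _ (h.I P hP)

theorem aeval_map_of_comp {K' : Type u} [Field K'] (φ : K →+* K') {Ω : Type u} [Field Ω]
    [Algebra K' Ω] [Algebra K Ω] (hc : algebraMap K Ω = (algebraMap K' Ω).comp φ) (q : Gen → Ω)
    (P : MvPolynomial Gen K) : aeval q (MvPolynomial.map φ P) = aeval q P := by
  rw [aeval_def, aeval_def, eval₂_map, hc]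

theorem Circ.Ext.pt {K' : Type u} [Field K'] {κ' : ℕ} {φ : K →+* K'} {C' : Circ K' n κ'}
    (h : C.Ext φ C') {Ω : Type u} [Field Ω] [Algebra K' Ω] [Algebra K Ω]
    (hc : algebraMap K Ω = (algebraMap K' Ω).comp φ) {q : Gen → Ω} (hq : C'.Pt q) : C.Pt q := by
  intro P hP
  rw [← aeval_map_of_comp φ hc]
  exact hq _ (h.I P hP)

theorem Circ.Ext.noZ {K' : Type u} [Field K'] {κ' : ℕ} {φ : K →+* K'} {C' : Circ K' n κ'}
    (h : C.Ext φ C') {r : ℕ} {P : Fin r → MvPolynomial Gen K} (hP : C.NoZ P) :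
    C'.NoZ fun l => MvPolynomial.map φ (P l) := by
  intro Ω _ _ _ q hq hl
  let _ : Algebra K Ω := ((algebraMap K' Ω).comp φ).toAlgebra
  have hc : algebraMap K Ω = (algebraMap K' Ω).comp φ := rfl
  refine hP Ω q (Circ.Ext.pt C h hc hq) fun l => ?_
  rw [← aeval_map_of_comp φ hc]
  exact hl l

theorem used_of_le {n κ κ' N N' : ℕ} (h : N ≤ N') (hκ : κ ≤ κ') {v : Gen} (hv : Used n κ N v) :
    Used n κ' N' v := by
  rcases v with i | p
  · exact hv
  · exact ⟨lt_of_lt_of_le hv.1 h, lt_of_lt_of_le hv.2 hκ⟩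

theorem Circ.Ext.s {K' : Type u} [Field K'] {κ' : ℕ} {φ : K →+* K'} {C' : Circ K' n κ'}
    (h : C.Ext φ C') {t : Gen →₀ K} (ht : C.S t) : C'.S (mapL φ t) := by
  intro v hv
  refine used_of_le h.le h.leκ (ht v ?_)
  exact Finsupp.support_mapRange hv

theorem Circ.Ext.u {K' : Type u} [Field K'] {κ' : ℕ} {φ : K →+* K'} {C' : Circ K' n κ'}
    (h : C.Ext φ C') {v : Gen} (hv : C.U v) : C'.U v := used_of_le h.le h.leκ hv

end pt

end Vale.Agent.P200.V.Rig
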