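import Vale.Agent.P200.V.RigPair
import Vale.Agent.P200.V.RigFam
import Vale.Agent.P200.V.RigPt
import Vale.Agent.P200.V.RigCore
import Vale.Agent.P200.V.RigNew

/-!
Rigid circuits: the stage lemma with the spanning hypothesis.
-/

namespace Vale.Agent.P200.V.Rig

open MvPolynomial

universe u

/-- **The stage lemma** with the spanning hypothesis. -/
theorem stageBin (hD : ∀ (K : Type u) [Field K] (κ : ℕ), DStep K κ) (K : Type u) [Field K]
    [Infinite K] : StageBin K := by
  intro n κ hn C e he r P E hE hBin hZ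
  obtain ⟨C1, S, Y, hext, hEY, hR, hN⟩ := exists_rich hn C e E hE
  have hBl : ∀ l, C1.Bl e (P l) := fun l => bl_of_bin C C1 e E S Y hext hEY hR (P l) (hBin l)
  obtain ⟨t, h, hh, hP1, hk1, hspan⟩ := exists_family C1 e P hBl
  have hZ1 : C1.NoZ P := by
    have h0 := Circ.Ext.noZ (C := C) hext hZ
    have h1 : (fun l => MvPolynomial.map (RingHom.id K) (P l)) = P := by
      funext l
      exact map_id (P l)
    rwa [h1] at h0
  obtain ⟨K', _, φ, κ', C', ξ, Yv, hext', hS', hli, hmem⟩ := new_elt hD C1 hN e he h hh (by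
    intro Ω _ _ _ p hp hm
    refine core C1 C.N e he S Y hR P hZ1 Ω p hp ?_ ?_
    · intro Φ hΦ hΦI
      obtain ⟨a, ha⟩ := hspan Φ hΦ hΦI
      calc ∑ g ∈ Finset.range C1.N, aeval (p g) (Φ g)
          = ∑ g ∈ Finset.range C1.N, ∑ i, a i • aeval (p g) (h (Sum.inr i) g) := by
            refine Finset.sum_congr rfl fun g hg => ?_
            rw [ha g (Finset.mem_range.1 hg), map_sum]
            exact Finset.sum_congr rfl fun i _ => map_smul _ _ _
        _ = ∑ i, a i • ∑ g ∈ Finset.range C1.N, aeval (p g) (h (Sum.inr i) g) := by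
            rw [Finset.sum_comm]
            exact Finset.sum_congr rfl fun i _ => Finset.smul_sum.symm
        _ = 0 := Finset.sum_eq_zero fun i _ => by rw [hm (Sum.inr i), smul_zero]
    · intro l
      exact ⟨h (Sum.inl l), hh _, hP1 l, hm (Sum.inl l)⟩)
  have hE0 : C.Ext φ C' := by
    have h0 := Circ.Ext.trans (C := C) hext hext'
    rwa [RingHom.comp_id] at h0
  refine ⟨K', inferInstance, φ, κ', C', ξ, fun l => Yv (Sum.inl l), hE0, hS', ?_, ?_⟩
  · intro c hc
    have h0 := hli (Sum.elim c fun _ => 0) (by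
      rw [Fintype.sum_sum_type]
      simp only [Sum.elim_inl, Sum.elim_inr, map_zero, zero_mul, Finset.sum_const_zero, add_zero]
      exact hc)
    funext l
    exact congrFun h0 (Sum.inl l)
  · have h1 : ∑ i, MvPolynomial.C (Yv (Sum.inr i)) *
        MvPolynomial.map φ (∑ g ∈ Finset.range C1.N, C1.ev g (h (Sum.inr i) g)) ∈ C'.I :=
      Ideal.sum_mem _ fun i _ => Ideal.mul_mem_left _ _ (hext'.I _ (hk1 i))
    have h2 : ∑ l, MvPolynomial.C (Yv (Sum.inl l)) * MvPolynomial.map φ
        (P l - ∑ g ∈ Finset.range C1.N, C1.ev g (h (Sum.inl l) g)) ∈ C'.I :=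
      Ideal.sum_mem _ fun l _ => Ideal.mul_mem_left _ _ (hext'.I _ (hP1 l))
    have h3 := Ideal.sub_mem _ (Ideal.add_mem _ hmem h1) h2
    have h4 : lin K' ξ ^ e - ∑ m, MvPolynomial.C (Yv m) *
        MvPolynomial.map φ (∑ g ∈ Finset.range C1.N, C1.ev g (h m g)) +
        ∑ i, MvPolynomial.C (Yv (Sum.inr i)) *
          MvPolynomial.map φ (∑ g ∈ Finset.range C1.N, C1.ev g (h (Sum.inr i) g)) -
        ∑ l, MvPolynomial.C (Yv (Sum.inl l)) * MvPolynomial.map φ
          (P l - ∑ g ∈ Finset.range C1.N, C1.ev g (h (Sum.inl l) g)) =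
        lin K' ξ ^ e - ∑ l, MvPolynomial.C (Yv (Sum.inl l)) * MvPolynomial.map φ (P l) := by
      rw [Fintype.sum_sum_type]
      simp only [map_sub, mul_sub, Finset.sum_sub_distrib]
      ring
    rwa [h4] at h3

end Vale.Agent.P200.V.Rig
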