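import Vale.Agent.P200.V.RkDefs

/-!
The properties of the rank used by the localization (interface between (A) and (B)).
-/

namespace Vale.Agent.P200.V

open Module

universe u

section
variable {K : Type u} [Field K] {D : Type u} [DivisionRing D] [Algebra K D] {κ R : ℕ}

/-- constant vectors -/
noncomputable def cst (κ R : ℕ) {ι : Type*} (v : ι → D) : ι → PA D κ R :=
  fun i => AddMonoidAlgebra.single 0 (v i)

/-- the relations only: the free object `O^s` -/
noncomputable def N0 (D : Type u) [DivisionRing D] [Algebra K D] (β : Fin R → Blk K κ) (s : ℕ) :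
    Submodule (PA D κ R) (Fin s → PA D κ R) :=
  Submodule.span (PA D κ R) {u | ∃ g i j, u = Pi.single j (bm K D κ g ((β g).rel i))}

/-- the vector of the monomials of degree `n` in `x`, `y` -/
noncomputable def mv (D : Type u) [DivisionRing D] (κ n : ℕ) : Fin (n + 1) → PA D κ 1 :=
  fun j => va D κ 1 (0, 0) ^ (n - (j : ℕ)) * va D κ 1 (0, 1) ^ (j : ℕ)

/-- the vector `(x, y, -η_i)` -/
noncomputable def ev3 (D : Type u) [DivisionRing D] (κ : ℕ) (i : Fin κ) : Fin 3 → PA D κ 1 :=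
  ![va D κ 1 (0, 0), va D κ 1 (0, 1), - va D κ 1 (0, i.succ.succ)]

/-- the linear map of a matrix of constants -/
noncomputable def cmat (κ R : ℕ) {s t : ℕ} (w : Fin s → Fin t → D) :
    (Fin s → PA D κ R) →ₗ[PA D κ R] (Fin t → PA D κ R) :=
  Fintype.linearCombination (PA D κ R) fun i => cst κ R (w i)

/-- **The properties of the rank** (one block). -/
structure RkAx (D : Type u) [DivisionRing D] [Algebra K D] (β : Blk K κ) : Prop where
  ex : ∀ (s : ℕ) (N : Submodule (PA D κ 1) (Fin s → PA D κ 1)), IsG (fun _ : Fin 1 => β) N →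
    ∃ k, IsRk β N k
  coker : ∀ (s t : ℕ) (N : Submodule (PA D κ 1) (Fin s → PA D κ 1))
    (N' : Submodule (PA D κ 1) (Fin t → PA D κ 1)) (w : Fin s → Fin t → D),
    IsG (fun _ : Fin 1 => β) N → IsG (fun _ : Fin 1 => β) N' → N ≤ N'.comap (cmat κ 1 w) →
    ∀ k k' k'', IsRk β N k → IsRk β N' k' →
      IsRk β (N' ⊔ Submodule.span (PA D κ 1) (Set.range fun i => cst κ 1 (w i))) k'' →
      k' ≤ k + k''
  prod : ∀ (s t : ℕ) (N : Submodule (PA D κ 1) (Fin s → PA D κ 1))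
    (N' : Submodule (PA D κ 1) (Fin t → PA D κ 1)),
    IsG (fun _ : Fin 1 => β) N → IsG (fun _ : Fin 1 => β) N' →
    ∀ k k', IsRk β N k → IsRk β N' k' →
      IsRk β (N.comap (LinearMap.funLeft (PA D κ 1) (PA D κ 1) (Fin.castAdd t)) ⊓
        N'.comap (LinearMap.funLeft (PA D κ 1) (PA D κ 1) (Fin.natAdd s))) (k + k')
  one : IsRk β (N0 D (fun _ : Fin 1 => β) 1) 1
  top : ∀ s : ℕ, IsRk β (⊤ : Submodule (PA D κ 1) (Fin s → PA D κ 1)) 0
  mono : ∀ n : ℕ, IsRk β (N0 D (fun _ : Fin 1 => β) (n + 1) ⊔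
    Submodule.span (PA D κ 1) {mv D κ n}) 0
  eta : ∀ (i : Fin κ) (k : ℕ), IsRk β (N0 D (fun _ : Fin 1 => β) 3 ⊔
    Submodule.span (PA D κ 1) {ev3 D κ i}) k → 1 ≤ k

theorem IsRk.unique {β : Blk K κ} {s : ℕ} {N : Submodule (PA D κ 1) (Fin s → PA D κ 1)} {k k' : ℕ}
    (h : IsRk β N k) (h' : IsRk β N k') : k = k' := by
  obtain ⟨N1, a1, a2, a3⟩ := h.1
  obtain ⟨N2, b1, b2, b3⟩ := h'.1
  have h1 := h'.2 N1 a1 a2 _ a3
  have h2 := h.2 N2 b1 b2 _ b3
  omega

end

end Vale.Agent.P200.V
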