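import Vale.Agent.P200.V.RkMu
import Vale.Agent.P200.V.RkAx

/-!
**(A), part 7: the properties used by the localization.**  (`RkGr`, `RkGrB`, `Rk`, `RkMu` as black boxes.)

`rkAx`: translate.  `IsG N ↔ IsGi N` (`isGi_iff`); `N0 D β s = N0i D β (Fin s)` (both are the smallest
object, or compare generators); `coker` from `isRk_comap_le` (`cmat w` is homogeneous of degree `0`, its range is the span of the
rows); `prod` from `isRk_dsum` and reindexing along `finSumFinEquiv : Fin s ⊕ Fin t ≃ Fin (s + t)`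
(`qdi_funLeft`, `isGi_funLeft`: `IsRk` is invariant under reindexing); `mono` from `isRk_mu` by the
reindexing `i ↦ n - i` (`Fin.revPerm`); `x`, `y` commute; `eta` = `isRk_eta`.
-/

namespace Vale.Agent.P200.V

open Module

universe u

variable {K : Type u} [Field K] {D : Type u} [DivisionRing D] [Algebra K D] {κ : ℕ}
  {ι ι' : Type} {β : Blk K κ}

/-- `rho` is invariant under reindexing -/
theorem a7_isRho_funLeft (e : ι ≃ ι') {N : Submodule (PA D κ 1) (ι → PA D κ 1)} {r : ℤ}
    (h : IsRho β N r) :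
    IsRho β (N.comap (LinearMap.funLeft (PA D κ 1) (PA D κ 1) e)) r := by
  obtain ⟨A, B, hr, m0, h0⟩ := h
  exact ⟨A, B, hr, m0, fun m hm => by rw [qdi_funLeft, h0 m hm]⟩

/-- reindexing back -/
theorem a7_comap_symm (e : ι ≃ ι') (N : Submodule (PA D κ 1) (ι → PA D κ 1)) :
    (N.comap (LinearMap.funLeft (PA D κ 1) (PA D κ 1) e)).comap
      (LinearMap.funLeft (PA D κ 1) (PA D κ 1) e.symm) = N := by
  ext u
  rw [Submodule.mem_comap, Submodule.mem_comap]
  have h : LinearMap.funLeft (PA D κ 1) (PA D κ 1) e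
      (LinearMap.funLeft (PA D κ 1) (PA D κ 1) e.symm u) = u := by
    funext i
    rw [LinearMap.funLeft_apply, LinearMap.funLeft_apply, Equiv.symm_apply_apply]
  rw [h]

/-- the rank is invariant under reindexing -/
theorem isRk_funLeft (e : ι ≃ ι') {N : Submodule (PA D κ 1) (ι → PA D κ 1)} {k : ℕ}
    (h : IsRk β N k) : IsRk β (N.comap (LinearMap.funLeft (PA D κ 1) (PA D κ 1) e)) k := by
  obtain ⟨⟨N', h1, h2, h3⟩, h4⟩ := h
  refine ⟨⟨_, Submodule.comap_mono h1, isGi_funLeft e h2, a7_isRho_funLeft e h3⟩, ?_⟩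
  intro N'' h5 h6 r h7
  refine h4 _ ?_ (isGi_funLeft e.symm h6) r (a7_isRho_funLeft e.symm h7)
  have h8 := Submodule.comap_mono (f := LinearMap.funLeft (PA D κ 1) (PA D κ 1) e.symm) h5
  rwa [a7_comap_symm] at h8

/-- the two versions of the smallest object -/
theorem a7_N0_eq (s : ℕ) : N0 D (fun _ : Fin 1 => β) s = N0i D (fun _ : Fin 1 => β) (Fin s) := by
  apply le_antisymm
  · unfold N0
    rw [Submodule.span_le]
    rintro u ⟨g, i, j, rfl⟩
    refine Submodule.subset_span ⟨g, i, Pi.single j 1, ?_⟩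
    rw [← Pi.single_smul, smul_eq_mul, mul_one]
  · unfold N0i
    rw [Submodule.span_le]
    rintro u ⟨g, i, w, rfl⟩
    have h2 : bm K D κ g (((fun _ : Fin 1 => β) g).rel i) • w =
        ∑ j, w j • (Pi.single j (bm K D κ g (((fun _ : Fin 1 => β) g).rel i)) :
          Fin s → PA D κ 1) := by
      funext j
      rw [Finset.sum_apply, Finset.sum_eq_single j]
      · rw [Pi.smul_apply, Pi.smul_apply, Pi.single_eq_same, smul_eq_mul, smul_eq_mul]
        exact bm_comm _ _ _
      · intro j' _ hj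
        rw [Pi.smul_apply, Pi.single_eq_of_ne hj.symm, smul_zero]
      · intro hj
        exact absurd (Finset.mem_univ _) hj
    rw [h2]
    exact Submodule.sum_mem _ fun j _ =>
      Submodule.smul_mem _ _ (Submodule.subset_span ⟨g, i, j, rfl⟩)

theorem a7_le_comap (e : ι ≃ ι') (u : ι' → PA D κ 1) :
    N0i D (fun _ : Fin 1 => β) ι' ⊔ Submodule.span (PA D κ 1) {u} ≤
      (N0i D (fun _ : Fin 1 => β) ι ⊔ Submodule.span (PA D κ 1) {fun i => u (e i)}).comap
        (LinearMap.funLeft (PA D κ 1) (PA D κ 1) e) := by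
  apply sup_le
  · unfold N0i
    rw [Submodule.span_le]
    rintro v ⟨g, i, w, rfl⟩
    exact Submodule.mem_sup_left (Submodule.subset_span ⟨g, i, fun j => w (e j), rfl⟩)
  · rw [Submodule.span_singleton_le_iff_mem]
    exact Submodule.mem_sup_right (Submodule.mem_span_singleton_self _)

/-- reindexing of an object generated by one vector -/
theorem a7_comap_eq (e : ι ≃ ι') (u : ι' → PA D κ 1) :
    (N0i D (fun _ : Fin 1 => β) ι ⊔ Submodule.span (PA D κ 1) {fun i => u (e i)}).comap
        (LinearMap.funLeft (PA D κ 1) (PA D κ 1) e) =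
      N0i D (fun _ : Fin 1 => β) ι' ⊔ Submodule.span (PA D κ 1) {u} := by
  apply le_antisymm _ (a7_le_comap e u)
  have h1 := Submodule.comap_mono (f := LinearMap.funLeft (PA D κ 1) (PA D κ 1) e)
    (a7_le_comap (β := β) e.symm fun i => u (e i))
  have h2 := a7_comap_symm (D := D) (κ := κ) e.symm (N0i D (fun _ : Fin 1 => β) ι' ⊔
    Submodule.span (PA D κ 1) {fun i => u (e (e.symm i))})
  rw [Equiv.symm_symm] at h2
  rw [h2] at h1
  simpa only [Equiv.apply_symm_apply] using h1

/-- constant matrices are homogeneous of degree `0` -/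
theorem a7_cmat_isHomg {s t : ℕ} (w : Fin s → Fin t → D) : IsHomg 0 (cmat κ 1 w) := by
  intro n u
  have h1 : ∀ u : Fin s → PA D κ 1, cmat κ 1 w u =
      fun j => ∑ i, u i * AddMonoidAlgebra.single 0 (w i j) := by
    intro u
    funext j
    rw [cmat, Fintype.linearCombination_apply, Finset.sum_apply]
    rfl
  rw [h1, h1]
  funext j
  change cp D κ 1 (n + 0) (∑ i, u i * AddMonoidAlgebra.single 0 (w i j)) =
    ∑ i, cp D κ 1 n (u i) * AddMonoidAlgebra.single 0 (w i j)
  rw [map_sum]
  refine Finset.sum_congr rfl fun i _ => cp_mul_right ?_ n (u i)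
  have h2 := a1_single_mem (0 : Mon κ 1) (w i j)
  have h3 : mdeg (0 : Mon κ 1) = 0 := by
    funext g
    unfold mdeg
    exact Finset.sum_eq_zero fun _ _ => rfl
  rwa [h3] at h2

theorem rkAx (hI : IntP D (fun _ : Fin 1 => β)) : RkAx D β where
  ex s N hN := exists_isRk hI ((isGi_iff N).2 hN)
  coker s t N N' w _ _ hle k k' k'' h h' h'' := by
    refine isRk_comap_le hI (a7_cmat_isHomg w) hle h h' ?_
    have h1 : LinearMap.range (cmat κ 1 w) =
        Submodule.span (PA D κ 1) (Set.range fun i => cst κ 1 (w i)) :=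
      Fintype.range_linearCombination _ _
    rwa [h1]
  prod s t N N' hN hN' k k' h h' :=
    isRk_funLeft finSumFinEquiv
      (isRk_dsum hI ((isGi_iff N).2 hN) ((isGi_iff N').2 hN') h h')
  one := by
    have h := isRk_N0i hI (Fin 1)
    rw [Nat.card_eq_fintype_card, Fintype.card_fin] at h
    rwa [a7_N0_eq]
  top s := isRk_top β (Fin s)
  mono n := by
    rw [a7_N0_eq]
    have h := isRk_funLeft Fin.revPerm (isRk_mu hI n)
    have h1 : (fun i : Fin (n + 1) => va D κ 1 (0, 0) ^ (i : ℕ) * va D κ 1 (0, 1) ^ (n - i : ℕ)) =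
        fun i => mv D κ n (Fin.revPerm i) := by
      funext i
      unfold mv
      have h2 : ((Fin.revPerm i : Fin (n + 1)) : ℕ) = n - i := by
        rw [Fin.revPerm_apply, Fin.val_rev]
        omega
      have h3 : (i : ℕ) = n - (n - i) := by
        have := i.isLt
        omega
      rw [h2, ← h3]
    rw [h1, a7_comap_eq] at h
    exact h
  eta i k h := by
    rw [a7_N0_eq] at h
    exact isRk_eta hI i h

end Vale.Agent.P200.V
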