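import Vale.Agent.P200.V.Rkl
import Vale.Agent.P200.V.LocB

/-!
# The dimension formula for the localization of one block
-/

open CategoryTheory CategoryTheory.Limits

universe u

namespace Vale.Agent.P200.V.SB

open Module Vale.Agent.P200.E

/-- **the dimension formula** for the skew field `UB h` -/
theorem rklB {K : Type u} [Field K] {D : Type u} [DivisionRing D] [Algebra K D] {κ : ℕ}
    {β : Blk K κ} (h : RkAx D β) : @RKL K _ D _ _ κ β (UB h) (divUB h) (algUB h) := by
  letI := divUB h
  letI := algUB h
  intro t u
  exact rkl h (LQ h) (thUB h) (fun c => rfl) t u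

end Vale.Agent.P200.V.SB
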