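import Vale.Agent.P200.V.Top
import Vale.Agent.P200.V.LocB
import Vale.Agent.P200.V.RklB
import Vale.Agent.P200.V.RkAxP
import Vale.Agent.P200.V.RigStage
import Vale.Agent.P200.V.RigRec
import Vale.Agent.P200.V.RigMain
import Vale.Agent.P200.V.FProp

/-!
The Eisenbud-Green-Harris conjecture over every field.
-/

namespace Vale.Agent.P200.V

open MvPolynomial Module
open Vale.Agent.P200.B Vale.Agent.P200.G Vale.Agent.P200.L Vale.Agent.P200.M

universe u

theorem full_locB (K : Type u) [Field K] (κ : ℕ) : LocB K κ :=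
  locB_of K κ (fun _ _ _ _ hI => rkAx hI) fun D _ _ β0 h => SB.rklB h

theorem full_stage : TopStage.{u} := fun hD => Rig.stageAll fun K _ _ => Rig.stageBin hD K

theorem full_circ : TopCirc.{u} := fun hS _ _ _ h0 n hn f d hd hmono hf hfin =>
  Rig.exists_circ hS hn (h0 n).some f d hd hmono hf hfin

/-- **The conjecture of Eisenbud, Green and Harris.** -/
theorem egh_of_level (hD : LevelLemma.{u})
    (K : Type u) [Field K] {n c : ℕ} (h : c ≤ n) (a : Fin c → ℕ)
    (ha : Monotone a) (h2 : ∀ i, 2 ≤ a i) (f : Fin c → MvPolynomial (Fin n) K)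
    (hf : ∀ i, (f i).IsHomogeneous (a i)) (hreg : IsRegularSeq f)
    (I : Ideal (MvPolynomial (Fin n) K)) (hI : ∀ g ∈ I, ∀ d, homogeneousComponent d g ∈ I)
    (hfI : ∀ i, f i ∈ I) :
    ∃ J : Ideal (MvPolynomial (Fin n) K), J.restrictScalars K = lexPlusPowers h a I :=
  top_egh full_locB hD full_stage full_circ fProp K h a ha h2 f hf hreg I hI hfI

end Vale.Agent.P200.V
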