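import Vale.Agent.P200.W.Degen
import Vale.Agent.P200.Q.Small3

/-!
Eisenbud-Green-Harris: the interfaces of the last steps, and the conjecture from them.

`EOut k` : the output of the circuits for regular sequences of length `n` in `n` variables over `k`.
`FProp K D` : monomial ideals from commuting linear forms over a division algebra.
`MonAt k` : the conjecture for `c = n` over `k`, in terms of monomial ideals.
-/

namespace Vale.Agent.P200.V

open MvPolynomial Module
open Vale.Agent.P200.B Vale.Agent.P200.G Vale.Agent.P200.L Vale.Agent.P200.M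

universe u

/-- commuting linear forms `ξ_i` over `D` with
`ξ_i ^ a_i = G_i + ∑_(j > i) L_(i,j) ξ_j ^ a_i`, `G_i` over the central field `K` -/
structure Roots (K D : Type u) [Field K] [DivisionRing D] [Algebra K D] {n : ℕ} (a : Fin n → ℕ)
    (E : Fin n → Fin n → D) (Lc : Fin n → Fin n → K) (G : Fin n → MvPolynomial (Fin n) K) :
    Prop where
  comm : ∀ i j, (M.lin (E i) * M.lin (E j) : YR D n) = M.lin (E j) * M.lin (E i)
  hom : ∀ i, (G i).IsHomogeneous (a i)
  prim : IsMPrimary (Ideal.span (Set.range G))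
  pow : ∀ i, (M.lin (E i) ^ a i : YR D n) =
    bD D (G i) + ∑ j ∈ Finset.Ioi i, bD D (C (Lc i j)) * M.lin (E j) ^ a i

/-- **(E)** the output of the circuits -/
def EOut (k : Type u) [Field k] : Prop :=
  ∀ (n : ℕ) (a : Fin n → ℕ), Monotone a → (∀ i, 2 ≤ a i) →
    ∀ f : Fin n → MvPolynomial (Fin n) k, (∀ i, (f i).IsHomogeneous (a i)) →
      IsMPrimary (Ideal.span (Set.range f)) →
      ∃ (K : Type u) (_ : Field K) (_ : Algebra k K) (D : Type u) (_ : DivisionRing D)
        (_ : Algebra K D) (E : Fin n → Fin n → D) (Lc : Fin n → Fin n → K)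
        (G : Fin n → MvPolynomial (Fin n) K), Roots K D a E Lc G ∧
        ∀ i, G i ∈ (Ideal.span (Set.range f)).map (MvPolynomial.map (algebraMap k K))

/-- **(F)** monomial ideals from commuting linear forms -/
def FProp (K D : Type u) [Field K] [DivisionRing D] [Algebra K D] : Prop :=
  ∀ (n : ℕ) (a : Fin n → ℕ), (∀ i, 1 ≤ a i) → ∀ (E : Fin n → Fin n → D)
    (Lc : Fin n → Fin n → K) (G : Fin n → MvPolynomial (Fin n) K), Roots K D a E Lc G →
    ∀ I : Ideal (MvPolynomial (Fin n) K), HomIdeal I → (∀ i, G i ∈ I) →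
      ∃ S : Set (Fin n →₀ ℕ), (∀ m ∈ S, ∀ i, m + Finsupp.single i 1 ∈ S) ∧
        (∀ i, Finsupp.single i (a i) ∈ S) ∧
        ∀ d, finrank K (piece I d) = finrank K (piece (monIdeal K S) d)

/-- the conjecture for `c = n`, in terms of monomial ideals -/
def MonAt (k : Type u) [Field k] : Prop :=
  ∀ (n : ℕ) (a : Fin n → ℕ), Monotone a → (∀ i, 2 ≤ a i) →
    ∀ f : Fin n → MvPolynomial (Fin n) k, (∀ i, (f i).IsHomogeneous (a i)) →
      IsMPrimary (Ideal.span (Set.range f)) →
      ∀ I : Ideal (MvPolynomial (Fin n) k), HomIdeal I → (∀ i, f i ∈ I) →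
        ∃ S : Set (Fin n →₀ ℕ), (∀ m ∈ S, ∀ i, m + Finsupp.single i 1 ∈ S) ∧
          (∀ i, Finsupp.single i (a i) ∈ S) ∧
          ∀ d, finrank k (piece I d) = finrank k (piece (monIdeal k S) d)

/-- the dimension of the pieces does not change when the field is extended -/
theorem finrank_piece_map {k K : Type*} [Field k] [Field K] [Algebra k K] {n : ℕ}
    (I : Ideal (MvPolynomial (Fin n) k)) (hI : HomIdeal I) (d : ℕ) :
    finrank K (piece (I.map (MvPolynomial.map (σ := Fin n) (algebraMap k K))) d) =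
      finrank k (piece I d) := by
  have h4 := finrank_piece_add_hilb (I.map (MvPolynomial.map (σ := Fin n) (algebraMap k K))) d
  have h5 := finrank_piece_add_hilb I d
  rw [hilb_baseChange I hI] at h4
  have h6 : finrank K (homogeneousSubmodule (Fin n) K d) =
      finrank k (homogeneousSubmodule (Fin n) k d) := by
    rw [finrank_homogeneousSubmodule, finrank_homogeneousSubmodule]
  omega

/-- the pieces of a monomial ideal over different fields -/
theorem finrank_piece_monIdeal_eq (k K : Type*) [Field k] [Field K] {n : ℕ}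
    {S : Set (Fin n →₀ ℕ)} (hup : ∀ m ∈ S, ∀ i, m + Finsupp.single i 1 ∈ S) (d : ℕ) :
    finrank K (piece (monIdeal K S) d) = finrank k (piece (monIdeal k S) d) := by
  have hfin : {m : Fin n →₀ ℕ | m ∈ S ∧ ∑ i, m i = d}.Finite :=
    (deg_finite n d).subset fun m hm => hm.2
  rw [piece_monIdeal hup, piece_monIdeal hup, G.finrank_restrictSupport _ hfin,
    G.finrank_restrictSupport _ hfin]

theorem monAt_of (k : Type u) [Field k]
    (hF : ∀ (K D : Type u) [Field K] [DivisionRing D] [Algebra K D], FProp K D)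
    (hE : EOut k) : MonAt k := by
  intro n a hmono h2 f hf hm I hI hfI
  obtain ⟨K, _, _, D, _, _, E, Lc, Gf, hR, hG⟩ := hE n a hmono h2 f hf hm
  have hle : Ideal.span (Set.range f) ≤ I := by
    rw [Ideal.span_le]
    rintro _ ⟨i, rfl⟩
    exact hfI i
  obtain ⟨S, hup, hpw, hdim⟩ := hF K D n a (fun i => le_trans one_le_two (h2 i)) E Lc Gf hR
    (I.map (MvPolynomial.map (algebraMap k K))) (homIdeal_baseChange hI)
    (fun i => Ideal.map_mono hle (hG i))
  refine ⟨S, hup, hpw, fun d => ?_⟩
  rw [← finrank_piece_map (K := K) I hI, hdim, finrank_piece_monIdeal_eq k K hup]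

/-- **The conjecture of Eisenbud, Green and Harris** from `MonAt`. -/
theorem egh_of_monAt (K : Type u) [Field K] (hmon : MonAt (AlgebraicClosure K)) {n c : ℕ}
    (h : c ≤ n) (a : Fin c → ℕ)
    (ha : Monotone a) (h2 : ∀ i, 2 ≤ a i) (f : Fin c → MvPolynomial (Fin n) K)
    (hf : ∀ i, (f i).IsHomogeneous (a i)) (hreg : IsRegularSeq f)
    (I : Ideal (MvPolynomial (Fin n) K)) (hI : HomIdeal I) (hfI : ∀ i, f i ∈ I) :
    ∃ J : Ideal (MvPolynomial (Fin n) K), J.restrictScalars K = lexPlusPowers h a I := by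
  apply lexPlusPowers_isIdeal_of_growth
  intro d
  set N := d + 2 + ∑ i, a i with hN
  refine ⟨N, by omega, ?_⟩
  have haN : ∀ i, a i ≤ N := by
    intro i
    have := Finset.single_le_sum (fun j _ => Nat.zero_le (a j)) (Finset.mem_univ i)
    omega
  refine Q.growth_transfer K h a h2 f hf hreg I hI hfI d N (by omega) ?_
  intro F hF hFm hFf hFs I' hI' hFI'
  obtain ⟨S, hup, hpw, hdim⟩ := hmon n _ (monotone_extDeg h a ha haN)
    (Q.two_le_extDeg h a h2 (by omega)) F hF hFm I' hI' hFI'
  exact W.w17_egh _ (monotone_extDeg h a ha haN) I' hup hpw hdim d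

/-- the same statement, with the interfaces -/
theorem egh_of_out (K : Type u) [Field K]
    (hF : ∀ (K D : Type u) [Field K] [DivisionRing D] [Algebra K D], FProp K D)
    (hE : EOut (AlgebraicClosure K)) {n c : ℕ} (h : c ≤ n) (a : Fin c → ℕ)
    (ha : Monotone a) (h2 : ∀ i, 2 ≤ a i) (f : Fin c → MvPolynomial (Fin n) K)
    (hf : ∀ i, (f i).IsHomogeneous (a i)) (hreg : IsRegularSeq f)
    (I : Ideal (MvPolynomial (Fin n) K)) (hI : ∀ g ∈ I, ∀ d, homogeneousComponent d g ∈ I)
    (hfI : ∀ i, f i ∈ I) :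
    ∃ J : Ideal (MvPolynomial (Fin n) K), J.restrictScalars K = lexPlusPowers h a I :=
  egh_of_monAt K (monAt_of _ hF hE) h a ha h2 f hf hreg I hI hfI

end Vale.Agent.P200.V
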