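import Mathlib

/-!
Homogeneous submodules of graded free modules over polynomial rings.

`ι` is the group of degrees, `wt v` the degree of the variable `v`, `sh j` the
degree of the basis vector `j` of the free module `(J → k[σ])`.  All modules are subquotients
`A / B` of such free modules; `hd A ν` is the dimension of `A` in degree `ν`.
-/

set_option linter.all false

namespace Vale.Agent.P200.V

open Module MvPolynomial

universe u v

section gr
variable {k : Type u} [Field k] {σ ι J J' : Type} [AddCommGroup ι]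

/-- the degree of a monomial -/
def dg (wt : σ → ι) (e : σ →₀ ℕ) : ι := e.sum fun v m => m • wt v

/-- the vectors of degree `ν` -/
def gp (k : Type u) [Field k] (wt : σ → ι) (sh : J → ι) (ν : ι) :
    Submodule k (J → MvPolynomial σ k) where
  carrier := {f | ∀ j e, coeff e (f j) ≠ 0 → dg wt e + sh j = ν}
  add_mem' := by
    intro a b ha hb j e he
    by_contra h
    rw [Pi.add_apply, coeff_add, of_not_not (fun h' => h (ha j e h')),
      of_not_not (fun h' => h (hb j e h')), add_zero] at he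
    exact he rfl
  zero_mem' := by
    intro j e he
    rw [Pi.zero_apply, coeff_zero] at he
    exact absurd rfl he
  smul_mem' := by
    intro c a ha j e he
    by_contra h
    rw [Pi.smul_apply, coeff_smul, of_not_not (fun h' => h (ha j e h')), smul_zero] at he
    exact he rfl

open scoped Classical in
/-- the component of degree `ν` -/
noncomputable def cmp (wt : σ → ι) (sh : J → ι) (ν : ι) (f : J → MvPolynomial σ k) :
    J → MvPolynomial σ k :=
  fun j => ∑ e ∈ (f j).support with dg wt e + sh j = ν, monomial e (coeff e (f j))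

/-- homogeneous submodules -/
def HomS (wt : σ → ι) (sh : J → ι)
    (A : Submodule (MvPolynomial σ k) (J → MvPolynomial σ k)) : Prop :=
  ∀ f ∈ A, ∀ ν, cmp wt sh ν f ∈ A

/-- the part of degree `ν` -/
noncomputable def gpart (wt : σ → ι) (sh : J → ι)
    (A : Submodule (MvPolynomial σ k) (J → MvPolynomial σ k)) (ν : ι) :
    Submodule k (J → MvPolynomial σ k) :=
  A.restrictScalars k ⊓ gp k wt sh ν

/-- the dimension in degree `ν` -/
noncomputable def hd (wt : σ → ι) (sh : J → ι)
    (A : Submodule (MvPolynomial σ k) (J → MvPolynomial σ k)) (ν : ι) : ℕ :=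
  finrank k (gpart wt sh A ν)

/-- a linear map of degree `δ` -/
def IsDeg (wt : σ → ι) (sh : J → ι) (sh' : J' → ι) (δ : ι)
    (φ : (J → MvPolynomial σ k) →ₗ[MvPolynomial σ k] (J' → MvPolynomial σ k)) : Prop :=
  ∀ ν, ∀ f ∈ gp k wt sh ν, φ f ∈ gp k wt sh' (ν + δ)

/-- the elements of `A` which `φ` maps into `C` -/
noncomputable def kerIn (φ : (J → MvPolynomial σ k) →ₗ[MvPolynomial σ k] (J' → MvPolynomial σ k))
    (A : Submodule (MvPolynomial σ k) (J → MvPolynomial σ k))
    (C : Submodule (MvPolynomial σ k) (J' → MvPolynomial σ k)) :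
    Submodule (MvPolynomial σ k) (J → MvPolynomial σ k) := A ⊓ C.comap φ

end gr

section gr
variable {k : Type u} [Field k] {σ ι J J' : Type} [Fintype σ] [Fintype J] [Fintype J']
  [AddCommGroup ι] {wt : σ → ι} {sh : J → ι} {sh' : J' → ι}

theorem dg_add (wt : σ → ι) (e e' : σ →₀ ℕ) : dg wt (e + e') = dg wt e + dg wt e' := by
  unfold dg
  exact Finsupp.sum_add_index' (fun _ => zero_smul _ _) (fun _ _ _ => add_smul _ _ _)

theorem dg_single (wt : σ → ι) (v : σ) : dg wt (Finsupp.single v 1) = wt v := by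
  have h : (0 : ℕ) • wt v = 0 := zero_smul ℕ (wt v)
  have h2 := Finsupp.sum_single_index (a := v) (b := 1) (h := fun (v : σ) (m : ℕ) => m • wt v) h
  unfold dg
  rw [h2, one_smul]

open scoped Classical in
theorem coeff_cmp (ν : ι) (f : J → MvPolynomial σ k) (j : J) (e : σ →₀ ℕ) :
    coeff e (cmp wt sh ν f j) = if dg wt e + sh j = ν then coeff e (f j) else 0 := by
  unfold cmp
  rw [coeff_sum]
  simp only [coeff_monomial]
  rw [Finset.sum_ite_eq']
  simp only [Finset.mem_filter, MvPolynomial.mem_support_iff]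
  by_cases h1 : dg wt e + sh j = ν
  · rw [if_pos h1]
    by_cases h2 : coeff e (f j) = 0
    · rw [h2]
      simp
    · rw [if_pos ⟨h2, h1⟩]
  · rw [if_neg h1, if_neg (fun h => h1 h.2)]

theorem cmp_mem_gp (ν : ι) (f : J → MvPolynomial σ k) : cmp wt sh ν f ∈ gp k wt sh ν := by
  intro j e he
  rw [coeff_cmp] at he
  by_contra h
  rw [if_neg h] at he
  exact he rfl

theorem cmp_eq_self {ν : ι} {f : J → MvPolynomial σ k} (hf : f ∈ gp k wt sh ν) :
    cmp wt sh ν f = f := by
  funext j
  ext e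
  rw [coeff_cmp]
  by_cases h : coeff e (f j) = 0
  · rw [h]
    simp
  · rw [if_pos (hf j e h)]

theorem cmp_eq_zero_of_ne {ν μ : ι} {f : J → MvPolynomial σ k} (hf : f ∈ gp k wt sh μ) (h : μ ≠ ν) :
    cmp wt sh ν f = 0 := by
  funext j
  ext e
  rw [coeff_cmp, Pi.zero_apply, coeff_zero]
  by_cases h1 : coeff e (f j) = 0
  · rw [h1]
    simp
  · rw [if_neg]
    intro h2
    exact h ((hf j e h1).symm.trans h2)

theorem cmp_add (ν : ι) (f g : J → MvPolynomial σ k) :
    cmp wt sh ν (f + g) = cmp wt sh ν f + cmp wt sh ν g := by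
  funext j
  ext e
  rw [Pi.add_apply, coeff_add, coeff_cmp, coeff_cmp, coeff_cmp, Pi.add_apply, coeff_add]
  split_ifs
  · rfl
  · rw [add_zero]

theorem cmp_zero (ν : ι) : cmp wt sh ν (0 : J → MvPolynomial σ k) = 0 := by
  funext j
  ext e
  rw [coeff_cmp]
  simp

theorem cmp_sum {α : Type*} (S : Finset α) (ν : ι) (g : α → J → MvPolynomial σ k) :
    cmp wt sh ν (∑ a ∈ S, g a) = ∑ a ∈ S, cmp wt sh ν (g a) := by
  classical
  induction S using Finset.induction_on with
  | empty => rw [Finset.sum_empty, Finset.sum_empty, cmp_zero]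
  | insert a S ha ih => rw [Finset.sum_insert ha, Finset.sum_insert ha, cmp_add, ih]

/-- a vector is the sum of its components -/
theorem exists_sum_cmp (f : J → MvPolynomial σ k) :
    ∃ S : Finset ι, f = ∑ ν ∈ S, cmp wt sh ν f ∧ ∀ ν ∉ S, cmp wt sh ν f = 0 := by
  classical
  let S : Finset ι := Finset.univ.biUnion fun j => (f j).support.image fun e => dg wt e + sh j
  have hS : ∀ j e, coeff e (f j) ≠ 0 → dg wt e + sh j ∈ S := by
    intro j e he
    exact Finset.mem_biUnion.2 ⟨j, Finset.mem_univ j, Finset.mem_image.2 ⟨e, MvPolynomial.mem_support_iff.2 he, rfl⟩⟩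
  refine ⟨S, ?_, ?_⟩
  · funext j
    ext e
    rw [Finset.sum_apply, coeff_sum]
    simp only [coeff_cmp]
    rw [Finset.sum_ite_eq]
    by_cases h : coeff e (f j) = 0
    · rw [h]
      simp
    · rw [if_pos (hS j e h)]
  · intro ν hν
    funext j
    ext e
    rw [coeff_cmp, Pi.zero_apply, coeff_zero]
    by_cases h : coeff e (f j) = 0
    · rw [h]
      simp
    · rw [if_neg]
      intro h2
      exact hν (h2 ▸ hS j e h)

theorem X_smul_mem_gp (v : σ) {ν : ι} {f : J → MvPolynomial σ k} (hf : f ∈ gp k wt sh ν) :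
    (X v : MvPolynomial σ k) • f ∈ gp k wt sh (ν + wt v) := by
  classical
  intro j e he
  rw [Pi.smul_apply, smul_eq_mul, coeff_X_mul'] at he
  by_cases hv : v ∈ e.support
  · rw [if_pos hv] at he
    have h1 := hf j _ he
    have h2 : e = (e - Finsupp.single v 1) + Finsupp.single v 1 := by
      rw [tsub_add_cancel_of_le]
      rw [Finsupp.single_le_iff]
      exact Nat.one_le_iff_ne_zero.2 (Finsupp.mem_support_iff.1 hv)
    rw [h2, dg_add, dg_single, ← h1]
    abel
  · rw [if_neg hv] at he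
    exact absurd rfl he

theorem IsDeg.cmp_map {δ : ι}
    {φ : (J → MvPolynomial σ k) →ₗ[MvPolynomial σ k] (J' → MvPolynomial σ k)}
    (hφ : IsDeg wt sh sh' δ φ) (ν : ι) (f : J → MvPolynomial σ k) :
    cmp wt sh' (ν + δ) (φ f) = φ (cmp wt sh ν f) := by
  classical
  obtain ⟨S, hS1, hS2⟩ := exists_sum_cmp (wt := wt) (sh := sh) f
  have h1 : φ f = ∑ μ ∈ S, φ (cmp wt sh μ f) := by
    conv_lhs => rw [hS1]
    rw [map_sum]
  have h2 : ∀ μ ∈ S, cmp wt sh' (ν + δ) (φ (cmp wt sh μ f)) =
      if μ = ν then φ (cmp wt sh μ f) else 0 := by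
    intro μ _
    have h3 : φ (cmp wt sh μ f) ∈ gp k wt sh' (μ + δ) := hφ μ _ (cmp_mem_gp μ f)
    split_ifs with h
    · rw [← h]
      exact cmp_eq_self h3
    · exact cmp_eq_zero_of_ne h3 (fun h4 => h (add_right_cancel h4))
  rw [h1, cmp_sum, Finset.sum_congr rfl h2, Finset.sum_ite_eq']
  split_ifs with h
  · rfl
  · rw [hS2 ν h, map_zero]

theorem homS_bot : HomS (k := k) wt sh ⊥ := by
  intro f hf ν
  rw [(Submodule.mem_bot _).1 hf, cmp_zero]
  exact Submodule.zero_mem _

theorem homS_top : HomS (k := k) wt sh ⊤ := fun _ _ _ => Submodule.mem_top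

theorem HomS.inf {A B : Submodule (MvPolynomial σ k) (J → MvPolynomial σ k)}
    (hA : HomS wt sh A) (hB : HomS wt sh B) : HomS wt sh (A ⊓ B) :=
  fun f hf ν => ⟨hA f hf.1 ν, hB f hf.2 ν⟩

theorem HomS.sup {A B : Submodule (MvPolynomial σ k) (J → MvPolynomial σ k)}
    (hA : HomS wt sh A) (hB : HomS wt sh B) : HomS wt sh (A ⊔ B) := by
  intro f hf ν
  obtain ⟨a, ha, b, hb, rfl⟩ := Submodule.mem_sup.1 hf
  rw [cmp_add]
  exact Submodule.add_mem_sup (hA a ha ν) (hB b hb ν)

theorem HomS.map {δ : ι}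
    {φ : (J → MvPolynomial σ k) →ₗ[MvPolynomial σ k] (J' → MvPolynomial σ k)}
    (hφ : IsDeg wt sh sh' δ φ) {A : Submodule (MvPolynomial σ k) (J → MvPolynomial σ k)}
    (hA : HomS wt sh A) : HomS wt sh' (A.map φ) := by
  rintro f ⟨a, ha, rfl⟩ ν
  have := hφ.cmp_map (ν - δ) a
  rw [sub_add_cancel] at this
  rw [this]
  exact Submodule.mem_map_of_mem (hA a ha _)

theorem HomS.kerIn {δ : ι}
    {φ : (J → MvPolynomial σ k) →ₗ[MvPolynomial σ k] (J' → MvPolynomial σ k)}
    (hφ : IsDeg wt sh sh' δ φ) {A : Submodule (MvPolynomial σ k) (J → MvPolynomial σ k)}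
    (hA : HomS wt sh A) {C : Submodule (MvPolynomial σ k) (J' → MvPolynomial σ k)}
    (hC : HomS wt sh' C) : HomS wt sh (kerIn φ A C) := by
  intro f hf ν
  refine ⟨hA f hf.1 ν, ?_⟩
  show φ (cmp wt sh ν f) ∈ C
  rw [← hφ.cmp_map]
  exact hC _ hf.2 _

/-- homogeneous submodules are generated by finitely many homogeneous elements -/
theorem HomS.exists_gen {A : Submodule (MvPolynomial σ k) (J → MvPolynomial σ k)}
    (hA : HomS wt sh A) : ∃ (S : Finset (J → MvPolynomial σ k)),
      Submodule.span (MvPolynomial σ k) (S : Set (J → MvPolynomial σ k)) = A ∧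
      ∀ f ∈ S, ∃ ν, f ∈ gp k wt sh ν := by
  classical
  obtain ⟨S0, hS0⟩ := IsNoetherian.noetherian A
  choose T hT1 hT2 using fun f : J → MvPolynomial σ k => exists_sum_cmp (wt := wt) (sh := sh) f
  refine ⟨S0.biUnion fun f => (T f).image fun ν => cmp wt sh ν f, ?_, ?_⟩
  · refine le_antisymm (Submodule.span_le.2 ?_) ?_
    · intro g hg
      rw [Finset.mem_coe, Finset.mem_biUnion] at hg
      obtain ⟨f, hf, hg⟩ := hg
      obtain ⟨ν, _, rfl⟩ := Finset.mem_image.1 hg
      exact hA f (hS0 ▸ Submodule.subset_span hf) ν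
    · rw [← hS0]
      refine Submodule.span_le.2 ?_
      intro f hf
      rw [hT1 f]
      refine Submodule.sum_mem _ fun ν hν => Submodule.subset_span ?_
      rw [Finset.mem_coe, Finset.mem_biUnion]
      exact ⟨f, hf, Finset.mem_image.2 ⟨ν, hν, rfl⟩⟩
  · intro g hg
    obtain ⟨f, _, hg⟩ := Finset.mem_biUnion.1 hg
    obtain ⟨ν, _, rfl⟩ := Finset.mem_image.1 hg
    exact ⟨ν, cmp_mem_gp ν f⟩

end gr

/-- all variables are positive for a linear form on the group of degrees -/
def Pos {σ ι : Type} [AddCommGroup ι] (wt : σ → ι) : Prop := ∃ φ : ι →+ ℤ, ∀ v, 0 < φ (wt v)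

end Vale.Agent.P200.V
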