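import Vale.Agent.P200.V.Gr

/-!
Dimensions of the graded parts of submodules of graded free modules.
-/

namespace Vale.Agent.P200.V

open Module MvPolynomial

universe u

section dim
variable {k : Type u} [Field k] {σ ι J J' : Type} [Fintype σ] [Fintype J] [Fintype J']
  [AddCommGroup ι] {wt : σ → ι} {sh : J → ι} {sh' : J' → ι}

theorem grd_dg_eq (φ : ι →+ ℤ) (e : σ →₀ ℕ) :
    φ (dg wt e) = ∑ w, (e w : ℤ) * φ (wt w) := by
  rw [dg, Finsupp.sum_fintype e (fun v m => m • wt v) (fun _ => zero_nsmul _), map_sum]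
  refine Finset.sum_congr rfl fun w _ => ?_
  rw [map_nsmul, nsmul_eq_mul]

theorem grd_dg_nonneg {φ : ι →+ ℤ} (hφ : ∀ v, 0 < φ (wt v)) (e : σ →₀ ℕ) (v : σ) :
    (e v : ℤ) ≤ φ (dg wt e) := by
  classical
  rw [grd_dg_eq]
  have h2 : (e v : ℤ) * φ (wt v) ≤ ∑ w, (e w : ℤ) * φ (wt w) :=
    Finset.single_le_sum (f := fun w => (e w : ℤ) * φ (wt w))
      (fun w _ => mul_nonneg (Int.natCast_nonneg _) (hφ w).le) (Finset.mem_univ v)
  have h3 : (e v : ℤ) * 1 ≤ (e v : ℤ) * φ (wt v) :=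
    mul_le_mul_of_nonneg_left (hφ v) (Int.natCast_nonneg _)
  linarith

theorem grd_dg_nonneg' {φ : ι →+ ℤ} (hφ : ∀ v, 0 < φ (wt v)) (e : σ →₀ ℕ) :
    0 ≤ φ (dg wt e) := by
  classical
  rw [grd_dg_eq]
  exact Finset.sum_nonneg fun w _ => mul_nonneg (Int.natCast_nonneg _) (hφ w).le

theorem finite_gp (hwt : Pos wt) (ν : ι) : FiniteDimensional k (gp k wt sh ν) := by
  classical
  obtain ⟨φ, hφ⟩ := hwt
  -- a bound for the exponents
  obtain ⟨n, hn⟩ : ∃ n : ℕ, ∀ j, φ ν - φ (sh j) ≤ n := by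
    refine ⟨(∑ j, |φ ν - φ (sh j)|).toNat, fun j => ?_⟩
    have h1 : |φ ν - φ (sh j)| ≤ ∑ j, |φ ν - φ (sh j)| :=
      Finset.single_le_sum (f := fun j => |φ ν - φ (sh j)|) (fun _ _ => abs_nonneg _)
        (Finset.mem_univ j)
    have h2 := le_abs_self (φ ν - φ (sh j))
    have h3 := Int.self_le_toNat (∑ j, |φ ν - φ (sh j)|)
    linarith
  let T : Set (σ →₀ ℕ) := Set.Iic (Finsupp.equivFunOnFinite.symm fun _ => n)
  have hT : T.Finite := Set.finite_Iic _
  have : Finite T := hT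
  let Q : gp k wt sh ν →ₗ[k] (J × T → k) :=
    { toFun := fun f a => coeff (a.2 : σ →₀ ℕ) ((f : J → MvPolynomial σ k) a.1)
      map_add' := fun f g => by
        funext a
        exact coeff_add _ _ _
      map_smul' := fun c f => by
        funext a
        exact coeff_smul _ _ _ }
  refine Module.Finite.of_injective Q ?_
  intro f g hfg
  apply Subtype.ext
  funext j
  ext e
  by_cases he : e ∈ T
  · exact congrFun hfg (j, ⟨e, he⟩)
  · have h0 : ∀ f : gp k wt sh ν, coeff e ((f : J → MvPolynomial σ k) j) = 0 := by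
      intro f
      by_contra hne
      apply he
      have h1 := f.2 j e hne
      intro v
      have h2 := grd_dg_nonneg hφ e v
      have h3 : φ (dg wt e) = φ ν - φ (sh j) := by
        rw [← h1, map_add, add_sub_cancel_right]
      have h4 := hn j
      have h5 : (e v : ℤ) ≤ n := by linarith
      exact_mod_cast h5
    rw [h0, h0]

theorem finite_gpart (hwt : Pos wt)
    (A : Submodule (MvPolynomial σ k) (J → MvPolynomial σ k)) (ν : ι) :
    FiniteDimensional k (gpart wt sh A ν) := by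
  have := finite_gp (k := k) (sh := sh) hwt ν
  exact Submodule.finiteDimensional_of_le (inf_le_right : gpart wt sh A ν ≤ gp k wt sh ν)

theorem hd_mono (hwt : Pos wt)
    {A B : Submodule (MvPolynomial σ k) (J → MvPolynomial σ k)} (h : A ≤ B)
    (ν : ι) : hd wt sh A ν ≤ hd wt sh B ν := by
  have := finite_gpart (sh := sh) hwt B ν
  exact Submodule.finrank_mono (inf_le_inf_right _ fun f hf => h hf)

/-- dimensions and linear maps: `A / ker = image` -/
theorem hd_kerIn (hwt : Pos wt) {δ : ι}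
    {φ : (J → MvPolynomial σ k) →ₗ[MvPolynomial σ k] (J' → MvPolynomial σ k)}
    (hφ : IsDeg wt sh sh' δ φ) {A : Submodule (MvPolynomial σ k) (J → MvPolynomial σ k)}
    (hA : HomS wt sh A) {C : Submodule (MvPolynomial σ k) (J' → MvPolynomial σ k)}
    (hC : HomS wt sh' C) (ν : ι) :
    hd wt sh A ν + hd wt sh' C (ν + δ) =
      hd wt sh (kerIn φ A C) ν + hd wt sh' (C ⊔ A.map φ) (ν + δ) := by
  have hfA := finite_gpart (sh := sh) hwt A ν
  have hfK := finite_gpart (sh := sh) hwt (kerIn φ A C) ν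
  have hfC := finite_gpart (sh := sh') hwt C (ν + δ)
  let φk : (J → MvPolynomial σ k) →ₗ[k] (J' → MvPolynomial σ k) := φ.restrictScalars k
  -- the kernels and images
  have hdim : ∀ V : Submodule k (J → MvPolynomial σ k), FiniteDimensional k V →
      finrank k (V.map φk) + finrank k (V ⊓ LinearMap.ker φk : Submodule k _) = finrank k V := by
    intro V hV
    have h1 := LinearMap.finrank_range_add_finrank_ker (φk.domRestrict V)
    rw [LinearMap.range_domRestrict, LinearMap.ker_domRestrict] at h1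
    have h2 : finrank k ((LinearMap.ker φk).comap V.subtype) =
        finrank k (V ⊓ LinearMap.ker φk : Submodule k _) := by
      rw [← Submodule.map_comap_subtype]
      exact (LinearEquiv.finrank_eq
        (Submodule.equivMapOfInjective V.subtype V.injective_subtype _))
    rw [h2] at h1
    exact h1
  have hK1 : (gpart wt sh (kerIn φ A C) ν).map φk =
      (gpart wt sh A ν).map φk ⊓ gpart wt sh' C (ν + δ) := by
    ext u
    constructor
    · rintro ⟨f, ⟨⟨hf1, hf2⟩, hf3⟩, rfl⟩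
      exact ⟨⟨f, ⟨hf1, hf3⟩, rfl⟩, ⟨hf2, hφ ν f hf3⟩⟩
    · rintro ⟨⟨f, ⟨hf1, hf3⟩, rfl⟩, ⟨hf2, _⟩⟩
      exact ⟨f, ⟨⟨hf1, hf2⟩, hf3⟩, rfl⟩
  have hK2 : gpart wt sh (kerIn φ A C) ν ⊓ LinearMap.ker φk =
      gpart wt sh A ν ⊓ LinearMap.ker φk := by
    ext f
    constructor
    · rintro ⟨⟨⟨hf1, _⟩, hf3⟩, hf4⟩
      exact ⟨⟨hf1, hf3⟩, hf4⟩
    · rintro ⟨⟨hf1, hf3⟩, hf4⟩
      have h0 : φ f = 0 := hf4
      refine ⟨⟨⟨hf1, ?_⟩, hf3⟩, hf4⟩
      change φ f ∈ C
      rw [h0]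
      exact C.zero_mem
  have hU : gpart wt sh' (C ⊔ A.map φ) (ν + δ) =
      (gpart wt sh A ν).map φk ⊔ gpart wt sh' C (ν + δ) := by
    apply le_antisymm
    · rintro u ⟨hu1, hu2⟩
      obtain ⟨c, hc, b, ⟨a, ha, rfl⟩, hcb⟩ := Submodule.mem_sup.mp (show u ∈ C ⊔ A.map φ from hu1)
      have h1 : u = φ (cmp wt sh ν a) + cmp wt sh' (ν + δ) c := by
        rw [← cmp_eq_self hu2, ← hcb, cmp_add, hφ.cmp_map, add_comm]
      rw [h1]
      exact Submodule.add_mem_sup ⟨_, ⟨hA a ha ν, cmp_mem_gp ν a⟩, rfl⟩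
        ⟨hC c hc _, cmp_mem_gp _ c⟩
    · refine sup_le ?_ ?_
      · rintro _ ⟨f, ⟨hf1, hf2⟩, rfl⟩
        exact ⟨Submodule.mem_sup_right (Submodule.mem_map_of_mem hf1), hφ ν f hf2⟩
      · rintro f ⟨hf1, hf2⟩
        exact ⟨Submodule.mem_sup_left hf1, hf2⟩
  have h1 := hdim _ hfA
  have h2 := hdim _ hfK
  rw [hK1, hK2] at h2
  have hfm : FiniteDimensional k ((gpart wt sh A ν).map φk) := inferInstance
  have h3 := Submodule.finrank_sup_add_finrank_inf_eq ((gpart wt sh A ν).map φk)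
    (gpart wt sh' C (ν + δ))
  rw [← hU] at h3
  rw [hd, hd, hd, hd]
  omega

/-- a finitely generated module is zero in very negative degrees -/
theorem hd_eq_of_neg {φ : ι →+ ℤ} (hφ : ∀ v, 0 < φ (wt v)) :
    ∃ c : ℤ, ∀ (A : Submodule (MvPolynomial σ k) (J → MvPolynomial σ k)) (ν : ι),
      φ ν < c → hd wt sh A ν = 0 := by
  refine ⟨-∑ j, |φ (sh j)|, fun A ν hν => ?_⟩
  have h0 : gpart wt sh A ν = ⊥ := by
    rw [eq_bot_iff]
    rintro f ⟨_, hf⟩
    rw [Submodule.mem_bot]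
    funext j
    ext e
    rw [Pi.zero_apply, coeff_zero]
    by_contra hne
    have h1 := hf j e hne
    have h2 := grd_dg_nonneg' hφ e
    have h3 : φ (dg wt e) + φ (sh j) = φ ν := by rw [← h1, map_add]
    have h4 : |φ (sh j)| ≤ ∑ j, |φ (sh j)| :=
      Finset.single_le_sum (f := fun j => |φ (sh j)|) (fun _ _ => abs_nonneg _)
        (Finset.mem_univ j)
    have h5 := neg_abs_le (φ (sh j))
    linarith
  rw [hd, h0, finrank_bot]

end dim

end Vale.Agent.P200.V
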