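import Vale.Agent.P200.V.Blk

/-!
Functions whose second differences vanish eventually in every direction are eventually in the
lattice of the blocks without elements.
-/

namespace Vale.Agent.P200.V

theorem cons_add_single_succ {R : ℕ} (a : ℕ) (m : Fin R → ℕ) (g : Fin R) (k : ℕ) :
    (Fin.cons a m : Fin (R + 1) → ℕ) + Pi.single g.succ k = Fin.cons a (m + Pi.single g k) := by
  funext i
  refine Fin.cases ?_ (fun i => ?_) i
  · simp [Pi.add_apply, (Fin.succ_ne_zero g).symm]
  · simp [Pi.add_apply, Pi.single_apply]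

theorem cons_add_single_zero {R : ℕ} (a : ℕ) (m : Fin R → ℕ) (k : ℕ) :
    (Fin.cons a m : Fin (R + 1) → ℕ) + Pi.single 0 k = Fin.cons (a + k) m := by
  funext i
  refine Fin.cases ?_ (fun i => ?_) i
  · simp [Pi.add_apply]
  · simp [Pi.add_apply]

/-- a function whose second differences vanish eventually in every direction is eventually
multi-affine with integer coefficients -/
theorem lam_of_diff : ∀ (R : ℕ) (e : Fin R → Fin 0 → ℕ) (H : (Fin R → ℕ) → ℤ) (n0 : ℕ),
    (∀ g n, (∀ g', n0 ≤ n g') →
      H (n + Pi.single g 2) - 2 * H (n + Pi.single g 1) + H n = 0) →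
    ∃ f, Lam R e f ∧ ∀ n : Fin R → ℕ, (∀ g, n0 ≤ n g) → H n = f fun g => (n g : ℤ) := by
  intro R
  induction R with
  | zero =>
    intro e H n0 _
    refine ⟨fun _ => H fun g => g.elim0, ?_, ?_⟩
    · rw [lam_zero]; trivial
    · intro n _
      congr 1
      funext g
      exact g.elim0
  | succ R ih =>
    intro e H n0 h
    have hle : ∀ (a : ℕ) (m : Fin R → ℕ), n0 ≤ a → (∀ g, n0 ≤ m g) →
        ∀ g', n0 ≤ (Fin.cons a m : Fin (R + 1) → ℕ) g' := by
      intro a m ha hm g'
      refine Fin.cases ?_ (fun i => ?_) g'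
      · simpa using ha
      · simpa using hm i
    obtain ⟨fA, hA, hA'⟩ := ih (Fin.tail e)
      (fun m => H (Fin.cons (n0 + 1) m) - H (Fin.cons n0 m)) n0 (by
        intro g m hm
        have h1 := h g.succ (Fin.cons (n0 + 1) m) (hle _ _ (Nat.le_succ _) hm)
        have h2 := h g.succ (Fin.cons n0 m) (hle _ _ le_rfl hm)
        rw [cons_add_single_succ, cons_add_single_succ] at h1 h2
        linarith)
    obtain ⟨fB, hB, hB'⟩ := ih (Fin.tail e)
      (fun m => H (Fin.cons n0 m) -
        (H (Fin.cons (n0 + 1) m) - H (Fin.cons n0 m)) * (n0 + 1)) n0 (by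
        intro g m hm
        have h1 := h g.succ (Fin.cons (n0 + 1) m) (hle _ _ (Nat.le_succ _) hm)
        have h2 := h g.succ (Fin.cons n0 m) (hle _ _ le_rfl hm)
        rw [cons_add_single_succ, cons_add_single_succ] at h1 h2
        linear_combination h2 - (n0 + 1 : ℤ) * (h1 - h2))
    have key : ∀ (k : ℕ) (m : Fin R → ℕ), (∀ g, n0 ≤ m g) →
        H (Fin.cons (n0 + k) m) = H (Fin.cons n0 m) +
          k * (H (Fin.cons (n0 + 1) m) - H (Fin.cons n0 m)) ∧
        H (Fin.cons (n0 + (k + 1)) m) = H (Fin.cons n0 m) +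
          (k + 1) * (H (Fin.cons (n0 + 1) m) - H (Fin.cons n0 m)) := by
      intro k m hm
      induction k with
      | zero => constructor <;> simp
      | succ k ihk =>
        obtain ⟨h1, h2⟩ := ihk
        refine ⟨by rw [h2]; push_cast; ring, ?_⟩
        have h3 := h 0 (Fin.cons (n0 + k) m) (hle _ _ (Nat.le_add_right _ _) hm)
        rw [cons_add_single_zero, cons_add_single_zero,
          show n0 + k + 2 = n0 + (k + 1 + 1) by omega,
          show n0 + k + 1 = n0 + (k + 1) by omega] at h3
        rw [h1, h2] at h3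
        push_cast
        linear_combination h3
    refine ⟨fun n => fA (Fin.tail n) * hO (e 0) (n 0) + fB (Fin.tail n) * dl (e 0), ?_, ?_⟩
    · rw [lam_succ]
      exact ⟨fA, fB, hA, hB, fun _ => rfl⟩
    · intro n hn
      have hd : dl (e 0) = 1 := by simp [dl]
      have hh : ∀ x : ℤ, hO (e 0) x = x + 1 := by intro x; simp [hO, hd]
      have hn' : n = Fin.cons (n 0) (Fin.tail n) := (Fin.cons_self_tail n).symm
      have ht : ∀ g, n0 ≤ Fin.tail n g := fun g => hn g.succ
      obtain ⟨k, hk⟩ := Nat.exists_eq_add_of_le (hn 0)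
      have h1 := (key k (Fin.tail n) ht).1
      rw [← hk, ← hn'] at h1
      have h2 := hA' (Fin.tail n) ht
      have h3 := hB' (Fin.tail n) ht
      have h4 : (Fin.tail fun g => (n g : ℤ)) = fun g => ((Fin.tail n g : ℕ) : ℤ) := rfl
      simp only [hh, hd, h4]
      rw [← h2, ← h3, h1, hk]
      push_cast
      ring

end Vale.Agent.P200.V
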