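import Vale.Agent.P200.V.Br1
import Vale.Agent.P200.V.HilD
import Vale.Agent.P200.V.Van
import Vale.Agent.P200.V.LamDiff

/-!
Integrality for blocks without elements.
-/

namespace Vale.Agent.P200.V

open Module MvPolynomial

universe u

section one
variable {k : Type u} [Field k] {σ ι J : Type} [Fintype σ] [Fintype J] [Fintype ι]

theorem of_mem_filter {α : Type*} (p : α → Prop) (inst : DecidablePred p) (s : Finset α) (a : α)
    (h : a ∈ @Finset.filter α p inst s) : p a :=
  (Finset.mem_filter.1 h).2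

omit [Fintype ι] in
theorem dg_pair (wt : σ → ι → ℤ) (e : σ →₀ ℕ) :
    dg (fun v => ((wt v, 0) : (ι → ℤ) × ℤ)) e = (dg wt e, 0) := by
  rw [dg, dg, Finsupp.sum_fintype _ _ (fun i => by simp),
    Finsupp.sum_fintype _ _ (fun i => by simp)]
  refine Prod.ext ?_ ?_
  · rw [Prod.fst_sum]
    rfl
  · rw [Prod.snd_sum]
    exact Finset.sum_eq_zero fun v _ => by simp

/-- `hd_eq_of_killed` without the last degree -/
theorem hd_eq_of_killed_one {wt : σ → ι → ℤ} {sh : J → ι → ℤ} (hwt : Pos wt)
    (blk : σ → Option ι)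
    (hblk : ∀ v i, wt v i = open scoped Classical in if blk v = some i then 1 else 0)
    {A B : Submodule (MvPolynomial σ k) (J → MvPolynomial σ k)}
    (hA : HomS wt sh A) (hB : HomS wt sh B) (hBA : B ≤ A) (d : ℕ)
    (hd' : ∀ e : σ →₀ ℕ, (∀ b, d ≤ bdeg blk e b) → ∀ f ∈ A, monomial e (1 : k) • f ∈ B) :
    ∃ n0 : ℤ, ∀ n : ι → ℤ, (∀ i, n0 ≤ n i) → hd wt sh A n = hd wt sh B n := by
  have hgp : ∀ (ν : ι → ℤ), gp k (fun v => ((wt v, 0) : (ι → ℤ) × ℤ))
      (fun j => ((sh j, 0) : (ι → ℤ) × ℤ)) (ν, 0) = gp k wt sh ν := by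
    intro ν
    ext f
    constructor
    · intro h j e he
      have h1 := h j e he
      rw [dg_pair] at h1
      exact congrArg Prod.fst h1
    · intro h j e he
      have h1 := h j e he
      rw [dg_pair]
      exact Prod.ext h1 (add_zero 0)
  have hh : ∀ (A : Submodule (MvPolynomial σ k) (J → MvPolynomial σ k)) (ν : ι → ℤ),
      hd (fun v => ((wt v, 0) : (ι → ℤ) × ℤ)) (fun j => ((sh j, 0) : (ι → ℤ) × ℤ)) A (ν, 0) =
        hd wt sh A ν := by
    intro A ν
    rw [hd, hd, gpart, gpart, hgp]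
  have hH : ∀ {A : Submodule (MvPolynomial σ k) (J → MvPolynomial σ k)}, HomS wt sh A →
      HomS (fun v => ((wt v, 0) : (ι → ℤ) × ℤ)) (fun j => ((sh j, 0) : (ι → ℤ) × ℤ)) A := by
    intro A hA f hf ν
    obtain ⟨ν, t⟩ := ν
    by_cases ht : t = 0
    · subst ht
      have h1 : cmp (fun v => ((wt v, 0) : (ι → ℤ) × ℤ)) (fun j => ((sh j, 0) : (ι → ℤ) × ℤ))
          (ν, 0) f = cmp wt sh ν f := by
        funext j
        ext e
        rw [coeff_cmp', coeff_cmp', dg_pair]
        congr 1
        rw [Prod.mk_add_mk, Prod.mk.injEq, add_zero]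
        simp
      rw [h1]
      exact hA f hf ν
    · have h1 : cmp (fun v => ((wt v, 0) : (ι → ℤ) × ℤ)) (fun j => ((sh j, 0) : (ι → ℤ) × ℤ))
          (ν, t) f = 0 := by
        funext j
        ext e
        rw [coeff_cmp', dg_pair, if_neg]
        · rfl
        · intro h
          exact ht ((congrArg Prod.snd h).symm.trans (add_zero 0))
      rw [h1]
      exact A.zero_mem
  obtain ⟨φ, hφ⟩ := hwt
  obtain ⟨n0, h⟩ := hd_eq_of_killed (wt := fun v => ((wt v, 0) : (ι → ℤ) × ℤ))
    (sh := fun j => ((sh j, 0) : (ι → ℤ) × ℤ))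
    ⟨φ.comp (AddMonoidHom.fst _ _), fun v => hφ v⟩ blk hblk (hH hA) (hH hB) hBA d hd'
  refine ⟨n0, fun n hn => ?_⟩
  have := h n 0 hn
  rwa [hh, hh] at this

end one

section
variable {K : Type u} [Field K] {R : ℕ}

/-- modules killed by both variables of a block are zero in large degrees -/
theorem hil_killed {J0 : Set (MvPolynomial (Fin R × Fin (0 + 2)) K)} (g : Fin R)
    (h0 : X (g, 0) ∈ J0) (h1 : X (g, 1) ∈ J0) {f : (Fin R → ℤ) → ℤ}
    (hf : f ∈ Hil K (wB 0 R) J0) : EvEq f 0 := by
  refine AddSubgroup.closure_induction (p := fun f _ => EvEq f 0) ?_ ?_ ?_ ?_ hf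
  · rintro f ⟨s, sh, N, hN, hJ, hfN⟩
    obtain ⟨n0, h⟩ := hd_eq_of_killed_one (pos_wB 0 R) (fun v => some v.1) (by
        intro v i
        rw [wB, Pi.single_apply]
        by_cases h : i = v.1
        · rw [if_pos h, if_pos (by rw [h])]
        · rw [if_neg h, if_neg (fun h' => h (Option.some.inj h').symm)])
      (A := ⊤) homS_top hN le_top 1 (by
        intro e he w _
        have he' := he g
        have h2 : ∃ v : Fin R × Fin (0 + 2), v.1 = g ∧ 1 ≤ e v := by
          by_contra hc
          push Not at hc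
          have : bdeg (fun v : Fin R × Fin (0 + 2) => some v.1) e g = 0 := by
            rw [bdeg]
            refine Finset.sum_eq_zero fun v hv => ?_
            exact Nat.lt_one_iff.1 (hc v (Option.some.inj
              (of_mem_filter (fun v : Fin R × Fin (0 + 2) => some v.1 = some g) _ _ _ hv)))
          omega
        obtain ⟨v, hv, hev⟩ := h2
        have hv' : X v ∈ J0 := by
          obtain ⟨g', i⟩ := v
          have hg' : g' = g := hv
          subst hg'
          fin_cases i
          · exact h0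
          · exact h1
        have h3 : monomial e (1 : K) = monomial (e - Finsupp.single v 1) (1 : K) * X v := by
          rw [X, monomial_mul, one_mul, tsub_add_cancel_of_le]
          exact Finsupp.single_le_iff.2 hev
        have h4 : monomial e (1 : K) • w =
            ∑ j, (monomial (e - Finsupp.single v 1) (1 : K) * w j) •
              (Pi.single j (X v) : Fin s → MvPolynomial (Fin R × Fin (0 + 2)) K) := by
          funext j
          rw [Finset.sum_apply, Finset.sum_eq_single j]
          · rw [Pi.smul_apply, Pi.smul_apply, Pi.single_eq_same, h3, smul_eq_mul, smul_eq_mul]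
            ring
          · intro j' _ hj'
            rw [Pi.smul_apply, Pi.single_eq_of_ne hj'.symm, smul_zero]
          · intro h
            exact absurd (Finset.mem_univ j) h
        rw [h4]
        exact Submodule.sum_mem _ fun j _ => Submodule.smul_mem _ _ (hJ _ hv' j))
    refine ⟨n0, fun n hn => ?_⟩
    rw [hfN, h n hn]
    simp
  · exact ⟨0, fun n _ => rfl⟩
  · rintro a b _ _ ⟨n0, ha⟩ ⟨n1, hb⟩
    refine ⟨max n0 n1, fun n hn => ?_⟩
    rw [Pi.add_apply, ha n fun i => (le_max_left _ _).trans (hn i),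
      hb n fun i => (le_max_right _ _).trans (hn i)]
    rfl
  · rintro a _ ⟨n0, ha⟩
    refine ⟨n0, fun n hn => ?_⟩
    rw [Pi.neg_apply, ha n hn]
    rfl

theorem hom_X {κ : ℕ} (v : Fin R × Fin (κ + 2)) :
    ∀ e, coeff e (X v : MvPolynomial (Fin R × Fin (κ + 2)) K) ≠ 0 → dg (wB κ R) e =
      Pi.single v.1 1 := by
  classical
  intro e he
  rw [coeff_X] at he
  have h : Finsupp.single v 1 = e := by
    by_contra h
    rw [if_neg h] at he
    exact he rfl
  rw [← h, dg, Finsupp.sum_single_index (by simp), one_smul, wB]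

/-- second differences -/
theorem hil_diff {f : (Fin R → ℤ) → ℤ} (hf : f ∈ Hil K (wB 0 R) ∅) (g : Fin R) :
    ∃ n0 : ℕ, ∀ n : Fin R → ℕ, (∀ i, n0 ≤ n i) →
      f (fun i => ((n + Pi.single g 2 : Fin R → ℕ) i : ℤ)) -
        2 * f (fun i => ((n + Pi.single g 1 : Fin R → ℕ) i : ℤ)) + f (fun i => (n i : ℤ)) = 0 := by
  have h1 := Hil.dev (pos_wB 0 R) (hom_X (K := K) ((g, 0) : Fin R × Fin (0 + 2))) hf
  have h2 := Hil.dev (pos_wB 0 R) (hom_X (K := K) ((g, 1) : Fin R × Fin (0 + 2))) h1
  obtain ⟨n0, h⟩ := hil_killed g (by simp) (by simp) h2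
  refine ⟨n0.toNat, fun n hn => ?_⟩
  have h3 := h (fun i => ((n + Pi.single g 2 : Fin R → ℕ) i : ℤ)) (by
    intro i
    have := hn i
    rw [Pi.add_apply]
    push_cast
    omega)
  rw [Pi.zero_apply, map_sub, map_one, LinearMap.sub_apply, Module.End.one_apply, Pi.sub_apply,
    act_el, LinearMap.sub_apply, Module.End.one_apply, Pi.sub_apply, Pi.sub_apply,
    act_el, act_el] at h3
  have e1 : (fun i => ((n + Pi.single g 2 : Fin R → ℕ) i : ℤ)) - Pi.single g 1 =
      fun i => ((n + Pi.single g 1 : Fin R → ℕ) i : ℤ) := by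
    funext i
    by_cases hi : i = g
    · subst hi
      simp
      ring
    · simp [Pi.single_eq_of_ne hi]
  have e2 : (fun i => ((n + Pi.single g 1 : Fin R → ℕ) i : ℤ)) - Pi.single g 1 =
      fun i => (n i : ℤ) := by
    funext i
    by_cases hi : i = g
    · subst hi
      simp
    · simp [Pi.single_eq_of_ne hi]
  rw [e1, e2] at h3
  linarith

/-- integrality for blocks without elements -/
theorem intP_zero (β : Fin R → Blk K 0) : IntP K β := by
  intro s N hN
  have hf : (fun ν => (hd (wB 0 R) (fun _ : Fin s => (0 : Fin R → ℤ))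
      (⊤ : Submodule (MvPolynomial (Fin R × Fin (0 + 2)) K)
        (Fin s → MvPolynomial (Fin R × Fin (0 + 2)) K)) ν : ℤ) -
      hd (wB 0 R) (fun _ : Fin s => (0 : Fin R → ℤ))
      (N : Submodule (MvPolynomial (Fin R × Fin (0 + 2)) K)
        (Fin s → MvPolynomial (Fin R × Fin (0 + 2)) K)) ν) ∈ Hil K (wB 0 R) ∅ := by
    refine AddSubgroup.subset_closure ⟨s, fun _ => 0, N, (homS_iff N).2 hN.hom, ?_, fun ν => rfl⟩
    intro p hp
    exact absurd hp (Set.notMem_empty p)
  choose n1 hn1 using fun g : Fin R => hil_diff hf g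
  obtain ⟨f, hL, hf'⟩ := lam_of_diff R (fun g => (β g).e) (fun n => (qd N n : ℤ))
    (∑ g, n1 g) (by
      intro g n hn
      have := hn1 g n fun i => (Finset.single_le_sum (fun _ _ => Nat.zero_le _)
        (Finset.mem_univ g)).trans (hn i)
      simp only [qd_eq]
      exact this)
  exact ⟨f, hL, _, hf'⟩

theorem intZero (K : Type u) [Field K] (R : ℕ) (β : Fin R → Blk K 0) : IntAll K β :=
  fun _ _ _ => intP_zero _

end

end Vale.Agent.P200.V
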