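import Vale.Agent.P200.V.KosOp
import Vale.Agent.P200.V.GrD
import Vale.Agent.P200.V.Act

/-!
Hilbert functions of families indexed by `(Fin N → Bool) × J`; the degree of the subset `S` is
`|S| • δ`.
-/

namespace Vale.Agent.P200.V

open Module MvPolynomial Vale.Agent.P200.S

universe u

section cnt
variable {N : ℕ}

/-- the cardinality of a subset -/
def cnt (S : Fin N → Bool) : ℕ := ∑ i, if S i then 1 else 0

theorem cnt_update_true (S : Fin N → Bool) (m : Fin N) (h : S m = true) :
    cnt (Function.update S m false) + 1 = cnt S := by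
  classical
  rw [cnt, cnt, ← Finset.add_sum_erase _ _ (Finset.mem_univ m),
    ← Finset.add_sum_erase (f := fun i => if S i = true then 1 else 0) _ (Finset.mem_univ m),
    Function.update_self, h]
  have h1 : ∑ x ∈ Finset.univ.erase m,
      (if Function.update S m false x = true then 1 else 0) =
      ∑ x ∈ Finset.univ.erase m, if S x = true then 1 else 0 := by
    apply Finset.sum_congr rfl
    intro i hi
    rw [Function.update_of_ne (Finset.ne_of_mem_erase hi)]
  rw [h1]
  simp [add_comm]

theorem cnt_update_false (S : Fin N → Bool) (m : Fin N) (h : S m = false) :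
    cnt (Function.update S m true) = cnt S + 1 := by
  have h1 := cnt_update_true (Function.update S m true) m (by rw [Function.update_self])
  rw [Function.update_idem] at h1
  have h2 : Function.update S m false = S := by rw [← h, Function.update_eq_self]
  rw [h2] at h1
  exact h1.symm

/-- the degrees of the basis vectors -/
def shK {J ι : Type} [AddCommGroup ι] (N : ℕ) (δ : ι) (sh : J → ι) (q : (Fin N → Bool) × J) : ι :=
  sh q.2 + cnt q.1 • δ

end cnt

section hom
variable {k : Type u} [Field k] {σ ι J : Type} [AddCommGroup ι] {wt : σ → ι} {sh : J → ι}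

theorem dg_add' (wt : σ → ι) (e e' : σ →₀ ℕ) : dg wt (e + e') = dg wt e + dg wt e' := by
  classical
  unfold dg
  exact Finsupp.sum_add_index' (fun v => zero_smul _ _) (fun v m m' => add_smul _ _ _)

theorem mul_hom {p f : MvPolynomial σ k} {α s ν : ι} (hp : ∀ e, coeff e p ≠ 0 → dg wt e = α)
    (hf : ∀ e, coeff e f ≠ 0 → dg wt e + s = ν) :
    ∀ e, coeff e (p * f) ≠ 0 → dg wt e + s = ν + α := by
  classical
  intro e he
  rw [coeff_mul] at he
  obtain ⟨x, hx, hx'⟩ := Finset.exists_ne_zero_of_sum_ne_zero he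
  have hx := Finset.HasAntidiagonal.mem_antidiagonal.1 hx
  have h1 := hp x.1 (left_ne_zero_of_mul hx')
  have h2 := hf x.2 (right_ne_zero_of_mul hx')
  rw [← hx, dg_add', h1, ← h2]
  abel

theorem sgn_eq (P : Type*) [CommRing P] {N : ℕ} (m : Fin N) (S : Fin N → Bool) :
    sgn P m S = 1 ∨ sgn P m S = -1 := by
  classical
  unfold sgn
  refine Finset.prod_induction _ (fun x => x = 1 ∨ x = -1) ?_ (Or.inl rfl) ?_
  · rintro a b (rfl | rfl) (rfl | rfl) <;> simp
  · intro i _
    cases S i
    · exact Or.inl rfl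
    · exact Or.inr rfl

theorem sgn_mul_hom {N : ℕ} (m : Fin N) (S : Fin N → Bool) {f : MvPolynomial σ k} {s ν : ι}
    (hf : ∀ e, coeff e f ≠ 0 → dg wt e + s = ν) :
    ∀ e, coeff e (sgn (MvPolynomial σ k) m S * f) ≠ 0 → dg wt e + s = ν := by
  intro e he
  rcases sgn_eq (MvPolynomial σ k) m S with h | h
  · rw [h, one_mul] at he
    exact hf e he
  · rw [h, neg_one_mul, coeff_neg, neg_ne_zero] at he
    exact hf e he

theorem sum_hom {κ : Type*} (s : Finset κ) {f : κ → MvPolynomial σ k} {a ν : ι}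
    (hf : ∀ m ∈ s, ∀ e, coeff e (f m) ≠ 0 → dg wt e + a = ν) :
    ∀ e, coeff e (∑ m ∈ s, f m) ≠ 0 → dg wt e + a = ν := by
  intro e he
  rw [coeff_sum] at he
  obtain ⟨m, hm, hm'⟩ := Finset.exists_ne_zero_of_sum_ne_zero he
  exact hf m hm e hm'

/-- multiplication by homogeneous elements of the exterior algebra -/
theorem isDeg_true {N : ℕ} (δ : ι) {a : Fin N → MvPolynomial σ k} {α : ι}
    (ha : ∀ m e, coeff e (a m) ≠ 0 → dg wt e = α) :
    IsDeg wt (shK N δ sh) (shK N δ sh) (α + δ) (OpU true a) := by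
  intro ν f hf q
  obtain ⟨S, j⟩ := q
  rw [OpU_apply]
  refine sum_hom _ fun m _ => ?_
  by_cases h : S m = true
  · rw [if_pos h]
    have h1 : ∀ e, coeff e (f (Function.update S m (!true), j)) ≠ 0 →
        dg wt e + shK N δ sh (S, j) = ν + δ := by
      intro e he
      have h2 := hf (Function.update S m (!true), j) e he
      rw [← h2]
      have h3 := cnt_update_true S m h
      unfold shK
      rw [← h3]
      change dg wt e + (sh j + (cnt (Function.update S m false) + 1) • δ) =
        dg wt e + (sh j + cnt (Function.update S m false) • δ) + δ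
      rw [succ_nsmul]
      abel
    have h4 := mul_hom (ha m) (sgn_mul_hom m S h1)
    rw [show ν + (α + δ) = ν + δ + α by abel]
    exact h4
  · rw [if_neg h, mul_zero]
    intro e he
    exact absurd (coeff_zero e) he

/-- contraction by homogeneous elements -/
theorem isDeg_false {N : ℕ} (δ : ι) {a : Fin N → MvPolynomial σ k}
    (ha : ∀ m e, coeff e (a m) ≠ 0 → dg wt e = δ) :
    IsDeg wt (shK N δ sh) (shK N δ sh) 0 (OpU false a) := by
  intro ν f hf q
  obtain ⟨S, j⟩ := q
  rw [OpU_apply]
  refine sum_hom _ fun m _ => ?_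
  by_cases h : S m = false
  · rw [if_pos h]
    have h1 : ∀ e, coeff e (f (Function.update S m (!false), j)) ≠ 0 →
        dg wt e + shK N δ sh (S, j) = ν - δ := by
      intro e he
      have h2 := hf (Function.update S m (!false), j) e he
      rw [← h2]
      have h3 := cnt_update_false S m h
      unfold shK
      change dg wt e + (sh j + cnt S • δ) =
        dg wt e + (sh j + cnt (Function.update S m true) • δ) - δ
      rw [h3, succ_nsmul]
      abel
    have h4 := mul_hom (ha m) (sgn_mul_hom m S h1)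
    rw [show ν + 0 = ν - δ + δ by abel]
    exact h4
  · rw [if_neg h, mul_zero]
    intro e he
    exact absurd (coeff_zero e) he

theorem cmp_shK {N : ℕ} (δ ν : ι) (f : (Fin N → Bool) × J → MvPolynomial σ k)
    (S : Fin N → Bool) :
    (fun j => cmp wt (shK N δ sh) ν f (S, j)) =
      cmp wt sh (ν - cnt S • δ) (fun j => f (S, j)) := by
  funext j
  have h1 : ∀ e : σ →₀ ℕ, dg wt e + shK N δ sh (S, j) = ν ↔
      dg wt e + sh j = ν - cnt S • δ := by
    intro e
    unfold shK
    change dg wt e + (sh j + cnt S • δ) = ν ↔ _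
    rw [← add_assoc, eq_sub_iff_add_eq]
  unfold cmp
  rw [Finset.sum_filter, Finset.sum_filter]
  apply Finset.sum_congr rfl
  intro e _
  by_cases h : dg wt e + shK N δ sh (S, j) = ν
  · rw [if_pos h, if_pos ((h1 e).1 h)]
  · rw [if_neg h, if_neg fun h' => h ((h1 e).2 h')]

theorem HomS.pwf {N : ℕ} (δ : ι)
    {X : (Fin N → Bool) → Submodule (MvPolynomial σ k) (J → MvPolynomial σ k)}
    (hX : ∀ S, HomS wt sh (X S)) : HomS wt (shK N δ sh) (S.pwf X) := by
  intro f hf ν S
  rw [cmp_shK]
  exact hX S _ (hf S) _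

theorem homS_px {N : ℕ} [Fintype σ] [Fintype J]
    {X : Submodule (MvPolynomial σ k) (J → MvPolynomial σ k)} (hX : HomS wt sh X) (p : ℤˣ)
    (S : Fin N → Bool) : HomS wt sh (px X p S) := by
  unfold px
  split_ifs
  · exact hX
  · exact homS_bot

theorem HomS.pwp {N : ℕ} [Fintype σ] [Fintype J] (δ : ι)
    {X : Submodule (MvPolynomial σ k) (J → MvPolynomial σ k)} (hX : HomS wt sh X) (p : ℤˣ) :
    HomS wt (shK N δ sh) (pwp N X p) :=
  HomS.pwf δ fun S => homS_px hX p S

end hom

section dim
variable {k : Type u} [Field k] {σ ι J : Type} [Fintype σ] [Fintype J] [AddCommGroup ι]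
  {wt : σ → ι} {sh : J → ι}

/-- the components of degree `ν` of the families -/
noncomputable def gpartEquiv {N : ℕ} (δ ν : ι)
    (X : (Fin N → Bool) → Submodule (MvPolynomial σ k) (J → MvPolynomial σ k)) :
    gpart wt (shK N δ sh) (pwf X) ν ≃ₗ[k] ∀ S, gpart wt sh (X S) (ν - cnt S • δ) where
  toFun f S := ⟨fun j => f.1 (S, j), f.2.1 S, fun j e he => by
    have h1 := f.2.2 (S, j) e he
    unfold shK at h1
    change dg wt e + (sh j + cnt S • δ) = ν at h1
    rw [← add_assoc] at h1
    exact eq_sub_of_add_eq h1⟩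
  map_add' _ _ := rfl
  map_smul' _ _ := rfl
  invFun g := ⟨fun q => (g q.1).1 q.2, fun S => (g S).2.1, fun q e he => by
    have h1 := (g q.1).2.2 q.2 e he
    unfold shK
    rw [← add_assoc]
    exact add_eq_of_eq_sub h1⟩
  left_inv _ := rfl
  right_inv _ := rfl

theorem hd_pwf (hwt : Pos wt) {N : ℕ} (δ ν : ι)
    (X : (Fin N → Bool) → Submodule (MvPolynomial σ k) (J → MvPolynomial σ k)) :
    hd wt (shK N δ sh) (pwf X) ν = ∑ S, hd wt sh (X S) (ν - cnt S • δ) := by
  unfold hd
  have : ∀ S, FiniteDimensional k (gpart wt sh (X S) (ν - cnt S • δ)) :=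
    fun S => finite_gpart hwt _ _
  rw [LinearEquiv.finrank_eq (gpartEquiv δ ν X), Module.finrank_pi_fintype]

omit [Fintype σ] [Fintype J] in
theorem hd_bot (ν : ι) :
    hd wt sh (⊥ : Submodule (MvPolynomial σ k) (J → MvPolynomial σ k)) ν = 0 := by
  unfold hd
  have h1 : gpart wt sh (⊥ : Submodule (MvPolynomial σ k) (J → MvPolynomial σ k)) ν = ⊥ := by
    rw [eq_bot_iff]
    intro f hf
    exact hf.1
  rw [h1, finrank_bot]

theorem act_single (c : ℤ) (δ : ι) (f : ι → ℤ) (ν : ι) :
    act ι (AddMonoidAlgebra.single δ c) f ν = c * f (ν - δ) := by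
  have h1 : AddMonoidAlgebra.single δ c = c • el δ := by
    rw [el, AddMonoidAlgebra.smul_single, smul_eq_mul, mul_one]
  rw [h1, map_smul, LinearMap.smul_apply, Pi.smul_apply, act_el, smul_eq_mul]

/-- the Euler characteristic of the exterior algebra -/
theorem sum_pr {N : ℕ} (δ : ι) :
    ∑ S : Fin N → Bool, ((pr S : ℤˣ) : ℤ) • el (cnt S • δ) = (1 - el δ) ^ N := by
  classical
  have h1 : ∀ S : Fin N → Bool, ((pr S : ℤˣ) : ℤ) • el (cnt S • δ) =
      ∏ i, if S i then - el δ else 1 := by
    intro S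
    have h2 : ∀ i, (if S i = true then - el δ else 1) =
        ((if S i then -1 else 1 : ℤ) : AddMonoidAlgebra ℤ ι) * (el δ) ^ (if S i then 1 else 0) := by
      intro i
      cases S i <;> simp
    rw [Finset.prod_congr rfl fun i _ => h2 i, Finset.prod_mul_distrib, Finset.prod_pow_eq_pow_sum,
      el_nsmul, ← Int.cast_prod, zsmul_eq_mul]
    congr 2
    rw [pr, Units.coe_prod]
    apply Finset.prod_congr rfl
    intro i _
    cases S i <;> simp
  rw [Finset.sum_congr rfl fun S _ => h1 S]
  have h3 := (Finset.prod_univ_sum (fun _ : Fin N => (Finset.univ : Finset Bool))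
    (fun _ b => if b = true then - el δ else 1)).symm
  rw [Fintype.piFinset_univ] at h3
  rw [h3, Finset.prod_const, Finset.card_univ, Fintype.card_fin, Fintype.sum_bool, if_pos rfl,
    if_neg Bool.false_ne_true]
  congr 1
  ring

theorem sum_pr_act {N : ℕ} (δ : ι) (f : ι → ℤ) (ν : ι) :
    ∑ S : Fin N → Bool, ((pr S : ℤˣ) : ℤ) * f (ν - cnt S • δ) =
      act ι ((1 - el δ) ^ N) f ν := by
  rw [← sum_pr, map_sum, LinearMap.sum_apply, Finset.sum_apply]
  apply Finset.sum_congr rfl
  intro S _
  rw [map_smul, LinearMap.smul_apply, Pi.smul_apply, act_el, smul_eq_mul]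

theorem hd_pwp_sub (hwt : Pos wt) {N : ℕ} (δ ν : ι)
    (X : Submodule (MvPolynomial σ k) (J → MvPolynomial σ k)) :
    (hd wt (shK N δ sh) (pwp N X 1) ν : ℤ) - hd wt (shK N δ sh) (pwp N X (-1)) ν =
      act ι ((1 - el δ) ^ N) (fun ν => (hd wt sh X ν : ℤ)) ν := by
  unfold pwp
  rw [hd_pwf hwt, hd_pwf hwt, ← sum_pr_act, Nat.cast_sum, Nat.cast_sum,
    ← Finset.sum_sub_distrib]
  apply Finset.sum_congr rfl
  intro S _
  unfold px
  rcases Int.units_eq_one_or (pr S) with h | h
  · rw [h, if_pos rfl, if_neg (by decide), hd_bot]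
    simp
  · rw [h, if_pos rfl, if_neg (by decide), hd_bot]
    simp

end dim

end Vale.Agent.P200.V
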