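import Vale.Agent.P200.S.Ext

/-!
The operators of the exterior algebra on families indexed by `(Fin N → Bool) × J`, and parities.
-/

namespace Vale.Agent.P200.S

section par
variable {N : ℕ}

/-- the parity of a subset -/
def pr (S : Fin N → Bool) : ℤˣ := ∏ i, if S i then -1 else 1

theorem pr_update (S : Fin N → Bool) (m : Fin N) :
    pr (Function.update S m (!(S m))) = - pr S := by
  classical
  rw [pr, pr, ← Finset.mul_prod_erase _ _ (Finset.mem_univ m),
    ← Finset.mul_prod_erase _ _ (Finset.mem_univ m), Function.update_self]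
  have h1 : ∏ x ∈ Finset.univ.erase m,
      (if Function.update S m (!(S m)) x = true then (-1 : ℤˣ) else 1) =
      ∏ x ∈ Finset.univ.erase m, if S x = true then (-1 : ℤˣ) else 1 := by
    apply Finset.prod_congr rfl
    intro i hi
    rw [Function.update_of_ne (Finset.ne_of_mem_erase hi)]
  rw [h1]
  cases S m <;> simp

end par

section ops
variable {P : Type*} [CommRing P] {J : Type*} {N : ℕ}

/-- currying -/
def cu (P : Type*) [CommRing P] (N : ℕ) (J : Type*) :
    ((Fin N → Bool) × J → P) ≃ₗ[P] ((Fin N → Bool) → J → P) :=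
  LinearEquiv.curry P P (Fin N → Bool) J

/-- the operator on families indexed by pairs -/
def OpU (b : Bool) (a : Fin N → P) : ((Fin N → Bool) × J → P) →ₗ[P] ((Fin N → Bool) × J → P) :=
  (cu P N J).symm.toLinearMap ∘ₗ (Op b a) ∘ₗ (cu P N J).toLinearMap

theorem OpU_eq (b : Bool) (a : Fin N → P) (f : (Fin N → Bool) × J → P) :
    OpU b a f = (cu P N J).symm (Op b a (cu P N J f)) := rfl

theorem cu_OpU (b : Bool) (a : Fin N → P) (f : (Fin N → Bool) × J → P) :
    cu P N J (OpU b a f) = Op b a (cu P N J f) := rfl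

theorem OpU_apply (b : Bool) (a : Fin N → P) (f : (Fin N → Bool) × J → P) (S : Fin N → Bool)
    (j : J) : OpU b a f (S, j) =
      ∑ m, a m * (if S m = b then sgn P m S * f (Function.update S m (!b), j) else 0) := by
  have h1 : OpU b a f (S, j) = Op b a (cu P N J f) S j := rfl
  rw [h1, Op_apply, Finset.sum_apply, Finset.sum_apply]
  apply Finset.sum_congr rfl
  intro m _
  rw [Pi.smul_apply, op_apply]
  by_cases h : S m = b
  · rw [if_pos h, if_pos h]
    rfl
  · rw [if_neg h, if_neg h]
    rfl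

theorem OpU_self (b : Bool) (a : Fin N → P) (f : (Fin N → Bool) × J → P) :
    OpU b a (OpU b a f) = 0 := by
  apply (cu P N J).injective
  rw [cu_OpU, cu_OpU, Op_self, map_zero]

theorem OpU_anti (b : Bool) (a a' : Fin N → P) (f : (Fin N → Bool) × J → P) :
    OpU b a (OpU b a' f) + OpU b a' (OpU b a f) = 0 := by
  apply (cu P N J).injective
  rw [map_add, cu_OpU, cu_OpU, cu_OpU, cu_OpU, Op_anti, map_zero]

theorem OpU_contr (b : Bool) (a a' : Fin N → P) (f : (Fin N → Bool) × J → P) :
    OpU b a (OpU (!b) a' f) + OpU (!b) a' (OpU b a f) = (∑ m, a m * a' m) • f := by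
  apply (cu P N J).injective
  rw [map_add, cu_OpU, cu_OpU, cu_OpU, cu_OpU, Op_contr, map_smul]

/-- the families with values in given submodules -/
def pwf (X : (Fin N → Bool) → Submodule P (J → P)) : Submodule P ((Fin N → Bool) × J → P) where
  carrier := {f | ∀ S, (fun j => f (S, j)) ∈ X S}
  add_mem' ha hb S := (X S).add_mem (ha S) (hb S)
  zero_mem' S := (X S).zero_mem
  smul_mem' c _ ha S := (X S).smul_mem c (ha S)

theorem mem_pwf {X : (Fin N → Bool) → Submodule P (J → P)} {f : (Fin N → Bool) × J → P} :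
    f ∈ pwf X ↔ ∀ S, (fun j => f (S, j)) ∈ X S := Iff.rfl

/-- the values on subsets of parity `p` -/
def px (X : Submodule P (J → P)) (p : ℤˣ) (S : Fin N → Bool) : Submodule P (J → P) :=
  if pr S = p then X else ⊥

/-- the families of parity `p` with values in a submodule -/
def pwp (N : ℕ) (X : Submodule P (J → P)) (p : ℤˣ) : Submodule P ((Fin N → Bool) × J → P) :=
  pwf (px X p)

theorem px_mono {X Y : Submodule P (J → P)} (h : Y ≤ X) (p : ℤˣ) (S : Fin N → Bool) :
    px Y p S ≤ px X p S := by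
  unfold px
  split_ifs
  · exact h
  · exact le_rfl

theorem pwp_mono {X Y : Submodule P (J → P)} (h : Y ≤ X) (p : ℤˣ) : pwp N Y p ≤ pwp N X p :=
  fun _ hf S => px_mono h p S (hf S)

theorem px_update (X : Submodule P (J → P)) (p : ℤˣ) (S : Fin N → Bool) (m : Fin N) :
    px X p (Function.update S m (!(S m))) = px X (-p) S := by
  unfold px
  rw [pr_update]
  congr 1
  exact propext neg_eq_iff_eq_neg

theorem OpU_mem {X : Submodule P (J → P)} {p : ℤˣ} {f : (Fin N → Bool) × J → P}
    (hf : f ∈ pwp N X p) (b : Bool) (a : Fin N → P) : OpU b a f ∈ pwp N X (-p) := by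
  intro S
  have h1 : (fun j => OpU b a f (S, j)) = ∑ m, a m •
      (if S m = b then sgn P m S • (fun j => f (Function.update S m (!b), j)) else 0) := by
    funext j
    rw [OpU_apply, Finset.sum_apply]
    apply Finset.sum_congr rfl
    intro m _
    rw [Pi.smul_apply]
    by_cases h : S m = b
    · rw [if_pos h, if_pos h]
      rfl
    · rw [if_neg h, if_neg h]
      rfl
  rw [h1]
  refine Submodule.sum_mem _ fun m _ => Submodule.smul_mem _ _ ?_
  by_cases h : S m = b
  · rw [if_pos h]
    refine Submodule.smul_mem _ _ ?_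
    have h2 := hf (Function.update S m (!b))
    rw [← h] at h2 ⊢
    rw [px_update] at h2
    exact h2
  · rw [if_neg h]
    exact Submodule.zero_mem _

/-- multiples of families of parity `p` -/
theorem smul_mem_pwp {X Y : Submodule P (J → P)} {q : P} (h : ∀ f ∈ X, q • f ∈ Y) {p : ℤˣ}
    {f : (Fin N → Bool) × J → P} (hf : f ∈ pwp N X p) : q • f ∈ pwp N Y p := by
  intro S
  have h1 := hf S
  have h2 : (fun j => (q • f) (S, j)) = q • fun j => f (S, j) := rfl
  rw [h2]
  unfold px at h1 ⊢
  split_ifs at h1 ⊢ with h3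
  · exact h _ h1
  · rw [Submodule.mem_bot] at h1 ⊢
    rw [h1, smul_zero]

/-- the submodule `Y + ∑_{i < j} η_i X` in parity `p` -/
def Nn {r : ℕ} (h : Fin r → Fin N → P) (X Y : Submodule P (J → P)) (j : ℕ) (p : ℤˣ) :
    Submodule P ((Fin N → Bool) × J → P) :=
  pwp N Y p ⊔ ⨆ (i : Fin r) (_ : (i : ℕ) < j), (pwp N X (-p)).map (OpU true (h i))

theorem Nn_zero {r : ℕ} (h : Fin r → Fin N → P) (X Y : Submodule P (J → P)) (p : ℤˣ) :
    Nn h X Y 0 p = pwp N Y p := by
  rw [Nn]
  apply le_antisymm
  · refine sup_le le_rfl (iSup_le fun i => iSup_le fun hi => ?_)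
    exact absurd hi (Nat.not_lt_zero _)
  · exact le_sup_left

theorem Nn_succ {r : ℕ} (h : Fin r → Fin N → P) (X Y : Submodule P (J → P)) (j : Fin r)
    (p : ℤˣ) : Nn h X Y (j + 1) p = Nn h X Y j p ⊔ (pwp N X (-p)).map (OpU true (h j)) := by
  rw [Nn, Nn]
  apply le_antisymm
  · refine sup_le (le_sup_of_le_left le_sup_left) (iSup_le fun i => iSup_le fun hi => ?_)
    rcases Nat.lt_succ_iff_lt_or_eq.1 hi with h1 | h1
    · exact le_sup_of_le_left (le_sup_of_le_right (le_iSup₂_of_le i h1 le_rfl))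
    · have : i = j := Fin.ext h1
      subst this
      exact le_sup_right
  · refine sup_le (sup_le le_sup_left (iSup_le fun i => iSup_le fun hi => ?_)) ?_
    · exact le_sup_of_le_right (le_iSup₂_of_le i (Nat.lt_succ_of_lt hi) le_rfl)
    · exact le_sup_of_le_right (le_iSup₂_of_le j (Nat.lt_succ_self _) le_rfl)

theorem Nn_le {r : ℕ} (h : Fin r → Fin N → P) {X Y : Submodule P (J → P)} (hYX : Y ≤ X) (j : ℕ)
    (p : ℤˣ) : Nn h X Y j p ≤ pwp N X p := by
  refine sup_le (pwp_mono hYX p) (iSup_le fun i => iSup_le fun _ => ?_)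
  rintro _ ⟨f, hf, rfl⟩
  have := OpU_mem hf true (h i)
  rwa [neg_neg] at this

/-- an operator which anticommutes with the `η_i` modulo `Y` preserves `N_j` -/
theorem Nn_stable {r : ℕ} (h : Fin r → Fin N → P) {X Y : Submodule P (J → P)} (j : ℕ)
    (b : Bool) (a : Fin N → P)
    (hD : ∀ i : Fin r, (i : ℕ) < j → ∀ p, ∀ f ∈ pwp N X p,
      OpU b a (OpU true (h i) f) + OpU true (h i) (OpU b a f) ∈ pwp N Y p) (p : ℤˣ) :
    ∀ f ∈ Nn h X Y j p, OpU b a f ∈ Nn h X Y j (-p) := by
  intro f hf
  have hle : Nn h X Y j p ≤ (Nn h X Y j (-p)).comap (OpU b a) := by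
    refine sup_le (fun f hf => Submodule.mem_sup_left (OpU_mem hf b a))
      (iSup_le fun i => iSup_le fun hi => ?_)
    rintro _ ⟨g, hg, rfl⟩
    rw [Submodule.mem_comap]
    have h1 : OpU b a (OpU true (h i) g) = (OpU b a (OpU true (h i) g) +
        OpU true (h i) (OpU b a g)) - OpU true (h i) (OpU b a g) :=
      (add_sub_cancel_right _ _).symm
    rw [h1]
    refine Submodule.sub_mem _ (Submodule.mem_sup_left (hD i hi _ g hg)) ?_
    exact Submodule.mem_sup_right (Submodule.mem_iSup_of_mem i (Submodule.mem_iSup_of_mem hi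
      ⟨OpU b a g, OpU_mem hg b a, rfl⟩))
  exact hle hf

/-- `η_j` maps `N_(j+1)` into `N_j` -/
theorem eta_mem {r : ℕ} (h : Fin r → Fin N → P) {X Y : Submodule P (J → P)} (j : Fin r) (p : ℤˣ)
    {x : (Fin N → Bool) × J → P} (hx : x ∈ Nn h X Y (j + 1) p) :
    OpU true (h j) x ∈ Nn h X Y j (-p) := by
  rw [Nn_succ] at hx
  obtain ⟨y, hy, _, ⟨z, _, rfl⟩, rfl⟩ := Submodule.mem_sup.1 hx
  rw [map_add, OpU_self, add_zero]
  exact Nn_stable h (j : ℕ) true (h j) (fun i _ p f _ => by
    rw [OpU_anti]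
    exact Submodule.zero_mem _) p y hy

/-- **The minors of the first `j + 1` rows kill the kernel of `η_j` on `𝒦 / N_j`.** -/
theorem minor_smul_mem_Nn {r : ℕ} (h : Fin r → Fin N → P) {X Y : Submodule P (J → P)} (j : Fin r)
    (g : Fin (j + 1) → Fin N) (p : ℤˣ) {x : (Fin N → Bool) × J → P} (hx : x ∈ pwp N X p)
    (hjx : OpU true (h j) x ∈ Nn h X Y j (-p)) :
    (Matrix.of fun (a b : Fin (j + 1)) => h (Fin.castLE j.2 a) (g b)).det • x ∈
      Nn h X Y (j + 1) p := by
  classical
  set A : Matrix (Fin (j + 1)) (Fin (j + 1)) P :=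
    Matrix.of fun (a b : Fin (j + 1)) => h (Fin.castLE j.2 a) (g b) with hA
  let c : Fin N → P := fun m => ∑ b, if g b = m then A.adjugate b (Fin.last j) else 0
  have hc : ∀ i : Fin (j + 1), ∑ m, c m * h (Fin.castLE j.2 i) m =
      if i = Fin.last j then A.det else 0 := by
    intro i
    have h1 : ∑ m, c m * h (Fin.castLE j.2 i) m = ∑ b, A i b * A.adjugate b (Fin.last j) := by
      simp only [c, Finset.sum_mul]
      rw [Finset.sum_comm]
      apply Finset.sum_congr rfl
      intro b _
      rw [Finset.sum_eq_single (g b)]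
      · rw [if_pos rfl, mul_comm]
        rfl
      · intro m _ hm
        rw [if_neg hm.symm, zero_mul]
      · intro h'
        exact absurd (Finset.mem_univ _) h'
    rw [h1, ← Matrix.mul_apply, Matrix.mul_adjugate, Matrix.smul_apply, Matrix.one_apply,
      smul_eq_mul, mul_ite, mul_one, mul_zero]
  have hlast : Fin.castLE j.2 (Fin.last j) = j := Fin.ext rfl
  have hI : ∀ f : (Fin N → Bool) × J → P, OpU false c (OpU true (h j) f) +
      OpU true (h j) (OpU false c f) = A.det • f := by
    intro f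
    have h1 := OpU_contr false c (h j) f
    have h2 := hc (Fin.last j)
    rw [hlast, if_pos rfl] at h2
    rw [h2] at h1
    exact h1
  have hI0 : ∀ i : Fin r, (i : ℕ) < j → ∀ f : (Fin N → Bool) × J → P,
      OpU false c (OpU true (h i) f) + OpU true (h i) (OpU false c f) = 0 := by
    intro i hi f
    have h1 := OpU_contr false c (h i) f
    have h2 := hc ⟨i, Nat.lt_succ_of_lt hi⟩
    have h3 : Fin.castLE j.2 ⟨i, Nat.lt_succ_of_lt hi⟩ = i := Fin.ext rfl
    rw [h3, if_neg (by
      intro h'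
      have := congrArg Fin.val h'
      simp only [Fin.val_last] at this
      omega)] at h2
    rw [h2, zero_smul] at h1
    exact h1
  have hst : OpU false c (OpU true (h j) x) ∈ Nn h X Y j p := by
    have := Nn_stable h (X := X) (Y := Y) (j : ℕ) false c
      (fun i hi p f _ => by
        rw [hI0 i hi f]
        exact Submodule.zero_mem _) (-p) _ hjx
    rwa [neg_neg] at this
  rw [← hI x, Nn_succ]
  exact Submodule.add_mem_sup hst ⟨_, OpU_mem hx false c, rfl⟩

end ops

end Vale.Agent.P200.S
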