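import Vale.Agent.P200.V.DStep
import Vale.Agent.P200.V.HilD
import Vale.Agent.P200.V.Van

/-!
The level lemma for groups of Hilbert functions (statement).
-/

namespace Vale.Agent.P200.V

open Module MvPolynomial

universe u

/-- the degrees of the variables: `z` has degree one in the block `blk z` -/
def wb {Z ι : Type} [DecidableEq ι] (blk : Z → ι) (z : Z) : ι → ℤ := Pi.single (blk z) 1

/-- the new relation of the variable `c` -/
noncomputable def lrel {k : Type u} [Field k] {Z J : Type} [Fintype J] (e : ℕ)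
    (h : Z → J → MvPolynomial Z k) (c : Z) : MvPolynomial Z (KF k J) :=
  X c ^ e - ∑ j, MvPolynomial.C (Tv k j) * MvPolynomial.map (algebraMap k (KF k J)) (h c j)

/-- **Level lemma.** -/
def LevelLemma : Prop :=
  ∀ (k : Type u) [Field k] (Z ι J : Type) [Fintype Z] [DecidableEq Z] [Fintype ι] [DecidableEq ι]
    [Fintype J] (blk : Z → ι) (C : Finset Z) (e : ℕ), 0 < e →
    ∀ (G0 : Set (MvPolynomial Z k)),
      (∀ p ∈ G0, (∃ δ : ι → ℤ, ∀ m, coeff m p ≠ 0 → dg (wb blk) m = δ) ∧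
        ∀ m, coeff m p ≠ 0 → ∀ c ∈ C, m c = 0) →
      ∀ (h : Z → J → MvPolynomial Z k),
        (∀ c ∈ C, ∀ j m, coeff m (h c j) ≠ 0 →
          dg (wb blk) m = Pi.single (blk c) (e : ℤ) ∧ ∀ c' ∈ C, m c' = 0) →
        (∀ (Ω : Type u) [Field Ω] [IsAlgClosed Ω] [Algebra k Ω] (p : Z → Ω),
          (∀ g ∈ G0, aeval p g = 0) → (∀ c ∈ C, p c = 0) → (∀ b, ∃ z, blk z = b ∧ p z ≠ 0) →
          ∀ l : Z → Ω, (∀ j, ∑ c ∈ C, l c * aeval p (h c j) = 0) → ∀ c ∈ C, l c = 0) →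
        ∀ f ∈ Hil (KF k J) (wb blk)
          ((MvPolynomial.map (algebraMap k (KF k J)) '' G0) ∪ (lrel e h '' (C : Set Z))),
          ∃ g ∈ Hil k (wb blk) (G0 ∪ (X '' (C : Set Z))),
            EvEq f (act (ι → ℤ) (∏ c ∈ C, ph e (Pi.single (blk c) 1)) g)

end Vale.Agent.P200.V
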