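import Vale.Agent.P200.V.LocB
import Vale.Agent.P200.V.RklB
import Vale.Agent.P200.V.RkAxP

/-!
# Localization of one block: final form
-/

universe u

namespace Vale.Agent.P200.V

/-- **Localization of one block.** -/
theorem locB (K : Type u) [Field K] (κ : ℕ) : LocB K κ :=
  locB_of K κ (fun _ _ _ _ hI => rkAx hI) (fun _ _ _ _ h => SB.rklB h)

end Vale.Agent.P200.V
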