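import Vale.Agent.P200.V.LvDefs
import Vale.Agent.P200.V.BrC

/-!
The coefficient of `T ^ t` of a Hilbert function over the ring of parameters: slices of graded
modules on which the variables of nonzero `T`-degree act as zero.
-/

namespace Vale.Agent.P200.V

open Module MvPolynomial

universe u

section slice
variable {k : Type u} [Field k] {Z G : Type} [Fintype Z] [AddCommGroup G] {wt : Z → G × ℤ}

theorem dg_fst_slice (e : Z →₀ ℕ) : (dg wt e).1 = dg (fun z => (wt z).1) e := by
  classical
  unfold dg
  rw [Finsupp.sum, Finsupp.sum, Prod.fst_sum]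
  exact Finset.sum_congr rfl fun z _ => rfl

theorem dg_snd_slice (e : Z →₀ ℕ) (h : ∀ z ∈ e.support, (wt z).2 = 0) : (dg wt e).2 = 0 := by
  classical
  unfold dg
  rw [Finsupp.sum, Prod.snd_sum]
  refine Finset.sum_eq_zero fun z hz => ?_
  rw [Prod.smul_snd, h z hz, smul_zero]

/-- the part of a polynomial without the variables of nonzero `T`-degree -/
noncomputable def good (k : Type u) [Field k] (wt : Z → G × ℤ) (p : MvPolynomial Z k) :
    MvPolynomial Z k :=
  rename (Subtype.val : {z // (wt z).2 = 0} → Z)
    (killCompl (Subtype.val_injective : Function.Injective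
      (Subtype.val : {z // (wt z).2 = 0} → Z)) p)

omit [Fintype Z] in
theorem coeff_good {p : MvPolynomial Z k} {e : Z →₀ ℕ} (h : coeff e (good k wt p) ≠ 0) :
    coeff e p ≠ 0 ∧ ∀ z ∈ e.support, (wt z).2 = 0 := by
  classical
  unfold good at h
  obtain ⟨u, rfl, hu⟩ := coeff_rename_ne_zero _ _ e h
  refine ⟨?_, ?_⟩
  · rw [coeff_rename_mapDomain _ Subtype.val_injective] at h
    rwa [coeff_killCompl] at h
  · intro z hz
    have h1 := Finsupp.mapDomain_support hz
    obtain ⟨y, -, rfl⟩ := Finset.mem_image.1 h1
    exact y.2

omit [Fintype Z] in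
theorem sub_good_mem (p : MvPolynomial Z k) :
    p - good k wt p ∈ Ideal.span (X '' {z | (wt z).2 ≠ 0} : Set (MvPolynomial Z k)) := by
  have h := sub_killCompl_mem (k := k) (Subtype.val : {z // (wt z).2 = 0} → Z)
    Subtype.val_injective p
  have h2 : (Set.range (Subtype.val : {z // (wt z).2 = 0} → Z))ᶜ = {z | (wt z).2 ≠ 0} := by
    ext z
    rw [Subtype.range_coe_subtype]
    rfl
  rw [h2] at h
  exact h

end slice

/-- slices of graded modules on which the variables of nonzero `T`-degree act as zero -/
theorem Hil.slice {k : Type u} [Field k] {Z G : Type} [Fintype Z] [AddCommGroup G]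
    {wt : Z → G × ℤ} (hwt : Pos wt) (hwt' : Pos fun z => (wt z).1)
    {J0 : Set (MvPolynomial Z k)}
    (h0 : ∀ z, (wt z).2 ≠ 0 → (X z : MvPolynomial Z k) ∈ J0)
    {f : G × ℤ → ℤ} (hf : f ∈ Hil k wt J0) (t : ℤ) :
    (fun n => f (n, t)) ∈ Hil k (fun z => (wt z).1) J0 := by
  classical
  rw [Hil] at hf
  induction hf using AddSubgroup.closure_induction with
  | zero => exact zero_mem _
  | add f g _ _ h1 h2 => exact add_mem h1 h2
  | neg f _ h1 => exact neg_mem h1
  | mem f hf =>
    obtain ⟨s, sh, N, hN, hJ, hf⟩ := hf
    -- the generators of `T`-degree `t`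
    let I := {i : Fin s // (sh i).2 = t}
    let E : (I → MvPolynomial Z k) →ₗ[MvPolynomial Z k] (Fin s → MvPolynomial Z k) :=
      { toFun := fun g i => if h : (sh i).2 = t then g ⟨i, h⟩ else 0
        map_add' := by
          intro a b
          funext i
          rw [Pi.add_apply]
          by_cases h : (sh i).2 = t
          · simp only [dif_pos h, Pi.add_apply]
          · simp only [dif_neg h, add_zero]
        map_smul' := by
          intro c a
          funext i
          rw [Pi.smul_apply]
          by_cases h : (sh i).2 = t
          · simp only [dif_pos h, Pi.smul_apply, RingHom.id_apply]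
          · simp only [dif_neg h, smul_zero] }
    have hE1 : ∀ (g : I → MvPolynomial Z k) (i : I), E g i.1 = g i := fun g i => dif_pos i.2
    have hE0 : ∀ (g : I → MvPolynomial Z k) (i : Fin s), (sh i).2 ≠ t → E g i = 0 :=
      fun g i hi => dif_neg hi
    have hEi : Function.Injective E := by
      intro a b hab
      funext i
      rw [← hE1 a, ← hE1 b, hab]
    set N' : Submodule (MvPolynomial Z k) (I → MvPolynomial Z k) := N.comap E with hN'
    set sh' : I → G := fun i => (sh i.1).1 with hsh'
    have hbad : ∀ F : Fin s → MvPolynomial Z k, (F - fun i => good k wt (F i)) ∈ N := by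
      intro F
      have h4 : (F - fun i => good k wt (F i)) = ∑ j, Pi.single j (F j - good k wt (F j)) :=
        (Finset.univ_sum_single (F - fun i => good k wt (F i))).symm
      rw [h4]
      refine N.sum_mem fun j _ => ?_
      refine single_mem_of_ideal (I := X '' {z | (wt z).2 ≠ 0}) ?_ (sub_good_mem (F j)) j
      rintro _ ⟨z, hz, rfl⟩ j'
      exact hJ _ (h0 z hz) j'
    have hNh : HomS (fun z => (wt z).1) sh' N' := by
      intro g hg ν
      obtain ⟨S, hS1, hS2⟩ := exists_sum_cmp (wt := wt) (sh := sh) (E g)
      have h1 : E (cmp (fun z => (wt z).1) sh' ν g) =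
          ∑ μ ∈ S with μ.1 = ν, cmp wt sh μ (E g) := by
        funext i
        ext e
        rw [Finset.sum_apply, coeff_sum]
        simp only [coeff_cmp]
        by_cases hi : (sh i).2 = t
        · have h2 : E (cmp (fun z => (wt z).1) sh' ν g) i =
            cmp (fun z => (wt z).1) sh' ν g ⟨i, hi⟩ := hE1 _ ⟨i, hi⟩
          rw [h2, coeff_cmp]
          have h3 : E g i = g ⟨i, hi⟩ := hE1 _ ⟨i, hi⟩
          rw [h3]
          have h5 : (dg (fun z => (wt z).1) e + sh' ⟨i, hi⟩ = ν) ↔ (dg wt e + sh i).1 = ν := by
            rw [Prod.fst_add, dg_fst_slice]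
          by_cases h6 : (dg wt e + sh i).1 = ν
          · rw [if_pos (h5.2 h6)]
            by_cases h7 : dg wt e + sh i ∈ S
            · refine Eq.symm ((Finset.sum_eq_single (dg wt e + sh i) (fun b _ hb => ?_)
                (fun h => ?_)).trans ?_)
              · exact if_neg (Ne.symm hb)
              · exact absurd (Finset.mem_filter.2 ⟨h7, h6⟩) h
              · exact if_pos rfl
            · have h9 := congrArg (coeff e) (congrFun (hS2 _ h7) i)
              rw [coeff_cmp, if_pos rfl, Pi.zero_apply, coeff_zero, h3] at h9
              rw [h9]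
              refine (Finset.sum_eq_zero fun b _ => ?_).symm
              split_ifs <;> rfl
          · rw [if_neg (fun h => h6 (h5.1 h))]
            refine (Finset.sum_eq_zero fun b hb => ?_).symm
            refine if_neg fun h => h6 ?_
            rw [h]
            exact (Finset.mem_filter.1 hb).2
        · rw [hE0 _ i hi, hE0 _ i hi, coeff_zero]
          refine (Finset.sum_eq_zero fun μ _ => ?_).symm
          split_ifs <;> rfl
      change E _ ∈ N
      rw [h1]
      exact N.sum_mem fun μ _ => hN _ hg μ
    have key : ∀ n, f (n, t) = (hd (fun z => (wt z).1) sh'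
        (⊤ : Submodule (MvPolynomial Z k) (I → MvPolynomial Z k)) n : ℤ) -
        hd (fun z => (wt z).1) sh' N' n := by
      intro n
      rw [hf]
      set L : (I → MvPolynomial Z k) →ₗ[k] (Fin s → MvPolynomial Z k) := E.restrictScalars k
        with hL
      have hLi : Function.Injective L := hEi
      set V := gp k wt sh (n, t) with hV
      set V' := gp k (fun z => (wt z).1) sh' n with hV'
      set W := gpart wt sh N (n, t) with hW
      set W' := gpart (fun z => (wt z).1) sh' N' n with hW'
      set U' : Submodule k (I → MvPolynomial Z k) := V' ⊓ V.comap L with hU'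
      have top1 : gpart wt sh (⊤ : Submodule (MvPolynomial Z k) (Fin s → MvPolynomial Z k))
          (n, t) = V := by
        unfold gpart
        rw [Submodule.restrictScalars_top, top_inf_eq]
      have top2 : gpart (fun z => (wt z).1) sh'
          (⊤ : Submodule (MvPolynomial Z k) (I → MvPolynomial Z k)) n = V' := by
        unfold gpart
        rw [Submodule.restrictScalars_top, top_inf_eq]
      have fV : FiniteDimensional k V := finite_gp hwt (n, t)
      have fV' : FiniteDimensional k V' := finite_gp hwt' n
      have hWV : W ≤ V := inf_le_right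
      have hWV' : W' ≤ V' := inf_le_right
      have fW : FiniteDimensional k W := Submodule.finiteDimensional_of_le hWV
      have fW' : FiniteDimensional k W' := Submodule.finiteDimensional_of_le hWV'
      have fU : FiniteDimensional k U' := Submodule.finiteDimensional_of_le inf_le_left
      have e1 : U'.map L ⊔ W = V := by
        apply le_antisymm
        · rw [sup_le_iff]
          refine ⟨?_, hWV⟩
          rintro _ ⟨g, hg, rfl⟩
          exact hg.2
        · intro F hF
          set g : I → MvPolynomial Z k := fun i => good k wt (F i.1) with hg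
          have hEg : E g = fun i => good k wt (F i) := by
            funext i
            by_cases hi : (sh i).2 = t
            · exact hE1 g ⟨i, hi⟩
            · rw [hE0 g i hi]
              ext e
              rw [coeff_zero]
              by_contra hne
              obtain ⟨h2, h3⟩ := coeff_good (Ne.symm hne)
              have h4 := congrArg Prod.snd (hF i e h2)
              rw [Prod.snd_add, dg_snd_slice e h3, zero_add] at h4
              exact hi h4
          have hgV : g ∈ V' := by
            intro i e he
            obtain ⟨h2, h3⟩ := coeff_good he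
            have h4 := congrArg Prod.fst (hF i.1 e h2)
            rw [Prod.fst_add, dg_fst_slice] at h4
            exact h4
          have hgV2 : L g ∈ V := by
            change E g ∈ V
            rw [hEg]
            intro i e he
            exact hF i e (coeff_good he).1
          have h5 : F - L g ∈ W := by
            refine ⟨?_, V.sub_mem hF hgV2⟩
            change F - E g ∈ N
            rw [hEg]
            exact hbad F
          have h6 : F = L g + (F - L g) := by abel
          rw [h6]
          exact Submodule.add_mem_sup ⟨g, ⟨hgV, hgV2⟩, rfl⟩ h5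
      have e1' : U' ⊔ W' = V' := by
        apply le_antisymm
        · exact sup_le inf_le_left hWV'
        · intro g hg
          set u : I → MvPolynomial Z k := fun i => good k wt (g i) with hu
          have huV : u ∈ V' := by
            intro i e he
            exact hg i e (coeff_good he).1
          have huV2 : L u ∈ V := by
            intro i e he
            change coeff e (E u i) ≠ 0 at he
            by_cases hi : (sh i).2 = t
            · have h2 : E u i = good k wt (g ⟨i, hi⟩) := hE1 u ⟨i, hi⟩
              rw [h2] at he
              obtain ⟨h3, h4⟩ := coeff_good he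
              have h5 := hg ⟨i, hi⟩ e h3
              refine Prod.ext ?_ ?_
              · rw [Prod.fst_add, dg_fst_slice]
                exact h5
              · rw [Prod.snd_add, dg_snd_slice e h4, zero_add]
                exact hi
            · rw [hE0 u i hi, coeff_zero] at he
              exact absurd rfl he
          have h5 : g - u ∈ W' := by
            refine ⟨?_, V'.sub_mem hg huV⟩
            change E (g - u) ∈ N
            have h6 : E (g - u) = E g - fun i => good k wt (E g i) := by
              funext i
              rw [map_sub, Pi.sub_apply, Pi.sub_apply]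
              by_cases hi : (sh i).2 = t
              · have h2 : E u i = good k wt (g ⟨i, hi⟩) := hE1 u ⟨i, hi⟩
                have h3 : E g i = g ⟨i, hi⟩ := hE1 g ⟨i, hi⟩
                rw [h2, h3]
              · rw [hE0 u i hi, hE0 g i hi]
                unfold good
                rw [map_zero, map_zero]
            rw [h6]
            exact hbad (E g)
          have h6 : g = u + (g - u) := by abel
          rw [h6]
          exact Submodule.add_mem_sup ⟨huV, huV2⟩ h5
      have e2 : U'.map L ⊓ W = (U' ⊓ W').map L := by
        ext v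
        constructor
        · rintro ⟨⟨g, hg, rfl⟩, hgW⟩
          exact ⟨g, ⟨hg, hgW.1, hg.1⟩, rfl⟩
        · rintro ⟨g, ⟨hg1, hg2⟩, rfl⟩
          exact ⟨⟨g, hg1, rfl⟩, ⟨hg2.1, hg1.2⟩⟩
      have d1 : finrank k (U'.map L) = finrank k U' :=
        (Submodule.equivMapOfInjective L hLi U').finrank_eq.symm
      have d2 : finrank k ((U' ⊓ W').map L) = finrank k (U' ⊓ W' : Submodule k _) :=
        (Submodule.equivMapOfInjective L hLi (U' ⊓ W')).finrank_eq.symm
      have d3 := Submodule.finrank_sup_add_finrank_inf_eq (U'.map L) W
      have d4 := Submodule.finrank_sup_add_finrank_inf_eq U' W'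
      rw [e1, e2, d1, d2] at d3
      rw [e1'] at d4
      unfold hd
      rw [top1, top2]
      change (finrank k V : ℤ) - finrank k W = finrank k V' - finrank k W'
      have d5 : (finrank k V : ℤ) + finrank k (U' ⊓ W' : Submodule k _) =
        finrank k U' + finrank k W := by exact_mod_cast d3
      have d6 : (finrank k V' : ℤ) + finrank k (U' ⊓ W' : Submodule k _) =
        finrank k U' + finrank k W' := by exact_mod_cast d4
      linarith
    have hfun : (fun n => f (n, t)) = fun n => (hd (fun z => (wt z).1) sh'
        (⊤ : Submodule (MvPolynomial Z k) (I → MvPolynomial Z k)) n : ℤ) -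
        hd (fun z => (wt z).1) sh' N' n := funext key
    rw [hfun]
    refine hil_sub hwt' homS_top hNh le_top ?_
    intro p hp g _
    change E (p • g) ∈ N
    rw [map_smul]
    refine d4_smul_mem (p := p) ?_ (E g)
    intro hD j
    have h0 := hJ p hp j
    have hE : hD = instDecidableEqFin s := Subsingleton.elim _ _
    subst hE
    exact h0

theorem lv_coeff {k : Type u} [Field k] {Z ι J : Type} [Fintype Z] [DecidableEq Z] [Fintype ι]
    [DecidableEq ι] [Fintype J] {blk : Z → ι} {C : Finset Z} {e : ℕ} (he : 0 < e)
    {G0 : Set (MvPolynomial Z k)} {J0 : Set (MvPolynomial (Z ⊕ J) k)}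
    (hJ : ∀ j, X (Sum.inr j) ∈ J0) (hX : ∀ c ∈ C, X (Sum.inl c) ∈ J0)
    (hG : ∀ g ∈ G0, rename Sum.inl g ∈ J0)
    {f : (ι → ℤ) × ℤ → ℤ} (hf : f ∈ Hil k (wT J blk C e) J0) (t : ℤ) :
    (fun n => f (n, t)) ∈ Hil k (wb blk) (G0 ∪ X '' (C : Set Z)) := by
  classical
  have hs : ∀ z, ∑ b, wb blk z b = 1 := by
    intro z
    unfold wb
    rw [Finset.sum_pi_single']
    simp
  let φ0 : (ι → ℤ) →+ ℤ :=
    { toFun := fun n => ∑ b, n b
      map_zero' := by simp
      map_add' := fun a b => by simp [Finset.sum_add_distrib] }
  have hφ0 : ∀ z, φ0 (wb blk z) = 1 := hs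
  have hpos : Pos (wT J blk C e) := by
    refine ⟨φ0.comp (AddMonoidHom.fst _ _) + AddMonoidHom.snd _ _, ?_⟩
    rintro (z | j)
    · change 0 < φ0 (wb blk z) + (if z ∈ C then (1 : ℤ) else 0)
      rw [hφ0]
      split_ifs <;> norm_num
    · change 0 < φ0 0 + (e : ℤ)
      rw [map_zero, zero_add]
      exact_mod_cast he
  have hf2 : f ∈ Hil k (fun z : Z => wT J blk C e (Sum.inl z)) (G0 ∪ X '' (C : Set Z)) := by
    refine Hil.drop hpos Sum.inl Sum.inl_injective ?_ ?_ hf
    · rintro (z | j) hz
      · exact absurd ⟨z, rfl⟩ hz
      · exact hJ j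
    · rintro p (hp | ⟨c, hc, rfl⟩)
      · exact hG p hp
      · rw [rename_X]
        exact hX c hc
  have hpos2 : Pos (fun z : Z => wT J blk C e (Sum.inl z)) := by
    obtain ⟨φ, hφ⟩ := hpos
    exact ⟨φ, fun z => hφ _⟩
  have hpos3 : Pos (fun z : Z => (wT J blk C e (Sum.inl z)).1) := by
    refine ⟨φ0, fun z => ?_⟩
    change 0 < φ0 (wb blk z)
    rw [hφ0]
    norm_num
  refine Hil.slice hpos2 hpos3 ?_ hf2 t
  intro z hz
  refine Or.inr ⟨z, ?_, rfl⟩
  by_contra hc
  refine hz ?_
  change (if z ∈ C then (1 : ℤ) else 0) = 0
  rw [if_neg (by simpa using hc)]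

end Vale.Agent.P200.V
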