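import Vale.Agent.P200.V.LvDefs

/-!
The level lemma: statements of the parts.
-/

namespace Vale.Agent.P200.V

open Module MvPolynomial

universe u

/-- file V/LvNull.lean (helper467), from S/IndRad -/
theorem lv_min {k : Type u} [Field k] {Z ι J : Type} [Fintype Z] [Fintype ι] [Fintype J]
    {blk : Z → ι} {C : Finset Z} {G0 : Set (MvPolynomial Z k)} {h : Z → J → MvPolynomial Z k}
    (hind : LvInd blk C G0 h) {r N : ℕ} {cc : Fin r → Z} (hcc : Function.Injective cc)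
    (hC : ∀ i, cc i ∈ C) {θ : Fin N → J} (hθ : Function.Surjective θ)
    {J0 : Set (MvPolynomial (Z ⊕ J) k)} (hG : ∀ g ∈ G0, rename Sum.inl g ∈ J0)
    (hX : ∀ c ∈ C, X (Sum.inl c) ∈ J0) (j : Fin r) :
    ∃ d : ℕ, ∀ mon : Z ⊕ J →₀ ℕ, (∀ b, d ≤ bdeg (tblk J blk) mon b) →
      monomial mon (1 : k) ∈ Ideal.span (J0 ∪
        mins (fun i m => rename (Sum.inl : Z → Z ⊕ J) (h (cc i) (θ m))) j) := by
  sorry

/-- file V/LvCanc.lean (helper251): cancellation of `1 - L T` and `T = 1` -/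
theorem lv_num {ι κ : Type} [Fintype ι] (C : Finset κ) (b : κ → ι → ℤ) (e : ℕ)
    {Q A : (ι → ℤ) × ℤ → ℤ} {t0 t1 : ℤ} (hQ : ∀ n t, t < t0 ∨ t1 < t → Q (n, t) = 0)
    (hA : ∀ n t, t < t0 ∨ t1 < t → A (n, t) = 0)
    (h : EvEq2 (act ((ι → ℤ) × ℤ) (∏ c ∈ C, (1 - el (b c, (1 : ℤ)))) Q)
      (act ((ι → ℤ) × ℤ) (∏ c ∈ C, (1 - el (e • b c, (e : ℤ)))) A)) :
    EvEq (fun n => ∑ t ∈ Finset.Icc t0 t1, Q (n, t))
      (act (ι → ℤ) (∏ c ∈ C, ph e (b c)) fun n => ∑ t ∈ Finset.Icc t0 t1, A (n, t)) := by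
  sorry

/-- file V/LvT.lean (helper750) -/
theorem lv_below {k : Type u} [Field k] {σ ι : Type} [Fintype σ] {wt : σ → (ι → ℤ) × ℤ}
    (h0 : ∀ v, 0 ≤ (wt v).2) {J0 : Set (MvPolynomial σ k)} {f : (ι → ℤ) × ℤ → ℤ}
    (hf : f ∈ Hil k wt J0) : ∃ t0 : ℤ, ∀ n t, t < t0 → f (n, t) = 0 := by
  sorry

/-- file V/LvT.lean (helper750) -/
theorem lv_above {k : Type u} [Field k] {σ ι : Type} [Fintype σ] {wt : σ → (ι → ℤ) × ℤ}
    {J0 : Set (MvPolynomial σ k)} (h0 : ∀ v, (wt v).2 ≠ 0 → (X v : MvPolynomial σ k) ∈ J0)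
    {f : (ι → ℤ) × ℤ → ℤ} (hf : f ∈ Hil k wt J0) : ∃ t1 : ℤ, ∀ n t, t1 < t → f (n, t) = 0 := by
  sorry

/-- file V/LvC.lean (helper491) -/
theorem lv_coeff {k : Type u} [Field k] {Z ι J : Type} [Fintype Z] [DecidableEq Z] [Fintype ι]
    [DecidableEq ι] [Fintype J] {blk : Z → ι} {C : Finset Z} {e : ℕ} (he : 0 < e)
    {G0 : Set (MvPolynomial Z k)} {J0 : Set (MvPolynomial (Z ⊕ J) k)}
    (hJ : ∀ j, X (Sum.inr j) ∈ J0) (hX : ∀ c ∈ C, X (Sum.inl c) ∈ J0)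
    (hG : ∀ g ∈ G0, rename Sum.inl g ∈ J0)
    {f : (ι → ℤ) × ℤ → ℤ} (hf : f ∈ Hil k (wT J blk C e) J0) (t : ℤ) :
    (fun n => f (n, t)) ∈ Hil k (wb blk) (G0 ∪ X '' (C : Set Z)) := by
  sorry

/-- file V/Kos.lean (helper167), exact statement to be fixed by helper167 -/
theorem koszul {k : Type u} [Field k] {σ ι : Type} [Fintype σ] [Fintype ι] [DecidableEq ι]
    {wt : σ → (ι → ℤ) × ℤ} (hwt : Pos wt) {blk : σ → Option ι}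
    (hblk : ∀ v i, (wt v).1 i = open scoped Classical in if blk v = some i then 1 else 0)
    {N r : ℕ} {Y : Fin N → MvPolynomial σ k} {h : Fin r → Fin N → MvPolynomial σ k}
    {b : Fin r → ι} {e : ℕ} {J0 : Set (MvPolynomial σ k)}
    (hY : ∀ m mon, coeff mon (Y m) ≠ 0 → dg wt mon = (0, (e : ℤ)))
    (hh : ∀ c m mon, coeff mon (h c m) ≠ 0 → dg wt mon = (Pi.single (b c) (e : ℤ), 0))
    (hF : ∀ c, ∑ m, Y m * h c m ∈ (Ideal.span J0 : Ideal (MvPolynomial σ k)))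
    (hmin : ∀ j : Fin r, ∃ d : ℕ, ∀ mon : σ →₀ ℕ, (∀ i, d ≤ bdeg blk mon i) →
      monomial mon (1 : k) ∈ (Ideal.span (J0 ∪ mins h j) : Ideal (MvPolynomial σ k)))
    {f : (ι → ℤ) × ℤ → ℤ} (hf : f ∈ Hil k wt J0) :
    ∃ g ∈ Hil k wt (J0 ∪ Set.range Y),
      EvEq2 (act ((ι → ℤ) × ℤ) ((1 - el ((0 : ι → ℤ), (e : ℤ))) ^ N) f)
        (act ((ι → ℤ) × ℤ) (∏ c, (1 - el ((Pi.single (b c) (e : ℤ) : ι → ℤ), (e : ℤ)))) g) := by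
  sorry

/-- file V/SL1.lean (helper536) -/
theorem sl1 {k : Type u} [Field k] {Z ι J : Type} [Fintype Z] [DecidableEq Z] [Fintype ι]
    [DecidableEq ι] [Fintype J] {blk : Z → ι} {C : Finset Z} {e : ℕ} (he : 0 < e)
    (G0 : Set (MvPolynomial Z k)) (h : Z → J → MvPolynomial Z k)
    (hG0 : ∀ p ∈ G0, (∃ δ : ι → ℤ, ∀ m, coeff m p ≠ 0 → dg (wb blk) m = δ) ∧
      ∀ m, coeff m p ≠ 0 → ∀ c ∈ C, m c = 0)
    (hh : ∀ c ∈ C, ∀ j m, coeff m (h c j) ≠ 0 →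
      dg (wb blk) m = Pi.single (blk c) (e : ℤ) ∧ ∀ c' ∈ C, m c' = 0)
    {f : (ι → ℤ) → ℤ} (hf : f ∈ Hil (KF k J) (wb blk)
      ((MvPolynomial.map (algebraMap k (KF k J)) '' G0) ∪ (lrel e h '' (C : Set Z)))) :
    ∃ f' ∈ Hil k (wT J blk C e) ((rename Sum.inl '' G0) ∪ (trelT e h '' (C : Set Z))),
      (∀ n t, t < 0 → f' (n, t) = 0) ∧ ∀ n (t1 : ℤ), (∀ t, t1 < t → act ((ι → ℤ) × ℤ)
        ((1 - el ((0 : ι → ℤ), (e : ℤ))) ^ Fintype.card J) f' (n, t) = 0) →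
        f n = ∑ t ∈ Finset.Icc 0 t1, act ((ι → ℤ) × ℤ)
          ((1 - el ((0 : ι → ℤ), (e : ℤ))) ^ Fintype.card J) f' (n, t) := by
  sorry

end Vale.Agent.P200.V
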