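import Vale.Agent.P200.V.Cmpd
import Vale.Agent.P200.V.Target
import Vale.Agent.P200.Y.Final

/-!
Cycles of the Koszul complexes and commuting linear forms over a division ring.
-/

namespace Vale.Agent.P200.V

open MvPolynomial Module
open Vale.Agent.P200.B Vale.Agent.P200.G Vale.Agent.P200.L Vale.Agent.P200.M Vale.Agent.P200.W
open Vale.Agent.P200.Y

section rd
variable {D : Type*} [DivisionRing D] {n : ℕ}

theorem qb_finrank_rd_theta (E : Fin n → Fin n → D) (hc : LinComm E)
    (hind : LinearIndependent D E) {d p : ℕ} (V : Submodule D (YR D n)) :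
    finrank D (M.rd (fun i => M.lin (E i)) V (YD D n d) p) =
      finrank D (M.rd (zv D n) (V.comap (theta E)) (YD D n d) p) := by
  have hinj := tg_theta_injective E hc hind
  have hkr : ∀ (c : Finset (Fin n) → YR D n) (t : Finset (Fin n)),
      M.kr (fun i => M.lin (E i)) (fun s => theta E (c s)) t = theta E (M.kr (zv D n) c t) := by
    intro c t
    rw [M.kr_apply, M.kr_apply, map_sum]
    refine Finset.sum_congr rfl fun i _ => ?_
    rcases neg_one_pow_eq_or (YR D n) (t.filter fun k => k < i).card with h | h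
    · rw [h, one_mul, one_mul, tg_theta_mul_zv E hc]
    · rw [h, neg_one_mul, neg_one_mul, map_neg, tg_theta_mul_zv E hc]
  have hYD : ∀ u, theta E u ∈ YD D n d ↔ u ∈ YD D n d :=
    fun u => ⟨fun h => (tg_finrank_comap E hc hind (YD D n d) le_rfl).1 h, theta_mem E⟩
  obtain ⟨Φ, hΦ⟩ : ∃ Φ : (Finset (Fin n) → YR D n) →ₗ[D] (Finset (Fin n) → YR D n),
      ∀ c, Φ c = fun s => theta E (c s) :=
    ⟨(theta E).compLeft (Finset (Fin n)), fun c => rfl⟩
  have hΦinj : Function.Injective Φ := by
    intro a b hab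
    rw [hΦ, hΦ] at hab
    funext s
    exact hinj (congrFun hab s)
  have hcomap : (M.rd (fun i => M.lin (E i)) V (YD D n d) p).comap Φ =
      M.rd (zv D n) (V.comap (theta E)) (YD D n d) p := by
    ext c
    rw [Submodule.mem_comap, hΦ, M.mem_rd, M.mem_rd, M.mem_chD, M.mem_chD]
    have e1 : (∀ s : Finset (Fin n), s.card ≠ p → theta E (c s) = 0) ↔
        ∀ s : Finset (Fin n), s.card ≠ p → c s = 0 :=
      forall_congr' fun s => imp_congr_right fun _ => by
        rw [← map_zero (theta E)]
        exact hinj.eq_iff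
    have e2 : (∀ s, theta E (c s) ∈ YD D n d) ↔ ∀ s, c s ∈ YD D n d :=
      forall_congr' fun s => hYD _
    have e3 : (∀ t, M.kr (fun i => M.lin (E i)) (fun s => theta E (c s)) t ∈ V) ↔
        ∀ t, M.kr (zv D n) c t ∈ V.comap (theta E) :=
      forall_congr' fun t => by rw [hkr, Submodule.mem_comap]
    rw [e1, e2, e3]
  have hle : M.rd (fun i => M.lin (E i)) V (YD D n d) p ≤ LinearMap.range Φ := by
    intro c hc'
    have h1 : ∀ s, ∃ w, theta E w = c s := by
      intro s
      have h2 := hc'.1.2 s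
      rw [← tg_map_theta E hc hind d] at h2
      obtain ⟨w, _, hw⟩ := h2
      exact ⟨w, hw⟩
    choose w hw using h1
    refine ⟨w, ?_⟩
    rw [hΦ]
    funext s
    exact hw s
  rw [← hcomap]
  exact (Submodule.comap_equiv_self_of_inj_of_le hΦinj hle).finrank_eq.symm

end rd

section trans
variable {K : Type*} [Field K] {D : Type*} [DivisionRing D] [Algebra K D] {n : ℕ}

theorem qb_cycles (E : Fin n → Fin n → D) (hc : LinComm E)
    (hind : LinearIndependent D E) {B d p : ℕ} (hB : d + 1 < B)
    {V : Submodule K (MvPolynomial (Fin n) K)}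
    (hV : V ≤ homogeneousSubmodule (Fin n) K (d + 1)) :
    finrank K (rc X V (homogeneousSubmodule (Fin n) K d) p) ≤ ZS K (trM D E B V) d p := by
  have h1 := finrank_rd_VD (D := D) V (homogeneousSubmodule (Fin n) K d) p
  have h2 := finrank_rd_VD (D := D) (restrictSupport K (trM D E B V))
    (homogeneousSubmodule (Fin n) K d) p
  rw [VD_homogeneous] at h1 h2
  rw [VD_restrictSupport] at h2
  rw [ZS, ← h1, ← h2, compound_comm E hc hind (VD D V) (VD_le_YD hV)
    (fun u hu c => mul_single_mem_VD V hu c), qb_finrank_rd_theta E hc hind]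
  exact finrank_rd_inm hB (tg_finrank_comap E hc hind (VD D V) (VD_le_YD hV)).1

/-- passage to a monomial space containing the powers -/
theorem qb_degen (a : Fin n → ℕ) (E : Fin n → Fin n → D) (hc : LinComm E)
    (hind : LinearIndependent D E) (I : Ideal (MvPolynomial (Fin n) K))
    (hpow : ∀ i, ∃ u : YR D n, theta E u ∈ VD D (piece I (a i)) ∧
      u.coeff (Finsupp.single i (a i)) ≠ 0 ∧
        ∀ m', cl m' (Finsupp.single i (a i)) → u.coeff m' = 0) {d : ℕ}
    (V : Submodule K (MvPolynomial (Fin n) K)) (hV1 : piece I (d + 1) ≤ V)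
    (hV2 : V ≤ homogeneousSubmodule (Fin n) K (d + 1)) :
    ∃ M : Set (Fin n →₀ ℕ), PwSet n a (d + 1) M ∧ M.ncard = finrank K V ∧
      ∀ p, finrank K (rc X V (homogeneousSubmodule (Fin n) K d) p) ≤ ZS K M d p := by
  have hVD := VD_le_YD (D := D) hV2
  have hcm := tg_finrank_comap E hc hind (VD D V) hVD
  have hVf : Module.Finite K V := Submodule.finiteDimensional_of_le hV2
  refine ⟨trM D E (d + 2) V, ⟨fun m hm => inm_subset hcm.1 hm, fun m hm ⟨i, hi⟩ => ?_⟩, ?_,
    fun p => qb_cycles E hc hind (Nat.lt_succ_self _) hV2⟩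
  · rw [trM, ← w17_low_eq (Nat.lt_succ_self (d + 1)) hcm.1]
    have hmul : ∀ d, ∀ v ∈ piece I d, ∀ k, v * X k ∈ piece I (d + 1) := by
      intro d v hv k
      refine ⟨I.mul_mem_right _ hv.1, ?_⟩
      exact ((mem_homogeneousSubmodule _ _).1 hv.2).mul (isHomogeneous_X K k)
    obtain ⟨S, hS⟩ := w17_exists_set fun m =>
        m ∈ w17low ((VD D (piece I (∑ i, m i))).comap (theta E))
    have hup : ∀ m ∈ S, ∀ i, m + Finsupp.single i 1 ∈ S := by
      intro m hm i
      rw [hS] at hm ⊢
      have h2 : ∑ j, (m + Finsupp.single i 1 : Fin n →₀ ℕ) j = ∑ i, m i + 1 := by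
        rw [m4_deg_add, m4_deg_single]
      rw [h2]
      refine w17_low_mul i (fun u hu => ?_) hm
      change theta E (u * zv D n i) ∈ VD D (piece I (∑ i, m i + 1))
      rw [tg_theta_mul_zv E hc]
      exact w17_VD_mul_lin (hmul _) _ hu
    have h1 : Finsupp.single i (a i) ∈ S := by
      rw [hS]
      have h1 : ∑ j, (Finsupp.single i (a i) : Fin n →₀ ℕ) j = a i := by
        classical
        simp only [Finsupp.single_apply]
        simp
      rw [h1]
      obtain ⟨u, hu, hu1, hu2⟩ := hpow i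
      exact ⟨u, hu, hu1, hu2⟩
    have h2 : m ∈ S := by
      have h3 : m = Finsupp.single i (a i) + (m - Finsupp.single i (a i)) := by
        rw [add_tsub_cancel_of_le]
        rwa [Finsupp.single_le_iff]
      rw [h3]
      exact up_add hup h1 _
    rw [hS, hm] at h2
    obtain ⟨u, hu, hu1, hu2⟩ := h2
    exact ⟨u, M.VD_mono hV1 hu, hu1, hu2⟩
  · rw [trM, ncard_inm (Nat.lt_succ_self _) hcm.1, hcm.2, M.finrank_VD]

end trans

end Vale.Agent.P200.V
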