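import Vale.Agent.P200.Y.Pair

/-!
Pairs for all exponents which are nonzero in the field.
-/

set_option linter.all false

namespace Vale.Agent.P200.V

universe u

section Qp

variable {K : Type u} [Field K] {R : Type u} [Ring R] [Algebra K R]

/-- Laurent series whose `n`-th coefficient is homogeneous of degree `n`. -/
noncomputable def qpair_D (G : ℤ → Submodule K R) (h1 : (1 : R) ∈ G 0)
    (hm : ∀ i j a b, a ∈ G i → b ∈ G j → a * b ∈ G (i + j)) : Subalgebra K (HahnSeries ℤ R) where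
  carrier := {F | ∀ n, F.coeff n ∈ G n}
  mul_mem' := by
    intro F E hF hE n
    rw [HahnSeries.coeff_mul]
    refine Submodule.sum_mem _ fun ij hij => ?_
    have h := (Finset.mem_antidiagonal.mp hij).2.2
    rw [← h]
    exact hm _ _ _ _ (hF _) (hE _)
  add_mem' := by
    intro F E hF hE n
    rw [HahnSeries.coeff_add]
    exact (G n).add_mem (hF n) (hE n)
  algebraMap_mem' := by
    intro r n
    rw [HahnSeries.algebraMap_apply, HahnSeries.C_apply]
    by_cases hn : n = 0
    · subst hn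
      rw [HahnSeries.coeff_single_same, Algebra.algebraMap_eq_smul_one]
      exact (G 0).smul_mem _ h1
    · rw [HahnSeries.coeff_single_of_ne hn]
      exact (G n).zero_mem

theorem qpair_mem (G : ℤ → Submodule K R) (h1 : (1 : R) ∈ G 0)
    (hm : ∀ i j a b, a ∈ G i → b ∈ G j → a * b ∈ G (i + j)) (F : HahnSeries ℤ R) :
    F ∈ qpair_D G h1 hm ↔ ∀ n, F.coeff n ∈ G n :=
  Iff.rfl

theorem qpair_single (G : ℤ → Submodule K R) (h1 : (1 : R) ∈ G 0)
    (hm : ∀ i j a b, a ∈ G i → b ∈ G j → a * b ∈ G (i + j)) (n : ℤ) (a : R) (ha : a ∈ G n) :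
    HahnSeries.single n a ∈ qpair_D G h1 hm := by
  rw [qpair_mem]
  intro k
  by_cases hk : k = n
  · subst hk
    rw [HahnSeries.coeff_single_same]
    exact ha
  · rw [HahnSeries.coeff_single_of_ne hk]
    exact (G k).zero_mem

theorem qpair_inv (G : ℤ → Submodule K R)
    (hm : ∀ i j a b, a ∈ G i → b ∈ G j → a * b ∈ G (i + j))
    (hi : ∀ i a, a ∈ G i → a ≠ 0 → ∃ b ∈ G (-i), a * b = 1 ∧ b * a = 1)
    (F : HahnSeries ℤ R) (hF : ∀ n, F.coeff n ∈ G n) (h0 : F ≠ 0) :
    ∃ E : HahnSeries ℤ R, (∀ n, E.coeff n ∈ G n) ∧ F * E = 1 ∧ E * F = 1 := by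
  have hc : F.coeff F.order ≠ 0 := HahnSeries.coeff_order_eq_zero.not.mpr h0
  obtain ⟨b, hb, hab, hba⟩ := hi F.order _ (hF _) hc
  obtain ⟨P, hP⟩ : ∃ P : PowerSeries R, P = LaurentSeries.powerSeriesPart F := ⟨_, rfl⟩
  have hPc : ∀ n : ℕ, PowerSeries.coeff n P = F.coeff (F.order + n) := by
    intro n
    rw [hP, LaurentSeries.powerSeriesPart_coeff]
  let v : Rˣ := ⟨F.coeff F.order, b, hab, hba⟩
  have hv : PowerSeries.constantCoeff P = v := by
    rw [← PowerSeries.coeff_zero_eq_constantCoeff_apply, hPc, Nat.cast_zero, add_zero]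
  obtain ⟨Q, hQ⟩ : ∃ Q : PowerSeries R, Q = PowerSeries.invOfUnit P v := ⟨_, rfl⟩
  have hPQ : P * Q = 1 := by rw [hQ]; exact PowerSeries.mul_invOfUnit P v hv
  have hQP : Q * P = 1 := by rw [hQ]; exact PowerSeries.invOfUnit_mul P v hv
  have hQc : ∀ n : ℕ, PowerSeries.coeff n Q ∈ G (n - F.order) := by
    intro n
    induction n using Nat.strong_induction_on with
    | _ n ih =>
      rw [hQ, PowerSeries.coeff_invOfUnit, ← hQ]
      split_ifs with hn
      · subst hn
        rw [Nat.cast_zero, zero_sub]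
        exact hb
      · have h2 : (n : ℤ) - F.order = -F.order + n := by ring
        rw [h2]
        refine hm _ _ _ _ ((G _).neg_mem hb) ?_
        refine Submodule.sum_mem _ fun x hx => ?_
        split_ifs with hx2
        · have h3 := hm _ _ _ _ (hF (F.order + x.1)) (ih x.2 hx2)
          rw [← hPc] at h3
          have h4 : F.order + (x.1 : ℤ) + ((x.2 : ℤ) - F.order) = n := by
            rw [← Finset.HasAntidiagonal.mem_antidiagonal.mp hx]
            push_cast
            ring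
          rw [h4] at h3
          exact h3
        · exact (G _).zero_mem
  have hF2 : F = HahnSeries.single F.order 1 * HahnSeries.ofPowerSeries ℤ R P := by
    rw [hP]
    exact (LaurentSeries.single_order_mul_powerSeriesPart F).symm
  have hpq : HahnSeries.ofPowerSeries ℤ R P * HahnSeries.ofPowerSeries ℤ R Q = 1 := by
    rw [← map_mul, hPQ, map_one]
  have hqp : HahnSeries.ofPowerSeries ℤ R Q * HahnSeries.ofPowerSeries ℤ R P = 1 := by
    rw [← map_mul, hQP, map_one]
  have hs : ∀ m : ℤ, (HahnSeries.single m (1 : R)) * HahnSeries.single (-m) 1 = 1 := by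
    intro m
    rw [HahnSeries.single_mul_single, add_neg_cancel, mul_one]
    rfl
  have hs' : ∀ m : ℤ, (HahnSeries.single (-m) (1 : R)) * HahnSeries.single m 1 = 1 := by
    intro m
    rw [HahnSeries.single_mul_single, neg_add_cancel, mul_one]
    rfl
  refine ⟨HahnSeries.ofPowerSeries ℤ R Q * HahnSeries.single (-F.order) 1, ?_, ?_, ?_⟩
  · intro n
    rw [HahnSeries.coeff_mul_single, mul_one, sub_neg_eq_add]
    have h5 := PowerSeries.coeff_coe Q (n + F.order)
    rw [h5]
    split_ifs with h6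
    · exact (G _).zero_mem
    · have h7 := hQc (n + F.order).natAbs
      have h8 : ((n + F.order).natAbs : ℤ) - F.order = n := by
        rw [Int.natAbs_of_nonneg (not_lt.mp h6)]
        ring
      rw [h8] at h7
      exact h7
  · have h9 : ∀ m, HahnSeries.single m 1 * HahnSeries.ofPowerSeries ℤ R P *
        (HahnSeries.ofPowerSeries ℤ R Q * HahnSeries.single (-m) 1) = 1 := by
      intro m
      rw [mul_assoc, ← mul_assoc (HahnSeries.ofPowerSeries ℤ R P), hpq, one_mul, hs]
    have h10 := h9 F.order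
    rw [← hF2] at h10
    exact h10
  · have h9 : ∀ m, HahnSeries.ofPowerSeries ℤ R Q * HahnSeries.single (-m) 1 *
        (HahnSeries.single m 1 * HahnSeries.ofPowerSeries ℤ R P) = 1 := by
      intro m
      rw [mul_assoc, ← mul_assoc (HahnSeries.single (-m) (1 : R)), hs', one_mul, hqp]
    have h10 := h9 F.order
    rw [← hF2] at h10
    exact h10

end Qp

section Gr

variable {K : Type u} [Field K] {L : Type u} [Field L] [Algebra K L]

/-- the operators `v ↦ f * σ^i v` -/
def qpair_G (σ : L ≃ₐ[K] L) (i : ℤ) : Submodule K (Module.End K L) where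
  carrier := {T | ∃ f : L, ∀ v, T v = f * (σ ^ i) v}
  add_mem' := by
    rintro T S ⟨f, hf⟩ ⟨g, hg⟩
    exact ⟨f + g, fun v => by rw [LinearMap.add_apply, hf, hg, add_mul]⟩
  zero_mem' := ⟨0, fun v => by rw [LinearMap.zero_apply, zero_mul]⟩
  smul_mem' := by
    rintro c T ⟨f, hf⟩
    exact ⟨c • f, fun v => by rw [LinearMap.smul_apply, hf, smul_mul_assoc]⟩

theorem qpair_G_one (σ : L ≃ₐ[K] L) : (1 : Module.End K L) ∈ qpair_G σ 0 :=
  ⟨1, fun v => by rw [zpow_zero, one_mul]; rfl⟩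

theorem qpair_G_mul (σ : L ≃ₐ[K] L) (i j : ℤ) (a b : Module.End K L) (ha : a ∈ qpair_G σ i)
    (hb : b ∈ qpair_G σ j) : a * b ∈ qpair_G σ (i + j) := by
  obtain ⟨f, hf⟩ := ha
  obtain ⟨g, hg⟩ := hb
  refine ⟨f * (σ ^ i) g, fun v => ?_⟩
  rw [Module.End.mul_apply, hg, hf, map_mul, zpow_add, AlgEquiv.mul_apply, mul_assoc]

theorem qpair_G_inv (σ : L ≃ₐ[K] L) (i : ℤ) (a : Module.End K L) (ha : a ∈ qpair_G σ i)
    (h0 : a ≠ 0) : ∃ b ∈ qpair_G σ (-i), a * b = 1 ∧ b * a = 1 := by
  obtain ⟨f, hf⟩ := ha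
  have hf0 : f ≠ 0 := by
    rintro rfl
    apply h0
    ext v
    rw [hf, zero_mul]
    rfl
  have h1 : ∀ v : L, (σ ^ i) ((σ ^ (-i)) v) = v := by
    intro v
    rw [← AlgEquiv.mul_apply, ← zpow_add, add_neg_cancel, zpow_zero]
    rfl
  have h2 : ∀ v : L, (σ ^ (-i)) ((σ ^ i) v) = v := by
    intro v
    rw [← AlgEquiv.mul_apply, ← zpow_add, neg_add_cancel, zpow_zero]
    rfl
  refine ⟨((σ ^ (-i)).toLinearMap) ∘ₗ (LinearMap.mulLeft K f⁻¹), ⟨(σ ^ (-i)) f⁻¹, fun v => ?_⟩,
    ?_, ?_⟩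
  · rw [LinearMap.comp_apply, LinearMap.mulLeft_apply, AlgEquiv.toLinearMap_apply, map_mul]
  · ext v
    rw [Module.End.mul_apply, hf, LinearMap.comp_apply, LinearMap.mulLeft_apply,
      AlgEquiv.toLinearMap_apply, h1, ← mul_assoc, mul_inv_cancel₀ hf0, one_mul]
    rfl
  · ext v
    rw [Module.End.mul_apply, hf, LinearMap.comp_apply, LinearMap.mulLeft_apply,
      AlgEquiv.toLinearMap_apply, ← mul_assoc, inv_mul_cancel₀ hf0, one_mul, h2]
    rfl

theorem qpair_of_aut (σ : L ≃ₐ[K] L) (ζ : K) (t : L) (ht : t ≠ 0) (hσ : σ t = ζ • t) :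
    ∃ (D : Type u) (_ : DivisionRing D) (_ : Algebra K D) (x y : D),
      x ≠ 0 ∧ y ≠ 0 ∧ x * y = ζ • (y * x) := by
  have hx : σ.toLinearMap ∈ qpair_G σ 1 := ⟨1, fun v => by
    rw [zpow_one, one_mul, AlgEquiv.toLinearMap_apply]⟩
  have hy : LinearMap.mulLeft K t ∈ qpair_G σ 0 := ⟨t, fun v => by
    rw [zpow_zero, LinearMap.mulLeft_apply]; rfl⟩
  have hU : ∀ F : qpair_D (qpair_G σ) (qpair_G_one σ) (qpair_G_mul σ), IsUnit F ∨ F = 0 := by
    rintro ⟨F, hF⟩
    by_cases h0 : F = 0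
    · right
      subst h0
      rfl
    · left
      obtain ⟨E, hE, h1, h2⟩ := qpair_inv (qpair_G σ) (qpair_G_mul σ) (qpair_G_inv σ) F hF h0
      exact ⟨⟨⟨F, hF⟩, ⟨E, hE⟩, Subtype.ext h1, Subtype.ext h2⟩, rfl⟩
  refine ⟨qpair_D (qpair_G σ) (qpair_G_one σ) (qpair_G_mul σ),
    DivisionRing.ofIsUnitOrEqZero hU, inferInstanceAs (Algebra K (qpair_D _ _ _)),
    ⟨HahnSeries.single 1 σ.toLinearMap, qpair_single _ _ _ _ _ hx⟩,
    ⟨HahnSeries.single 0 (LinearMap.mulLeft K t), qpair_single _ _ _ _ _ hy⟩, ?_, ?_, ?_⟩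
  · intro h
    have h1 := congrArg Subtype.val h
    have h2 := HahnSeries.single_eq_zero_iff.mp h1
    have h3 := LinearMap.congr_fun h2 1
    rw [AlgEquiv.toLinearMap_apply, map_one] at h3
    exact one_ne_zero h3
  · intro h
    have h1 := congrArg Subtype.val h
    have h2 := HahnSeries.single_eq_zero_iff.mp h1
    have h3 := LinearMap.congr_fun h2 1
    rw [LinearMap.mulLeft_apply, mul_one] at h3
    exact ht h3
  · apply Subtype.ext
    change HahnSeries.single 1 σ.toLinearMap * HahnSeries.single 0 (LinearMap.mulLeft K t) =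
      ζ • (HahnSeries.single 0 (LinearMap.mulLeft K t) * HahnSeries.single 1 σ.toLinearMap)
    rw [HahnSeries.single_mul_single, HahnSeries.single_mul_single, zero_add, add_zero]
    have hsm : ∀ a : Module.End K L,
        ζ • HahnSeries.single (1 : ℤ) a = HahnSeries.single 1 (ζ • a) := by
      intro a
      ext1
      funext k
      rw [HahnSeries.coeff_smul]
      by_cases hk : k = 1
      · subst hk
        rw [HahnSeries.coeff_single_same, HahnSeries.coeff_single_same]
      · rw [HahnSeries.coeff_single_of_ne hk, HahnSeries.coeff_single_of_ne hk, smul_zero]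
    rw [hsm]
    congr 1
    ext v
    rw [Module.End.mul_apply, LinearMap.mulLeft_apply, AlgEquiv.toLinearMap_apply, map_mul, hσ,
      LinearMap.smul_apply, Module.End.mul_apply, LinearMap.mulLeft_apply,
      AlgEquiv.toLinearMap_apply, smul_mul_assoc]

end Gr

/-- a division ring with `x y = ζ y x` (skew Laurent series over `K(u)`) -/
theorem exists_qpair (K : Type u) [Field K] (ζ : K) (hζ : ζ ≠ 0) :
    ∃ (D : Type u) (_ : DivisionRing D) (_ : Algebra K D) (x y : D),
      x ≠ 0 ∧ y ≠ 0 ∧ x * y = ζ • (y * x) := by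
  have : Invertible ζ := invertibleOfNonzero hζ
  refine qpair_of_aut (L := FractionRing (Polynomial K))
    (IsFractionRing.algEquivOfAlgEquiv (Polynomial.algEquivCMulXAddC ζ 0)) ζ
    (algebraMap (Polynomial K) _ Polynomial.X) ?_ ?_
  · intro h
    exact Polynomial.X_ne_zero ((map_eq_zero_iff _
      (IsFractionRing.injective (Polynomial K) (FractionRing (Polynomial K)))).mp h)
  · rw [IsFractionRing.algEquivOfAlgEquiv_algebraMap, Polynomial.algEquivCMulXAddC_apply,
      Polynomial.aeval_X, map_zero, add_zero, ← Polynomial.smul_eq_C_mul]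
    exact algebraMap.coe_smul _ _ _

theorem hasPair_of_ne_zero {K : Type u} [Field K] [IsAlgClosed K] {N : ℕ} (hN : 2 ≤ N)
    (hK : (N : K) ≠ 0) : Y.HasPair K N := by
  have : NeZero (N : K) := ⟨hK⟩
  obtain ⟨ζ, hζ⟩ := HasEnoughRootsOfUnity.exists_primitiveRoot K N
  obtain ⟨D, _, _, x, y, hx, hy, h⟩ := exists_qpair K ζ (hζ.ne_zero (by omega))
  exact Y.hasPair_of_comm hN hζ hx hy h

end Vale.Agent.P200.V
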