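import Vale.Agent.P200.V.QBase
import Vale.Agent.P200.V.QPair
import Vale.Agent.P200.V.Goal

/-!
Lex-plus-powers from the interfaces `EOut`, `FProp`.
-/

namespace Vale.Agent.P200.V

open MvPolynomial Module
open Vale.Agent.P200.B Vale.Agent.P200.G Vale.Agent.P200.L Vale.Agent.P200.M Vale.Agent.P200.W
open Vale.Agent.P200.Y

universe u

theorem qf_bD_C_mul {K D : Type*} [Field K] [DivisionRing D] [Algebra K D] {n : ℕ} (r : K)
    (x : YR D n) : bD D (C r) * x = algebraMap K D r • x := by
  have h1 : (bD D (C r) : YR D n) = AddMonoidAlgebra.single 0 (algebraMap K D r) :=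
    AddMonoidAlgebra.mapRingHom_single _ _ _
  rw [h1]
  ext m
  rw [AddMonoidAlgebra.coeff_single_zero_mul, AddMonoidAlgebra.coeff_smul_apply, smul_eq_mul]

/-- the data of block F from the roots -/
noncomputable def Roots.tgData {K D : Type u} [Field K] [DivisionRing D] [Algebra K D] {n : ℕ}
    {a : Fin n → ℕ} {E : Fin n → Fin n → D} {Lc : Fin n → Fin n → K}
    {Gf : Fin n → MvPolynomial (Fin n) K} (h : Roots K D a E Lc Gf) : TgData K D n a where
  E := E
  comm := h.comm
  G := Gf
  hom := h.hom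
  prim := h.prim
  L i j := algebraMap K D (Lc i j)
  rel := by
    intro i
    rw [h.pow i]
    congr 1
    refine Finset.sum_congr ?_ fun j _ => qf_bD_C_mul _ _
    ext j
    simp

/-- the lowest monomial of the polynomial with value `G_i` -/
theorem qf_init {K D : Type*} [Field K] [DivisionRing D] [Algebra K D] {n : ℕ} {a : Fin n → ℕ}
    (ρ : TgData K D n a) (ha : ∀ i, 1 ≤ a i) (i : Fin n) :
    (ρ.init i).coeff (Finsupp.single i (a i)) ≠ 0 ∧
      ∀ m', cl m' (Finsupp.single i (a i)) → (ρ.init i).coeff m' = 0 := by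
  classical
  refine ⟨?_, fun m' hm' => ?_⟩
  · rw [ρ.init_coeff, if_pos rfl]
    · exact one_ne_zero
    · intro j hj h
      have h1 := DFunLike.congr_fun h j
      rw [Finsupp.single_eq_same, Finsupp.single_eq_of_ne (ne_of_gt hj)] at h1
      exact absurd h1 (by have := ha i; omega)
  · obtain ⟨k, hk1, hk2⟩ := hm'
    have hki : k = i := by
      by_contra hne
      rw [Finsupp.single_eq_of_ne hne] at hk1
      omega
    subst hki
    rw [ρ.init_coeff, if_neg]
    · rintro rfl
      exact lt_irrefl _ hk1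
    · rintro j hj rfl
      have h1 := hk2 j hj
      rw [Finsupp.single_eq_same, Finsupp.single_eq_of_ne (ne_of_gt hj)] at h1
      exact absurd h1 (by have := ha k; omega)

/-- forms over the extension in the extended ideal have their images in the space generated by
the ideal -/
theorem qf_mem_VD {k K D : Type u} [Field k] [Field K] [Algebra k K] [DivisionRing D]
    [Algebra K D] [Algebra k D] [IsScalarTower k K D] {n : ℕ}
    (I : Ideal (MvPolynomial (Fin n) k)) {g : MvPolynomial (Fin n) K} {e : ℕ}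
    (hg : g.IsHomogeneous e) (hgI : g ∈ I.map (MvPolynomial.map (σ := Fin n) (algebraMap k K))) :
    (bD D g : YR D n) ∈ VD D (piece I e) := by
  rw [mem_VD_iff]
  intro l
  refine ⟨bcc (l ∘ₗ (IsScalarTower.toAlgHom k K D).toLinearMap) g, ⟨?_, ?_⟩, fun m => ?_⟩
  · exact mem_map_iff_bcc.1 hgI _
  · refine (mem_homogeneousSubmodule _ _).2 fun m hm => ?_
    refine hg fun h0 => hm ?_
    rw [coeff_bcc, h0, map_zero]
  · rw [coeff_bcc, bD_coeff]
    rfl

/-- as many forms as variables -/
theorem qf_zle_base {k : Type u} [Field k] [IsAlgClosed k] (hE : EOut k) {n : ℕ} (a : Fin n → ℕ)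
    (ha : Monotone a) (h2 : ∀ i, 2 ≤ a i) (hpair : ∀ i : Fin n, 0 < i.1 → HasPair k (a i))
    (f : Fin n → MvPolynomial (Fin n) k) (hf : ∀ i, (f i).IsHomogeneous (a i))
    (hreg : IsRegularSeq f) (p : ℕ) : ZLE k le_rfl a p f := by
  intro d V hV1 hV2
  obtain ⟨K, _, _, D, _, _, E, Lc, Gf, hR, hG⟩ := hE n a ha h2 f hf
    (isMPrimary_of_regular a f hf hreg)
  let _ : Algebra k D := ((algebraMap K D).comp (algebraMap k K)).toAlgebra' fun c x =>
    Algebra.commutes (algebraMap k K c) x
  have : IsScalarTower k K D := IsScalarTower.of_algebraMap_eq fun x => rfl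
  have ha1 : ∀ i, 1 ≤ a i := fun i => le_trans one_le_two (h2 i)
  obtain ⟨M, hM, hcard, hZ⟩ := qb_degen (K := k) a E hR.comm (hR.tgData.ind ha1)
    (Ideal.span (Set.range f)) (fun i => ⟨hR.tgData.init i, by
      rw [show theta E = theta hR.tgData.E from rfl, hR.tgData.theta_init]
      exact qf_mem_VD _ (hR.hom i) (hG i), qf_init hR.tgData ha1 i⟩) V hV1 hV2
  refine (hZ p).trans ((pw_zle n a ha h2 hpair d p M hM).trans ?_)
  rw [hcard]
  exact le_rfl

/-- **Cycle inequalities.** -/
theorem qf_zle (K : Type u) [Field K]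
    (hF : ∀ (K D : Type u) [Field K] [DivisionRing D] [Algebra K D], FProp K D)
    (hE : ∀ (k : Type u) [Field k] [IsAlgClosed k], EOut k) {n c : ℕ}
    (h : c ≤ n) (a : Fin c → ℕ) (ha : Monotone a) (h2 : ∀ i, 2 ≤ a i)
    (hK : ∀ i : Fin c, 0 < i.1 → (a i : K) ≠ 0) (f : Fin c → MvPolynomial (Fin n) K)
    (hf : ∀ i, (f i).IsHomogeneous (a i)) (hreg : IsRegularSeq f) (p : ℕ) : ZLE K h a p f := by
  have hinf : Infinite (AlgebraicClosure K) := IsAlgClosed.instInfinite
  refine zle_of_baseChange (L := AlgebraicClosure K) h _ p f hf ?_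
  refine zle_all a (fun i => le_trans one_le_two (h2 i)) p (fun _ _ => True)
    (fun _ _ _ _ => trivial) ?_ ?_ n h _
    (fun i => (hf i).map _) (isRegSeq_baseChange f _ hf hreg) trivial
  · intro n h f hf hreg _ I hI hfI
    exact egh_of_out (AlgebraicClosure K) hF (hE _) h a ha h2 f hf hreg I hI hfI
  · intro f hf hreg _
    refine qf_zle_base (hE _) a ha h2 (fun i hi => ?_) f hf hreg p
    refine hasPair_of_ne_zero (h2 i) fun h0 => hK i hi ?_
    have h1 : algebraMap K (AlgebraicClosure K) (a i : K) = 0 := by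
      rw [map_natCast, h0]
    exact (map_eq_zero _).1 h1

/-- **The conjectures**, from the interfaces. -/
theorem egh_lpp_of_out (K : Type u) [Field K]
    (hF : ∀ (K D : Type u) [Field K] [DivisionRing D] [Algebra K D], FProp K D)
    (hE : ∀ (k : Type u) [Field k] [IsAlgClosed k], EOut k) {n c : ℕ}
    (h : c ≤ n) (a : Fin c → ℕ) (ha : Monotone a) (h2 : ∀ i, 2 ≤ a i)
    (f : Fin c → MvPolynomial (Fin n) K)
    (hf : ∀ i, (f i).IsHomogeneous (a i)) (hreg : IsRegularSeq f)
    (I : Ideal (MvPolynomial (Fin n) K)) (hI : ∀ g ∈ I, ∀ d, homogeneousComponent d g ∈ I)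
    (hfI : ∀ i, f i ∈ I) :
    ∃ J : Ideal (MvPolynomial (Fin n) K), J.restrictScalars K = lexPlusPowers h a I ∧
      ((∀ i : Fin c, 0 < i.1 → (a i : K) ≠ 0) →
        ∀ p j, bettiNumber I p j ≤ bettiNumber J p j) := by
  obtain ⟨J, hJ⟩ := egh_of_out K hF (hE _) h a ha h2 f hf hreg I hI hfI
  refine ⟨J, hJ, fun hK p j => ?_⟩
  rw [B.bettiNumber_eq, B.bettiNumber_eq]
  exact betti_le_of_zle h a (fun i => le_trans one_le_two (h2 i)) f hf hreg p
    (qf_zle K hF hE h a ha h2 hK f hf hreg p) (qf_zle K hF hE h a ha h2 hK f hf hreg (p + 1))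
    I hI hfI J hJ j

end Vale.Agent.P200.V
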