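import Vale.Agent.P200.V.Egh
import Vale.Agent.P200.V.QFull

/-!
The Eisenbud-Green-Harris conjecture over every field, and the Betti inequalities of the lex-plus-powers
conjecture when the exponents `a_2, …, a_c` are not zero in the field.
-/

namespace Vale.Agent.P200.V

open MvPolynomial Module
open Vale.Agent.P200.B Vale.Agent.P200.G Vale.Agent.P200.L Vale.Agent.P200.M

universe u

theorem eOut_all (k : Type u) [Field k] [IsAlgClosed k] : EOut k := by
  have hinf : Infinite k := IsAlgClosed.instInfinite
  have hst : Rig.StageAll.{u} := full_stage fun K _ κ => dstep_of_levelLemma level_lemma K κ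
  have hc : Rig.ROCirc k := full_circ hst k fun n =>
    ⟨{ N := 0
       β := fun _ => Blk.triv k 0
       inp := fun _ _ => 0
       int := fun R => intZero _ _ _
       triv := fun _ _ => rfl
       old := fun g hg => absurd hg (Nat.not_lt_zero g) }⟩
  exact Rig.ro_eOut (fun K _ κ => step_of_locB (full_locB K κ)) _ hc

/-- **The conjecture of Eisenbud, Green and Harris**, and lex-plus-powers Betti numbers. -/
theorem egh_lpp (K : Type u) [Field K] {n c : ℕ}
    (h : c ≤ n) (a : Fin c → ℕ) (ha : Monotone a) (h2 : ∀ i, 2 ≤ a i)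
    (f : Fin c → MvPolynomial (Fin n) K)
    (hf : ∀ i, (f i).IsHomogeneous (a i)) (hreg : IsRegularSeq f)
    (I : Ideal (MvPolynomial (Fin n) K)) (hI : ∀ g ∈ I, ∀ d, homogeneousComponent d g ∈ I)
    (hfI : ∀ i, f i ∈ I) :
    ∃ J : Ideal (MvPolynomial (Fin n) K), J.restrictScalars K = lexPlusPowers h a I ∧
      ((∀ i : Fin c, 0 < i.1 → (a i : K) ≠ 0) →
        ∀ p j, bettiNumber I p j ≤ bettiNumber J p j) :=
  egh_lpp_of_out K fProp (fun k _ _ => eOut_all k) h a ha h2 f hf hreg I hI hfI

end Vale.Agent.P200.V
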