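import Mathlib

/-!
Power series with integer coefficients: if `(1 - X)^(k+1) * g` is a polynomial `r` and the coefficients
of `g` are nonnegative, then `r(1) ≥ 0`.  Counting of monomials of bounded degree.
-/

namespace Vale.Agent.P200.V.SL

open PowerSeries

/-- if `(1 - X)^(k+1) * g = r` and `r(1) < 0` then the coefficients of `g` are eventually negative -/
theorem coeff_neg_of_eval (k : ℕ) : ∀ (r : Polynomial ℤ) (g : PowerSeries ℤ),
    (1 - X) ^ (k + 1) * g = (r : PowerSeries ℤ) → r.eval 1 < 0 →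
    ∃ n0 : ℕ, ∀ n, n0 ≤ n → coeff n g ≤ -1 := by
  induction k with
  | zero =>
    intro r g h hr
    rw [zero_add, pow_one] at h
    have hc : ∀ n, coeff n g = ∑ s ∈ Finset.range (n + 1), r.coeff s := by
      intro n
      induction n with
      | zero =>
        have h0 := congrArg (coeff 0) h
        rw [sub_mul, one_mul, map_sub, coeff_zero_X_mul, sub_zero, Polynomial.coeff_coe] at h0
        rw [h0, zero_add, Finset.range_one, Finset.sum_singleton]
      | succ n ih =>
        have h0 := congrArg (coeff (n + 1)) h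
        rw [sub_mul, one_mul, map_sub, coeff_succ_X_mul, Polynomial.coeff_coe] at h0
        rw [Finset.sum_range_succ, ← ih, ← h0]
        ring
    refine ⟨r.natDegree, fun n hn => ?_⟩
    rw [hc n]
    rw [Polynomial.eval_eq_sum_range' (Nat.lt_succ_of_le hn)] at hr
    simp only [one_pow, mul_one] at hr
    have : (∑ s ∈ Finset.range (n + 1), r.coeff s) < 0 := hr
    omega
  | succ k ih =>
    intro r g h hr
    have h' : (1 - X) ^ (k + 1) * ((1 - X) * g) = (r : PowerSeries ℤ) := by
      rw [← h]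
      ring
    obtain ⟨n0, hn0⟩ := ih r ((1 - X) * g) h' hr
    have hstep : ∀ n, n0 ≤ n → coeff (n + 1) g ≤ coeff n g - 1 := by
      intro n hn
      have h1 := hn0 (n + 1) (by omega)
      rw [sub_mul, one_mul, map_sub, coeff_succ_X_mul] at h1
      omega
    have hj : ∀ j : ℕ, coeff (n0 + j) g ≤ coeff n0 g - j := by
      intro j
      induction j with
      | zero => simp
      | succ j ihj =>
        have := hstep (n0 + j) (by omega)
        rw [← add_assoc]
        push_cast
        omega
    refine ⟨n0 + (coeff n0 g).natAbs + 1, fun n hn => ?_⟩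
    obtain ⟨j, rfl⟩ := Nat.exists_eq_add_of_le (show n0 ≤ n by omega)
    have := hj j
    omega

/-- positivity at `1` -/
theorem eval_one_nonneg (k : ℕ) (r : Polynomial ℤ) (g : PowerSeries ℤ)
    (h : (1 - X) ^ (k + 1) * g = (r : PowerSeries ℤ)) (hg : ∀ n, 0 ≤ coeff n g) :
    0 ≤ r.eval 1 := by
  by_contra hr
  obtain ⟨n0, hn0⟩ := coeff_neg_of_eval k r g h (not_le.mp hr)
  have h1 := hn0 n0 le_rfl
  have h2 := hg n0
  omega

theorem coeff_mul_nonneg {f g : PowerSeries ℤ} (hf : ∀ n, 0 ≤ coeff n f)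
    (hg : ∀ n, 0 ≤ coeff n g) (n : ℕ) : 0 ≤ coeff n (f * g) := by
  rw [coeff_mul]
  exact Finset.sum_nonneg fun p _ => mul_nonneg (hf _) (hg _)

theorem coeff_pow_nonneg {f : PowerSeries ℤ} (hf : ∀ n, 0 ≤ coeff n f) (m : ℕ) :
    ∀ n, 0 ≤ coeff n (f ^ m) := by
  induction m with
  | zero =>
    intro n
    rw [pow_zero, coeff_one]
    split_ifs <;> norm_num
  | succ m ih =>
    rw [pow_succ]
    exact coeff_mul_nonneg ih hf

/-- positivity at `1`, with the factor `(1 - X) * (1 - X^e)^m` -/
theorem eval_one_nonneg' {e : ℕ} (m : ℕ) (r : Polynomial ℤ) (g : PowerSeries ℤ)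
    (h : (1 - X ^ e) ^ m * ((1 - X) * g) = (r : PowerSeries ℤ)) (hg : ∀ n, 0 ≤ coeff n g) :
    0 ≤ r.eval 1 := by
  have hΦ : (1 - X ^ e : PowerSeries ℤ) = (1 - X) * ∑ i ∈ Finset.range e, X ^ i := by
    rw [mul_comm]
    exact (geom_sum_mul_neg (X : PowerSeries ℤ) e).symm
  refine eval_one_nonneg m r ((∑ i ∈ Finset.range e, X ^ i) ^ m * g) ?_ ?_
  · rw [← h, hΦ, mul_pow]
    ring
  · refine coeff_mul_nonneg (coeff_pow_nonneg ?_ m) hg
    intro n
    rw [map_sum]
    refine Finset.sum_nonneg fun i _ => ?_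
    rw [coeff_X_pow]
    split_ifs <;> norm_num

/-- the number of monomials of weighted degree at most `t` -/
noncomputable def cnt (J : Type*) [Fintype J] (e t : ℕ) : ℕ :=
  Nat.card {f : J → ℕ // e * ∑ j, f j ≤ t}

theorem finite_cnt (J : Type*) [Fintype J] {e : ℕ} (he : 0 < e) (t : ℕ) :
    Finite {f : J → ℕ // e * ∑ j, f j ≤ t} := by
  have h : {f : J → ℕ | e * ∑ j, f j ≤ t} ⊆ {f | ∀ j, f j ∈ Set.Iic t} := by
    intro f hf j
    have h1 : f j ≤ ∑ j, f j := Finset.single_le_sum (fun _ _ => Nat.zero_le _) (Finset.mem_univ j)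
    have h2 : ∑ j, f j ≤ e * ∑ j, f j := Nat.le_mul_of_pos_left _ he
    exact h1.trans (h2.trans hf)
  exact ((Set.Finite.pi' fun _ => Set.finite_Iic t).subset h).to_subtype

theorem cnt_congr {J J' : Type*} [Fintype J] [Fintype J'] (σ : J ≃ J') (e t : ℕ) :
    cnt J e t = cnt J' e t := by
  refine Nat.card_congr ((Equiv.arrowCongr σ (Equiv.refl ℕ)).subtypeEquiv fun f => ?_)
  have h : ∑ j', (Equiv.arrowCongr σ (Equiv.refl ℕ) f) j' = ∑ j, f j := by
    rw [← σ.sum_comp]
    refine Finset.sum_congr rfl fun j _ => ?_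
    rw [Equiv.arrowCongr_apply, Function.comp_apply, Function.comp_apply, Equiv.symm_apply_apply]
    rfl
  rw [h]

theorem cnt_empty (e t : ℕ) : cnt PEmpty e t = 1 := by
  rw [cnt, Nat.card_eq_one_iff_unique]
  refine ⟨⟨fun a b => Subtype.ext (Subsingleton.elim _ _)⟩, ⟨⟨fun j => j.elim, ?_⟩⟩⟩
  simp

theorem cnt_option {J : Type*} [Fintype J] {e : ℕ} (he : 0 < e) (t : ℕ) :
    cnt (Option J) e t = cnt J e t + if e ≤ t then cnt (Option J) e (t - e) else 0 := by
  classical
  have := finite_cnt (Option J) he t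
  have := finite_cnt J he t
  have hsp : cnt (Option J) e t = Nat.card {f : {f : Option J → ℕ // e * ∑ j, f j ≤ t} // f.1 none = 0}
      + Nat.card {f : {f : Option J → ℕ // e * ∑ j, f j ≤ t} // ¬ f.1 none = 0} := by
    rw [cnt, ← Nat.card_sum]
    exact Nat.card_congr (Equiv.sumCompl _).symm
  rw [hsp]
  congr 1
  · refine Nat.card_congr ⟨fun f => ⟨fun j => f.1.1 (some j), ?_⟩,
      fun f => ⟨⟨fun o => o.elim 0 f.1, ?_⟩, rfl⟩, ?_, ?_⟩
    · have h := f.1.2
      rw [Fintype.sum_option, f.2, zero_add] at h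
      exact h
    · rw [Fintype.sum_option]
      change e * (0 + ∑ j, f.1 j) ≤ t
      rw [zero_add]
      exact f.2
    · rintro ⟨⟨f, hf⟩, hf0⟩
      refine Subtype.ext (Subtype.ext (funext fun o => ?_))
      cases o with
      | none => exact hf0.symm
      | some j => rfl
    · rintro ⟨f, hf⟩
      rfl
  · split_ifs with het
    · refine Nat.card_congr ⟨fun f => ⟨fun o => o.elim (f.1.1 none - 1) fun j => f.1.1 (some j), ?_⟩,
        fun f => ⟨⟨fun o => o.elim (f.1 none + 1) fun j => f.1 (some j), ?_⟩, ?_⟩, ?_, ?_⟩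
      · have h := f.1.2
        have h0 : f.1.1 none ≠ 0 := f.2
        rw [Fintype.sum_option] at h ⊢
        change e * ((f.1.1 none - 1) + ∑ j, f.1.1 (some j)) ≤ t - e
        obtain ⟨a, ha⟩ := Nat.exists_eq_succ_of_ne_zero h0
        rw [ha] at h ⊢
        rw [Nat.succ_sub_one]
        rw [Nat.succ_eq_add_one] at h
        have h3 : e * (a + 1 + ∑ j, f.1.1 (some j)) = e * (a + ∑ j, f.1.1 (some j)) + e := by ring
        rw [h3] at h
        omega
      · have h := f.2
        rw [Fintype.sum_option] at h ⊢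
        change e * ((f.1 none + 1) + ∑ j, f.1 (some j)) ≤ t
        have h3 : e * (f.1 none + 1 + ∑ j, f.1 (some j)) = e * (f.1 none + ∑ j, f.1 (some j)) + e := by
          ring
        rw [h3]
        omega
      · exact Nat.succ_ne_zero _
      · rintro ⟨⟨f, hf⟩, hf0⟩
        refine Subtype.ext (Subtype.ext (funext fun o => ?_))
        cases o with
        | none => exact Nat.succ_pred_eq_of_ne_zero hf0
        | some j => rfl
      · rintro ⟨f, hf⟩
        refine Subtype.ext (funext fun o => ?_)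
        cases o with
        | none => rfl
        | some j => rfl
    · rw [Nat.card_eq_zero]
      left
      refine ⟨fun f => ?_⟩
      have h := f.1.2
      have h0 : f.1.1 none ≠ 0 := f.2
      have h1 : f.1.1 none ≤ ∑ j, f.1.1 j :=
        Finset.single_le_sum (fun _ _ => Nat.zero_le _) (Finset.mem_univ none)
      have h2 : 1 ≤ ∑ j, f.1.1 j := by omega
      have h3 : e * 1 ≤ e * ∑ j, f.1.1 j := Nat.mul_le_mul_left e h2
      omega

/-- the generating function of `cnt` -/
theorem cnt_series {e : ℕ} (he : 0 < e) (J : Type*) [Fintype J] :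
    (1 - X ^ e) ^ Fintype.card J * ((1 - X) * PowerSeries.mk fun t => (cnt J e t : ℤ)) = 1 := by
  refine Fintype.induction_empty_option (P := fun J _ =>
    (1 - X ^ e) ^ Fintype.card J * ((1 - X) * PowerSeries.mk fun t => (cnt J e t : ℤ)) = 1)
    ?_ ?_ ?_ J
  · intro α β _ σ h
    have h2 : (PowerSeries.mk fun t => (cnt β e t : ℤ)) =
        PowerSeries.mk fun t => (@cnt α (Fintype.ofEquiv β σ.symm) e t : ℤ) := by
      refine PowerSeries.ext fun n => ?_
      rw [coeff_mk, coeff_mk]
      congr 1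
      exact (@cnt_congr α β (Fintype.ofEquiv β σ.symm) _ σ e n).symm
    rw [h2, ← @Fintype.card_congr α β (Fintype.ofEquiv β σ.symm) _ σ]
    exact h
  · rw [Fintype.card_eq_zero, pow_zero, one_mul]
    refine PowerSeries.ext fun n => ?_
    cases n with
    | zero => simp [sub_mul, cnt_empty]
    | succ n => simp [sub_mul, cnt_empty, coeff_succ_X_mul, coeff_one]
  · intro α _ h
    have h1 : (1 - X ^ e) * PowerSeries.mk (fun t => (cnt (Option α) e t : ℤ))
        = PowerSeries.mk fun t => (cnt α e t : ℤ) := by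
      refine PowerSeries.ext fun n => ?_
      rw [sub_mul, one_mul, map_sub, coeff_mk, coeff_mk, coeff_X_pow_mul', cnt_option he n]
      split_ifs with hn
      · rw [coeff_mk]
        push_cast
        ring
      · push_cast
        ring
    rw [Fintype.card_option, pow_succ]
    calc (1 - X ^ e) ^ Fintype.card α * (1 - X ^ e) *
          ((1 - X) * PowerSeries.mk fun t => (cnt (Option α) e t : ℤ))
        = (1 - X ^ e) ^ Fintype.card α * ((1 - X) * ((1 - X ^ e) *
          PowerSeries.mk fun t => (cnt (Option α) e t : ℤ))) := by ring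
      _ = 1 := by rw [h1, h]

end Vale.Agent.P200.V.SL
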