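import Vale.Agent.P200.V.RankPos

/-!
Rank of a saturated submodule of a free module over a polynomial ring, from the filtration by the degree
in the parameters: `q(1)`, where `q / ((1 - X) (1 - X^e)^m)` is the generating function of the dimensions.
-/

namespace Vale.Agent.P200.V.SL

open PowerSeries Module

/-- the vectors of weighted degree at most `t` -/
def Fil (k : Type*) [Field k] (J : Type*) {κ : Type*} (e : ℕ) (w : κ → ℕ) (t : ℕ) :
    Submodule k (κ → MvPolynomial J k) where
  carrier := {v | ∀ i, v i ∈ MvPolynomial.restrictSupport k {m : J →₀ ℕ | e * m.degree + w i ≤ t}}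
  add_mem' ha hb i := Submodule.add_mem _ (ha i) (hb i)
  zero_mem' _ := Submodule.zero_mem _
  smul_mem' c _ ha i := Submodule.smul_mem _ c (ha i)

theorem mem_Fil {k : Type*} [Field k] {J : Type*} {κ : Type*} {e : ℕ} {w : κ → ℕ} {t : ℕ}
    {v : κ → MvPolynomial J k} :
    v ∈ Fil k J e w t ↔ ∀ i, ∀ m ∈ (v i).support, e * m.degree + w i ≤ t := by
  refine forall_congr' fun i => ?_
  rw [MvPolynomial.mem_restrictSupport_iff]
  rfl

section fil
variable {k : Type*} [Field k] {J : Type*} [Fintype J] {κ : Type*}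

theorem finite_set {e : ℕ} (he : 0 < e) (w t : ℕ) :
    Finite {m : J →₀ ℕ | e * m.degree + w ≤ t} := by
  have := finite_cnt J he t
  have h : Function.Injective fun m : {m : J →₀ ℕ | e * m.degree + w ≤ t} =>
      (⟨m.1, by
        have := m.2
        rw [Set.mem_ofPred_eq, Finsupp.degree_eq_sum] at this
        omega⟩ : {f : J → ℕ // e * ∑ j, f j ≤ t}) := by
    intro a b hab
    refine Subtype.ext (DFunLike.coe_injective ?_)
    exact congrArg Subtype.val hab
  exact Finite.of_injective _ h

theorem ncard_set {e : ℕ} (w t : ℕ) :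
    Nat.card {m : J →₀ ℕ | e * m.degree + w ≤ t} = if w ≤ t then cnt J e (t - w) else 0 := by
  split_ifs with h
  · rw [cnt]
    refine Nat.card_congr (Finsupp.equivFunOnFinite.subtypeEquiv fun m => ?_)
    rw [Set.mem_ofPred_eq, Finsupp.degree_eq_sum]
    change _ ↔ e * ∑ j, m j ≤ t - w
    omega
  · rw [Nat.card_eq_zero]
    left
    refine ⟨fun m => ?_⟩
    have := m.2
    rw [Set.mem_ofPred_eq] at this
    omega

/-- the vectors of bounded degree are a product -/
def filEquiv (k : Type*) [Field k] (J : Type*) {κ : Type*} (e : ℕ) (w : κ → ℕ) (t : ℕ) :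
    Fil k J e w t ≃ₗ[k]
      ((i : κ) → MvPolynomial.restrictSupport k {m : J →₀ ℕ | e * m.degree + w i ≤ t}) where
  toFun v i := ⟨v.1 i, v.2 i⟩
  invFun v := ⟨fun i => (v i).1, fun i => (v i).2⟩
  map_add' _ _ := rfl
  map_smul' _ _ := rfl
  left_inv _ := rfl
  right_inv _ := rfl

theorem finite_restrict {e : ℕ} (he : 0 < e) (w t : ℕ) : Module.Finite k
    (MvPolynomial.restrictSupport k {m : J →₀ ℕ | e * m.degree + w ≤ t}) := by
  have := finite_set (J := J) he w t
  exact Module.Finite.of_basis (MvPolynomial.basisRestrictSupport k _)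

theorem finite_Fil [Finite κ] {e : ℕ} (he : 0 < e) (w : κ → ℕ) (t : ℕ) :
    Module.Finite k (Fil k J e w t) := by
  have := fun i => finite_restrict (k := k) (J := J) he (w i) t
  exact Module.Finite.equiv (filEquiv k J e w t).symm

theorem finrank_restrict {e : ℕ} (he : 0 < e) (w t : ℕ) : finrank k
    (MvPolynomial.restrictSupport k {m : J →₀ ℕ | e * m.degree + w ≤ t}) =
      if w ≤ t then cnt J e (t - w) else 0 := by
  have := finite_set (J := J) he w t
  rw [finrank_eq_nat_card_basis (MvPolynomial.basisRestrictSupport k _), ncard_set]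

theorem finrank_Fil [Fintype κ] {e : ℕ} (he : 0 < e) (w : κ → ℕ) (t : ℕ) :
    finrank k (Fil k J e w t) = ∑ i, if w i ≤ t then cnt J e (t - w i) else 0 := by
  have := fun i => finite_restrict (k := k) (J := J) he (w i) t
  rw [(filEquiv k J e w t).finrank_eq, finrank_pi_fintype]
  exact Finset.sum_congr rfl fun i _ => finrank_restrict he (w i) t

end fil

section sat
variable {A : Type*} [CommRing A] {K2 : Type*} [Field K2] [Algebra A K2] {κ : Type*}

/-- extension of scalars of vectors -/
def incl (A : Type*) [CommRing A] (K2 : Type*) [Field K2] [Algebra A K2] (κ : Type*) :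
    (κ → A) →ₗ[A] (κ → K2) where
  toFun v i := algebraMap A K2 (v i)
  map_add' _ _ := funext fun _ => map_add _ _ _
  map_smul' a v := funext fun i => by
    rw [RingHom.id_apply, Pi.smul_apply, Pi.smul_apply, smul_eq_mul, map_mul, Algebra.smul_def]

theorem incl_injective [IsFractionRing A K2] : Function.Injective (incl A K2 κ) := by
  intro v v' h
  funext i
  exact IsFractionRing.injective A K2 (congrFun h i)

/-- the extension of a submodule -/
def ext2 (K2 : Type*) [Field K2] [Algebra A K2] {κ : Type*} (N : Submodule A (κ → A)) :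
    Submodule K2 (κ → K2) :=
  Submodule.span K2 (incl A K2 κ '' N)

theorem exists_denom [IsDomain A] [IsFractionRing A K2] {N : Submodule A (κ → A)} {x : κ → K2} (hx : x ∈ ext2 K2 N) :
    ∃ a : A, a ≠ 0 ∧ ∃ n ∈ N, a • x = incl A K2 κ n := by
  induction hx using Submodule.span_induction with
  | mem x hx =>
    obtain ⟨n, hn, rfl⟩ := hx
    exact ⟨1, one_ne_zero, n, hn, one_smul _ _⟩
  | zero => exact ⟨1, one_ne_zero, 0, N.zero_mem, by rw [smul_zero, map_zero]⟩
  | add x y _ _ hx hy =>
    obtain ⟨a, ha, n, hn, h⟩ := hx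
    obtain ⟨b, hb, m, hm, h'⟩ := hy
    refine ⟨a * b, mul_ne_zero ha hb, b • n + a • m,
      N.add_mem (N.smul_mem b hn) (N.smul_mem a hm), ?_⟩
    rw [smul_add, map_add, map_smul, map_smul, ← h, ← h', smul_smul, smul_smul, mul_comm b a]
  | smul c x _ hx =>
    obtain ⟨a, ha, n, hn, h⟩ := hx
    obtain ⟨p, q, hq, rfl⟩ := IsFractionRing.div_surjective (A := A) c
    refine ⟨q * a, mul_ne_zero (nonZeroDivisors.ne_zero hq) ha, p • n, N.smul_mem p hn, ?_⟩
    rw [map_smul, ← h]
    funext i
    have hq0 : algebraMap A K2 q ≠ 0 := by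
      rw [Ne, FaithfulSMul.algebraMap_eq_zero_iff]
      exact nonZeroDivisors.ne_zero hq
    change (q * a) • ((algebraMap A K2 p / algebraMap A K2 q) * x i) = p • a • x i
    rw [Algebra.smul_def, Algebra.smul_def, Algebra.smul_def, map_mul]
    field_simp

theorem mem_of_incl_mem [IsDomain A] [IsFractionRing A K2] {N : Submodule A (κ → A)}
    (hN : ∀ (a : A) (v : κ → A), a ≠ 0 → a • v ∈ N → v ∈ N) {v : κ → A}
    (hv : incl A K2 κ v ∈ ext2 K2 N) : v ∈ N := by
  obtain ⟨a, ha, n, hn, h⟩ := exists_denom hv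
  rw [← map_smul] at h
  refine hN a v ha ?_
  rw [incl_injective h]
  exact hn

theorem incl_mem {N : Submodule A (κ → A)} {v : κ → A} (hv : v ∈ N) :
    incl A K2 κ v ∈ ext2 K2 N :=
  Submodule.subset_span ⟨v, hv, rfl⟩

/-- a basis of the quotient made of standard vectors, with a common denominator -/
theorem exists_frame [IsDomain A] [IsFractionRing A K2] [Fintype κ] [DecidableEq κ] {N : Submodule A (κ → A)}
    (hN : ∀ (a : A) (v : κ → A), a ≠ 0 → a • v ∈ N → v ∈ N) :
    ∃ (S : Type) (_ : Fintype S) (a : S → κ) (b : κ → S → A),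
      Fintype.card S = finrank K2 ((κ → K2) ⧸ ext2 K2 N) ∧
      Function.Injective a ∧
      (∀ f : S → A, (∑ s, f s • Pi.single (a s) (1 : A)) ∈ N → f = 0) ∧
      ∀ v : κ → A, v ∈ N ↔ ∀ s, ∑ i, v i * b i s = 0 := by
  set v : κ → (κ → K2) ⧸ ext2 K2 N := fun i => (ext2 K2 N).mkQ (Pi.single i 1) with hv
  obtain ⟨S0, a0, ha0, hsp, hli⟩ := exists_linearIndependent' K2 v
  have : Finite S0 := Finite.of_injective a0 ha0
  obtain ⟨n, ⟨σ⟩⟩ := Finite.exists_equiv_fin S0
  have htop : Submodule.span K2 (Set.range v) = ⊤ := by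
    rw [eq_top_iff]
    rintro x -
    obtain ⟨y, rfl⟩ := (ext2 K2 N).mkQ_surjective x
    have : y = ∑ i, y i • (Pi.single i (1 : K2) : κ → K2) := by
      funext j
      rw [Finset.sum_apply]
      simp [Pi.single_apply]
    rw [this, map_sum]
    refine Submodule.sum_mem _ fun i _ => ?_
    rw [map_smul]
    exact Submodule.smul_mem _ _ (Submodule.subset_span ⟨i, rfl⟩)
  set a : Fin n → κ := a0 ∘ σ.symm with hadef
  have ha : Function.Injective a := ha0.comp σ.symm.injective
  have hli' : LinearIndependent K2 (v ∘ a) := by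
    have := hli.comp σ.symm σ.symm.injective
    exact this
  have hsp' : Submodule.span K2 (Set.range (v ∘ a)) = ⊤ := by
    rw [← htop, ← hsp, hadef, ← Function.comp_assoc, σ.symm.surjective.range_comp]
  have hcard : Fintype.card (Fin n) = finrank K2 ((κ → K2) ⧸ ext2 K2 N) := by
    rw [finrank_eq_card_basis (Basis.mk hli' (by rw [hsp']))]
  have hc : ∀ i, ∃ c : Fin n → K2, v i = ∑ s, c s • v (a s) := by
    intro i
    have : v i ∈ Submodule.span K2 (Set.range (v ∘ a)) := by
      rw [hsp']
      exact Submodule.mem_top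
    obtain ⟨c, hc⟩ := (Submodule.mem_span_range_iff_exists_fun K2).mp this
    exact ⟨c, hc.symm⟩
  choose c hc using hc
  obtain ⟨d, hd⟩ := IsLocalization.exist_integer_multiples_of_finite (nonZeroDivisors A)
    (fun p : κ × Fin n => c p.1 p.2)
  choose b hb using hd
  have hd0 : algebraMap A K2 d ≠ 0 := by
    rw [Ne, FaithfulSMul.algebraMap_eq_zero_iff]
    exact nonZeroDivisors.ne_zero d.2
  have hmk : ∀ u : κ → A, (ext2 K2 N).mkQ (incl A K2 κ u) = ∑ i, algebraMap A K2 (u i) • v i := by
    intro u
    have : incl A K2 κ u = ∑ i, algebraMap A K2 (u i) • (Pi.single i (1 : K2) : κ → K2) := by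
      funext j
      rw [Finset.sum_apply]
      simp [Pi.single_apply, incl]
    rw [this, map_sum]
    rfl
  have hmem : ∀ u : κ → A, u ∈ N ↔ (ext2 K2 N).mkQ (incl A K2 κ u) = 0 := by
    intro u
    rw [Submodule.mkQ_apply, Submodule.Quotient.mk_eq_zero]
    exact ⟨fun h => incl_mem h, fun h => mem_of_incl_mem hN h⟩
  refine ⟨Fin n, inferInstance, a, fun i s => b (i, s), hcard, ha, ?_, ?_⟩
  · intro f hf
    rw [hmem, hmk] at hf
    have h1 : ∑ i, algebraMap A K2 ((∑ s, f s • Pi.single (a s) (1 : A) : κ → A) i) • v i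
        = ∑ s, algebraMap A K2 (f s) • (v ∘ a) s := by
      have h2 : ∀ i, algebraMap A K2 ((∑ s, f s • Pi.single (a s) (1 : A) : κ → A) i) • v i
          = ∑ s, if i = a s then algebraMap A K2 (f s) • v (a s) else 0 := by
        intro i
        rw [Finset.sum_apply, map_sum, Finset.sum_smul]
        refine Finset.sum_congr rfl fun s _ => ?_
        rw [Pi.smul_apply, smul_eq_mul, Pi.single_apply]
        split_ifs with h
        · rw [mul_one, h]
        · rw [mul_zero, map_zero, zero_smul]
      rw [Finset.sum_congr rfl fun i _ => h2 i, Finset.sum_comm]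
      refine Finset.sum_congr rfl fun s _ => ?_
      rw [Finset.sum_ite_eq' Finset.univ (a s), if_pos (Finset.mem_univ _)]
      rfl
    rw [h1] at hf
    funext s
    have := Fintype.linearIndependent_iff.mp hli' _ hf s
    rw [FaithfulSMul.algebraMap_eq_zero_iff] at this
    exact this
  · intro u
    rw [hmem, hmk]
    have h1 : algebraMap A K2 d • ∑ i, algebraMap A K2 (u i) • v i
        = ∑ s, algebraMap A K2 (∑ i, u i * b (i, s)) • (v ∘ a) s := by
      rw [Finset.smul_sum]
      have h2 : ∀ i, algebraMap A K2 d • algebraMap A K2 (u i) • v i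
          = ∑ s, algebraMap A K2 (u i * b (i, s)) • v (a s) := by
        intro i
        rw [hc i, Finset.smul_sum, Finset.smul_sum]
        refine Finset.sum_congr rfl fun s _ => ?_
        rw [map_mul, hb (i, s), smul_smul, smul_smul]
        congr 1
        change algebraMap A K2 d * algebraMap A K2 (u i) * c i s =
          algebraMap A K2 (u i) * ((d : A) • c i s)
        rw [Algebra.smul_def]
        ring
      rw [Finset.sum_congr rfl fun i _ => h2 i, Finset.sum_comm]
      refine Finset.sum_congr rfl fun s _ => ?_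
      rw [map_sum, Finset.sum_smul]
      rfl
    constructor
    · intro h s
      rw [h, smul_zero] at h1
      have := Fintype.linearIndependent_iff.mp hli' _ h1.symm s
      rw [FaithfulSMul.algebraMap_eq_zero_iff] at this
      exact this
    · intro h
      have h3 : algebraMap A K2 d • ∑ i, algebraMap A K2 (u i) • v i = 0 := by
        rw [h1]
        refine Finset.sum_eq_zero fun s _ => ?_
        rw [h s, map_zero, zero_smul]
      exact (smul_eq_zero.mp h3).resolve_left hd0

end sat

end Vale.Agent.P200.V.SL
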