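import Vale.Agent.P200.V.RankT

/-!
Rank of a saturated submodule of a free module over a polynomial ring (conclusion).
-/

namespace Vale.Agent.P200.V.SL

open PowerSeries Module

theorem finrank_inf_ker_add {k V W : Type*} [Field k] [AddCommGroup V] [Module k V]
    [AddCommGroup W] [Module k W] (F : Submodule k V) [Module.Finite k F] (ψ : V →ₗ[k] W) :
    finrank k (F ⊓ LinearMap.ker ψ : Submodule k V) + finrank k (F.map ψ) = finrank k F := by
  have h := LinearMap.finrank_range_add_finrank_ker (ψ.domRestrict F)
  rw [LinearMap.range_domRestrict] at h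
  rw [← h, add_comm]
  congr 1
  have h2 : (LinearMap.ker (ψ.domRestrict F)).map F.subtype = F ⊓ LinearMap.ker ψ := by
    rw [LinearMap.ker_domRestrict, Submodule.map_comap_subtype]
  rw [← h2, Submodule.finrank_map_subtype_eq]

section
variable {k : Type*} [Field k] {J : Type*} [Fintype J] {κ : Type*} [Fintype κ]
  {K2 : Type*} [Field K2] [Algebra (MvPolynomial J k) K2] [IsFractionRing (MvPolynomial J k) K2]

/-- the dimension of the filtration of the quotient -/
noncomputable def aD (k : Type*) [Field k] (J : Type*) {κ : Type*} (e : ℕ) (w : κ → ℕ)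
    (N : Submodule (MvPolynomial J k) (κ → MvPolynomial J k)) (t : ℕ) : ℤ :=
  finrank k (Fil k J e w t) - finrank k (Fil k J e w t ⊓ N.restrictScalars k : Submodule k _)

theorem lower [DecidableEq κ] {e : ℕ} (he : 0 < e) (w : κ → ℕ)
    (N : Submodule (MvPolynomial J k) (κ → MvPolynomial J k)) {S : Type} [Fintype S] (a : S → κ)
    (hS : ∀ f : S → MvPolynomial J k,
      (fun i => ∑ s, if i = a s then f s else 0) ∈ N → f = 0) (t : ℕ) :
    (∑ s, if w (a s) ≤ t then (cnt J e (t - w (a s)) : ℤ) else 0) ≤ aD k J e w N t := by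
  have hfin := finite_Fil (k := k) (J := J) (κ := κ) he w t
  have hfinS := finite_Fil (k := k) (J := J) (κ := S) he (w ∘ a) t
  let j : (S → MvPolynomial J k) →ₗ[k] (κ → MvPolynomial J k) :=
    { toFun := fun f i => ∑ s, if i = a s then f s else 0
      map_add' := fun f g => funext fun i => by
        rw [Pi.add_apply, ← Finset.sum_add_distrib]
        refine Finset.sum_congr rfl fun s _ => ?_
        split_ifs
        · rfl
        · rw [add_zero]
      map_smul' := fun c f => funext fun i => by
        rw [RingHom.id_apply, Pi.smul_apply, Finset.smul_sum]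
        refine Finset.sum_congr rfl fun s _ => ?_
        split_ifs
        · rfl
        · rw [smul_zero] }
  have hj : Function.Injective j := by
    rw [← LinearMap.ker_eq_bot, LinearMap.ker_eq_bot']
    intro f hf
    refine hS f ?_
    change j f ∈ N
    rw [hf]
    exact N.zero_mem
  have hU : (Fil k J e (w ∘ a) t).map j ≤ Fil k J e w t := by
    rintro _ ⟨f, hf, rfl⟩ i
    refine Submodule.sum_mem _ fun s _ => ?_
    split_ifs with h
    · rw [h]
      exact hf s
    · exact Submodule.zero_mem _
  have hdis : (Fil k J e (w ∘ a) t).map j ⊓ (Fil k J e w t ⊓ N.restrictScalars k) = ⊥ := by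
    rw [eq_bot_iff]
    rintro _ ⟨⟨f, hf, rfl⟩, -, hN⟩
    rw [hS f hN, map_zero]
    exact Submodule.zero_mem _
  have hle : (Fil k J e (w ∘ a) t).map j ⊔ (Fil k J e w t ⊓ N.restrictScalars k)
      ≤ Fil k J e w t := sup_le hU inf_le_left
  have hF1 : Module.Finite k ((Fil k J e (w ∘ a) t).map j) := Module.Finite.map _ _
  have hF2 : Module.Finite k (Fil k J e w t ⊓ N.restrictScalars k : Submodule k _) :=
    Submodule.finiteDimensional_of_le inf_le_left
  have h1 := Submodule.finrank_sup_add_finrank_inf_eq ((Fil k J e (w ∘ a) t).map j)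
    (Fil k J e w t ⊓ N.restrictScalars k)
  rw [hdis, finrank_bot, add_zero] at h1
  have h2 := Submodule.finrank_mono hle
  rw [h1] at h2
  have h3 : finrank k ((Fil k J e (w ∘ a) t).map j) = finrank k (Fil k J e (w ∘ a) t) :=
    (Submodule.equivMapOfInjective j hj _).finrank_eq.symm
  rw [h3, finrank_Fil he] at h2
  rw [aD]
  have h4 : (∑ s, if w (a s) ≤ t then (cnt J e (t - w (a s)) : ℤ) else 0)
      = ((∑ s, if (w ∘ a) s ≤ t then cnt J e (t - (w ∘ a) s) else 0 : ℕ) : ℤ) := by
    push_cast
    refine Finset.sum_congr rfl fun s _ => ?_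
    simp only [Function.comp_apply]
  rw [h4]
  omega

/-- multiplication of a vector by a matrix -/
def mulMat {A : Type*} [CommRing A] {κ S : Type*} [Fintype κ] (b : κ → S → A) :
    (κ → A) →ₗ[A] (S → A) where
  toFun v s := ∑ i, v i * b i s
  map_add' f g := funext fun s => by
    rw [Pi.add_apply, ← Finset.sum_add_distrib]
    exact Finset.sum_congr rfl fun i _ => add_mul _ _ _
  map_smul' c f := funext fun s => by
    rw [RingHom.id_apply, Pi.smul_apply, smul_eq_mul, Finset.mul_sum]
    exact Finset.sum_congr rfl fun i _ => mul_assoc _ _ _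

theorem upper {e : ℕ} (he : 0 < e) (w : κ → ℕ)
    (N : Submodule (MvPolynomial J k) (κ → MvPolynomial J k)) {S : Type} [Fintype S]
    (b : κ → S → MvPolynomial J k)
    (hb : ∀ v : κ → MvPolynomial J k, v ∈ N ↔ ∀ s, ∑ i, v i * b i s = 0) :
    ∃ B : ℕ, ∀ t, aD k J e w N t ≤ Fintype.card S * cnt J e (t + B) := by
  classical
  refine ⟨∑ i, ∑ s, e * (b i s).totalDegree, fun t => ?_⟩
  set B := ∑ i, ∑ s, e * (b i s).totalDegree with hB
  have hfin := finite_Fil (k := k) (J := J) (κ := κ) he w t
  have hfinS := finite_Fil (k := k) (J := J) (κ := S) he (fun _ => 0) (t + B)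
  let ψ : (κ → MvPolynomial J k) →ₗ[k] (S → MvPolynomial J k) := (mulMat b).restrictScalars k
  have hker : (Fil k J e w t ⊓ N.restrictScalars k : Submodule k _) =
      Fil k J e w t ⊓ LinearMap.ker ψ := by
    congr 1
    refine Submodule.ext fun v => ?_
    rw [Submodule.restrictScalars_mem, hb v, LinearMap.mem_ker]
    exact ⟨fun h => funext h, fun h => congrFun h⟩
  have h1 := finrank_inf_ker_add (Fil k J e w t) ψ
  have h2 : (Fil k J e w t).map ψ ≤ Fil k J e (fun _ : S => 0) (t + B) := by
    rintro _ ⟨v, hv, rfl⟩ s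
    refine Submodule.sum_mem _ fun i _ => ?_
    rw [MvPolynomial.mem_restrictSupport_iff]
    intro m hm
    obtain ⟨m1, h1, m2, h2, rfl⟩ := Finset.mem_add.mp (MvPolynomial.support_mul _ _ hm)
    have h3 := mem_Fil.mp hv i m1 h1
    have h4 : m2.degree ≤ (b i s).totalDegree := by
      have := MvPolynomial.le_totalDegree h2
      rwa [Finsupp.degree_apply]
    have h5 : e * (b i s).totalDegree ≤ B := by
      rw [hB]
      exact (Finset.single_le_sum (f := fun s => e * (b i s).totalDegree)
        (fun _ _ => Nat.zero_le _) (Finset.mem_univ s)).trans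
        (Finset.single_le_sum (f := fun i => ∑ s, e * (b i s).totalDegree)
        (fun _ _ => Nat.zero_le _) (Finset.mem_univ i))
    have h6 : e * m2.degree ≤ e * (b i s).totalDegree := Nat.mul_le_mul_left e h4
    change e * (m1 + m2).degree + 0 ≤ t + B
    rw [map_add, mul_add]
    omega
  have h3 := Submodule.finrank_mono h2
  rw [finrank_Fil he] at h3
  simp only [Nat.zero_le, if_true, Nat.sub_zero, Finset.sum_const, Finset.card_univ,
    smul_eq_mul] at h3
  rw [aD, hker]
  have h4 : ((Fintype.card S * cnt J e (t + B) : ℕ) : ℤ) = Fintype.card S * cnt J e (t + B) := by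
    push_cast
    rfl
  rw [← h4]
  omega

/-- **Rank from the generating function.** -/
theorem rank_eval {e : ℕ} (he : 0 < e) (w : κ → ℕ)
    (N : Submodule (MvPolynomial J k) (κ → MvPolynomial J k))
    (hN : ∀ (a : MvPolynomial J k) (v : κ → MvPolynomial J k), a ≠ 0 → a • v ∈ N → v ∈ N)
    (q : Polynomial ℤ)
    (hq : (1 - X ^ e) ^ Fintype.card J * ((1 - X) * PowerSeries.mk fun t => aD k J e w N t)
      = (q : PowerSeries ℤ)) :
    q.eval 1 = finrank K2 ((κ → K2) ⧸ ext2 K2 N) := by
  classical
  obtain ⟨S, _, a, b, hcard, ha, hS, hb⟩ := exists_frame (K2 := K2) hN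
  have hc := cnt_series he J
  have hS' : ∀ f : S → MvPolynomial J k,
      (fun i => ∑ s, if i = a s then f s else 0) ∈ N → f = 0 := by
    intro f hf
    refine hS f ?_
    have h : (∑ s, f s • Pi.single (a s) (1 : MvPolynomial J k)) =
        fun i => ∑ s, if i = a s then f s else 0 := by
      funext i
      rw [Finset.sum_apply]
      refine Finset.sum_congr rfl fun s _ => ?_
      rw [Pi.smul_apply, Pi.single_apply, smul_eq_mul]
      split_ifs
      · rw [mul_one]
      · rw [mul_zero]
    rw [h]
    exact hf
  obtain ⟨B, hB⟩ := upper he w N b hb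
  rw [← hcard]
  apply le_antisymm
  · have h := eval_one_nonneg' (e := e) (Fintype.card J)
      (Polynomial.C (Fintype.card S : ℤ) - Polynomial.X ^ B * q)
      (PowerSeries.C (Fintype.card S : ℤ) * (PowerSeries.mk fun t => (cnt J e t : ℤ)) -
        X ^ B * PowerSeries.mk fun t => aD k J e w N t) ?_ ?_
    · rw [Polynomial.eval_sub, Polynomial.eval_C, Polynomial.eval_mul, Polynomial.eval_pow,
        Polynomial.eval_X, one_pow, one_mul] at h
      linarith
    · rw [Polynomial.coe_sub, Polynomial.coe_C, Polynomial.coe_mul, Polynomial.coe_pow,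
        Polynomial.coe_X, ← hq]
      calc _ = PowerSeries.C (Fintype.card S : ℤ) * ((1 - X ^ e) ^ Fintype.card J *
              ((1 - X) * PowerSeries.mk fun t => (cnt J e t : ℤ))) -
            X ^ B * ((1 - X ^ e) ^ Fintype.card J *
              ((1 - X) * PowerSeries.mk fun t => aD k J e w N t)) := by ring
        _ = _ := by rw [hc, mul_one]
    · intro n
      rw [map_sub, coeff_C_mul, coeff_mk, coeff_X_pow_mul']
      split_ifs with hn
      · rw [coeff_mk]
        have := hB (n - B)
        rw [Nat.sub_add_cancel hn] at this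
        linarith
      · rw [sub_zero]
        exact mul_nonneg (Int.natCast_nonneg _) (Int.natCast_nonneg _)
  · have h := eval_one_nonneg' (e := e) (Fintype.card J)
      (q - ∑ s : S, Polynomial.X ^ w (a s))
      ((PowerSeries.mk fun t => aD k J e w N t) -
        (∑ s : S, X ^ w (a s)) * PowerSeries.mk fun t => (cnt J e t : ℤ)) ?_ ?_
    · rw [Polynomial.eval_sub, Polynomial.eval_finsetSum] at h
      simp only [Polynomial.eval_pow, Polynomial.eval_X, one_pow, Finset.sum_const,
        Finset.card_univ, nsmul_eq_mul, mul_one] at h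
      linarith
    · have hs : ((∑ s : S, Polynomial.X ^ w (a s) : Polynomial ℤ) : PowerSeries ℤ)
          = ∑ s : S, X ^ w (a s) := by
        rw [← Polynomial.coeToPowerSeries.ringHom_apply, map_sum]
        refine Finset.sum_congr rfl fun s _ => ?_
        rw [Polynomial.coeToPowerSeries.ringHom_apply, Polynomial.coe_pow, Polynomial.coe_X]
      rw [Polynomial.coe_sub, hs, ← hq]
      calc _ = (1 - X ^ e) ^ Fintype.card J *
              ((1 - X) * PowerSeries.mk fun t => aD k J e w N t) -
            (∑ s : S, X ^ w (a s)) * ((1 - X ^ e) ^ Fintype.card J *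
              ((1 - X) * PowerSeries.mk fun t => (cnt J e t : ℤ))) := by ring
        _ = _ := by rw [hc, mul_one]
    · intro n
      rw [map_sub, coeff_mk, Finset.sum_mul, map_sum, sub_nonneg]
      refine le_trans (le_of_eq ?_) (lower he w N a hS' n)
      refine Finset.sum_congr rfl fun s _ => ?_
      rw [coeff_X_pow_mul']
      split_ifs
      · rw [coeff_mk]
      · rfl

end

end Vale.Agent.P200.V.SL
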