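import Vale.Agent.P200.V.Base
import Vale.Agent.P200.G.CAReg

/-! The rows of a system of commuting roots are independent. -/

namespace Vale.Agent.P200.V

open MvPolynomial Module
open Vale.Agent.P200.B Vale.Agent.P200.G Vale.Agent.P200.L Vale.Agent.P200.M

variable {K : Type*} [Field K] {A : Type*} [Ring A] [Algebra K A] {n : ℕ}

section Abstract

variable {R M : Type*} [CommRing R] [AddCommGroup M] [Module R M]

/-- sum of the ranges -/
def v2_NG (g : Fin n → Module.End R M) (U : Finset (Fin n)) : Submodule R M :=
  ⨆ i ∈ U, LinearMap.range (g i)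

theorem v2_NG_congr {g g' : Fin n → Module.End R M} {U : Finset (Fin n)}
    (h : ∀ i ∈ U, g i = g' i) : v2_NG g U = v2_NG g' U := by
  unfold v2_NG
  refine iSup_congr fun i => iSup_congr fun hi => ?_
  rw [h i hi]

theorem v2_NG_insert (g : Fin n → Module.End R M) (U : Finset (Fin n)) (t : Fin n) :
    v2_NG g (insert t U) = LinearMap.range (g t) ⊔ v2_NG g U := by
  unfold v2_NG
  rw [Finset.iSup_insert]

theorem v2_NG_stable {g : Fin n → Module.End R M} {U : Finset (Fin n)} {x : Module.End R M}
    (h : ∀ i ∈ U, x * g i = g i * x) {v : M} (hv : v ∈ v2_NG g U) : x v ∈ v2_NG g U := by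
  have h1 : v2_NG g U ≤ (v2_NG g U).comap x := by
    refine iSup₂_le fun i hi => ?_
    rintro _ ⟨w, rfl⟩
    rw [Submodule.mem_comap]
    have h2 : x (g i w) = g i (x w) := by
      have := congrArg (fun φ : Module.End R M => φ w) (h i hi)
      simpa using this
    rw [h2]
    exact (le_iSup₂ (f := fun i (_ : i ∈ U) => LinearMap.range (g i)) i hi) ⟨x w, rfl⟩
  exact h1 hv

/-- regularity in every order -/
def V2RegAll (g : Fin n → Module.End R M) : Prop :=
  ∀ (U : Finset (Fin n)) (j : Fin n), j ∉ U → ∀ v, g j v ∈ v2_NG g U → v ∈ v2_NG g U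

theorem V2RegAll.root {g g' : Fin n → Module.End R M} {t : Fin n} {a : ℕ} (ha : 1 ≤ a)
    (hcomm : ∀ i j, g' i * g' j = g' j * g' i) (hne : ∀ i, i ≠ t → g i = g' i)
    (ht : g t = g' t ^ a) (h : V2RegAll g) : V2RegAll g' := by
  obtain ⟨b, rfl⟩ : ∃ b, a = b + 1 := ⟨a - 1, by omega⟩
  have hNG : ∀ U : Finset (Fin n), t ∉ U → v2_NG g U = v2_NG g' U := by
    intro U hU
    refine v2_NG_congr fun i hi => hne i ?_
    rintro rfl
    exact hU hi
  have hst : ∀ (U : Finset (Fin n)) (k : ℕ) (v : M), v ∈ v2_NG g' U →
      (g' t ^ k) v ∈ v2_NG g' U := by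
    intro U k v hv
    refine v2_NG_stable (fun i _ => ?_) hv
    exact ((show Commute (g' t) (g' i) from hcomm t i).pow_left k).eq
  have hpow : ∀ v : M, (g t) v = (g' t ^ b) (g' t v) := by
    intro v
    rw [ht, pow_succ]
    rfl
  have hpow' : ∀ v : M, (g t) v = (g' t) ((g' t ^ b) v) := by
    intro v
    rw [ht, pow_succ']
    rfl
  -- cancelling `g' t` modulo `v2_NG g' U`, `t ∉ U`
  have hcan : ∀ (U : Finset (Fin n)), t ∉ U → ∀ v, (g' t) v ∈ v2_NG g' U →
      v ∈ v2_NG g' U := by
    intro U hU v hv
    rw [← hNG U hU]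
    refine h U t hU v ?_
    rw [hpow, hNG U hU]
    exact hst U b _ hv
  intro U j hj v hv
  by_cases htU : t ∈ U
  · -- case (3)
    have hjt : j ≠ t := by
      rintro rfl
      exact hj htU
    obtain ⟨U', hU', rfl⟩ : ∃ U', t ∉ U' ∧ U = insert t U' :=
      ⟨U.erase t, by simp, (Finset.insert_erase htU).symm⟩
    rw [v2_NG_insert, Submodule.mem_sup] at hv
    obtain ⟨_, ⟨m, rfl⟩, u, hu, hmu⟩ := hv
    have h1 : (g j) ((g' t ^ b) v) ∈ v2_NG g (insert t U') := by
      rw [v2_NG_insert, Submodule.mem_sup]
      refine ⟨g t m, ⟨m, rfl⟩, (g' t ^ b) u, ?_, ?_⟩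
      · rw [hNG U' hU']
        exact hst U' b u hu
      · rw [hpow, ← map_add, hmu, hne j hjt]
        have := ((show Commute (g' t) (g' j) from hcomm t j).pow_left b).eq
        have := congrArg (fun φ : Module.End R M => φ v) this
        simpa using this
    have h2 := h (insert t U') j hj _ h1
    rw [v2_NG_insert, Submodule.mem_sup] at h2
    obtain ⟨_, ⟨m', rfl⟩, u', hu', hmu'⟩ := h2
    have h3 : (g t) (v - g' t m') ∈ v2_NG g U' := by
      rw [map_sub]
      have e1 : (g t) v = (g' t) (g t m') + (g' t) u' := by
        rw [← map_add, hmu', hpow']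
      have e2 : (g t) (g' t m') = (g' t) (g t m') := by
        rw [hpow', ← hpow]
      rw [e1, e2, add_sub_cancel_left, hNG U' hU']
      have := hst U' 1 u' (by rw [← hNG U' hU']; exact hu')
      simpa using this
    have h4 := h U' t hU' _ h3
    rw [hNG U' hU'] at h4
    rw [v2_NG_insert, Submodule.mem_sup]
    exact ⟨g' t m', ⟨m', rfl⟩, v - g' t m', h4, by abel⟩
  · by_cases hjt : j = t
    · subst hjt
      exact hcan U htU v hv
    · rw [← hNG U htU]
      refine h U j hj v ?_
      rw [hNG U htU, hne j hjt]
      exact hv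

end Abstract

/-- polynomials with coefficients in `K` are central -/
theorem v2_bA_comm (v : MvPolynomial (Fin n) K) (u : AR A n) : bA A v * u = u * bA A v := by
  induction v using MvPolynomial.induction_on' with
  | monomial d c =>
    have h1 : bA A (monomial d c : MvPolynomial (Fin n) K) =
        AddMonoidAlgebra.single d (algebraMap K A c) := by
      change AddMonoidAlgebra.mapRingHom (Fin n →₀ ℕ) (algebraMap K A)
        (AddMonoidAlgebra.single d c) = _
      simp
    rw [h1]
    induction u using AddMonoidAlgebra.induction_linear with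
    | zero => simp
    | add f g hf hg => rw [mul_add, add_mul, hf, hg]
    | single m' r =>
      rw [AddMonoidAlgebra.single_mul_single, AddMonoidAlgebra.single_mul_single, add_comm,
        Algebra.commutes]
  | add p q hp hq => rw [map_add, add_mul, mul_add, hp, hq]

/-- expansion in a basis of `A` -/
theorem v2_expand {κ : Type*} (b : Basis κ K A) (u : AR A n) :
    ∃ s : Finset κ, u = ∑ β ∈ s, AddMonoidAlgebra.single 0 (b β) * bA A (co (b.coord β) u) := by
  classical
  refine ⟨u.coeff.support.biUnion fun m => (b.repr (u.coeff m)).support, ?_⟩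
  ext m
  rw [AddMonoidAlgebra.coeff_sum, Finsupp.finsetSum_apply]
  have h1 : ∀ β, (AddMonoidAlgebra.single (0 : Fin n →₀ ℕ) (b β) *
      bA A (co (b.coord β) u)).coeff m = (b.repr (u.coeff m) β) • b β := by
    intro β
    rw [AddMonoidAlgebra.coeff_single_zero_mul]
    have h2 : (bA A (co (b.coord β) u)).coeff m = algebraMap K A (b.repr (u.coeff m) β) := rfl
    rw [h2, Algebra.smul_def, Algebra.commutes]
  simp_rw [h1]
  by_cases hm : u.coeff m = 0
  · simp [hm]
  · have hsub : (b.repr (u.coeff m)).support ⊆
        u.coeff.support.biUnion fun m => (b.repr (u.coeff m)).support := by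
      intro β hβ
      exact Finset.mem_biUnion.2 ⟨m, Finsupp.mem_support_iff.2 hm, hβ⟩
    rw [← Finset.sum_subset hsub]
    · conv_lhs => rw [← b.linearCombination_repr (u.coeff m)]
      rfl
    · intro β _ hβ
      rw [Finsupp.notMem_support_iff.1 hβ, zero_smul]

/-- left independence of the rows of the matrix `E` -/
theorem rows_indep [Infinite K] (F : Fin n → MvPolynomial (Fin n) K) (a : Fin n → ℕ)
    (hpos : ∀ i, 1 ≤ a i) (hF : ∀ i, (F i).IsHomogeneous (a i))
    (hm : IsMPrimary (Ideal.span (Set.range F))) (E : Fin n → Fin n → A)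
    (hrow : ∀ i j, i ≠ j → ∀ k l, E i k * E j l = E j l * E i k)
    (hE : ∀ i, linA (E i) ^ a i = bA A (F i)) (c : Fin n → A)
    (hc : ∀ k, ∑ i, c i * E i k = 0) : c = 0 := by
  classical
  have hf : Reg F := reg_of_isMPrimary a hpos F hF hm
  have hlin : ∀ i j, linA (E i) * linA (E j) = linA (E j) * linA (E i) := by
    intro i j
    by_cases hij : i = j
    · rw [hij]
    · have h : ∀ (a b : Fin n → A), linA a * linA b = ∑ k, ∑ l,
          AddMonoidAlgebra.single (Finsupp.single k 1 + Finsupp.single l 1) (a k * b l) := by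
        intro a b
        rw [linA, linA, Finset.sum_mul_sum]
        refine Finset.sum_congr rfl fun k _ => Finset.sum_congr rfl fun l _ => ?_
        rw [AddMonoidAlgebra.single_mul_single]
      rw [h, h, Finset.sum_comm]
      refine Finset.sum_congr rfl fun k _ => Finset.sum_congr rfl fun l _ => ?_
      rw [hrow i j hij, add_comm]
  -- the two families of endomorphisms
  let ζ : Fin n → Module.End K (AR A n) := fun i => LinearMap.mulRight K (linA (E i))
  let φ : Fin n → Module.End K (AR A n) := fun i => LinearMap.mulRight K (bA A (F i))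
  have hmul : ∀ x y : AR A n, (LinearMap.mulRight K x * LinearMap.mulRight K y :
      Module.End K (AR A n)) = LinearMap.mulRight K (y * x) := by
    intro x y
    refine LinearMap.ext fun w => ?_
    change (w * y) * x = w * (y * x)
    rw [mul_assoc]
  have hζcomm : ∀ i j, ζ i * ζ j = ζ j * ζ i := by
    intro i j
    change LinearMap.mulRight K _ * LinearMap.mulRight K _ =
      LinearMap.mulRight K _ * LinearMap.mulRight K _
    rw [hmul, hmul, hlin]
  have hζpow : ∀ i, ζ i ^ a i = φ i := by
    intro i
    change LinearMap.mulRight K _ ^ a i = LinearMap.mulRight K _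
    rw [LinearMap.pow_mulRight, hE]
  have hφζ : ∀ i j, φ i * ζ j = ζ j * φ i := by
    intro i j
    change LinearMap.mulRight K _ * LinearMap.mulRight K _ =
      LinearMap.mulRight K _ * LinearMap.mulRight K _
    rw [hmul, hmul, v2_bA_comm]
  have hφφ : ∀ i j, φ i * φ j = φ j * φ i := by
    intro i j
    change LinearMap.mulRight K _ * LinearMap.mulRight K _ =
      LinearMap.mulRight K _ * LinearMap.mulRight K _
    rw [hmul, hmul, v2_bA_comm]
  -- the base case
  have hbase : V2RegAll φ := by
    have hmem : ∀ (U : Finset (Fin n)) (u : AR A n),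
        u ∈ v2_NG φ U ↔ ∀ ψ : A →ₗ[K] K, co ψ u ∈ Ideal.span (F '' (U : Set (Fin n))) := by
      intro U u
      constructor
      · intro hu ψ
        have : v2_NG φ U ≤ Submodule.comap (co ψ)
            ((Ideal.span (F '' (U : Set (Fin n)))).restrictScalars K) := by
          refine iSup₂_le fun i hi => ?_
          rintro _ ⟨w, rfl⟩
          rw [Submodule.mem_comap, Submodule.restrictScalars_mem]
          change co ψ (w * bA A (F i)) ∈ _
          rw [co_mul_bA]
          exact Ideal.mul_mem_left _ _ (Ideal.subset_span ⟨i, hi, rfl⟩)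
        exact this hu
      · intro hu
        have key : ∀ g ∈ Ideal.span (F '' (U : Set (Fin n))), ∀ w : AR A n,
            w * bA A g ∈ v2_NG φ U := by
          intro g hg
          induction hg using Submodule.span_induction with
          | mem x hx =>
            obtain ⟨i, hi, rfl⟩ := hx
            intro w
            exact (le_iSup₂ (f := fun i (_ : i ∈ U) => LinearMap.range (φ i)) i hi) ⟨w, rfl⟩
          | zero =>
            intro w
            rw [map_zero, mul_zero]
            exact Submodule.zero_mem _
          | add x y _ _ hx hy =>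
            intro w
            rw [map_add, mul_add]
            exact Submodule.add_mem _ (hx w) (hy w)
          | smul r x _ hx =>
            intro w
            rw [smul_eq_mul, map_mul, ← mul_assoc]
            exact hx _
        obtain ⟨s, hs⟩ := v2_expand (Basis.ofVectorSpace K A) u
        rw [hs]
        exact Submodule.sum_mem _ fun β _ => key _ (hu _) _
    intro U j hj v hv
    rw [hmem] at hv ⊢
    intro ψ
    refine hf (U : Set (Fin n)) j (by simpa using hj) _ ?_
    have := hv ψ
    change co ψ (v * bA A (F j)) ∈ _ at this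
    rwa [co_mul_bA, mul_comm] at this
  -- the induction
  have hind : ∀ T : Finset (Fin n), V2RegAll (fun i => if i ∈ T then ζ i else φ i) := by
    intro T
    induction T using Finset.induction_on with
    | empty => simpa using hbase
    | insert t T ht ih =>
      refine V2RegAll.root (t := t) (hpos t) ?_ ?_ ?_ ih
      · intro i j
        split_ifs
        · exact hζcomm i j
        · exact (hφζ j i).symm
        · exact hφζ i j
        · exact hφφ i j
      · intro i hi
        simp [Finset.mem_insert, hi]
      · simp [ht, hζpow]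
  have hfin : V2RegAll ζ := by simpa using hind Finset.univ
  -- the conclusion
  have hcoef0 : ∀ (U : Finset (Fin n)) (u : AR A n), u ∈ v2_NG ζ U → u.coeff 0 = 0 := by
    intro U u hu
    let ev : AR A n →ₗ[K] A :=
      { toFun := fun w => w.coeff 0
        map_add' := fun w w' => rfl
        map_smul' := fun k w => rfl }
    have : v2_NG ζ U ≤ LinearMap.ker ev := by
      refine iSup₂_le fun i _ => ?_
      rintro _ ⟨w, rfl⟩
      rw [LinearMap.mem_ker]
      change (w * linA (E i)).coeff 0 = 0
      rw [linA, Finset.mul_sum, AddMonoidAlgebra.coeff_sum, Finsupp.finsetSum_apply]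
      refine Finset.sum_eq_zero fun k _ => ?_
      refine AddMonoidAlgebra.coeff_mul_single_of_forall_add_ne _ _ fun d hd => ?_
      have := congrArg (fun x : Fin n →₀ ℕ => x k) hd
      simp at this
    exact this hu
  have hsum : ∑ i, (AddMonoidAlgebra.single 0 (c i) : AR A n) * linA (E i) = 0 := by
    have h1 : ∀ i, (AddMonoidAlgebra.single 0 (c i) : AR A n) * linA (E i) =
        ∑ k, AddMonoidAlgebra.single (Finsupp.single k 1) (c i * E i k) := by
      intro i
      rw [linA, Finset.mul_sum]
      refine Finset.sum_congr rfl fun k _ => ?_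
      rw [AddMonoidAlgebra.single_mul_single, zero_add]
    simp_rw [h1]
    rw [Finset.sum_comm]
    refine Finset.sum_eq_zero fun k _ => ?_
    have h2 : ∑ i, (AddMonoidAlgebra.single (Finsupp.single k 1) (c i * E i k) : AR A n) =
        AddMonoidAlgebra.single (Finsupp.single k 1) (∑ i, c i * E i k) := by
      rw [← AddMonoidAlgebra.singleAddHom_apply, map_sum]
      rfl
    rw [h2, hc k, AddMonoidAlgebra.single_zero]
  funext k
  have hk : ζ k (AddMonoidAlgebra.single 0 (c k)) ∈ v2_NG ζ (Finset.univ.erase k) := by
    have h1 : ζ k (AddMonoidAlgebra.single 0 (c k)) =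
        -∑ i ∈ Finset.univ.erase k, (AddMonoidAlgebra.single 0 (c i) : AR A n) * linA (E i) := by
      rw [eq_neg_iff_add_eq_zero]
      rw [← hsum, ← Finset.add_sum_erase Finset.univ _ (Finset.mem_univ k)]
      rfl
    rw [h1]
    refine Submodule.neg_mem _ (Submodule.sum_mem _ fun i hi => ?_)
    exact (le_iSup₂ (f := fun i (_ : i ∈ Finset.univ.erase k) => LinearMap.range (ζ i)) i hi)
      ⟨AddMonoidAlgebra.single 0 (c i), rfl⟩
  have h0 := hcoef0 _ _ (hfin _ k (by simp) _ hk)
  simpa using h0

end Vale.Agent.P200.V
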