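import Vale.Agent.P200.V.RigOut
import Vale.Agent.P200.V.TrS
import Vale.Agent.P200.V.DSt
import Vale.Agent.P200.V.IntZero

/-!
The Eisenbud-Green-Harris conjecture from the main blocks.
-/

namespace Vale.Agent.P200.V

open MvPolynomial Module
open Vale.Agent.P200.B Vale.Agent.P200.G Vale.Agent.P200.L Vale.Agent.P200.M

universe u

/-- the statement of the stage lemma, from the level lemma -/
def TopStage : Prop := (∀ (K : Type u) [Field K] (κ : ℕ), DStep K κ) → Rig.StageAll.{u}

/-- the statement of the circuit of a complete intersection, from the stage lemma -/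
def TopCirc : Prop := Rig.StageAll.{u} → ∀ (k : Type u) [Field k] [Infinite k],
  (∀ n, Nonempty (Rig.Circ k n 0)) → Rig.ROCirc k

/-- **The conjecture of Eisenbud, Green and Harris**, from the blocks. -/
theorem top_egh (hB : ∀ (K : Type u) [Field K] (κ : ℕ), LocB K κ) (hD : LevelLemma.{u})
    (hS : TopStage.{u}) (hC : TopCirc.{u})
    (hF : ∀ (K D : Type u) [Field K] [DivisionRing D] [Algebra K D], FProp K D)
    (K : Type u) [Field K] {n c : ℕ} (h : c ≤ n) (a : Fin c → ℕ)
    (ha : Monotone a) (h2 : ∀ i, 2 ≤ a i) (f : Fin c → MvPolynomial (Fin n) K)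
    (hf : ∀ i, (f i).IsHomogeneous (a i)) (hreg : IsRegularSeq f)
    (I : Ideal (MvPolynomial (Fin n) K)) (hI : ∀ g ∈ I, ∀ d, homogeneousComponent d g ∈ I)
    (hfI : ∀ i, f i ∈ I) :
    ∃ J : Ideal (MvPolynomial (Fin n) K), J.restrictScalars K = lexPlusPowers h a I := by
  have hinf : Infinite (AlgebraicClosure K) := IsAlgClosed.instInfinite
  have hst : Rig.StageAll.{u} := hS fun K _ κ => dstep_of_levelLemma hD K κ
  have hc : Rig.ROCirc (AlgebraicClosure K) := hC hst (AlgebraicClosure K) fun n =>
    ⟨{ N := 0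
       β := fun _ => Blk.triv (AlgebraicClosure K) 0
       inp := fun _ _ => 0
       int := fun R => intZero _ _ _
       triv := fun _ _ => rfl
       old := fun g hg => absurd hg (Nat.not_lt_zero g) }⟩
  exact egh_of_out K hF (Rig.ro_eOut (fun K _ κ => step_of_locB (hB K κ)) _ hc) h a ha h2 f hf
    hreg I hI hfI

end Vale.Agent.P200.V
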