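import Vale.Agent.P200.V.RigStage
import Vale.Agent.P200.V.RigRec
import Vale.Agent.P200.V.RigMain
import Vale.Agent.P200.V.Top

/-!
Rigid circuits: the two inputs of `top_egh`.
-/

namespace Vale.Agent.P200.V

universe u

theorem top_stage : TopStage.{u} := fun hD =>
  Rig.stageAll fun K _ _ => Rig.stageBin hD K

theorem top_circ : TopCirc.{u} := fun hS k _ _ h0 _n hn f d hd hmono hf hfin =>
  (h0 _).elim fun C0 => Rig.exists_circ hS hn C0 f d hd hmono hf hfin

end Vale.Agent.P200.V
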