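import Vale.Agent.P200.V.RigNewB

/-!
Rigid circuits: the circuit of a new element (joins and components), its relations.
-/

namespace Vale.Agent.P200.V.Rig.Nw

open MvPolynomial

universe u

/-- the linear forms of the variables of a block with the inputs `i` -/
noncomputable def vlG {K : Type u} [Field K] (κ : ℕ) (i : Fin 2 → (Gen →₀ K)) (g : ℕ)
    (s : Fin (κ + 2)) : Gen →₀ K :=
  Fin.cases (i 0) (fun s => Fin.cases (i 1)
    (fun j : Fin κ => Finsupp.single (Sum.inr (g, (j : ℕ))) 1) s) s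

theorem vlG_zero {K : Type u} [Field K] (κ : ℕ) (i : Fin 2 → (Gen →₀ K)) (g : ℕ) :
    vlG κ i g 0 = i 0 := rfl

theorem vlG_one {K : Type u} [Field K] (κ : ℕ) (i : Fin 2 → (Gen →₀ K)) (g : ℕ) :
    vlG κ i g 1 = i 1 := rfl

theorem vlG_succ {K : Type u} [Field K] (κ : ℕ) (i : Fin 2 → (Gen →₀ K)) (g : ℕ) (j : Fin κ) :
    vlG κ i g j.succ.succ = Finsupp.single (Sum.inr (g, (j : ℕ))) 1 := rfl

theorem vlG_last {K : Type u} [Field K] (κ : ℕ) (i : Fin 2 → (Gen →₀ K)) (g : ℕ) :
    vlG (κ + 1) i g (Fin.last (κ + 2)) = Finsupp.single (Sum.inr (g, κ)) 1 := by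
  have h : Fin.last (κ + 2) = (Fin.last κ).succ.succ := rfl
  have h2 := vlG_succ (κ + 1) i g (Fin.last κ)
  rw [Fin.val_last] at h2
  rw [h]
  exact h2

theorem vlG_castSucc {K K' : Type u} [Field K] [Field K'] (φ : K →+* K') (κ : ℕ)
    (i : Fin 2 → (Gen →₀ K)) (i' : Fin 2 → (Gen →₀ K')) (hi : ∀ ε, i' ε = mapL φ (i ε)) (g : ℕ)
    (s : Fin (κ + 2)) : vlG (κ + 1) i' g s.castSucc = mapL φ (vlG κ i g s) := by
  refine Fin.cases ?_ (fun s => ?_) s
  · exact hi 0
  · refine Fin.cases ?_ (fun j => ?_) s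
    · exact hi 1
    · have h1 : (j.succ.succ).castSucc = (j.castSucc).succ.succ := rfl
      rw [vlG_succ]
      have h2 := vlG_succ (κ + 1) i' g j.castSucc
      rw [Fin.val_castSucc] at h2
      have h3 : mapL φ (Finsupp.single (Sum.inr (g, (j : ℕ)) : Gen) (1 : K)) =
          Finsupp.single (Sum.inr (g, (j : ℕ))) 1 := by
        unfold mapL
        rw [Finsupp.mapRange_single, map_one]
      rw [h3]
      exact h2

theorem mapL_single {K K' : Type u} [Field K] [Field K'] (φ : K →+* K') (v : Gen) :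
    mapL φ (Finsupp.single v (1 : K)) = Finsupp.single v 1 := by
  unfold mapL
  rw [Finsupp.mapRange_single, map_one]

theorem mapL_sup {K K' : Type u} [Field K] [Field K'] (φ : K →+* K') {n κ N : ℕ}
    {t : Gen →₀ K} (h : Sup n κ N t) : Sup n κ N (mapL φ t) :=
  fun v hv => h v (Finsupp.support_mapRange hv)

theorem sup_single {K : Type u} [Field K] {n κ N : ℕ} {v : Gen} (h : Used n κ N v) :
    Sup n κ N (Finsupp.single v (1 : K)) := by
  intro w hw
  have h2 := Finsupp.support_single_subset hw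
  rw [Finset.mem_singleton] at h2
  rw [h2]
  exact h

theorem used_le {n κ N κ' N' : ℕ} (hκ : κ ≤ κ') (hN : N ≤ N') {v : Gen} (h : Used n κ N v) :
    Used n κ' N' v := by
  cases v with
  | inl i => exact h
  | inr p => exact ⟨lt_of_lt_of_le h.1 hN, lt_of_lt_of_le h.2 hκ⟩

theorem sup_le {K : Type u} [Field K] {n κ N κ' N' : ℕ} (hκ : κ ≤ κ') (hN : N ≤ N')
    {t : Gen →₀ K} (h : Sup n κ N t) : Sup n κ' N' t := fun v hv => used_le hκ hN (h v hv)

theorem lin_single {K : Type u} [Field K] (v : Gen) : lin K (Finsupp.single v (1 : K)) = X v := by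
  rw [lin, Finsupp.linearCombination_single, one_smul]

/-- names of the parameters of the joins -/
abbrev JI (J : ℕ) : Type := Fin J × Fin 2

/-- the coefficients of the parameters of the joins -/
noncomputable def jA (K : Type u) [Field K] (κ N J e : ℕ) (g : ℕ) (m : JI J) :
    MvPolynomial (Fin (κ + 2)) K :=
  if g = N + m.1 then X (if m.2 = 0 then 0 else 1) ^ e else 0

theorem jA_hom (K : Type u) [Field K] (κ N J e : ℕ) (g : ℕ) (m : JI J) :
    (jA K κ N J e g m).IsHomogeneous e := by
  unfold jA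
  split_ifs with h
  · have h1 := (isHomogeneous_X K (0 : Fin (κ + 2))).pow e
    rw [one_mul] at h1
    exact h1
  · have h1 := (isHomogeneous_X K (1 : Fin (κ + 2))).pow e
    rw [one_mul] at h1
    exact h1
  · exact isHomogeneous_zero _ _ _

/-- the coefficient of the component `g` in the root after `T` joins -/
def Sc {K : Type u} [Field K] (s s' : ℕ → K) : ℕ → ℕ → K
  | 0, g => if g = 0 then 1 else 0
  | T + 1, g => if g = T + 1 then s' T else s T * Sc s s' T g

theorem Sc_ne {K : Type u} [Field K] {s s' : ℕ → K} {T : ℕ} (hs : ∀ t < T, s t ≠ 0)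
    (hs' : ∀ t < T, s' t ≠ 0) : ∀ g ≤ T, Sc s s' T g ≠ 0 := by
  induction T with
  | zero =>
    intro g hg
    have h0 : g = 0 := by omega
    rw [Sc, if_pos h0]
    exact one_ne_zero
  | succ T ih =>
    intro g hg
    rw [Sc]
    split_ifs with h
    · exact hs' T (Nat.lt_succ_self T)
    · exact mul_ne_zero (hs T (Nat.lt_succ_self T))
        (ih (fun t ht => hs t (by omega)) (fun t ht => hs' t (by omega)) g (by omega))

theorem Sc_map {K K' : Type u} [Field K] [Field K'] (φ : K →+* K') (s s' : ℕ → K) (T g : ℕ) :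
    Sc (fun t => φ (s t)) (fun t => φ (s' t)) T g = φ (Sc s s' T g) := by
  induction T with
  | zero =>
    rw [Sc, Sc]
    split_ifs
    · rw [map_one]
    · rw [map_zero]
  | succ T ih =>
    rw [Sc, Sc]
    split_ifs
    · rfl
    · rw [map_mul, ih]

/-- the field after the joins -/
abbrev K1 {K : Type u} [Field K] {n κ : ℕ} (C : Circ K n κ) : Type u := KF K (JI (C.N - 1))

/-- the final field -/
abbrev K2 {K : Type u} [Field K] {n κ : ℕ} (C : Circ K n κ) (ι : Type) : Type u := KF (K1 C) ι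

/-- the change of the field -/
noncomputable def ph {K : Type u} [Field K] {n κ : ℕ} (C : Circ K n κ) (ι : Type) : K →+* K2 C ι :=
  (algebraMap (K1 C) (K2 C ι)).comp (algebraMap K (K1 C))

section new
variable {K : Type u} [Field K] {n κ : ℕ} (C : Circ K n κ) (e : ℕ) (he : 0 < e)
variable {ι : Type} [Fintype ι] (h : ι → ℕ → MvPolynomial (Fin (κ + 2)) K)
  (hh : ∀ m g, (h m g).IsHomogeneous e)

/-- the first parameters of the joins -/
noncomputable def ps (t : ℕ) : K1 C :=
  if ht : t < C.N - 1 then Tv K ((⟨t, ht⟩, 0) : JI (C.N - 1)) else 1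

/-- the second parameters of the joins -/
noncomputable def ps' (t : ℕ) : K1 C :=
  if ht : t < C.N - 1 then Tv K ((⟨t, ht⟩, 1) : JI (C.N - 1)) else 1

/-- the blocks after the joins -/
noncomputable def B1 (g : ℕ) : Blk (K1 C) (κ + 1) :=
  newB (C.β g) (C.N ≤ g ∧ g < C.N + (C.N - 1)) e he (jA K κ C.N (C.N - 1) e g)
    (jA_hom K κ C.N (C.N - 1) e g)

/-- the coefficients of the new parameters -/
noncomputable def a2 (g : ℕ) (m : ι) : MvPolynomial (Fin (κ + 1 + 2)) (K1 C) :=
  if g < C.N then MvPolynomial.C (Sc (ps C) (ps' C) (C.N - 1) g)⁻¹ *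
    rename (Fin.castSucc : Fin (κ + 2) → Fin (κ + 2 + 1))
      (MvPolynomial.map (algebraMap K (K1 C)) (h m g))
  else 0

omit [Fintype ι] in
include hh in
theorem a2_hom (g : ℕ) (m : ι) : (a2 C h g m).IsHomogeneous e := by
  unfold a2
  split_ifs
  · have h1 := (isHomogeneous_C (Fin (κ + 1 + 2)) (Sc (ps C) (ps' C) (C.N - 1) g)⁻¹).mul
      (((hh m g).map (algebraMap K (K1 C))).rename_isHomogeneous
        (f := (Fin.castSucc : Fin (κ + 2) → Fin (κ + 2 + 1))))
    rw [zero_add] at h1
    exact h1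
  · exact isHomogeneous_zero _ _ _

/-- the blocks of the new circuit -/
noncomputable def B2 (g : ℕ) : Blk (K2 C ι) (κ + 1 + 1) :=
  newB (B1 C e he g) (g < C.N) e he (a2 C h g) (a2_hom C e h hh g)

/-- the root after `T` joins -/
def gR (T : ℕ) : Gen :=
  match T with
  | 0 => Sum.inr (0, κ + 1)
  | T + 1 => Sum.inr (C.N + T, κ)

/-- the inputs after the joins -/
noncomputable def inp1 (g : ℕ) (ε : Fin 2) : Gen →₀ K1 C :=
  if g < C.N then mapL (algebraMap K (K1 C)) (C.inp g ε)
  else if ε = 0 then Finsupp.single (gR C (g - C.N)) 1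
  else Finsupp.single (Sum.inr (g - C.N + 1, κ + 1)) 1

/-- the new circuit -/
noncomputable def newC (hint : ∀ R, IntAll (K2 C ι) fun g : Fin R => B2 C e he h hh g)
    (htriv : ∀ g, C.N + (C.N - 1) ≤ g → B2 C e he h hh g = Blk.triv (K2 C ι) (κ + 1 + 1)) :
    Circ (K2 C ι) n (κ + 1 + 1) where
  N := C.N + (C.N - 1)
  β := B2 C e he h hh
  inp g ε := mapL (algebraMap (K1 C) (K2 C ι)) (inp1 C g ε)
  int := hint
  triv := htriv
  old := by
    intro g hg ε
    refine mapL_sup _ ?_
    unfold inp1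
    split_ifs with h1 h2
    · exact sup_le (by omega) le_rfl (mapL_sup _ (C.old g h1 ε))
    · refine sup_single ?_
      obtain ⟨t, rfl⟩ := Nat.exists_eq_add_of_le (not_lt.1 h1)
      rw [Nat.add_sub_cancel_left]
      cases t with
      | zero =>
        refine ⟨?_, ?_⟩
        · change 0 < C.N + 0
          omega
        · change κ + 1 < κ + 1 + 1
          omega
      | succ t =>
        refine ⟨?_, ?_⟩
        · change C.N + t < C.N + (t + 1)
          omega
        · change κ < κ + 1 + 1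
          omega
    · refine sup_single ?_
      refine ⟨?_, ?_⟩
      · change g - C.N + 1 < g
        omega
      · change κ + 1 < κ + 1 + 1
        omega

end new

end Vale.Agent.P200.V.Rig.Nw
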