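import Vale.Agent.P200.V.DStep

/-!
Rigid circuits (note 9528): definitions.

The generators are `inl i` (the variable `x_i`, `i < n`) and `inr (g, j)` (the element `j` of the block `g`).
A circuit over the field `K` has blocks `β g`, `g : ℕ`, with `κ` elements each; only the blocks `g < N` are
used, the others are trivial (all elements are `0`).  The two inputs of the block `g` are linear forms in
the variables and the elements of the blocks `< g`.  The ideal `C.I` is generated by the relations of the
used blocks, and `MvPolynomial Gen K ⧸ C.I` is the ring of the circuit.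
-/

namespace Vale.Agent.P200.V

open MvPolynomial

universe u

/-- the block all of whose elements are `0` -/
noncomputable def Blk.triv (K : Type u) [Field K] (κ : ℕ) : Blk K κ where
  e _ := 1
  e_pos _ := one_pos
  Phi _ := 0
  hom _ := isHomogeneous_zero _ _ _
  tri i j hj := by
    rw [vars_0] at hj
    exact absurd hj (Finset.notMem_empty j)

namespace Rig

/-- the generators -/
abbrev Gen : Type := ℕ ⊕ ℕ × ℕ

/-- the used generators -/
def Used (n κ N : ℕ) : Gen → Prop
  | Sum.inl i => i < n
  | Sum.inr p => p.1 < N ∧ p.2 < κ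

/-- the linear form with the given coefficients -/
noncomputable def lin (K : Type u) [Field K] : (Gen →₀ K) →ₗ[K] MvPolynomial Gen K :=
  Finsupp.linearCombination K X

/-- the linear form uses only used generators -/
def Sup {K : Type u} [Field K] (n κ N : ℕ) (t : Gen →₀ K) : Prop := ∀ v ∈ t.support, Used n κ N v

/-- a circuit -/
structure Circ (K : Type u) [Field K] (n κ : ℕ) where
  /-- the number of used blocks -/
  N : ℕ
  /-- the blocks -/
  β : ℕ → Blk K κ
  /-- the inputs -/
  inp : ℕ → Fin 2 → (Gen →₀ K)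
  int : ∀ R, IntAll K fun g : Fin R => β g
  triv : ∀ g, N ≤ g → β g = Blk.triv K κ
  old : ∀ g < N, ∀ ε, Sup n κ g (inp g ε)

namespace Circ

variable {K : Type u} [Field K] {n κ : ℕ} (C : Circ K n κ)

/-- the linear forms of the variables of the block `g` -/
noncomputable def vl (g : ℕ) (s : Fin (κ + 2)) : Gen →₀ K :=
  Fin.cases (C.inp g 0) (fun s => Fin.cases (C.inp g 1)
    (fun j : Fin κ => Finsupp.single (Sum.inr (g, (j : ℕ))) 1) s) s

/-- the substitution of the block `g` -/
noncomputable def ev (g : ℕ) : MvPolynomial (Fin (κ + 2)) K →ₐ[K] MvPolynomial Gen K :=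
  aeval fun s => lin K (C.vl g s)

/-- the ideal of the relations -/
noncomputable def I : Ideal (MvPolynomial Gen K) :=
  Ideal.span {P | ∃ g < C.N, ∃ i : Fin κ, P = C.ev g ((C.β g).rel i)}

/-- the used generators of the circuit -/
def U (v : Gen) : Prop := Used n κ C.N v

/-- the linear form uses only used generators -/
def S (t : Gen →₀ K) : Prop := Sup n κ C.N t

/-- points with coordinates in a field `Ω` -/
def Pt {Ω : Type u} [Field Ω] [Algebra K Ω] (q : Gen → Ω) : Prop := ∀ P ∈ C.I, aeval q P = 0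

/-- no common zero on the circuit: over every algebraically closed field the common zeros have
coordinates `x_i = 0` -/
def NoZ {r : ℕ} (P : Fin r → MvPolynomial Gen K) : Prop :=
  ∀ (Ω : Type u) [Field Ω] [IsAlgClosed Ω] [Algebra K Ω] (q : Gen → Ω), C.Pt q →
    (∀ l, aeval q (P l) = 0) → ∀ i < n, q (Sum.inl i) = 0

/-- `C'` (over `K'`) extends `C` (over `K`) -/
structure Ext {K' : Type u} [Field K'] {κ' : ℕ} (φ : K →+* K') (C' : Circ K' n κ') : Prop where
  le : C.N ≤ C'.N
  leκ : κ ≤ κ'
  I : ∀ P ∈ C.I, MvPolynomial.map φ P ∈ C'.I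

/-- the span (modulo the relations) of the degree `e` forms of the blocks `< N1` -/
def Bl (e : ℕ) (P : MvPolynomial Gen K) : Prop :=
  ∃ Φ : ℕ → MvPolynomial (Fin (κ + 2)) K, (∀ g, (Φ g).IsHomogeneous e) ∧
    P - ∑ g ∈ Finset.range C.N, C.ev g (Φ g) ∈ C.I

/-- the span (modulo the relations) of the degree `e` binary forms in the linear forms of `E` -/
def Bin (E : Finset (Gen →₀ K)) (e : ℕ) (P : MvPolynomial Gen K) : Prop :=
  ∃ Q ∈ Submodule.span K {Q : MvPolynomial Gen K | ∃ y ∈ E, ∃ y' ∈ E, ∃ a b, a + b = e ∧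
    Q = lin K y ^ a * lin K y' ^ b}, P - Q ∈ C.I

end Circ

/-- the conclusion of the stage: in an extension of the circuit there is a linear form `ξ` with
`ξ ^ e = ∑ Y_l u_l`, the `Y_l` being linearly independent over the old field -/
def Out {K : Type u} [Field K] {n κ : ℕ} (C : Circ K n κ) (e : ℕ) {r : ℕ}
    (P : Fin r → MvPolynomial Gen K) : Prop :=
  ∃ (K' : Type u) (_ : Field K') (φ : K →+* K') (κ' : ℕ) (C' : Circ K' n κ') (ξ : Gen →₀ K')
    (Y : Fin r → K'), C.Ext φ C' ∧ C'.S ξ ∧
    (∀ c : Fin r → K, ∑ l, φ (c l) * Y l = 0 → c = 0) ∧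
    lin K' ξ ^ e - ∑ l, MvPolynomial.C (Y l) * MvPolynomial.map φ (P l) ∈ C'.I

/-- `P` is a homogeneous polynomial of degree `e` in the used generators -/
def Circ.Hm {K : Type u} [Field K] {n κ : ℕ} (C : Circ K n κ) (e : ℕ) (P : MvPolynomial Gen K) :
    Prop := P.IsHomogeneous e ∧ ∀ v ∈ P.vars, C.U v

/-- **the stage lemma** with the spanning hypothesis -/
def StageBin (K : Type u) [Field K] : Prop :=
  ∀ (n κ : ℕ) (_ : 0 < n) (C : Circ K n κ) (e : ℕ) (_ : 0 < e) (r : ℕ)
    (P : Fin r → MvPolynomial Gen K) (E : Finset (Gen →₀ K)), (∀ y ∈ E, C.S y) →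
    (∀ l, C.Bin E e (P l)) → C.NoZ P → Out C e P

/-- **the stage lemma** -/
def StageAll : Prop :=
  ∀ (e : ℕ) (_ : 0 < e) (K : Type u) [Field K] [Infinite K] (n κ : ℕ) (_ : 0 < n) (C : Circ K n κ)
    (r : ℕ) (P : Fin r → MvPolynomial Gen K), (∀ l, C.Hm e (P l)) → C.NoZ P → Out C e P

end Rig

end Vale.Agent.P200.V
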