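import Vale.Agent.P200.V.RigDefs
import Vale.Agent.P200.V.Eval

/-!
Evaluation of a rigid circuit in the polynomials over a division ring.
-/

namespace Vale.Agent.P200.V.Rig

open MvPolynomial
open Vale.Agent.P200.M

universe u

section
variable {K : Type u} [Field K] {n κ N : ℕ}

/-- the used generators -/
def geV (n N κ : ℕ) : Tix n N κ → Gen
  | Sum.inl a => Sum.inl a
  | Sum.inr p => Sum.inr (p.1, p.2)

theorem geV_injective : Function.Injective (geV n N κ) := by
  intro v w h
  rcases v with a | p <;> rcases w with b | q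
  · exact congrArg _ (Fin.ext (Sum.inl_injective h))
  · exact absurd h (by simp [geV])
  · exact absurd h (by simp [geV])
  · have h1 := Sum.inr_injective h
    rw [Prod.mk.injEq] at h1
    obtain ⟨g, i⟩ := p
    obtain ⟨g', i'⟩ := q
    have h2 : g = g' := Fin.ext h1.1
    have h3 : i = i' := Fin.ext h1.2
    rw [h2, h3]

/-- the substitution which forgets the other generators -/
noncomputable def geT (K : Type u) [Field K] (n N κ : ℕ) : Gen → MvPolynomial (Tix n N κ) K
  | Sum.inl i => if h : i < n then X (Sum.inl ⟨i, h⟩) else 0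
  | Sum.inr p => if h : p.1 < N ∧ p.2 < κ then X (Sum.inr (⟨p.1, h.1⟩, ⟨p.2, h.2⟩)) else 0

theorem geT_geV (v : Tix n N κ) : geT K n N κ (geV n N κ v) = X v := by
  rcases v with a | p
  · exact dif_pos a.2
  · exact dif_pos (⟨p.1.2, p.2.2⟩ : (p.1 : ℕ) < N ∧ (p.2 : ℕ) < κ)

theorem exists_geV {v : Gen} (hv : Used n κ N v) : ∃ w, geV n N κ w = v := by
  rcases v with i | p
  · exact ⟨Sum.inl ⟨i, hv⟩, rfl⟩
  · exact ⟨Sum.inr (⟨p.1, hv.1⟩, ⟨p.2, hv.2⟩), rfl⟩

theorem geT_lin {t : Gen →₀ K} (ht : Sup n κ N t) :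
    aeval (geT K n N κ) (lin K t) = ∑ w : Tix n N κ, C (t (geV n N κ w)) * X w := by
  classical
  have h1 : t.support ⊆ Finset.univ.image (geV n N κ) := by
    intro v hv
    obtain ⟨w, rfl⟩ := exists_geV (ht v hv)
    exact Finset.mem_image_of_mem _ (Finset.mem_univ _)
  unfold lin
  rw [Finsupp.linearCombination_apply, Finsupp.sum, map_sum]
  have h2 : ∀ v, aeval (geT K n N κ) (t v • (X v : MvPolynomial Gen K)) =
      C (t v) * geT K n N κ v := by
    intro v
    rw [map_smul, aeval_X, MvPolynomial.smul_eq_C_mul]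
  rw [Finset.sum_congr rfl fun v _ => h2 v, Finset.sum_subset h1 fun v _ hv => by
    rw [Finsupp.notMem_support_iff.1 hv, C_0, zero_mul], Finset.sum_image
    fun v _ w _ h => geV_injective h]
  exact Finset.sum_congr rfl fun w _ => by rw [geT_geV]

theorem Sup.mono {t : Gen →₀ K} {N' : ℕ} (h : N ≤ N') (ht : Sup n κ N t) : Sup n κ N' t := by
  intro v hv
  have h1 := ht v hv
  rcases v with i | p
  · exact h1
  · exact ⟨h1.1.trans_le h, h1.2⟩

end

/-- **Evaluation.** -/
theorem rig_eval {K : Type u} [Field K] {n κ : ℕ} (hstep : Step K κ) (C : Circ K n κ) :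
    ∃ (D : Type u) (_ : DivisionRing D) (_ : Algebra K D)
      (Ψ : MvPolynomial Gen K →ₐ[K] YR D n),
      (∀ i : Fin n, Ψ (X (Sum.inl (i : ℕ))) = zv D n i) ∧
      (∀ t, C.S t → ∃ E : Fin n → D, Ψ (lin K t) = M.lin E) ∧
      ∀ P ∈ C.I, Ψ P = 0 := by
  classical
  set cf : Fin C.N → Fin 2 → Tix n C.N κ → K := fun g ε v => C.inp g ε (geV n C.N κ v) with hcf0
  have hcf : ∀ g ε p, cf g ε (Sum.inr p) ≠ 0 → p.1 < g := by
    intro g ε p h
    exact (C.old g g.2 ε _ (Finsupp.mem_support_iff.2 h)).1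
  obtain ⟨D, i1, i2, Ψ, h1, h2, h3⟩ := exists_alg hstep (fun g : Fin C.N => C.β g) (C.int C.N) cf hcf
  refine ⟨D, i1, i2, Ψ.comp (aeval (geT K n C.N κ)), fun i => ?_, fun t ht => ?_, fun P hP => ?_⟩
  · rw [AlgHom.comp_apply, aeval_X]
    have h4 : geT K n C.N κ (Sum.inl (i : ℕ)) = X (Sum.inl i) := geT_geV (Sum.inl i)
    rw [h4, h1]
  · rw [AlgHom.comp_apply, geT_lin ht, map_sum]
    refine exists_lin_sum _ _ fun w => ?_
    rw [map_mul]
    have h5 : Ψ (MvPolynomial.C (t (geV n C.N κ w))) =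
        cst0 K D n (algebraMap K D (t (geV n C.N κ w))) :=
      (Ψ.commutes _).trans ((cst0 K D n).commutes _).symm
    rw [h5]
    exact exists_lin_mul _ (h2 w)
  · have hI : C.I ≤ RingHom.ker (Ψ.comp (aeval (geT K n C.N κ))) := by
      unfold Circ.I
      rw [Ideal.span_le]
      rintro _ ⟨g, hg, i, rfl⟩
      change (Ψ.comp (aeval (geT K n C.N κ))) (C.ev g ((C.β g).rel i)) = 0
      rw [AlgHom.comp_apply]
      have h6 : (aeval (geT K n C.N κ)).comp (C.ev g) = aeval (sbF cf ⟨g, hg⟩) := by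
        refine MvPolynomial.algHom_ext fun s => ?_
        rw [AlgHom.comp_apply, Circ.ev, aeval_X, aeval_X]
        refine Fin.cases ?_ (fun s => Fin.cases ?_ (fun j => ?_) s) s
        · exact geT_lin ((C.old g hg 0).mono hg.le)
        · exact geT_lin ((C.old g hg 1).mono hg.le)
        · change aeval (geT K n C.N κ) (lin K (Finsupp.single (Sum.inr (g, (j : ℕ))) 1)) = _
          unfold lin
          rw [Finsupp.linearCombination_single, one_smul, aeval_X, sbF_succ]
          exact geT_geV (Sum.inr (⟨g, hg⟩, j))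
      have h7 : aeval (geT K n C.N κ) (C.ev g ((C.β g).rel i)) =
          aeval (sbF cf ⟨g, hg⟩) ((C.β g).rel i) := by
        rw [← h6]
        rfl
      rw [h7]
      exact h3 ⟨g, hg⟩ i
    exact hI hP

end Vale.Agent.P200.V.Rig
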