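import Vale.Agent.P200.V.RigCirc

/-!
Rigid circuits: integrality of the blocks of the circuit of a new element (two applications of the level
lemma), trivial blocks.
-/

namespace Vale.Agent.P200.V.Rig.Nt

open MvPolynomial Nw

universe u

theorem blk_ext {K : Type u} [Field K] {κ : ℕ} {β γ : Blk K κ} (he : β.e = γ.e)
    (hP : β.Phi = γ.Phi) : β = γ := by
  obtain ⟨e, ep, P, h, t⟩ := β
  obtain ⟨e', ep', P', h', t'⟩ := γ
  obtain rfl : e = e' := he
  obtain rfl : P = P' := hP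
  rfl

section nb
variable {K : Type u} [Field K] {κ : ℕ} {ι : Type} [Fintype ι]

theorem snoc_triv (b : Blk K κ) (hb : b = Blk.triv K κ) (e : ℕ) (he : 0 < e) (he1 : e = 1)
    (P : MvPolynomial (Fin (κ + 2)) K) (hP : P.IsHomogeneous e) (hP0 : P = 0) :
    b.snoc e he P hP = Blk.triv K (κ + 1) := by
  refine blk_ext ?_ ?_
  · funext i
    refine Fin.lastCases ?_ (fun i => ?_) i
    · have h1 : (b.snoc e he P hP).e (Fin.last κ) = e := Fin.snoc_last (α := fun _ => ℕ) _ _
      rw [h1, he1]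
      rfl
    · have h1 : (b.snoc e he P hP).e i.castSucc = b.e i := Fin.snoc_castSucc (α := fun _ => ℕ) _ _ _
      rw [h1, hb]
      rfl
  · funext i
    refine Fin.lastCases ?_ (fun i => ?_) i
    · have h2 : (b.snoc e he P hP).Phi (Fin.last κ) =
          rename (Fin.castSucc : Fin (κ + 2) → Fin (κ + 2 + 1)) P := by
        change Fin.snoc (α := fun _ => MvPolynomial (Fin (κ + 1 + 2)) K)
          (fun i => rename (Fin.castSucc : Fin (κ + 2) → Fin (κ + 2 + 1)) (b.Phi i))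
          (rename (Fin.castSucc : Fin (κ + 2) → Fin (κ + 2 + 1)) P) (Fin.last κ) = _
        rw [Fin.snoc_last]
      rw [h2, hP0, map_zero]
      rfl
    · have h2 : (b.snoc e he P hP).Phi i.castSucc =
          rename (Fin.castSucc : Fin (κ + 2) → Fin (κ + 2 + 1)) (b.Phi i) := by
        change Fin.snoc (α := fun _ => MvPolynomial (Fin (κ + 1 + 2)) K)
          (fun i => rename (Fin.castSucc : Fin (κ + 2) → Fin (κ + 2 + 1)) (b.Phi i))
          (rename (Fin.castSucc : Fin (κ + 2) → Fin (κ + 2 + 1)) P) i.castSucc = _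
        rw [Fin.snoc_castSucc]
      rw [h2, hb]
      change rename _ (0 : MvPolynomial (Fin (κ + 2)) K) = 0
      rw [map_zero]

theorem map_triv {K' : Type u} [Field K'] (f : K →+* K') :
    (Blk.triv K κ).map f = Blk.triv K' κ := by
  refine blk_ext rfl ?_
  funext i
  change MvPolynomial.map f (0 : MvPolynomial (Fin (κ + 2)) K) = 0
  rw [map_zero]

theorem newB_triv (b : Blk K κ) (hb : b = Blk.triv K κ) (c : Prop) [Decidable c] (hc : ¬ c) (e : ℕ)
    (he : 0 < e) (a : ι → MvPolynomial (Fin (κ + 2)) K) (ha : ∀ j, (a j).IsHomogeneous e) :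
    newB b c e he a ha = Blk.triv (KF K ι) (κ + 1) :=
  snoc_triv (b.map (algebraMap K (KF K ι))) (by rw [hb, map_triv]) (if c then e else 1)
    (by split_ifs <;> omega) (if_neg hc) (newPhi (R := 1) (fun _ => c) (fun _ => a) 0)
    (newPhi_hom (R := 1) (fun _ => c) (fun _ => a) (fun _ => ha) 0) (if_neg hc)

theorem nb_int (hD : DStep K κ) (β : ℕ → Blk K κ) (C : ℕ → Prop) [DecidablePred C] (e : ℕ)
    (he : 0 < e) (a : ℕ → ι → MvPolynomial (Fin (κ + 2)) K) (ha : ∀ g j, (a g j).IsHomogeneous e)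
    (h : ∀ R, IntAll K fun g : Fin R => β g)
    (hI : ∀ (R : ℕ) (Ω : Type u) [Field Ω] [IsAlgClosed Ω] [Algebra K Ω]
      (pt : Fin R → Fin (κ + 2) → Ω), (∀ g i, aeval (pt g) ((β g).rel i) = 0) →
      (∀ g, pt g 0 ≠ 0 ∨ pt g 1 ≠ 0) → ∀ c : Fin R → Ω, (∀ g : Fin R, ¬ C g → c g = 0) →
        (∀ j, ∑ g : Fin R, c g * aeval (pt g) (a g j) = 0) → ∀ g, c g = 0) (R : ℕ) :
    IntAll (KF K ι) fun g : Fin R => newB (β g) (C g) e he (a g) (ha g) :=
  hD R (fun g => β g) (h R) ι (fun g => C g) e he (fun g => a g) (fun g => ha g)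
    fun Ω _ _ _ pt h1 h2 c h3 h4 => hI R Ω pt h1 h2 c h3 h4

/-- scaling of a zero of a homogeneous polynomial -/
theorem aeval_smul_hom {σ : Type} {Ω : Type u} [Field Ω] [Algebra K Ω] {P : MvPolynomial σ K} {d : ℕ}
    (hP : P.IsHomogeneous d) (r : Ω) (p : σ → Ω) :
    aeval (fun s => r * p s) P = r ^ d * aeval p P := by
  rw [aeval_def, aeval_def, eval₂_eq, eval₂_eq, Finset.mul_sum]
  refine Finset.sum_congr rfl fun m hm => ?_
  have h1 : m.sum (fun _ i => i) = d := by
    have h2 := hP (mem_support_iff.1 hm)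
    rwa [Finsupp.weight_apply, Finsupp.sum_congr (g2 := fun _ i => i)] at h2
    intro x _
    simp
  have h3 : ∏ i ∈ m.support, (r * p i) ^ m i = r ^ d * ∏ i ∈ m.support, p i ^ m i := by
    rw [← h1, Finsupp.sum, ← Finset.prod_pow_eq_pow_sum, ← Finset.prod_mul_distrib]
    exact Finset.prod_congr rfl fun i _ => mul_pow _ _ _
  rw [h3]
  ring

end nb

section blocks
variable {K : Type u} [Field K] {n κ : ℕ} (C : Circ K n κ) (e : ℕ) (he : 0 < e)

theorem B1_int (hD : DStep K κ) (R : ℕ) : IntAll (K1 C) fun g : Fin R => B1 C e he g := by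
  refine nb_int hD C.β (fun g => C.N ≤ g ∧ g < C.N + (C.N - 1)) e he (jA K κ C.N (C.N - 1) e)
    (jA_hom K κ C.N (C.N - 1) e) C.int ?_ R
  intro R Ω _ _ _ pt _ h2 c h3 h4 g
  by_cases hg : C.N ≤ (g : ℕ) ∧ (g : ℕ) < C.N + (C.N - 1)
  · obtain ⟨t, ht⟩ : ∃ t : Fin (C.N - 1), (g : ℕ) = C.N + t :=
      ⟨⟨g - C.N, by omega⟩, by
        show (g : ℕ) = C.N + (g - C.N)
        omega⟩
    have h5 : ∀ ε : Fin 2, c g * pt g (if ε = 0 then 0 else 1) ^ e = 0 := by
      intro ε
      have h6 := h4 (t, ε)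
      rw [Finset.sum_eq_single g] at h6
      · unfold jA at h6
        rw [if_pos ht, map_pow, aeval_X] at h6
        exact h6
      · intro g' _ hg'
        unfold jA
        rw [if_neg, map_zero, mul_zero]
        intro h7
        exact hg' (Fin.ext (h7.trans ht.symm))
      · intro h7
        exact absurd (Finset.mem_univ g) h7
    rcases h2 g with h6 | h6
    · have h7 := h5 0
      rw [if_pos rfl] at h7
      rcases mul_eq_zero.1 h7 with h8 | h8
      · exact h8
      · exact absurd h8 (pow_ne_zero e h6)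
    · have h7 := h5 1
      rw [if_neg one_ne_zero] at h7
      rcases mul_eq_zero.1 h7 with h8 | h8
      · exact h8
      · exact absurd h8 (pow_ne_zero e h6)
  · exact h3 g hg

theorem Tv_ne {K : Type u} [Field K] {ι : Type} (j : ι) : Tv K j ≠ 0 := by
  unfold Tv
  intro h
  have h1 : algebraMap (MvPolynomial ι K) (KF K ι) (X j) = algebraMap (MvPolynomial ι K) (KF K ι) 0 := by
    rw [h, map_zero]
  exact X_ne_zero j (IsFractionRing.injective (MvPolynomial ι K) (KF K ι) h1)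

theorem ps_ne (t : ℕ) : ps C t ≠ 0 := by
  unfold ps
  split_ifs with h
  · exact Tv_ne _
  · exact one_ne_zero

theorem ps'_ne (t : ℕ) : ps' C t ≠ 0 := by
  unfold ps'
  split_ifs with h
  · exact Tv_ne _
  · exact one_ne_zero

variable {ι : Type} (h : ι → ℕ → MvPolynomial (Fin (κ + 2)) K)
  (hh : ∀ m g, (h m g).IsHomogeneous e)

include hh in
theorem B2_ind
    (hI : ∀ (Ω : Type u) [Field Ω] [IsAlgClosed Ω] [Algebra K Ω] (p : ℕ → Fin (κ + 2) → Ω),
      (∀ g < C.N, ∀ i, aeval (p g) ((C.β g).rel i) = 0) →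
      (∀ m, ∑ g ∈ Finset.range C.N, aeval (p g) (h m g) = 0) → ∀ g < C.N, p g = 0)
    (R : ℕ) (Ω : Type u) [Field Ω] [IsAlgClosed Ω] [Algebra (K1 C) Ω]
    (pt : Fin R → Fin (κ + 1 + 2) → Ω) (h1 : ∀ g i, aeval (pt g) ((B1 C e he g).rel i) = 0)
    (h2 : ∀ g, pt g 0 ≠ 0 ∨ pt g 1 ≠ 0) (c : Fin R → Ω) (h3 : ∀ g : Fin R, ¬ (g : ℕ) < C.N → c g = 0)
    (h4 : ∀ j, ∑ g : Fin R, c g * aeval (pt g) (a2 C h g j) = 0) (g : Fin R) : c g = 0 := by
  let _ : Algebra K Ω := ((algebraMap (K1 C) Ω).comp (algebraMap K (K1 C))).toAlgebra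
  have hr : ∀ g : Fin R, ∃ r : Ω, r ^ e =
      c g * algebraMap (K1 C) Ω (Sc (ps C) (ps' C) (C.N - 1) g)⁻¹ := fun g =>
    IsAlgClosed.exists_pow_nat_eq _ he
  choose r hr using hr
  have hcs : ∀ (g : Fin R) (Q : MvPolynomial (Fin (κ + 2)) K),
      aeval (pt g) (rename (Fin.castSucc : Fin (κ + 2) → Fin (κ + 2 + 1))
        (MvPolynomial.map (algebraMap K (K1 C)) Q)) =
      aeval (fun s : Fin (κ + 2) => pt g s.castSucc) Q := by
    intro g Q
    rw [aeval_rename, aeval_def, eval₂_map, aeval_def]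
    rfl
  let p : ℕ → Fin (κ + 2) → Ω := fun g s =>
    if hg : g < R then r ⟨g, hg⟩ * pt ⟨g, hg⟩ s.castSucc else 0
  have hp1 : ∀ g : Fin R, p g = fun s => r g * pt g s.castSucc := by
    intro g
    funext s
    exact dif_pos g.2
  have hp2 : ∀ g, ¬ g < R → p g = fun s => 0 * (fun _ : Fin (κ + 2) => (0 : Ω)) s := by
    intro g hg
    funext s
    rw [zero_mul]
    exact dif_neg hg
  have hrel : ∀ g < C.N, ∀ i, aeval (p g) ((C.β g).rel i) = 0 := by
    intro g _ i
    have hh1 : ((C.β g).rel i).IsHomogeneous ((C.β g).e i) := by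
      have h5 := (isHomogeneous_X K (i.succ.succ : Fin (κ + 2))).pow ((C.β g).e i)
      rw [one_mul] at h5
      exact h5.sub ((C.β g).hom i)
    by_cases hg : g < R
    · have h6 := h1 ⟨g, hg⟩ i.castSucc
      have h7 : p g = fun s => r ⟨g, hg⟩ * pt ⟨g, hg⟩ s.castSucc := hp1 ⟨g, hg⟩
      rw [h7, aeval_smul_hom hh1]
      unfold B1 at h6
      rw [newB_rel_castSucc, hcs] at h6
      rw [h6, mul_zero]
    · rw [hp2 g hg, aeval_smul_hom hh1, zero_pow ((C.β g).e_pos i).ne', zero_mul]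
  have hsum : ∀ m, ∑ g ∈ Finset.range C.N, aeval (p g) (h m g) = 0 := by
    intro m
    rw [← h4 m]
    have h5 : ∀ g ∈ Finset.range C.N, aeval (p g) (h m g) =
        if hg : g < R then c ⟨g, hg⟩ * aeval (pt ⟨g, hg⟩) (a2 C h g m) else 0 := by
      intro g hgN
      by_cases hg : g < R
      · have h7 : p g = fun s => r ⟨g, hg⟩ * pt ⟨g, hg⟩ s.castSucc := hp1 ⟨g, hg⟩
        rw [dif_pos hg, h7, aeval_smul_hom (hh m g), hr]
        unfold a2
        rw [if_pos (Finset.mem_range.1 hgN), map_mul, hcs, aeval_C]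
        ring
      · rw [dif_neg hg, hp2 g hg, aeval_smul_hom (hh m g), zero_pow he.ne', zero_mul]
    rw [Finset.sum_congr rfl h5]
    obtain ⟨F, hF⟩ : ∃ F : ℕ → Ω, F = fun g' : ℕ => if hg : g' < R then
        c ⟨g', hg⟩ * aeval (pt ⟨g', hg⟩) (a2 C h g' m) else 0 := ⟨_, rfl⟩
    have h6 : ∀ g : Fin R, c g * aeval (pt g) (a2 C h g m) = F g := by
      intro g
      rw [hF]
      show _ = dite _ _ _
      rw [dif_pos g.2]
    rw [Finset.sum_congr rfl fun g _ => h6 g, Fin.sum_univ_eq_sum_range F R, ← hF]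
    have h8 : ∀ M, R ≤ M → C.N ≤ M → ∀ f : ℕ → Ω, (∀ g, R ≤ g → f g = 0) → (∀ g, C.N ≤ g → f g = 0) →
        ∑ g ∈ Finset.range C.N, f g = ∑ g ∈ Finset.range R, f g := by
      intro M hM1 hM2 f hf1 hf2
      rw [Finset.sum_subset (Finset.range_mono hM2), Finset.sum_subset (Finset.range_mono hM1)]
      · intro x _ hx
        exact hf1 x (not_lt.1 fun h => hx (Finset.mem_range.2 h))
      · intro x _ hx
        exact hf2 x (not_lt.1 fun h => hx (Finset.mem_range.2 h))
    refine h8 (max R C.N) (le_max_left _ _) (le_max_right _ _) _ ?_ ?_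
    · intro g hg
      rw [hF]
      exact dif_neg (not_lt.2 hg)
    · intro g hg
      rw [hF]
      by_cases hgR : g < R
      · show dite _ _ _ = 0
        rw [dif_pos hgR, h3 ⟨g, hgR⟩ (not_lt.2 hg), zero_mul]
      · exact dif_neg hgR
  have hz := hI Ω p hrel hsum
  by_cases hg : (g : ℕ) < C.N
  · have h5 := hz g hg
    rw [hp1 g] at h5
    have h6 : r g = 0 := by
      rcases h2 g with h7 | h7
      · have h8 := congrFun h5 0
        rcases mul_eq_zero.1 h8 with h9 | h9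
        · exact h9
        · exact absurd h9 h7
      · have h8 := congrFun h5 1
        rcases mul_eq_zero.1 h8 with h9 | h9
        · exact h9
        · exact absurd h9 h7
    have h7 := hr g
    rw [h6, zero_pow he.ne'] at h7
    rcases mul_eq_zero.1 h7.symm with h8 | h8
    · exact h8
    · rw [map_eq_zero] at h8
      exact absurd h8 (inv_ne_zero (Sc_ne (fun t _ => ps_ne C t) (fun t _ => ps'_ne C t) g
        (by omega)))
  · exact h3 g hg

end blocks

section main
variable {K : Type u} [Field K] {n κ : ℕ} (C : Circ K n κ) (e : ℕ) (he : 0 < e)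
variable {ι : Type} [Fintype ι] (h : ι → ℕ → MvPolynomial (Fin (κ + 2)) K)
  (hh : ∀ m g, (h m g).IsHomogeneous e)

theorem hint (hD : ∀ (K : Type u) [Field K] (κ : ℕ), DStep K κ)
    (hI : ∀ (Ω : Type u) [Field Ω] [IsAlgClosed Ω] [Algebra K Ω] (p : ℕ → Fin (κ + 2) → Ω),
      (∀ g < C.N, ∀ i, aeval (p g) ((C.β g).rel i) = 0) →
      (∀ m, ∑ g ∈ Finset.range C.N, aeval (p g) (h m g) = 0) → ∀ g < C.N, p g = 0) (R : ℕ) :
    IntAll (K2 C ι) fun g : Fin R => B2 C e he h hh g :=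
  nb_int (hD _ _) (B1 C e he) (fun g => g < C.N) e he (a2 C h) (a2_hom C e h hh)
    (B1_int C e he (hD K κ))
    (fun R Ω _ _ _ pt h1 h2 c h3 h4 => B2_ind C e he h hh hI R Ω pt h1 h2 c h3 h4) R

theorem htriv (g : ℕ) (hg : C.N + (C.N - 1) ≤ g) :
    B2 C e he h hh g = Blk.triv (K2 C ι) (κ + 1 + 1) := by
  unfold B2
  refine newB_triv _ ?_ _ (by omega) e he _ _
  unfold B1
  exact newB_triv _ (C.triv g (by omega)) _ (by omega) e he _ _

end main

end Vale.Agent.P200.V.Rig.Nt
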