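import Vale.Agent.P200.V.RigDefs

/-!
Rigid circuits: one more element of a single block, evaluation of its relations.
-/

namespace Vale.Agent.P200.V.Rig

open MvPolynomial

universe u

/-- one more element of a block (the new block of the level lemma) -/
noncomputable def newB {K : Type u} [Field K] {κ : ℕ} {ι : Type} [Fintype ι] (b : Blk K κ)
    (c : Prop) [Decidable c] (e : ℕ) (he : 0 < e) (a : ι → MvPolynomial (Fin (κ + 2)) K)
    (ha : ∀ j, (a j).IsHomogeneous e) : Blk (KF K ι) (κ + 1) :=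
  newBlk (R := 1) (fun _ => b) (fun _ => c) e he (fun _ => a) (fun _ => ha) 0

theorem newBlk_eq {K : Type u} [Field K] {κ R : ℕ} {ι : Type} [Fintype ι] (β : Fin R → Blk K κ)
    (C : Fin R → Prop) [DecidablePred C] (e : ℕ) (he : 0 < e)
    (a : Fin R → ι → MvPolynomial (Fin (κ + 2)) K) (ha : ∀ g j, (a g j).IsHomogeneous e)
    (g : Fin R) : newBlk β C e he a ha g = newB (β g) (C g) e he (a g) (ha g) := rfl

section ev
variable {K K' : Type u} [Field K] [Field K'] {κ : ℕ}

/-- change of the field of a linear form -/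
noncomputable def mapL (φ : K →+* K') (t : Gen →₀ K) : Gen →₀ K' :=
  t.mapRange φ (map_zero φ)

theorem lin_mapL (φ : K →+* K') (t : Gen →₀ K) :
    lin K' (mapL φ t) = MvPolynomial.map φ (lin K t) := by
  classical
  induction t using Finsupp.induction_linear with
  | zero =>
    have h : mapL φ (0 : Gen →₀ K) = 0 := Finsupp.mapRange_zero
    rw [h, map_zero, map_zero, map_zero]
  | add a b ha hb =>
    have h : mapL φ (a + b) = mapL φ a + mapL φ b := Finsupp.mapRange_add (map_add φ) a b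
    rw [h, map_add, ha, hb, map_add, map_add]
  | single v c =>
    have h : mapL φ (Finsupp.single v c) = Finsupp.single v (φ c) := Finsupp.mapRange_single
    rw [h, lin, lin, Finsupp.linearCombination_single, Finsupp.linearCombination_single,
      smul_eq_C_mul, smul_eq_C_mul, map_mul, map_C, map_X]

/-- the substitution of linear forms -/
noncomputable def evG (l : Fin (κ + 2) → (Gen →₀ K)) :
    MvPolynomial (Fin (κ + 2)) K →ₐ[K] MvPolynomial Gen K :=
  aeval fun s => lin K (l s)

theorem evG_X (l : Fin (κ + 2) → (Gen →₀ K)) (s : Fin (κ + 2)) : evG l (X s) = lin K (l s) :=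
  aeval_X _ _

theorem evG_C (l : Fin (κ + 2) → (Gen →₀ K)) (c : K) : evG l (MvPolynomial.C c) = MvPolynomial.C c := by
  rw [evG, aeval_C]
  rfl

/-- compatibility with the change of the field and one more slot -/
theorem evG_rename (φ : K →+* K') (l : Fin (κ + 2) → (Gen →₀ K))
    (l' : Fin (κ + 1 + 2) → (Gen →₀ K')) (h : ∀ s : Fin (κ + 2), l' s.castSucc = mapL φ (l s))
    (P : MvPolynomial (Fin (κ + 2)) K) :
    evG l' (rename (Fin.castSucc : Fin (κ + 2) → Fin (κ + 2 + 1)) (MvPolynomial.map φ P)) =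
      MvPolynomial.map φ (evG l P) := by
  have h1 : (((evG l').comp (rename (Fin.castSucc : Fin (κ + 2) → Fin (κ + 2 + 1)))).toRingHom.comp
      (MvPolynomial.map φ)) = (MvPolynomial.map φ).comp (evG l).toRingHom := by
    apply MvPolynomial.ringHom_ext
    · intro r
      simp only [AlgHom.toRingHom_eq_coe, RingHom.coe_comp, RingHom.coe_coe, Function.comp_apply,
        map_C, AlgHom.comp_apply]
      rw [rename_C, evG_C]
      erw [evG_C]
      rw [map_C]
    · intro s
      simp only [AlgHom.toRingHom_eq_coe, RingHom.coe_comp, RingHom.coe_coe, Function.comp_apply,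
        map_X, AlgHom.comp_apply, rename_X]
      rw [evG_X]
      erw [evG_X]
      rw [h, lin_mapL]
  exact RingHom.congr_fun h1 P

theorem evG_rename_mem (φ : K →+* K') (l : Fin (κ + 2) → (Gen →₀ K))
    (l' : Fin (κ + 1 + 2) → (Gen →₀ K')) (h : ∀ s : Fin (κ + 2), l' s.castSucc = mapL φ (l s))
    (P : MvPolynomial (Fin (κ + 2)) K) (Q : MvPolynomial (Fin (κ + 2)) K')
    (hQ : Q = MvPolynomial.map φ P) :
    evG l' (rename (Fin.castSucc : Fin (κ + 2) → Fin (κ + 2 + 1)) Q) =
      MvPolynomial.map φ (evG l P) := by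
  rw [hQ, evG_rename φ l l' h]

end ev

section rels
variable {K : Type u} [Field K] {κ : ℕ} {ι : Type} [Fintype ι]

theorem snoc_rel_castSucc (b : Blk K κ) (e : ℕ) (he : 0 < e) (P : MvPolynomial (Fin (κ + 2)) K)
    (hP : P.IsHomogeneous e) (i : Fin κ) :
    (b.snoc e he P hP).rel i.castSucc =
      rename (Fin.castSucc : Fin (κ + 2) → Fin (κ + 2 + 1)) (b.rel i) := by
  unfold Blk.rel
  have h1 : (b.snoc e he P hP).e i.castSucc = b.e i := Fin.snoc_castSucc (α := fun _ => ℕ) _ _ _
  have h2 : (b.snoc e he P hP).Phi i.castSucc =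
      rename (Fin.castSucc : Fin (κ + 2) → Fin (κ + 2 + 1)) (b.Phi i) := by
    change Fin.snoc (α := fun _ => MvPolynomial (Fin (κ + 1 + 2)) K)
      (fun i => rename (Fin.castSucc : Fin (κ + 2) → Fin (κ + 2 + 1)) (b.Phi i))
      (rename (Fin.castSucc : Fin (κ + 2) → Fin (κ + 2 + 1)) P) i.castSucc = _
    rw [Fin.snoc_castSucc]
  rw [h1, h2, map_sub, map_pow, rename_X]
  rfl

theorem snoc_rel_last (b : Blk K κ) (e : ℕ) (he : 0 < e) (P : MvPolynomial (Fin (κ + 2)) K)
    (hP : P.IsHomogeneous e) :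
    (b.snoc e he P hP).rel (Fin.last κ) =
      X (Fin.last (κ + 2)) ^ e - rename (Fin.castSucc : Fin (κ + 2) → Fin (κ + 2 + 1)) P := by
  unfold Blk.rel
  have h1 : (b.snoc e he P hP).e (Fin.last κ) = e := Fin.snoc_last (α := fun _ => ℕ) _ _
  have h2 : (b.snoc e he P hP).Phi (Fin.last κ) =
      rename (Fin.castSucc : Fin (κ + 2) → Fin (κ + 2 + 1)) P := by
    change Fin.snoc (α := fun _ => MvPolynomial (Fin (κ + 1 + 2)) K)
      (fun i => rename (Fin.castSucc : Fin (κ + 2) → Fin (κ + 2 + 1)) (b.Phi i))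
      (rename (Fin.castSucc : Fin (κ + 2) → Fin (κ + 2 + 1)) P) (Fin.last κ) = _
    rw [Fin.snoc_last]
  rw [h1, h2]
  rfl

theorem map_rel {K' : Type u} [Field K'] (b : Blk K κ) (f : K →+* K') (i : Fin κ) :
    (b.map f).rel i = MvPolynomial.map f (b.rel i) := by
  unfold Blk.rel
  rw [map_sub, map_pow, map_X]
  rfl

theorem newB_rel_castSucc (b : Blk K κ) (c : Prop) [Decidable c] (e : ℕ) (he : 0 < e)
    (a : ι → MvPolynomial (Fin (κ + 2)) K) (ha : ∀ j, (a j).IsHomogeneous e) (i : Fin κ) :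
    (newB b c e he a ha).rel i.castSucc =
      rename (Fin.castSucc : Fin (κ + 2) → Fin (κ + 2 + 1))
        (MvPolynomial.map (algebraMap K (KF K ι)) (b.rel i)) := by
  rw [← map_rel]
  exact snoc_rel_castSucc (b.map (algebraMap K (KF K ι))) (if c then e else 1)
    (by split_ifs <;> omega) (newPhi (R := 1) (fun _ => c) (fun _ => a) 0)
    (newPhi_hom (R := 1) (fun _ => c) (fun _ => a) (fun _ => ha) 0) i

theorem newB_rel_last (b : Blk K κ) (c : Prop) [Decidable c] (hc : c) (e : ℕ) (he : 0 < e)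
    (a : ι → MvPolynomial (Fin (κ + 2)) K) (ha : ∀ j, (a j).IsHomogeneous e) :
    (newB b c e he a ha).rel (Fin.last κ) =
      X (Fin.last (κ + 2)) ^ e - rename (Fin.castSucc : Fin (κ + 2) → Fin (κ + 2 + 1))
        (∑ j, MvPolynomial.C (Tv K j) * MvPolynomial.map (algebraMap K (KF K ι)) (a j)) := by
  have h := snoc_rel_last (b.map (algebraMap K (KF K ι))) (if c then e else 1)
    (by split_ifs <;> omega) (newPhi (R := 1) (fun _ => c) (fun _ => a) 0)
    (newPhi_hom (R := 1) (fun _ => c) (fun _ => a) (fun _ => ha) 0)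
  have h2 : newPhi (R := 1) (fun _ => c) (fun _ => a) 0 =
      ∑ j, MvPolynomial.C (Tv K j) * MvPolynomial.map (algebraMap K (KF K ι)) (a j) := if_pos hc
  have h3 : (if c then e else 1) = e := if_pos hc
  refine Eq.trans h ?_
  rw [h2, h3]

theorem newB_rel_last_neg (b : Blk K κ) (c : Prop) [Decidable c] (hc : ¬ c) (e : ℕ) (he : 0 < e)
    (a : ι → MvPolynomial (Fin (κ + 2)) K) (ha : ∀ j, (a j).IsHomogeneous e) :
    (newB b c e he a ha).rel (Fin.last κ) = X (Fin.last (κ + 2)) := by
  have h := snoc_rel_last (b.map (algebraMap K (KF K ι))) (if c then e else 1)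
    (by split_ifs <;> omega) (newPhi (R := 1) (fun _ => c) (fun _ => a) 0)
    (newPhi_hom (R := 1) (fun _ => c) (fun _ => a) (fun _ => ha) 0)
  have h2 : newPhi (R := 1) (fun _ => c) (fun _ => a) 0 = (0 : MvPolynomial _ (KF K ι)) := if_neg hc
  have h3 : (if c then e else 1) = 1 := if_neg hc
  refine Eq.trans h ?_
  rw [h2, h3, map_zero, sub_zero, pow_one]

end rels

end Vale.Agent.P200.V.Rig
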