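import Vale.Agent.P200.V.RigEval
import Vale.Agent.P200.V.Goal
import Vale.Agent.P200.M.BaseD

/-!
Output of the rigid circuits: from the circuit of a complete intersection to the commuting linear forms
over a division ring.
-/

namespace Vale.Agent.P200.V.Rig

open MvPolynomial
open Vale.Agent.P200.M

universe u

section
variable {K : Type u} [Field K] {D : Type u} [DivisionRing D] [Algebra K D] {n : ℕ}

theorem ro_cst_bD (a : K) :
    (bD D (MvPolynomial.C a : MvPolynomial (Fin n) K) : YR D n) = algebraMap K (YR D n) a := by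
  have h : (MvPolynomial.C a : MvPolynomial (Fin n) K) = monomial 0 a := rfl
  rw [h, bD_monomial]
  rfl

theorem ro_bD (Ψ : MvPolynomial Gen K →ₐ[K] YR D n)
    (h : ∀ i : Fin n, Ψ (X (Sum.inl (i : ℕ))) = zv D n i) (G : MvPolynomial (Fin n) K) :
    Ψ (rename (fun i : Fin n => (Sum.inl (i : ℕ) : Gen)) G) = bD D G := by
  induction G using MvPolynomial.induction_on with
  | C a =>
    rw [rename_C, ro_cst_bD]
    exact Ψ.commutes a
  | add p q hp hq => rw [map_add, map_add, hp, hq, map_add]
  | mul_X p i hp =>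
    rw [map_mul, map_mul, hp, rename_X, h, map_mul, bD_X]

end

theorem ro_prim {k K : Type*} [Field k] [Field K] [Algebra k K] {n : ℕ}
    {I : Ideal (MvPolynomial (Fin n) k)} (h : IsMPrimary I) :
    IsMPrimary (I.map (MvPolynomial.map (σ := Fin n) (algebraMap k K))) := by
  obtain ⟨N, hN⟩ := h
  refine ⟨N, fun d hd g hg => ?_⟩
  rw [← MvPolynomial.support_sum_monomial_coeff g]
  refine Ideal.sum_mem _ fun m hm => ?_
  have h1 : (monomial m (1 : k)).IsHomogeneous d := by
    refine isHomogeneous_monomial _ ?_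
    have h2 := hg (mem_support_iff.1 hm)
    rw [← h2]
    exact (congrArg (fun f : (Fin n →₀ ℕ) →+ ℕ => f m)
      (Finsupp.degree_eq_weight_one (σ := Fin n) (R := ℕ)))
  have h3 := Ideal.mem_map_of_mem (MvPolynomial.map (σ := Fin n) (algebraMap k K)) (hN d hd _ h1)
  rw [map_monomial, map_one] at h3
  have h4 : monomial m (coeff m g) = MvPolynomial.C (coeff m g) * monomial m (1 : K) := by
    rw [C_mul_monomial, mul_one]
  rw [h4]
  exact Ideal.mul_mem_left _ _ h3

/-- the conclusion of `exists_circ` -/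
def ROCirc (k : Type u) [Field k] : Prop :=
  ∀ (n : ℕ) (_ : 0 < n) (f : Fin n → MvPolynomial (Fin n) k) (d : Fin n → ℕ)
    (_ : ∀ i, 0 < d i) (_ : Monotone d) (_ : ∀ i, (f i).IsHomogeneous (d i))
    (_ : ∃ m, ∀ P : MvPolynomial (Fin n) k, P.IsHomogeneous m → P ∈ Ideal.span (Set.range f)),
    ∃ (K : Type u) (_ : Field K) (φ : k →+* K) (κ : ℕ) (C : Circ K n κ) (ξ : Fin n → (Gen →₀ K))
      (G : Fin n → MvPolynomial (Fin n) K) (L : Fin n → Fin n → K),
      (∀ i, C.S (ξ i)) ∧ (∀ i, (G i).IsHomogeneous (d i)) ∧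
      (∀ i, G i ∈ Ideal.span (Set.range fun i => MvPolynomial.map φ (f i))) ∧
      Ideal.span (Set.range G) = Ideal.span (Set.range fun i => MvPolynomial.map φ (f i)) ∧
      ∀ i, lin K (ξ i) ^ d i - rename (fun i : Fin n => (Sum.inl (i : ℕ) : Gen)) (G i) -
        ∑ j ∈ Finset.univ.filter (fun j => i < j), MvPolynomial.C (L i j) * lin K (ξ j) ^ d i ∈ C.I

/-- **Output.** -/
theorem ro_eOut (hstep : ∀ (K : Type u) [Field K] (κ : ℕ), Step K κ) (k : Type u) [Field k]
    (hC : ROCirc k) : EOut k := by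
  intro n a hmono h2 f hf hm
  rcases Nat.eq_zero_or_pos n with rfl | hn
  · refine ⟨k, inferInstance, inferInstance, k, inferInstance, inferInstance, fun i => i.elim0,
      fun i => i.elim0, fun i => i.elim0, ⟨fun i => i.elim0, fun i => i.elim0, ?_,
      fun i => i.elim0⟩, fun i => i.elim0⟩
    have h1 : (Set.range fun i : Fin 0 => (i.elim0 : MvPolynomial (Fin 0) k)) = Set.range f := by
      rw [Set.range_eq_empty, Set.range_eq_empty]
    rw [h1]
    exact hm
  · obtain ⟨m, hm'⟩ := id hm
    obtain ⟨K, _, φ, κ, C, ξ, G, L, hS, hG, hGf, hspan, hrel⟩ := hC n hn f a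
      (fun i => lt_of_lt_of_le two_pos (h2 i)) hmono hf ⟨m, fun P hP => hm' m le_rfl P hP⟩
    let _ : Algebra k K := φ.toAlgebra
    obtain ⟨D, _, _, Ψ, hx, hlin, hI⟩ := rig_eval (hstep K κ) C
    choose E hE using fun i => hlin (ξ i) (hS i)
    have hmap : (Ideal.span (Set.range f)).map (MvPolynomial.map (σ := Fin n) (algebraMap k K)) =
        Ideal.span (Set.range fun i => MvPolynomial.map φ (f i)) := by
      rw [Ideal.map_span, ← Set.range_comp]
      rfl
    refine ⟨K, inferInstance, inferInstance, D, inferInstance, inferInstance, E, L, G,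
      ⟨fun i j => ?_, hG, ?_, fun i => ?_⟩, fun i => ?_⟩
    · have h1 : Ψ (lin K (ξ i) * lin K (ξ j)) = Ψ (lin K (ξ j) * lin K (ξ i)) := by rw [mul_comm]
      rwa [map_mul Ψ, map_mul Ψ, hE, hE] at h1
    · rw [hspan, ← hmap]
      exact ro_prim hm
    · have h1 := hI _ (hrel i)
      rw [map_sub, map_sub, map_pow, hE, ro_bD Ψ hx, map_sum] at h1
      rw [sub_eq_zero, sub_eq_iff_eq_add'] at h1
      rw [h1]
      congr 1
      have h2 : Finset.univ.filter (fun j => i < j) = Finset.Ioi i := by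
        ext j
        simp
      rw [h2]
      refine Finset.sum_congr rfl fun j _ => ?_
      rw [map_mul, map_pow, hE, ro_cst_bD]
      congr 1
      exact Ψ.commutes _
    · rw [hmap]
      exact hGf i

end Vale.Agent.P200.V.Rig
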