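import Vale.Agent.P200.V.RigRich

/-!
Rigid circuits: adding the pair blocks of a rich set.
-/

namespace Vale.Agent.P200.V.Rig

open MvPolynomial

universe u

theorem used_mono {n κ N N' : ℕ} (h : N ≤ N') {v : Gen} (hv : Used n κ N v) : Used n κ N' v := by
  rcases v with i | p
  · exact hv
  · exact ⟨lt_of_lt_of_le hv.1 h, hv.2⟩

theorem sup_mono {K : Type u} [Field K] {n κ N N' : ℕ} (h : N ≤ N') {t : Gen →₀ K}
    (ht : Sup n κ N t) : Sup n κ N' t := fun v hv => used_mono h (ht v hv)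

theorem sup_add {K : Type u} [Field K] {n κ N : ℕ} {t t' : Gen →₀ K}
    (ht : Sup n κ N t) (ht' : Sup n κ N t') : Sup n κ N (t + t') := by
  classical
  intro v hv
  rcases Finset.mem_union.1 (Finsupp.support_add hv) with h | h
  · exact ht v h
  · exact ht' v h

theorem sup_smul {K : Type u} [Field K] {n κ N : ℕ} {t : Gen →₀ K}
    (ht : Sup n κ N t) (c : K) : Sup n κ N (c • t) := fun v hv =>
  ht v (Finsupp.support_smul hv)

theorem sup_single {K : Type u} [Field K] {n κ N : ℕ} {v : Gen} (hv : Used n κ N v) (c : K) :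
    Sup n κ N (Finsupp.single v c) := by
  intro w hw
  have : w = v := Finset.mem_singleton.1 (Finsupp.support_single_subset hw)
  rw [this]
  exact hv

theorem sup_vl {K : Type u} [Field K] {n κ : ℕ} (C : Circ K n κ) {g : ℕ} (hg : g < C.N)
    (s : Fin (κ + 2)) : Sup n κ C.N (C.vl g s) := by
  refine Fin.cases ?_ (fun s => ?_) s
  · exact sup_mono hg.le (C.old g hg 0)
  · refine Fin.cases ?_ (fun j => ?_) s
    · exact sup_mono hg.le (C.old g hg 1)
    · exact sup_single (v := Sum.inr (g, (j : ℕ))) ⟨hg, j.2⟩ 1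

theorem finite_used_pair (n κ N : ℕ) : {v : Gen | Used n κ N v}.Finite := by
  refine Set.Finite.subset (s := (Sum.inl '' Set.Iio n) ∪ (Sum.inr '' (Set.Iio N ×ˢ Set.Iio κ))) ?_ ?_
  · exact ((Set.finite_Iio n).image _).union (((Set.finite_Iio N).prod (Set.finite_Iio κ)).image _)
  · rintro (i | p) hv
    · exact Or.inl ⟨i, hv, rfl⟩
    · exact Or.inr ⟨p, ⟨hv.1, hv.2⟩, rfl⟩

/-- adding trivial blocks with inputs in the list `l` -/
noncomputable def Circ.addPairs {K : Type u} [Field K] {n κ : ℕ} (C : Circ K n κ)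
    (l : List ((Gen →₀ K) × (Gen →₀ K))) (hl : ∀ p ∈ l, C.S p.1 ∧ C.S p.2) : Circ K n κ where
  N := C.N + l.length
  β := C.β
  inp g := if g < C.N then C.inp g else
    ![(l.getD (g - C.N) 0).1, (l.getD (g - C.N) 0).2]
  int := C.int
  triv g hg := C.triv g (by omega)
  old := by
    intro g hg ε
    by_cases h : g < C.N
    · rw [if_pos h]
      exact C.old g h ε
    · rw [if_neg h]
      push Not at h
      have h1 : g - C.N < l.length := by omega
      have h2 := hl (l.getD (g - C.N) 0) (by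
        rw [List.getD_eq_getElem _ _ h1]
        exact List.getElem_mem h1)
      refine Fin.cases ?_ (fun ε => ?_) ε
      · exact sup_mono h h2.1
      · have : ε = 0 := Subsingleton.elim _ _
        subst this
        exact sup_mono h h2.2

section addPairs
variable {K : Type u} [Field K] {n κ : ℕ} (C : Circ K n κ)
  (l : List ((Gen →₀ K) × (Gen →₀ K))) (hl : ∀ p ∈ l, C.S p.1 ∧ C.S p.2)

theorem Circ.addPairs_inp_old {g : ℕ} (hg : g < C.N) : (C.addPairs l hl).inp g = C.inp g :=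
  if_pos hg

theorem Circ.addPairs_inp_new (i : Fin l.length) :
    (C.addPairs l hl).inp (C.N + i) = ![(l.get i).1, (l.get i).2] := by
  have h : ¬ C.N + (i : ℕ) < C.N := by omega
  change (if C.N + (i : ℕ) < C.N then C.inp (C.N + i) else
    ![(l.getD (C.N + i - C.N) 0).1, (l.getD (C.N + i - C.N) 0).2]) = _
  rw [if_neg h, Nat.add_sub_cancel_left, List.getD_eq_getElem _ _ i.2]
  rfl

theorem Circ.addPairs_vl {g : ℕ} (hg : g < C.N) (s : Fin (κ + 2)) :
    (C.addPairs l hl).vl g s = C.vl g s := by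
  unfold Circ.vl
  rw [C.addPairs_inp_old l hl hg]

theorem Circ.addPairs_ev {g : ℕ} (hg : g < C.N) : (C.addPairs l hl).ev g = C.ev g := by
  unfold Circ.ev
  congr 1
  funext s
  rw [C.addPairs_vl l hl hg]

theorem Circ.addPairs_ext : C.Ext (RingHom.id K) (C.addPairs l hl) where
  le := Nat.le_add_right _ _
  leκ := le_refl _
  I := by
    intro P hP
    rw [MvPolynomial.map_id]
    refine Ideal.span_mono ?_ hP
    rintro Q ⟨g, hg, i, rfl⟩
    refine ⟨g, lt_of_lt_of_le hg (Nat.le_add_right _ _), i, ?_⟩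
    rw [C.addPairs_ev l hl hg]
    rfl

end addPairs

theorem exists_finset_card_pair {K : Type u} [Infinite K] (e : ℕ) : ∃ S : Finset K, e < S.card := by
  obtain ⟨S, hS⟩ := Infinite.exists_subset_card_eq K (e + 1)
  exact ⟨S, by omega⟩

/-- adding the pair blocks of a rich set -/
theorem exists_rich {K : Type u} [Field K] [Infinite K] {n κ : ℕ} (hn : 0 < n) (C : Circ K n κ)
    (e : ℕ) (E : Finset (Gen →₀ K)) (hE : ∀ y ∈ E, C.S y) :
    ∃ (C1 : Circ K n κ) (S : Finset K) (Y : Finset (Gen →₀ K)), C.Ext (RingHom.id K) C1 ∧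
      E ⊆ Y ∧ Rich C1 C.N e S Y ∧ 0 < C1.N := by
  classical
  obtain ⟨S, hS⟩ := exists_finset_card_pair (K := K) e
  let Un : Finset Gen := (finite_used_pair n κ C.N).toFinset
  have hUn : ∀ v, v ∈ Un ↔ Used n κ C.N v := fun v => Set.Finite.mem_toFinset _
  let Y1 : Finset (Gen →₀ K) := Un.image fun v => Finsupp.single v 1
  let Y2 : Finset (Gen →₀ K) := (Un ×ˢ Un ×ˢ S).image fun p =>
    Finsupp.single p.1 1 + p.2.2 • Finsupp.single p.2.1 1
  let Y3 : Finset (Gen →₀ K) := (Finset.range C.N ×ˢ Finset.univ).image fun p => C.vl p.1 p.2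
  let Y4 : Finset (Gen →₀ K) :=
    (Finset.range C.N ×ˢ (Finset.univ : Finset (Fin (κ + 2))) ×ˢ Finset.univ ×ˢ S).image fun p =>
      C.vl p.1 p.2.1 + p.2.2.2 • C.vl p.1 p.2.2.1
  let Y : Finset (Gen →₀ K) := E ∪ (Y1 ∪ (Y2 ∪ (Y3 ∪ Y4)))
  have hY1 : ∀ v, Used n κ C.N v → Finsupp.single v (1 : K) ∈ Y := by
    intro v hv
    exact Finset.mem_union_right _ (Finset.mem_union_left _
      (Finset.mem_image.2 ⟨v, (hUn v).2 hv, rfl⟩))
  have hY2 : ∀ v w, Used n κ C.N v → Used n κ C.N w → ∀ c ∈ S,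
      Finsupp.single v (1 : K) + c • Finsupp.single w (1 : K) ∈ Y := by
    intro v w hv hw c hc
    exact Finset.mem_union_right _ (Finset.mem_union_right _ (Finset.mem_union_left _
      (Finset.mem_image.2 ⟨(v, w, c), by simp [(hUn v).2 hv, (hUn w).2 hw, hc], rfl⟩)))
  have hY3 : ∀ g < C.N, ∀ s, C.vl g s ∈ Y := by
    intro g hg s
    exact Finset.mem_union_right _ (Finset.mem_union_right _ (Finset.mem_union_right _
      (Finset.mem_union_left _ (Finset.mem_image.2 ⟨(g, s), by simp [hg], rfl⟩))))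
  have hY4 : ∀ g < C.N, ∀ s t, ∀ c ∈ S, C.vl g s + c • C.vl g t ∈ Y := by
    intro g hg s t c hc
    exact Finset.mem_union_right _ (Finset.mem_union_right _ (Finset.mem_union_right _
      (Finset.mem_union_right _ (Finset.mem_image.2 ⟨(g, s, t, c), by simp [hg, hc], rfl⟩))))
  have hsup : ∀ y ∈ Y, Sup n κ C.N y := by
    intro y hy
    rcases Finset.mem_union.1 hy with h | hy
    · exact hE y h
    rcases Finset.mem_union.1 hy with h | hy
    · obtain ⟨v, hv, rfl⟩ := Finset.mem_image.1 h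
      exact sup_single ((hUn v).1 hv) 1
    rcases Finset.mem_union.1 hy with h | hy
    · obtain ⟨⟨v, w, c⟩, hv, rfl⟩ := Finset.mem_image.1 h
      simp only [Finset.mem_product] at hv
      exact sup_add (sup_single ((hUn v).1 hv.1) 1) (sup_smul (sup_single ((hUn w).1 hv.2.1) 1) c)
    rcases Finset.mem_union.1 hy with h | h
    · obtain ⟨⟨g, s⟩, hg, rfl⟩ := Finset.mem_image.1 h
      simp only [Finset.mem_product, Finset.mem_range] at hg
      exact sup_vl C hg.1 s
    · obtain ⟨⟨g, s, t, c⟩, hg, rfl⟩ := Finset.mem_image.1 h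
      simp only [Finset.mem_product, Finset.mem_range] at hg
      exact sup_add (sup_vl C hg.1 s) (sup_smul (sup_vl C hg.1 t) c)
  let l : List ((Gen →₀ K) × (Gen →₀ K)) := (Y ×ˢ Y).toList
  have hmem : ∀ p, p ∈ l ↔ p.1 ∈ Y ∧ p.2 ∈ Y := by
    intro p
    rw [Finset.mem_toList, Finset.mem_product]
  have hl : ∀ p ∈ l, C.S p.1 ∧ C.S p.2 := fun p hp =>
    ⟨hsup _ ((hmem p).1 hp).1, hsup _ ((hmem p).1 hp).2⟩
  have h0 : Finsupp.single (Sum.inl 0 : Gen) (1 : K) ∈ Y := hY1 _ hn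
  have hpos : 0 < l.length :=
    List.length_pos_of_mem ((hmem (Finsupp.single (Sum.inl 0) 1, Finsupp.single (Sum.inl 0) 1)).2
      ⟨h0, h0⟩)
  refine ⟨C.addPairs l hl, S, Y, C.addPairs_ext l hl, Finset.subset_union_left, ?_, ?_⟩
  · refine ⟨Nat.le_add_right _ _, hS, hY1, fun v w hv hw _ c hc => hY2 v w hv hw c hc, ?_, ?_, ?_, ?_,
      hsup⟩
    · intro g hg s
      rw [C.addPairs_vl l hl hg]
      exact hY3 g hg s
    · intro g hg s t _ c hc
      rw [C.addPairs_vl l hl hg, C.addPairs_vl l hl hg]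
      exact hY4 g hg s t c hc
    · intro y hy y' hy'
      obtain ⟨i, hi⟩ := List.get_of_mem ((hmem (y, y')).2 ⟨hy, hy'⟩)
      refine ⟨C.N + i, Nat.add_lt_add_left i.2 _, Nat.le_add_right _ _, ?_, ?_⟩
      · rw [C.addPairs_inp_new l hl i, hi]
        rfl
      · rw [C.addPairs_inp_new l hl i, hi]
        rfl
    · intro g hg hg'
      have hg1 : g < C.N + l.length := hg'
      obtain ⟨j, rfl⟩ := Nat.exists_eq_add_of_le hg
      have hj : j < l.length := by omega
      have e1 := C.addPairs_inp_new l hl ⟨j, hj⟩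
      have h2 := (hmem (l.get ⟨j, hj⟩)).1 (List.get_mem l ⟨j, hj⟩)
      refine ⟨C.triv _ hg, ?_, ?_⟩
      · change (C.addPairs l hl).inp (C.N + ((⟨j, hj⟩ : Fin l.length) : ℕ)) 0 ∈ Y
        rw [e1]
        exact h2.1
      · change (C.addPairs l hl).inp (C.N + ((⟨j, hj⟩ : Fin l.length) : ℕ)) 1 ∈ Y
        rw [e1]
        exact h2.2
  · exact lt_of_lt_of_le hpos (Nat.le_add_left _ _)

theorem ev_pair {K : Type u} [Field K] {n κ : ℕ} (C : Circ K n κ) (g a b : ℕ) :
    C.ev g (X 0 ^ a * X 1 ^ b) = lin K (C.inp g 0) ^ a * lin K (C.inp g 1) ^ b := by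
  unfold Circ.ev
  rw [map_mul, map_pow, map_pow, aeval_X, aeval_X]
  rfl

theorem bl_of_bin {K : Type u} [Field K] {n κ : ℕ} (C C1 : Circ K n κ) (e : ℕ)
    (E : Finset (Gen →₀ K)) (S : Finset K) (Y : Finset (Gen →₀ K))
    (hext : C.Ext (RingHom.id K) C1) (hEY : E ⊆ Y) (hR : Rich C1 C.N e S Y)
    (P : MvPolynomial Gen K) (hP : C.Bin E e P) : C1.Bl e P := by
  classical
  obtain ⟨Q, hQ, hPQ⟩ := hP
  have key : ∃ Φ : ℕ → MvPolynomial (Fin (κ + 2)) K, (∀ g, (Φ g).IsHomogeneous e) ∧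
      Q = ∑ g ∈ Finset.range C1.N, C1.ev g (Φ g) := by
    refine Submodule.span_induction (p := fun Q _ =>
      ∃ Φ : ℕ → MvPolynomial (Fin (κ + 2)) K, (∀ g, (Φ g).IsHomogeneous e) ∧
        Q = ∑ g ∈ Finset.range C1.N, C1.ev g (Φ g)) ?_ ?_ ?_ ?_ hQ
    · rintro Q ⟨y, hy, y', hy', a, b, hab, rfl⟩
      obtain ⟨g0, hg0, -, h0, h1⟩ := hR.pair y (hEY hy) y' (hEY hy')
      refine ⟨fun g => if g = g0 then X 0 ^ a * X 1 ^ b else 0, ?_, ?_⟩
      · intro g
        dsimp only
        split_ifs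
        · have h := ((isHomogeneous_X K (0 : Fin (κ + 2))).pow a).mul
            ((isHomogeneous_X K (1 : Fin (κ + 2))).pow b)
          rwa [one_mul, one_mul, hab] at h
        · exact isHomogeneous_zero _ _ _
      · rw [Finset.sum_eq_single g0]
        · beta_reduce
          rw [if_pos rfl, ev_pair, h0, h1]
        · intro g _ hg
          beta_reduce
          rw [if_neg hg, map_zero]
        · intro h
          exact absurd (Finset.mem_range.2 hg0) h
    · exact ⟨fun _ => 0, fun _ => isHomogeneous_zero _ _ _, by simp⟩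
    · rintro Q Q' _ _ ⟨Φ, h1, rfl⟩ ⟨Φ', h1', rfl⟩
      refine ⟨fun g => Φ g + Φ' g, fun g => (h1 g).add (h1' g), ?_⟩
      rw [← Finset.sum_add_distrib]
      exact Finset.sum_congr rfl fun g _ => (map_add _ _ _).symm
    · rintro c Q _ ⟨Φ, h1, rfl⟩
      refine ⟨fun g => c • Φ g, fun g => ?_, ?_⟩
      · exact (homogeneousSubmodule (Fin (κ + 2)) K e).smul_mem c (h1 g)
      · rw [Finset.smul_sum]
        exact Finset.sum_congr rfl fun g _ => (map_smul _ _ _).symm
  obtain ⟨Φ, hΦ, hQe⟩ := key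
  refine ⟨Φ, hΦ, ?_⟩
  rw [← hQe]
  have h := hext.I _ hPQ
  rwa [MvPolynomial.map_id] at h

end Vale.Agent.P200.V.Rig
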