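import Mathlib

/-!
Rigid circuits (note 9528): two families of numbers with the same `e`-th powers of sufficiently many
combinations differ by an `e`-th root of unity.
-/

namespace Vale.Agent.P200.V.Rig

/-- two pairs of numbers with the same `e`-th powers of many combinations -/
theorem r1_pair {Ω : Type*} [Field Ω] (e : ℕ) (he : 0 < e) (Cs : Finset Ω) (hC : e < Cs.card)
    (u v u' v' : Ω) (hu : u ≠ 0) (h0 : u ^ e = u' ^ e)
    (h : ∀ c ∈ Cs, (u + c * v) ^ e = (u' + c * v') ^ e) :
    v' = u' / u * v := by
  classical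
  have hu' : u' ≠ 0 := by
    intro h'
    rw [h', zero_pow he.ne'] at h0
    exact hu ((pow_eq_zero_iff he.ne').1 h0)
  have hd : ∀ a b : Ω, ((Polynomial.C a + Polynomial.X * Polynomial.C b) ^ e).natDegree ≤ e := by
    intro a b
    refine (Polynomial.natDegree_pow_le).trans ?_
    have h1 : (Polynomial.C a + Polynomial.X * Polynomial.C b).natDegree ≤ 1 := by
      refine (Polynomial.natDegree_add_le _ _).trans (max_le ?_ ?_)
      · rw [Polynomial.natDegree_C]
        exact Nat.zero_le _
      · refine (Polynomial.natDegree_mul_le).trans ?_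
        rw [Polynomial.natDegree_C, add_zero]
        exact Polynomial.natDegree_X_le
    calc e * _ ≤ e * 1 := Nat.mul_le_mul_left e h1
      _ = e := mul_one e
  have hP : (Polynomial.C u + Polynomial.X * Polynomial.C v) ^ e -
      (Polynomial.C u' + Polynomial.X * Polynomial.C v') ^ e = 0 := by
    refine Polynomial.eq_zero_of_natDegree_lt_card_of_eval_eq_zero' _ Cs ?_ ?_
    · intro c hc
      simp only [Polynomial.eval_sub, Polynomial.eval_pow, Polynomial.eval_add, Polynomial.eval_C,
        Polynomial.eval_mul, Polynomial.eval_X]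
      rw [h c hc, sub_self]
    · refine lt_of_le_of_lt ((Polynomial.natDegree_sub_le _ _).trans (max_le (hd _ _) (hd _ _))) hC
  have hev : ∀ c : Ω, (u + c * v) ^ e = (u' + c * v') ^ e := by
    intro c
    have := congrArg (Polynomial.eval c) hP
    simp only [Polynomial.eval_sub, Polynomial.eval_pow, Polynomial.eval_add, Polynomial.eval_C,
        Polynomial.eval_mul, Polynomial.eval_X, Polynomial.eval_zero] at this
    exact sub_eq_zero.1 this
  by_cases hv : v = 0
  · have h1 : v' = 0 := by
      by_contra hv'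
      have h2 := hev (-(u' / v'))
      rw [hv, mul_zero, add_zero, neg_mul, div_mul_cancel₀ _ hv', add_neg_cancel,
        zero_pow he.ne'] at h2
      exact hu ((pow_eq_zero_iff he.ne').1 h2)
    rw [h1, hv, mul_zero]
  · have h2 := hev (-(u / v))
    rw [neg_mul, div_mul_cancel₀ _ hv, add_neg_cancel, zero_pow he.ne'] at h2
    have h3 := (pow_eq_zero_iff he.ne').1 h2.symm
    have h4 : u' * v = u * v' := by
      have := congrArg (fun z => z * v) h3
      simp only [zero_mul] at this
      have h5 : (u' + -(u / v) * v') * v = u' * v - u * v' := by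
        field_simp
        ring
      rw [h5] at this
      exact sub_eq_zero.1 this
    rw [div_mul_eq_mul_div, eq_div_iff hu, h4, mul_comm]

/-- **(R1).** -/
theorem r1 {K Ω ι : Type*} [Field K] [Field Ω] [Algebra K Ω] (e : ℕ) (he : 0 < e)
    (S : Finset K) (hS : e < S.card) (q q' : ι → Ω) (h1 : ∀ v, q v ^ e = q' v ^ e)
    (h2 : ∀ v w, v ≠ w → ∀ c ∈ S,
      (q v + algebraMap K Ω c * q w) ^ e = (q' v + algebraMap K Ω c * q' w) ^ e) :
    ∃ ε : Ω, ε ^ e = 1 ∧ ∀ v, q' v = ε * q v := by
  classical
  by_cases hq : ∃ b0, q b0 ≠ 0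
  · obtain ⟨b0, hb0⟩ := hq
    refine ⟨q' b0 / q b0, ?_, ?_⟩
    · rw [div_pow, ← h1, div_self (pow_ne_zero _ hb0)]
    · intro b
      by_cases hb : b0 = b
      · rw [← hb, div_mul_cancel₀ _ hb0]
      · refine r1_pair e he (S.image (algebraMap K Ω)) ?_ _ _ _ _ hb0 (h1 b0) ?_
        · rw [Finset.card_image_of_injective _ (algebraMap K Ω).injective]
          exact hS
        · intro c hc
          obtain ⟨c', hc', rfl⟩ := Finset.mem_image.1 hc
          exact h2 b0 b hb c' hc'
  · push Not at hq
    refine ⟨1, one_pow e, ?_⟩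
    intro b
    have h3 := h1 b
    rw [hq b, zero_pow he.ne'] at h3
    rw [hq b, mul_zero]
    exact (pow_eq_zero_iff he.ne').1 h3.symm

end Vale.Agent.P200.V.Rig
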