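import Vale.Agent.P200.V.RigRich
import Vale.Agent.P200.V.RigR1

/-!
**Rigidity.**  A functional on a commutative algebra `A` which on every block is the evaluation (in degree `e`) at a
point of the block is the evaluation at one point (a linear functional `q` on the linear forms), up to
`e`-th roots of unity on the blocks, if there are blocks for all pairs of a rich set of linear forms.
Every characteristic.
-/

namespace Vale.Agent.P200.V.Rig

open MvPolynomial Module

/-- the family `y` contains the family `z` and many combinations of two of its members -/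
def RichF (K : Type*) [Field K] {T : Type*} [AddCommGroup T] [Module K T] (e : ℕ) {S I : Type*}
    (y : S → T) (z : I → T) : Prop :=
  (∀ i, ∃ s, y s = z i) ∧
    ∃ C : Finset K, e < C.card ∧ ∀ i j, i ≠ j → ∀ c ∈ C, ∃ s, y s = z i + c • z j

section phi

/-- factorisation of linear maps -/
theorem exists_comp_of_ker {K H A W : Type*} [Field K] [AddCommGroup H] [Module K H]
    [AddCommGroup A] [Module K A] [AddCommGroup W] [Module K W] (T : H →ₗ[K] A) (X : H →ₗ[K] W)
    (h : LinearMap.ker T ≤ LinearMap.ker X) : ∃ φ : A →ₗ[K] W, ∀ u, φ (T u) = X u := by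
  obtain ⟨φ, hφ⟩ := LinearMap.exists_extend
    (((LinearMap.ker T).liftQ X h).comp T.quotKerEquivRange.symm.toLinearMap)
  refine ⟨φ, fun u => ?_⟩
  have h1 := LinearMap.congr_fun hφ ⟨T u, u, rfl⟩
  rw [LinearMap.comp_apply, Submodule.subtype_apply] at h1
  rw [h1, LinearMap.comp_apply]
  have h2 : T.quotKerEquivRange.symm.toLinearMap ⟨T u, u, rfl⟩ =
      Submodule.Quotient.mk (p := LinearMap.ker T) u := by
    rw [LinearEquiv.coe_toLinearMap, LinearEquiv.symm_apply_eq]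
    rfl
  rw [h2, Submodule.liftQ_apply]

/-- the functional -/
theorem rig_phi {K Ω A σ G : Type*} [Field K] [Field Ω] [Algebra K Ω] [CommRing A] [Algebra K A]
    [Fintype G] (e : ℕ) (α : G → MvPolynomial σ K →ₐ[K] A) (ev : G → MvPolynomial σ K →ₐ[K] Ω)
    (hker : ∀ h : G → MvPolynomial σ K, (∀ g, (h g).IsHomogeneous e) → ∑ g, α g (h g) = 0 →
      ∑ g, ev g (h g) = 0) :
    ∃ φ : A →ₗ[K] Ω, ∀ g (h : MvPolynomial σ K), h.IsHomogeneous e → φ (α g h) = ev g h := by
  classical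
  let T : (G → homogeneousSubmodule σ K e) →ₗ[K] A :=
    { toFun := fun u => ∑ g, α g (u g : MvPolynomial σ K)
      map_add' := fun u v => by
        rw [← Finset.sum_add_distrib]
        refine Finset.sum_congr rfl fun g _ => ?_
        rw [Pi.add_apply, Submodule.coe_add, map_add]
      map_smul' := fun c u => by
        rw [RingHom.id_apply, Finset.smul_sum]
        refine Finset.sum_congr rfl fun g _ => ?_
        rw [Pi.smul_apply, Submodule.coe_smul, map_smul] }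
  let Xf : (G → homogeneousSubmodule σ K e) →ₗ[K] Ω :=
    { toFun := fun u => ∑ g, ev g (u g : MvPolynomial σ K)
      map_add' := fun u v => by
        rw [← Finset.sum_add_distrib]
        refine Finset.sum_congr rfl fun g _ => ?_
        rw [Pi.add_apply, Submodule.coe_add, map_add]
      map_smul' := fun c u => by
        rw [RingHom.id_apply, Finset.smul_sum]
        refine Finset.sum_congr rfl fun g _ => ?_
        rw [Pi.smul_apply, Submodule.coe_smul, map_smul] }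
  obtain ⟨φ, hφ⟩ := exists_comp_of_ker T Xf (by
    intro u hu
    rw [LinearMap.mem_ker] at hu ⊢
    exact hker (fun g => (u g : MvPolynomial σ K)) (fun g => (u g).2) hu)
  refine ⟨φ, fun g h hh => ?_⟩
  have h1 := hφ (Pi.single g ⟨h, hh⟩)
  have h2 : T (Pi.single g ⟨h, hh⟩) = α g h := by
    change ∑ g', α g' ((Pi.single g ⟨h, hh⟩ : G → homogeneousSubmodule σ K e) g' :
      MvPolynomial σ K) = _
    rw [Finset.sum_eq_single g]
    · rw [Pi.single_eq_same]
    · intro i _ hi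
      rw [Pi.single_eq_of_ne hi, Submodule.coe_zero, map_zero]
    · intro h'
      exact absurd (Finset.mem_univ _) h'
  have h3 : Xf (Pi.single g ⟨h, hh⟩) = ev g h := by
    change ∑ g', ev g' ((Pi.single g ⟨h, hh⟩ : G → homogeneousSubmodule σ K e) g' :
      MvPolynomial σ K) = _
    rw [Finset.sum_eq_single g]
    · rw [Pi.single_eq_same]
    · intro i _ hi
      rw [Pi.single_eq_of_ne hi, Submodule.coe_zero, map_zero]
    · intro h'
      exact absurd (Finset.mem_univ _) h'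
  rw [h2, h3] at h1
  exact h1

end phi

/-- the functional at one linear form with non-zero value -/
theorem rig_Q {K Ω T A : Type*} [Field K] [Field Ω] [Algebra K Ω] [AddCommGroup T] [Module K T]
    [CommRing A] [Algebra K A] (τ : T →ₗ[K] A) {e : ℕ} (he : 0 < e) {S : Type*} (y : S → T)
    {G : Type*} {κ : ℕ} (θ : G → Fin (κ + 2) → T)
    (hpair : ∀ s s', ∃ g, θ g 0 = y s ∧ θ g 1 = y s') (p : G → Fin (κ + 2) → Ω)
    (φ : A →ₗ[K] Ω) (h1 : ∀ g v, φ (τ (θ g v) ^ e) = p g v ^ e)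
    (h3 : ∀ g, φ (τ (θ g 1) * τ (θ g 0) ^ (e - 1)) = p g 1 * p g 0 ^ (e - 1))
    (s : S) (hs : φ (τ (y s) ^ e) ≠ 0) :
    ∃ Q : T →ₗ[K] Ω, (∀ s', Q (y s') ^ e = φ (τ (y s') ^ e)) ∧
      ∀ g s', θ g 0 = y s → θ g 1 = y s' →
        ∃ ε : Ω, ε ^ e = 1 ∧ p g 0 = ε * Q (y s) ∧ p g 1 = ε * Q (y s') := by
  have he0 : e ≠ 0 := he.ne'
  have hee : e - 1 + 1 = e := by omega
  obtain ⟨g0, hg0, -⟩ := hpair s s
  set a : Ω := p g0 0 with ha
  have haF : a ^ e = φ (τ (y s) ^ e) := by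
    rw [ha, ← h1, hg0]
  have ha0 : a ≠ 0 := by
    intro h
    rw [h, zero_pow he0] at haF
    exact hs haF.symm
  let Q : T →ₗ[K] Ω :=
    { toFun := fun t => (a ^ (e - 1))⁻¹ * φ (τ t * τ (y s) ^ (e - 1))
      map_add' := fun t t' => by
        rw [map_add, add_mul, map_add, mul_add]
      map_smul' := fun c t => by
        rw [map_smul, smul_mul_assoc, map_smul, mul_smul_comm, RingHom.id_apply] }
  have hQ : ∀ t, Q t = (a ^ (e - 1))⁻¹ * φ (τ t * τ (y s) ^ (e - 1)) := fun t => rfl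
  have ha1 : a ^ (e - 1) ≠ 0 := pow_ne_zero _ ha0
  have hQs : Q (y s) = a := by
    rw [hQ, ← pow_succ', hee, ← haF]
    have h4 : a ^ e = a ^ (e - 1) * a := by rw [← pow_succ, hee]
    rw [h4, ← mul_assoc, inv_mul_cancel₀ ha1, one_mul]
  have hL : ∀ g s', θ g 0 = y s → θ g 1 = y s' →
      ∃ ε : Ω, ε ^ e = 1 ∧ p g 0 = ε * Q (y s) ∧ p g 1 = ε * Q (y s') := by
    intro g s' h0 h0'
    have h4 : p g 0 ^ e = a ^ e := by
      rw [haF, ← h0, h1]
    refine ⟨p g 0 / a, ?_, ?_, ?_⟩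
    · rw [div_pow, h4, div_self (pow_ne_zero _ ha0)]
    · rw [hQs, div_mul_cancel₀ _ ha0]
    · rw [hQ, ← h0', ← h0, h3]
      have h5 : p g 0 ^ (e - 1) * p g 0 = a ^ (e - 1) * a := by
        rw [← pow_succ, ← pow_succ, hee, h4]
      field_simp
      linear_combination (-(p g 1)) * h5
  refine ⟨Q, fun s' => ?_, hL⟩
  obtain ⟨g, hg, hg'⟩ := hpair s s'
  obtain ⟨ε, hε, -, h5⟩ := hL g s' hg hg'
  rw [← hg', h1, h5, hg', mul_pow, hε, one_mul]

/-- homogeneity -/
theorem aeval_hom_scale {K Ω σ : Type*} [Field K] [Field Ω] [Algebra K Ω] {e : ℕ}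
    {g : MvPolynomial σ K} (hg : g.IsHomogeneous e) (c : Ω) (v : σ → Ω) :
    aeval (fun k => c * v k) g = c ^ e * aeval v g := by
  rw [aeval_def, aeval_def, eval₂_eq, eval₂_eq, Finset.mul_sum]
  refine Finset.sum_congr rfl fun m hm => ?_
  have h1 : ∏ i ∈ m.support, (c * v i) ^ m i = c ^ e * ∏ i ∈ m.support, v i ^ m i := by
    simp only [mul_pow]
    rw [Finset.prod_mul_distrib, Finset.prod_pow_eq_pow_sum]
    congr 2
    have h2 := hg (mem_support_iff.1 hm)
    rw [← h2, Finsupp.weight_apply, Finsupp.sum]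
    simp
  rw [h1]
  ring

/-- **Rigidity.** -/
theorem rig_point {K Ω T A : Type*} [Field K] [Field Ω] [Algebra K Ω] [AddCommGroup T]
    [Module K T] [CommRing A] [Algebra K A] (τ : T →ₗ[K] A) {e : ℕ} (he : 0 < e) {ι S : Type*}
    (b : ι → T) (hb : Submodule.span K (Set.range b) = ⊤) (y : S → T) (hby : RichF K e y b)
    {G : Type*} [Fintype G] {κ : ℕ} (θ : G → Fin (κ + 2) → T)
    (hpair : ∀ s s', ∃ g, θ g 0 = y s ∧ θ g 1 = y s')
    (hG : ∀ g, RichF K e y (θ g) ∨ ∃ s s', θ g 0 = y s ∧ θ g 1 = y s' ∧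
      ∀ v, v ≠ 0 → v ≠ 1 → θ g v = 0)
    (p : G → Fin (κ + 2) → Ω)
    (hker : ∀ h : G → MvPolynomial (Fin (κ + 2)) K, (∀ g, (h g).IsHomogeneous e) →
      ∑ g, aeval (fun v => τ (θ g v)) (h g) = 0 → ∑ g, aeval (p g) (h g) = 0) :
    ∃ q : T →ₗ[K] Ω, ∀ g, ∃ ε : Ω, ε ^ e = 1 ∧ ∀ v, p g v = ε * q (θ g v) := by
  classical
  have he0 : e ≠ 0 := he.ne'
  have hee : e - 1 + 1 = e := by omega
  obtain ⟨φ, hφ⟩ := rig_phi e (fun g => aeval fun v => τ (θ g v)) (fun g => aeval (p g)) hker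
  have hφ' : ∀ g (h : MvPolynomial (Fin (κ + 2)) K), h.IsHomogeneous e →
      φ (aeval (fun v => τ (θ g v)) h) = aeval (p g) h := hφ
  have h1 : ∀ g v, φ (τ (θ g v) ^ e) = p g v ^ e := by
    intro g v
    have h := hφ' g (X v ^ e) (by
      have := (isHomogeneous_X K v).pow e
      rwa [one_mul] at this)
    have a1 : aeval (fun v => τ (θ g v)) (X v ^ e : MvPolynomial (Fin (κ + 2)) K) =
        τ (θ g v) ^ e := by rw [map_pow, aeval_X]
    have a2 : aeval (p g) (X v ^ e : MvPolynomial (Fin (κ + 2)) K) = p g v ^ e := by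
      rw [map_pow, aeval_X]
    rw [← a1, h, a2]
  have h2 : ∀ g v w (c : K), φ (τ (θ g v + c • θ g w) ^ e) =
      (p g v + algebraMap K Ω c * p g w) ^ e := by
    intro g v w c
    have h := hφ' g ((X v + C c * X w) ^ e) (by
      have := ((isHomogeneous_X K v).add (by
        have h' := (isHomogeneous_C (Fin (κ + 2)) c).mul (isHomogeneous_X K w)
        rwa [zero_add] at h')).pow e
      rwa [one_mul] at this)
    have a1 : aeval (fun v => τ (θ g v)) ((X v + C c * X w) ^ e : MvPolynomial (Fin (κ + 2)) K) =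
        τ (θ g v + c • θ g w) ^ e := by
      rw [map_pow, map_add, map_mul, aeval_X, aeval_X, aeval_C, map_add, map_smul,
        Algebra.smul_def]
    have a2 : aeval (p g) ((X v + C c * X w) ^ e : MvPolynomial (Fin (κ + 2)) K) =
        (p g v + algebraMap K Ω c * p g w) ^ e := by
      rw [map_pow, map_add, map_mul, aeval_X, aeval_X, aeval_C]
    rw [← a1, h, a2]
  have h3 : ∀ g, φ (τ (θ g 1) * τ (θ g 0) ^ (e - 1)) = p g 1 * p g 0 ^ (e - 1) := by
    intro g
    have h := hφ' g (X 1 * X 0 ^ (e - 1)) (by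
      have := (isHomogeneous_X K (1 : Fin (κ + 2))).mul
        ((isHomogeneous_X K (0 : Fin (κ + 2))).pow (e - 1))
      have h5 : 1 + (e - 1) = e := by omega
      rwa [one_mul, h5] at this)
    have a1 : aeval (fun v => τ (θ g v)) (X 1 * X 0 ^ (e - 1) : MvPolynomial (Fin (κ + 2)) K) =
        τ (θ g 1) * τ (θ g 0) ^ (e - 1) := by rw [map_mul, map_pow, aeval_X, aeval_X]
    have a2 : aeval (p g) (X 1 * X 0 ^ (e - 1) : MvPolynomial (Fin (κ + 2)) K) =
        p g 1 * p g 0 ^ (e - 1) := by rw [map_mul, map_pow, aeval_X, aeval_X]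
    rw [← a1, h, a2]
  have hp0 : ∀ g v, θ g v = 0 → p g v = 0 := by
    intro g v h
    have h4 := h1 g v
    rw [h, map_zero, zero_pow he0, map_zero] at h4
    exact eq_zero_of_pow_eq_zero h4.symm
  by_cases hall : ∀ s, φ (τ (y s) ^ e) = 0
  · refine ⟨0, fun g => ⟨1, one_pow _, fun v => ?_⟩⟩
    rw [LinearMap.zero_apply, mul_zero]
    have h4 : ∀ s, θ g v = y s → p g v = 0 := by
      intro s h
      have h5 := h1 g v
      rw [h, hall s] at h5
      exact eq_zero_of_pow_eq_zero h5.symm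
    rcases hG g with hr | ⟨s, s', hs, hs', hv⟩
    · obtain ⟨s, hs⟩ := hr.1 v
      exact h4 s hs.symm
    · by_cases hv0 : v = 0
      · exact h4 s (by rw [hv0, hs])
      by_cases hv1 : v = 1
      · exact h4 s' (by rw [hv1, hs'])
      exact hp0 g v (hv v hv0 hv1)
  push Not at hall
  obtain ⟨s0, hs0⟩ := hall
  obtain ⟨q, hq, -⟩ := rig_Q τ he y θ hpair p φ h1 h3 s0 hs0
  -- two functionals with the same powers
  have hR : ∀ Q : T →ₗ[K] Ω, (∀ s', Q (y s') ^ e = φ (τ (y s') ^ e)) →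
      ∃ ε : Ω, ε ^ e = 1 ∧ ∀ t, Q t = ε * q t := by
    intro Q hQ
    obtain ⟨C, hC, hyC⟩ := hby.2
    obtain ⟨ε, hε, h4⟩ := r1 (K := K) e he C hC (fun i => q (b i)) (fun i => Q (b i))
      (fun i => by
        obtain ⟨s, hs⟩ := hby.1 i
        rw [← hs, hq, hQ])
      (fun i j hij c hc => by
        obtain ⟨s, hs⟩ := hyC i j hij c hc
        have h5 := hq s
        have h6 := hQ s
        rw [hs, map_add, map_smul, Algebra.smul_def] at h5 h6
        rw [h5, h6])
    refine ⟨ε, hε, fun t => ?_⟩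
    have ht : t ∈ Submodule.span K (Set.range b) := by
      rw [hb]
      exact Submodule.mem_top
    refine Submodule.span_induction (p := fun t _ => Q t = ε * q t) ?_ ?_ ?_ ?_ ht
    · rintro _ ⟨i, rfl⟩
      exact h4 i
    · rw [map_zero, map_zero, mul_zero]
    · intro x x' _ _ hx hx'
      rw [map_add, map_add, hx, hx', mul_add]
    · intro c x _ hx
      rw [map_smul, map_smul, hx, mul_smul_comm]
  refine ⟨q, fun g => ?_⟩
  rcases hG g with hr | ⟨s, s', hs, hs', hv⟩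
  · obtain ⟨C, hC, hyC⟩ := hr.2
    exact r1 (K := K) e he C hC (fun v => q (θ g v)) (p g)
      (fun v => by
        obtain ⟨s, hs⟩ := hr.1 v
        rw [← h1, ← hs, hq])
      (fun v w hvw c hc => by
        obtain ⟨s, hs⟩ := hyC v w hvw c hc
        have h6 := hq s
        rw [hs] at h6
        rw [← h2, ← h6, map_add, map_smul, Algebra.smul_def])
  · have hvz : ∀ (ε : Ω) v, v ≠ 0 → v ≠ 1 → p g v = ε * q (θ g v) := by
      intro ε v h4 h5
      rw [hp0 g v (hv v h4 h5), hv v h4 h5, map_zero, mul_zero]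
    by_cases hF : φ (τ (y s) ^ e) = 0
    · have h4 : p g 0 = 0 := by
        have h5 := h1 g 0
        rw [hs, hF] at h5
        exact eq_zero_of_pow_eq_zero h5.symm
      have h5 : q (y s) = 0 := by
        have h6 := hq s
        rw [hF] at h6
        exact eq_zero_of_pow_eq_zero h6
      have h6 : p g 1 ^ e = q (y s') ^ e := by
        rw [hq, ← h1, hs']
      obtain ⟨ε, hε, h7⟩ : ∃ ε : Ω, ε ^ e = 1 ∧ p g 1 = ε * q (y s') := by
        by_cases h8 : q (y s') = 0
        · rw [h8, zero_pow he0] at h6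
          exact ⟨1, one_pow _, by rw [h8, mul_zero, eq_zero_of_pow_eq_zero h6]⟩
        · refine ⟨p g 1 / q (y s'), ?_, ?_⟩
          · rw [div_pow, h6, div_self (pow_ne_zero _ h8)]
          · rw [div_mul_cancel₀ _ h8]
      refine ⟨ε, hε, fun v => ?_⟩
      by_cases hv0 : v = 0
      · rw [hv0, h4, hs, h5, mul_zero]
      by_cases hv1 : v = 1
      · rw [hv1, h7, hs']
      exact hvz ε v hv0 hv1
    · obtain ⟨Q, hQ, hL⟩ := rig_Q τ he y θ hpair p φ h1 h3 s hF
      obtain ⟨ε, hε, h4, h5⟩ := hL g s' hs hs'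
      obtain ⟨δ, hδ, h6⟩ := hR Q hQ
      refine ⟨ε * δ, by rw [mul_pow, hε, hδ, one_mul], fun v => ?_⟩
      by_cases hv0 : v = 0
      · rw [hv0, h4, h6, hs, mul_assoc]
      by_cases hv1 : v = 1
      · rw [hv1, h5, h6, hs', mul_assoc]
      exact hvz _ v hv0 hv1

theorem rig_point' {K Ω T A : Type*} [Field K] [Field Ω] [Algebra K Ω] [AddCommGroup T]
    [Module K T] [CommRing A] [Algebra K A] (τ : T →ₗ[K] A) {e : ℕ} (he : 0 < e) {ι S : Type*}
    (b : ι → T) (hb : Submodule.span K (Set.range b) = ⊤) (y : S → T) (hby : RichF K e y b)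
    {G : Type*} [Fintype G] {κ : ℕ} (θ : G → Fin (κ + 2) → T)
    (hpair : ∀ s s', ∃ g, θ g 0 = y s ∧ θ g 1 = y s')
    (hG : ∀ g, RichF K e y (θ g) ∨ ∃ s s', θ g 0 = y s ∧ θ g 1 = y s' ∧
      ∀ v, v ≠ 0 → v ≠ 1 → θ g v = 0)
    (p : G → Fin (κ + 2) → Ω) (tv : G → Fin (κ + 2) → A) (htv : ∀ g v, τ (θ g v) = tv g v)
    (hker : ∀ h : G → MvPolynomial (Fin (κ + 2)) K, (∀ g, (h g).IsHomogeneous e) →
      ∑ g, aeval (tv g) (h g) = 0 → ∑ g, aeval (p g) (h g) = 0) :
    ∃ q : T →ₗ[K] Ω, ∀ g, ∃ ε : Ω, ε ^ e = 1 ∧ ∀ v, p g v = ε * q (θ g v) := by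
  refine rig_point τ he b hb y hby θ hpair hG p fun h hh hs => hker h hh ?_
  rw [← hs]
  refine Finset.sum_congr rfl fun g _ => ?_
  have h1 : tv g = fun v => τ (θ g v) := funext fun v => (htv g v).symm
  rw [h1]

/-- the values of the families -/
theorem rig_point_eval {K Ω T : Type*} [Field K] [Field Ω] [Algebra K Ω] [AddCommGroup T]
    [Module K T] {e : ℕ} {G : Type*} [Fintype G] {σ : Type*} (θ : G → σ → T)
    (p : G → σ → Ω) (q : T →ₗ[K] Ω)
    (hp : ∀ g, ∃ ε : Ω, ε ^ e = 1 ∧ ∀ v, p g v = ε * q (θ g v))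
    (h : G → MvPolynomial σ K) (hh : ∀ g, (h g).IsHomogeneous e) :
    ∑ g, aeval (p g) (h g) = ∑ g, aeval (fun v => q (θ g v)) (h g) := by
  refine Finset.sum_congr rfl fun g _ => ?_
  obtain ⟨ε, hε, h1⟩ := hp g
  have h2 : p g = fun v => ε * q (θ g v) := funext h1
  rw [h2, aeval_hom_scale (hh g), hε, one_mul]


universe u

section core

variable {K : Type u} [Field K] {n κ : ℕ}

theorem rel_hom (β : Blk K κ) (i : Fin κ) : (β.rel i).IsHomogeneous (β.e i) := by
  unfold Blk.rel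
  refine IsHomogeneous.sub ?_ (β.hom i)
  have h := (isHomogeneous_X K (i.succ.succ : Fin (κ + 2))).pow (β.e i)
  rwa [one_mul] at h

/-- a point of a block with zero inputs is zero -/
theorem blk_zero {Ω : Type*} [Field Ω] [Algebra K Ω] (β : Blk K κ) (p : Fin (κ + 2) → Ω)
    (h : ∀ i, aeval p (β.rel i) = 0) (h0 : p 0 = 0) (h1 : p 1 = 0) : ∀ v, p v = 0 := by
  have key : ∀ m : ℕ, ∀ v : Fin (κ + 2), (v : ℕ) = m → p v = 0 := by
    intro m
    induction m using Nat.strong_induction_on with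
    | _ m ih =>
      intro v
      refine Fin.cases (fun _ => h0) (fun v => ?_) v
      refine Fin.cases (fun _ => h1) (fun i => ?_) v
      intro hv
      have h2 := h i
      rw [Blk.rel, map_sub, map_pow, aeval_X, sub_eq_zero] at h2
      have h3 : aeval p (β.Phi i) = aeval (fun _ => (0 : Ω)) (β.Phi i) := by
        rw [aeval_eq_eval₂Hom, aeval_eq_eval₂Hom]
        refine eval₂Hom_congr' rfl (fun j hj _ => ?_) rfl
        have h4 := β.tri i j hj
        refine ih j ?_ j rfl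
        have h5 : ((i.succ.succ : Fin (κ + 2)) : ℕ) = i + 2 := rfl
        omega
      have h4 : aeval (fun _ => (0 : Ω)) (β.Phi i) = 0 := by
        have h5 := aeval_hom_scale (β.hom i) (0 : Ω) (fun _ => (0 : Ω))
        rw [zero_pow (β.e_pos i).ne', zero_mul] at h5
        simpa using h5
      rw [h3, h4] at h2
      exact eq_zero_of_pow_eq_zero h2
  exact fun v => key v v rfl

/-- the value of a linear form -/
theorem aeval_linear {Ω : Type*} [Field Ω] [Algebra K Ω] (q : Gen → Ω) (t : Gen →₀ K) :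
    aeval q (lin K t) = Finsupp.linearCombination K q t := by
  rw [lin, Finsupp.linearCombination_apply, Finsupp.linearCombination_apply, Finsupp.sum,
    Finsupp.sum, map_sum]
  refine Finset.sum_congr rfl fun v _ => ?_
  rw [map_smul, aeval_X]

theorem linearCombination_zero {Ω : Type*} [Field Ω] [Algebra K Ω] (q : Gen → Ω) (t : Gen →₀ K)
    (h : ∀ v ∈ t.support, q v = 0) : Finsupp.linearCombination K q t = 0 := by
  rw [Finsupp.linearCombination_apply, Finsupp.sum]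
  refine Finset.sum_eq_zero fun v hv => ?_
  rw [h v hv, smul_zero]

theorem aeval_ev {Ω : Type*} [Field Ω] [Algebra K Ω] (C : Circ K n κ) (q : Gen → Ω) (g : ℕ)
    (h : MvPolynomial (Fin (κ + 2)) K) :
    aeval q (C.ev g h) = aeval (fun s => aeval q (lin K (C.vl g s))) h := by
  rw [Circ.ev, ← AlgHom.comp_apply, comp_aeval]

theorem pt_rel {Ω : Type u} [Field Ω] [Algebra K Ω] (C : Circ K n κ) {q : Gen → Ω}
    (hq : C.Pt q) {g : ℕ} (hg : g < C.N) (i : Fin κ) :
    aeval (fun s => aeval q (lin K (C.vl g s))) ((C.β g).rel i) = 0 := by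
  rw [← aeval_ev]
  exact hq _ (Ideal.subset_span ⟨g, hg, i, rfl⟩)

theorem pt_of_rel {Ω : Type u} [Field Ω] [Algebra K Ω] (C : Circ K n κ) {q : Gen → Ω}
    (h : ∀ g < C.N, ∀ i, aeval (fun s => aeval q (lin K (C.vl g s))) ((C.β g).rel i) = 0) :
    C.Pt q := by
  intro P hP
  have h1 : C.I ≤ RingHom.ker (aeval q : MvPolynomial Gen K →ₐ[K] Ω) := by
    refine Ideal.span_le.2 ?_
    rintro _ ⟨g, hg, i, rfl⟩
    rw [SetLike.mem_coe, RingHom.mem_ker, aeval_ev]
    exact h g hg i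
  exact h1 hP

/-- a point with zero variables is zero -/
theorem pt_zero_core {Ω : Type u} [Field Ω] [Algebra K Ω] (C : Circ K n κ) {q : Gen → Ω}
    (hq : C.Pt q) (h : ∀ i < n, q (Sum.inl i) = 0) : ∀ v, C.U v → q v = 0 := by
  have key : ∀ g, g < C.N → ∀ j < κ, q (Sum.inr (g, j)) = 0 := by
    intro g
    induction g using Nat.strong_induction_on with
    | _ g ih =>
      intro hg j hj
      have h1 : ∀ ε, aeval q (lin K (C.inp g ε)) = 0 := by
        intro ε
        rw [aeval_linear]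
        refine linearCombination_zero q _ fun v hv => ?_
        have h2 := C.old g hg ε v hv
        rcases v with i | ⟨g', j'⟩
        · exact h i h2
        · exact ih g' h2.1 (lt_trans h2.1 hg) j' h2.2
      have h3 := blk_zero (C.β g) (fun s => aeval q (lin K (C.vl g s)))
        (fun i => pt_rel C hq hg i) (h1 0) (h1 1) (Fin.succ (Fin.succ ⟨j, hj⟩))
      have h4 : aeval q (lin K (C.vl g (Fin.succ (Fin.succ ⟨j, hj⟩)))) = q (Sum.inr (g, j)) := by
        rw [aeval_linear]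
        change Finsupp.linearCombination K q (Finsupp.single (Sum.inr (g, j)) 1) = _
        rw [Finsupp.linearCombination_single, one_smul]
      rw [← h4]
      exact h3
  intro v hv
  rcases v with i | ⟨g, j⟩
  · exact h i hv
  · exact key g hv.1 j hv.2

end core

theorem fin_cases_two {κ : ℕ} (s : Fin (κ + 2)) :
    s = 0 ∨ s = 1 ∨ ∃ j : Fin κ, s = j.succ.succ := by
  refine Fin.cases (Or.inl rfl) (fun s => ?_) s
  refine Fin.cases (Or.inr (Or.inl rfl)) (fun j => ?_) s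
  exact Or.inr (Or.inr ⟨j, rfl⟩)

theorem succ_succ_ne_zero {κ : ℕ} (j : Fin κ) : (j.succ.succ : Fin (κ + 2)) ≠ 0 :=
  Fin.succ_ne_zero _

theorem succ_succ_ne_one {κ : ℕ} (j : Fin κ) : (j.succ.succ : Fin (κ + 2)) ≠ 1 := by
  intro h
  exact Fin.succ_ne_zero _ (Fin.succ_injective _ (h.trans Fin.succ_zero_eq_one.symm))

section point

variable {K : Type u} [Field K] {n κ : ℕ}

/-- the linear forms in the old generators -/
noncomputable def TS (K : Type u) [Field K] (n κ N0 : ℕ) : Submodule K (Gen →₀ K) :=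
  Finsupp.supported K K {v | Used n κ N0 v}

theorem mem_TS {N0 : ℕ} {t : Gen →₀ K} (ht : Sup n κ N0 t) : t ∈ TS K n κ N0 := by
  rw [TS, Finsupp.mem_supported]
  exact fun v hv => ht v hv

/-- the basis -/
noncomputable def bS (K : Type u) [Field K] (n κ N0 : ℕ) (v : {v : Gen // Used n κ N0 v}) :
    TS K n κ N0 :=
  ⟨Finsupp.single v.1 1, Finsupp.single_mem_supported K 1 v.2⟩

theorem span_bS (N0 : ℕ) : Submodule.span K (Set.range (bS K n κ N0)) = ⊤ := by
  have h1 : (Submodule.span K (Set.range (bS K n κ N0))).map (TS K n κ N0).subtype =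
      TS K n κ N0 := by
    rw [Submodule.map_span, ← Set.range_comp]
    have h2 : Set.range ((TS K n κ N0).subtype ∘ bS K n κ N0) =
        (fun v => Finsupp.single v (1 : K)) '' {v | Used n κ N0 v} := by
      ext t
      constructor
      · rintro ⟨v, rfl⟩
        exact ⟨v.1, v.2, rfl⟩
      · rintro ⟨v, hv, rfl⟩
        exact ⟨⟨v, hv⟩, rfl⟩
    rw [h2]
    exact (Finsupp.supported_eq_span_single K _).symm
  apply Submodule.map_injective_of_injective (f := (TS K n κ N0).subtype)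
    Subtype.coe_injective
  rw [h1, Submodule.map_top, Submodule.range_subtype]

/-- the classes of the linear forms -/
noncomputable def tauS {A : Type u} [CommRing A] [Algebra K A] (π : MvPolynomial Gen K →ₐ[K] A)
    (n κ N0 : ℕ) : TS K n κ N0 →ₗ[K] A :=
  (π.toLinearMap.comp (lin K)).comp (TS K n κ N0).subtype

theorem tauS_apply {A : Type u} [CommRing A] [Algebra K A] (π : MvPolynomial Gen K →ₐ[K] A)
    (N0 : ℕ) (t : TS K n κ N0) : tauS π n κ N0 t = π (lin K (t : Gen →₀ K)) := rfl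

/-- the variables of the blocks -/
theorem exists_theta {C : Circ K n κ} {N0 e : ℕ} {S : Finset K} {Y : Finset (Gen →₀ K)}
    (hR : Rich C N0 e S Y) : ∃ θ : Fin C.N → Fin (κ + 2) → TS K n κ N0,
      (∀ g : Fin C.N, (g : ℕ) < N0 → ∀ s, (θ g s : Gen →₀ K) = C.vl g s) ∧
      ∀ g : Fin C.N, N0 ≤ (g : ℕ) → (θ g 0 : Gen →₀ K) = C.inp g 0 ∧
        (θ g 1 : Gen →₀ K) = C.inp g 1 ∧ ∀ j : Fin κ, θ g j.succ.succ = 0 := by
  classical
  refine ⟨fun g s =>
    if h : (g : ℕ) < N0 then ⟨C.vl g s, mem_TS (hR.sup _ (hR.vl g h s))⟩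
    else if s = 0 then ⟨C.inp g 0, mem_TS (hR.sup _ (hR.new g (not_lt.1 h) g.2).2.1)⟩
    else if s = 1 then ⟨C.inp g 1, mem_TS (hR.sup _ (hR.new g (not_lt.1 h) g.2).2.2)⟩
    else 0, fun g h s => ?_, fun g h => ⟨?_, ?_, fun j => ?_⟩⟩
  · simp only [dif_pos h]
  · simp only [dif_neg (not_lt.2 h), if_true]
  · simp only [dif_neg (not_lt.2 h), if_true]
    rw [if_neg (one_ne_zero : (1 : Fin (κ + 2)) ≠ 0)]
  · simp only [dif_neg (not_lt.2 h), if_neg (succ_succ_ne_zero j), if_neg (succ_succ_ne_one j)]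

theorem tau_theta {C : Circ K n κ} {N0 e : ℕ} {S : Finset K} {Y : Finset (Gen →₀ K)}
    (hR : Rich C N0 e S Y) {θ : Fin C.N → Fin (κ + 2) → TS K n κ N0}
    (hθ : ∀ g : Fin C.N, (g : ℕ) < N0 → ∀ s, (θ g s : Gen →₀ K) = C.vl g s)
    (hθ' : ∀ g : Fin C.N, N0 ≤ (g : ℕ) → (θ g 0 : Gen →₀ K) = C.inp g 0 ∧
        (θ g 1 : Gen →₀ K) = C.inp g 1 ∧ ∀ j : Fin κ, θ g j.succ.succ = 0)
    {A : Type u} [CommRing A] [Algebra K A] (π : MvPolynomial Gen K →ₐ[K] A)
    (hπ : ∀ P, π P = 0 ↔ P ∈ C.I) (g : Fin C.N) (s : Fin (κ + 2)) :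
    tauS π n κ N0 (θ g s) = π (lin K (C.vl g s)) := by
  rw [tauS_apply]
  rcases lt_or_ge (g : ℕ) N0 with h | h
  · rw [hθ g h s]
  · obtain ⟨h0, h1, h2⟩ := hθ' g h
    rcases fin_cases_two s with rfl | rfl | ⟨j, rfl⟩
    · rw [h0]
      rfl
    · rw [h1]
      rfl
    · rw [h2, Submodule.coe_zero, map_zero, map_zero]
      symm
      rw [hπ]
      refine Ideal.subset_span ⟨g, g.2, j, ?_⟩
      rw [(hR.new g h g.2).1, Blk.rel, Circ.ev]
      simp only [Blk.triv, pow_one, sub_zero, aeval_X]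

theorem aeval_theta (C : Circ K n κ)
    {A : Type u} [CommRing A] [Algebra K A] (π : MvPolynomial Gen K →ₐ[K] A)
    (g : Fin C.N) (h : MvPolynomial (Fin (κ + 2)) K) :
    aeval (fun s => π (lin K (C.vl g s))) h = π (C.ev g h) := by
  rw [Circ.ev]
  exact (DFunLike.congr_fun (comp_aeval (fun s => lin K (C.vl g s)) π) h).symm

/-- the values of the functional at the linear forms -/
theorem aeval_TS {Ω : Type u} [Field Ω] [Algebra K Ω] (N0 : ℕ) (q : TS K n κ N0 →ₗ[K] Ω) :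
    ∃ q' : Gen → Ω, (∀ v, ¬ Used n κ N0 v → q' v = 0) ∧
      ∀ t : TS K n κ N0, aeval q' (lin K (t : Gen →₀ K)) = q t := by
  classical
  refine ⟨fun v => if hv : Used n κ N0 v then q (bS K n κ N0 ⟨v, hv⟩) else 0,
    fun v hv => dif_neg hv, fun t => ?_⟩
  have h1 : (Finsupp.linearCombination K fun v => if hv : Used n κ N0 v then
      q (bS K n κ N0 ⟨v, hv⟩) else (0 : Ω)).comp (TS K n κ N0).subtype = q := by
    refine LinearMap.ext_on_range (v := bS K n κ N0) (span_bS N0) fun v => ?_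
    rw [LinearMap.comp_apply, Submodule.subtype_apply]
    change Finsupp.linearCombination K _ (Finsupp.single v.1 1) = _
    rw [Finsupp.linearCombination_single, one_smul]
    exact dif_pos v.2
  rw [aeval_linear]
  conv_rhs => rw [← h1]
  rfl

/-- the hypothesis on the kernel -/
theorem core_ker (C : Circ K n κ) {e : ℕ}
    {A : Type u} [CommRing A] [Algebra K A] (π : MvPolynomial Gen K →ₐ[K] A)
    (hπ : ∀ P, π P = 0 ↔ P ∈ C.I)
    {Ω : Type u} [Field Ω] [Algebra K Ω] (p : ℕ → Fin (κ + 2) → Ω)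
    (hker : ∀ Φ : ℕ → MvPolynomial (Fin (κ + 2)) K, (∀ g, (Φ g).IsHomogeneous e) →
      ∑ g ∈ Finset.range C.N, C.ev g (Φ g) ∈ C.I →
      ∑ g ∈ Finset.range C.N, aeval (p g) (Φ g) = 0)
    (h : Fin C.N → MvPolynomial (Fin (κ + 2)) K) (hh : ∀ g, (h g).IsHomogeneous e)
    (hs : ∑ g : Fin C.N, aeval (fun v => π (lin K (C.vl g v))) (h g) = 0) :
    ∑ g : Fin C.N, aeval (p g) (h g) = 0 := by
  classical
  have h2 : ∀ g : Fin C.N, (if hg : (g : ℕ) < C.N then h ⟨g, hg⟩ else 0) = h g :=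
    fun g => dif_pos g.2
  have h1 := hker (fun g => if hg : g < C.N then h ⟨g, hg⟩ else 0) (fun g => by
    by_cases hg : g < C.N
    · simp only [dif_pos hg]
      exact hh _
    · simp only [dif_neg hg]
      exact isHomogeneous_zero _ _ _) (by
    rw [Finset.sum_range, ← hπ, map_sum, ← hs]
    refine Finset.sum_congr rfl fun g _ => ?_
    rw [aeval_theta C π, h2])
  rw [Finset.sum_range] at h1
  rw [← h1]
  refine Finset.sum_congr rfl fun g _ => ?_
  rw [h2]

/-- the rich family -/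
noncomputable def yS {C : Circ K n κ} {N0 e : ℕ} {S : Finset K} {Y : Finset (Gen →₀ K)}
    (hR : Rich C N0 e S Y) (t : Y) : TS K n κ N0 := ⟨t.1, mem_TS (hR.sup t.1 t.2)⟩

theorem core_rich {C : Circ K n κ} {N0 e : ℕ} {S : Finset K} {Y : Finset (Gen →₀ K)}
    (hR : Rich C N0 e S Y) {θ : Fin C.N → Fin (κ + 2) → TS K n κ N0}
    (hθ : ∀ g : Fin C.N, (g : ℕ) < N0 → ∀ s, (θ g s : Gen →₀ K) = C.vl g s)
    (hθ' : ∀ g : Fin C.N, N0 ≤ (g : ℕ) → (θ g 0 : Gen →₀ K) = C.inp g 0 ∧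
        (θ g 1 : Gen →₀ K) = C.inp g 1 ∧ ∀ j : Fin κ, θ g j.succ.succ = 0) :
    RichF K e (yS hR) (bS K n κ N0) ∧
    (∀ s s', ∃ g, θ g 0 = yS hR s ∧ θ g 1 = yS hR s') ∧
    ∀ g, RichF K e (yS hR) (θ g) ∨ ∃ s s', θ g 0 = yS hR s ∧ θ g 1 = yS hR s' ∧
      ∀ v, v ≠ 0 → v ≠ 1 → θ g v = 0 := by
  refine ⟨⟨fun v => ⟨⟨Finsupp.single v.1 1, hR.single v.1 v.2⟩, rfl⟩, S, hR.card,
    fun v w hvw c hc => ⟨⟨_, hR.add v.1 w.1 v.2 w.2 (fun h => hvw (Subtype.ext h)) c hc⟩, rfl⟩⟩,
    fun s s' => ?_, fun g => ?_⟩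
  · obtain ⟨g, hg, hN, h0, h1⟩ := hR.pair s.1 s.2 s'.1 s'.2
    obtain ⟨h2, h3, -⟩ := hθ' ⟨g, hg⟩ hN
    exact ⟨⟨g, hg⟩, Subtype.ext (h2.trans h0), Subtype.ext (h3.trans h1)⟩
  · rcases lt_or_ge (g : ℕ) N0 with h | h
    · left
      refine ⟨fun s => ⟨⟨C.vl g s, hR.vl g h s⟩, Subtype.ext (hθ g h s).symm⟩, S, hR.card,
        fun s t hst c hc => ⟨⟨_, hR.vladd g h s t hst c hc⟩, Subtype.ext ?_⟩⟩
      rw [Submodule.coe_add, Submodule.coe_smul, hθ g h, hθ g h]
      rfl
    · right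
      obtain ⟨-, h0, h1⟩ := hR.new g h g.2
      obtain ⟨h2, h3, h4⟩ := hθ' g h
      refine ⟨⟨_, h0⟩, ⟨_, h1⟩, Subtype.ext h2, Subtype.ext h3, fun s hs0 hs1 => ?_⟩
      rcases fin_cases_two s with rfl | rfl | ⟨j, rfl⟩
      · exact absurd rfl hs0
      · exact absurd rfl hs1
      · exact h4 j

end point

end Vale.Agent.P200.V.Rig
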