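import Vale.Agent.P200.V.RigDefs

namespace Vale.Agent.P200.V.Rig

open MvPolynomial

universe u

/-- the blocks `N0 ≤ g < C.N` are the blocks of all the pairs of elements of `Y` -/
structure Rich {K : Type u} [Field K] {n κ : ℕ} (C : Circ K n κ) (N0 e : ℕ) (S : Finset K)
    (Y : Finset (Gen →₀ K)) : Prop where
  le : N0 ≤ C.N
  card : e < S.card
  single : ∀ v, Used n κ N0 v → Finsupp.single v 1 ∈ Y
  add : ∀ v w, Used n κ N0 v → Used n κ N0 w → v ≠ w → ∀ c ∈ S,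
    Finsupp.single v 1 + c • Finsupp.single w 1 ∈ Y
  vl : ∀ g < N0, ∀ s, C.vl g s ∈ Y
  vladd : ∀ g < N0, ∀ s t, s ≠ t → ∀ c ∈ S, C.vl g s + c • C.vl g t ∈ Y
  pair : ∀ y ∈ Y, ∀ y' ∈ Y, ∃ g < C.N, N0 ≤ g ∧ C.inp g 0 = y ∧ C.inp g 1 = y'
  new : ∀ g, N0 ≤ g → g < C.N → C.β g = Blk.triv K κ ∧ C.inp g 0 ∈ Y ∧ C.inp g 1 ∈ Y
  sup : ∀ y ∈ Y, Sup n κ N0 y

end Vale.Agent.P200.V.Rig
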