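import Mathlib

/-!
Rigid circuits: the root of the chain of joins.

`R 0 = w 0`, `R (T + 1) = Z T` where `Z T ^ e = s T * R T ^ e + s' T * w (T + 1) ^ e` modulo `I`.
-/

namespace Vale.Agent.P200.V.Rig

section coeff
variable {K : Type*} [Field K]

/-- the coefficient of the `g`-th input in the `e`-th power of the `T`-th root -/
def Sc (s s' : ℕ → K) : ℕ → ℕ → K
  | 0, g => if g = 0 then 1 else 0
  | T + 1, g => if g = T + 1 then s' T else s T * Sc s s' T g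

@[simp] theorem Sc_zero (s s' : ℕ → K) (g : ℕ) : Sc s s' 0 g = if g = 0 then 1 else 0 := rfl

theorem Sc_succ (s s' : ℕ → K) (T g : ℕ) :
    Sc s s' (T + 1) g = if g = T + 1 then s' T else s T * Sc s s' T g := rfl

theorem Sc_succ_self (s s' : ℕ → K) (T : ℕ) : Sc s s' (T + 1) (T + 1) = s' T := if_pos rfl

theorem Sc_succ_lt (s s' : ℕ → K) {T g : ℕ} (h : g < T + 1) :
    Sc s s' (T + 1) g = s T * Sc s s' T g := if_neg h.ne

theorem Sc_ne_of_lt {s s' : ℕ → K} {T : ℕ} (hs : ∀ t < T, s t ≠ 0) (hs' : ∀ t < T, s' t ≠ 0) {g : ℕ}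
    (h : g ≤ T) : Sc s s' T g ≠ 0 := by
  induction T with
  | zero =>
    rw [Sc_zero, if_pos (Nat.le_zero.1 h)]
    exact one_ne_zero
  | succ T ih =>
    rcases Nat.lt_or_ge g (T + 1) with hg | hg
    · rw [Sc_succ_lt s s' hg]
      exact mul_ne_zero (hs T (Nat.lt_succ_self T))
        (ih (fun t ht => hs t (Nat.lt_succ_of_lt ht)) (fun t ht => hs' t (Nat.lt_succ_of_lt ht))
          (Nat.le_of_lt_succ hg))
    · obtain rfl : g = T + 1 := le_antisymm h hg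
      rw [Sc_succ_self]
      exact hs' T (Nat.lt_succ_self T)

theorem Sc_ne {s s' : ℕ → K} (hs : ∀ t, s t ≠ 0) (hs' : ∀ t, s' t ≠ 0) {T g : ℕ}
    (h : g ≤ T) : Sc s s' T g ≠ 0 :=
  Sc_ne_of_lt (fun t _ => hs t) (fun t _ => hs' t) h

end coeff

section root
variable {K : Type*} [Field K] {A : Type*} [CommRing A] [Algebra K A]

/-- the roots of the chain of joins: `Rt w Z 0 = w 0`, `Rt w Z (T + 1) = Z T` -/
def Rt (w Z : ℕ → A) : ℕ → A
  | 0 => w 0
  | T + 1 => Z T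

omit [CommRing A] in
@[simp] theorem Rt_zero (w Z : ℕ → A) : Rt w Z 0 = w 0 := rfl

omit [CommRing A] in
@[simp] theorem Rt_succ (w Z : ℕ → A) (T : ℕ) : Rt w Z (T + 1) = Z T := rfl

/-- the power of the root, for any sequence `R` of roots -/
theorem root_pow' (s s' : ℕ → K) (I : Ideal A) (e : ℕ) (w R : ℕ → A) (h0 : R 0 = w 0) (T : ℕ)
    (hZ : ∀ t < T, R (t + 1) ^ e -
      (algebraMap K A (s t) * R t ^ e + algebraMap K A (s' t) * w (t + 1) ^ e) ∈ I) :
    R T ^ e - ∑ g ∈ Finset.range (T + 1), algebraMap K A (Sc s s' T g) * w g ^ e ∈ I := by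
  induction T with
  | zero =>
    simp [h0]
  | succ T ih =>
    have h1 := ih fun t ht => hZ t (Nat.lt_succ_of_lt ht)
    have h2 := hZ T (Nat.lt_succ_self T)
    have h3 : R (T + 1) ^ e -
        ∑ g ∈ Finset.range (T + 1 + 1), algebraMap K A (Sc s s' (T + 1) g) * w g ^ e =
        (R (T + 1) ^ e -
          (algebraMap K A (s T) * R T ^ e + algebraMap K A (s' T) * w (T + 1) ^ e)) +
        algebraMap K A (s T) *
          (R T ^ e - ∑ g ∈ Finset.range (T + 1), algebraMap K A (Sc s s' T g) * w g ^ e) := by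
      rw [Finset.sum_range_succ _ (T + 1), Sc_succ_self, mul_sub, Finset.mul_sum]
      have h4 : ∑ g ∈ Finset.range (T + 1), algebraMap K A (Sc s s' (T + 1) g) * w g ^ e =
          ∑ g ∈ Finset.range (T + 1),
            algebraMap K A (s T) * (algebraMap K A (Sc s s' T g) * w g ^ e) := by
        refine Finset.sum_congr rfl fun g hg => ?_
        rw [Sc_succ_lt s s' (Finset.mem_range.1 hg), map_mul, mul_assoc]
      rw [h4]
      ring
    rw [h3]
    exact I.add_mem h2 (I.mul_mem_left _ h1)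

/-- **The power of the root.** -/
theorem root_pow (s s' : ℕ → K) (I : Ideal A) (e : ℕ) (w Z : ℕ → A) (T : ℕ)
    (hZ : ∀ t < T, Z t ^ e -
      (algebraMap K A (s t) * Rt w Z t ^ e + algebraMap K A (s' t) * w (t + 1) ^ e) ∈ I) :
    Rt w Z T ^ e - ∑ g ∈ Finset.range (T + 1), algebraMap K A (Sc s s' T g) * w g ^ e ∈ I :=
  root_pow' s s' I e w (Rt w Z) rfl T hZ

/-- **Telescoping**, for any sequence `R` of roots: the coefficients of the joins cancel. -/
theorem root_pow_sum' {ι : Type*} [Fintype ι] (s s' : ℕ → K) (I : Ideal A) (e : ℕ) (w R : ℕ → A)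
    (h0 : R 0 = w 0) (T : ℕ) (hs : ∀ t < T, s t ≠ 0) (hs' : ∀ t < T, s' t ≠ 0)
    (hZ : ∀ t < T, R (t + 1) ^ e -
      (algebraMap K A (s t) * R t ^ e + algebraMap K A (s' t) * w (t + 1) ^ e) ∈ I)
    (Y : ι → A) (H : ι → ℕ → A)
    (hw : ∀ g < T + 1, w g ^ e - algebraMap K A (Sc s s' T g)⁻¹ * ∑ m, Y m * H m g ∈ I) :
    R T ^ e - ∑ m, Y m * ∑ g ∈ Finset.range (T + 1), H m g ∈ I := by
  have h1 := root_pow' s s' I e w R h0 T hZ
  have h2 : ∑ g ∈ Finset.range (T + 1), algebraMap K A (Sc s s' T g) *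
      (w g ^ e - algebraMap K A (Sc s s' T g)⁻¹ * ∑ m, Y m * H m g) ∈ I :=
    I.sum_mem fun g hg => I.mul_mem_left _ (hw g (Finset.mem_range.1 hg))
  have h3 : ∑ g ∈ Finset.range (T + 1), algebraMap K A (Sc s s' T g) *
      (w g ^ e - algebraMap K A (Sc s s' T g)⁻¹ * ∑ m, Y m * H m g) =
      ∑ g ∈ Finset.range (T + 1), algebraMap K A (Sc s s' T g) * w g ^ e -
        ∑ m, Y m * ∑ g ∈ Finset.range (T + 1), H m g := by
    have h4 : ∑ m, Y m * ∑ g ∈ Finset.range (T + 1), H m g =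
        ∑ g ∈ Finset.range (T + 1), ∑ m, Y m * H m g := by
      rw [Finset.sum_comm]
      exact Finset.sum_congr rfl fun m _ => Finset.mul_sum _ _ _
    rw [h4, ← Finset.sum_sub_distrib]
    refine Finset.sum_congr rfl fun g hg => ?_
    have hne : Sc s s' T g ≠ 0 :=
      Sc_ne_of_lt hs hs' (Nat.le_of_lt_succ (Finset.mem_range.1 hg))
    rw [mul_sub, ← mul_assoc, ← map_mul, mul_inv_cancel₀ hne, map_one, one_mul]
  rw [h3] at h2
  have h5 := I.add_mem h1 h2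
  rwa [sub_add_sub_cancel] at h5

/-- **Telescoping.** -/
theorem root_pow_sum {ι : Type*} [Fintype ι] (s s' : ℕ → K) (I : Ideal A) (e : ℕ) (w Z : ℕ → A)
    (T : ℕ) (hs : ∀ t < T, s t ≠ 0) (hs' : ∀ t < T, s' t ≠ 0)
    (hZ : ∀ t < T, Z t ^ e -
      (algebraMap K A (s t) * Rt w Z t ^ e + algebraMap K A (s' t) * w (t + 1) ^ e) ∈ I)
    (Y : ι → A) (H : ι → ℕ → A)
    (hw : ∀ g < T + 1, w g ^ e - algebraMap K A (Sc s s' T g)⁻¹ * ∑ m, Y m * H m g ∈ I) :
    Rt w Z T ^ e - ∑ m, Y m * ∑ g ∈ Finset.range (T + 1), H m g ∈ I :=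
  root_pow_sum' s s' I e w (Rt w Z) rfl T hs hs' hZ Y H hw

end root

section poly
variable {K : Type*} [Field K] {σ : Type*}

open MvPolynomial in
/-- the power of the root, in a polynomial ring -/
theorem root_pow_C (s s' : ℕ → K) (I : Ideal (MvPolynomial σ K)) (e : ℕ)
    (w R : ℕ → MvPolynomial σ K) (h0 : R 0 = w 0) (T : ℕ)
    (hZ : ∀ t < T, R (t + 1) ^ e - (C (s t) * R t ^ e + C (s' t) * w (t + 1) ^ e) ∈ I) :
    R T ^ e - ∑ g ∈ Finset.range (T + 1), C (Sc s s' T g) * w g ^ e ∈ I :=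
  root_pow' s s' I e w R h0 T hZ

open MvPolynomial in
/-- **Telescoping**, in a polynomial ring. -/
theorem root_pow_sum_C {ι : Type*} [Fintype ι] (s s' : ℕ → K) (I : Ideal (MvPolynomial σ K))
    (e : ℕ) (w R : ℕ → MvPolynomial σ K) (h0 : R 0 = w 0) (T : ℕ) (hs : ∀ t < T, s t ≠ 0)
    (hs' : ∀ t < T, s' t ≠ 0)
    (hZ : ∀ t < T, R (t + 1) ^ e - (C (s t) * R t ^ e + C (s' t) * w (t + 1) ^ e) ∈ I)
    (Y : ι → MvPolynomial σ K) (H : ι → ℕ → MvPolynomial σ K)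
    (hw : ∀ g < T + 1, w g ^ e - C (Sc s s' T g)⁻¹ * ∑ m, Y m * H m g ∈ I) :
    R T ^ e - ∑ m, Y m * ∑ g ∈ Finset.range (T + 1), H m g ∈ I :=
  root_pow_sum' s s' I e w R h0 T hs hs' hZ Y H hw

end poly

end Vale.Agent.P200.V.Rig
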