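import Vale.Agent.P200.V.RigDefs

/-!
Rigid circuits: statements (not imported by any final file; copy the statement you prove).
-/

namespace Vale.Agent.P200.V.Rig

open MvPolynomial

universe u

-- ===== RigPt.lean =====
section pt
variable {K : Type u} [Field K] {n κ : ℕ} (C : Circ K n κ)

theorem Circ.hom_ev {e : ℕ} (g : ℕ) {P : MvPolynomial (Fin (κ + 2)) K} (hP : P.IsHomogeneous e) :
    (C.ev g P).IsHomogeneous e := sorry

theorem Circ.pt_iff {Ω : Type u} [Field Ω] [Algebra K Ω] (q : Gen → Ω) :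
    C.Pt q ↔ ∀ g < C.N, ∀ i, aeval (fun s => aeval q (lin K (C.vl g s))) ((C.β g).rel i) = 0 := sorry

theorem Circ.pt_zero {Ω : Type u} [Field Ω] [Algebra K Ω] {q : Gen → Ω} (hq : C.Pt q)
    (h : ∀ i < n, q (Sum.inl i) = 0) : ∀ v, C.U v → q v = 0 := sorry

theorem Circ.Ext.refl : C.Ext (RingHom.id K) C := sorry

theorem Circ.Ext.trans {K' K'' : Type u} [Field K'] [Field K''] {κ' κ'' : ℕ} {φ : K →+* K'}
    {ψ : K' →+* K''} {C' : Circ K' n κ'} {C'' : Circ K'' n κ''} (h : C.Ext φ C')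
    (h' : C'.Ext ψ C'') : C.Ext (ψ.comp φ) C'' := sorry

theorem Circ.Ext.noZ {K' : Type u} [Field K'] {κ' : ℕ} {φ : K →+* K'} {C' : Circ K' n κ'}
    (h : C.Ext φ C') {r : ℕ} {P : Fin r → MvPolynomial Gen K} (hP : C.NoZ P) :
    C'.NoZ fun l => MvPolynomial.map φ (P l) := sorry

/-- change of the field of a linear form -/
noncomputable def mapL {K' : Type u} [Field K'] (φ : K →+* K') (t : Gen →₀ K) : Gen →₀ K' :=
  t.mapRange φ (map_zero φ)

theorem lin_mapL {K' : Type u} [Field K'] (φ : K →+* K') (t : Gen →₀ K) :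
    lin K' (mapL φ t) = MvPolynomial.map φ (lin K t) := sorry

theorem Circ.Ext.s {K' : Type u} [Field K'] {κ' : ℕ} {φ : K →+* K'} {C' : Circ K' n κ'}
    (h : C.Ext φ C') {t : Gen →₀ K} (ht : C.S t) : C'.S (mapL φ t) := sorry

end pt

-- ===== RigCore.lean =====
/-- the blocks `N0 ≤ g < C.N` are the blocks of all the pairs of elements of `Y` -/
structure Rich {K : Type u} [Field K] {n κ : ℕ} (C : Circ K n κ) (N0 e : ℕ) (S : Finset K)
    (Y : Finset (Gen →₀ K)) : Prop where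
  le : N0 ≤ C.N
  card : e < S.card
  single : ∀ v, Used n κ N0 v → Finsupp.single v 1 ∈ Y
  add : ∀ v w, Used n κ N0 v → Used n κ N0 w → v ≠ w → ∀ c ∈ S,
    Finsupp.single v 1 + c • Finsupp.single w 1 ∈ Y
  vl : ∀ g < N0, ∀ s, C.vl g s ∈ Y
  vladd : ∀ g < N0, ∀ s t, s ≠ t → ∀ c ∈ S, C.vl g s + c • C.vl g t ∈ Y
  pair : ∀ y ∈ Y, ∀ y' ∈ Y, ∃ g < C.N, N0 ≤ g ∧ C.inp g 0 = y ∧ C.inp g 1 = y'
  new : ∀ g, N0 ≤ g → g < C.N → C.β g = Blk.triv K κ ∧ C.inp g 0 ∈ Y ∧ C.inp g 1 ∈ Y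
  sup : ∀ y ∈ Y, Sup n κ N0 y

/-- **IND, core.** -/
theorem core {K : Type u} [Field K] {n κ : ℕ} (C : Circ K n κ) (N0 e : ℕ) (he : 0 < e)
    (S : Finset K) (Y : Finset (Gen →₀ K)) (hR : Rich C N0 e S Y) {r : ℕ}
    (P : Fin r → MvPolynomial Gen K) (hZ : C.NoZ P) (Ω : Type u) [Field Ω] [IsAlgClosed Ω]
    [Algebra K Ω] (p : ℕ → Fin (κ + 2) → Ω)
    (hp : ∀ g < C.N, ∀ i, aeval (p g) ((C.β g).rel i) = 0)
    (hker : ∀ Φ : ℕ → MvPolynomial (Fin (κ + 2)) K, (∀ g, (Φ g).IsHomogeneous e) →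
      ∑ g ∈ Finset.range C.N, C.ev g (Φ g) ∈ C.I →
      ∑ g ∈ Finset.range C.N, aeval (p g) (Φ g) = 0)
    (hP : ∀ l, ∃ Φ : ℕ → MvPolynomial (Fin (κ + 2)) K, (∀ g, (Φ g).IsHomogeneous e) ∧
      P l - ∑ g ∈ Finset.range C.N, C.ev g (Φ g) ∈ C.I ∧
      ∑ g ∈ Finset.range C.N, aeval (p g) (Φ g) = 0) :
    ∀ g < C.N, p g = 0 := sorry

-- ===== RigPair.lean =====
/-- adding the pair blocks of a rich set -/
theorem exists_rich {K : Type u} [Field K] [Infinite K] {n κ : ℕ} (hn : 0 < n) (C : Circ K n κ)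
    (e : ℕ) (E : Finset (Gen →₀ K)) (hE : ∀ y ∈ E, C.S y) :
    ∃ (C1 : Circ K n κ) (S : Finset K) (Y : Finset (Gen →₀ K)), C.Ext (RingHom.id K) C1 ∧
      E ⊆ Y ∧ Rich C1 C.N e S Y ∧ 0 < C1.N := sorry

theorem bl_of_bin {K : Type u} [Field K] {n κ : ℕ} (C C1 : Circ K n κ) (e : ℕ)
    (E : Finset (Gen →₀ K)) (S : Finset K) (Y : Finset (Gen →₀ K))
    (hext : C.Ext (RingHom.id K) C1) (hEY : E ⊆ Y) (hR : Rich C1 C.N e S Y)
    (P : MvPolynomial Gen K) (hP : C.Bin E e P) : C1.Bl e P := sorry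

-- ===== RigFam.lean =====
theorem exists_family {K : Type u} [Field K] {n κ : ℕ} (C : Circ K n κ) (e : ℕ) {r : ℕ}
    (P : Fin r → MvPolynomial Gen K) (hP : ∀ l, C.Bl e (P l)) :
    ∃ (t : ℕ) (h : Fin r ⊕ Fin t → ℕ → MvPolynomial (Fin (κ + 2)) K),
      (∀ m g, (h m g).IsHomogeneous e) ∧
      (∀ l, P l - ∑ g ∈ Finset.range C.N, C.ev g (h (Sum.inl l) g) ∈ C.I) ∧
      (∀ i, ∑ g ∈ Finset.range C.N, C.ev g (h (Sum.inr i) g) ∈ C.I) ∧
      ∀ Φ : ℕ → MvPolynomial (Fin (κ + 2)) K, (∀ g, (Φ g).IsHomogeneous e) →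
        ∑ g ∈ Finset.range C.N, C.ev g (Φ g) ∈ C.I →
        ∃ a : Fin t → K, ∀ g < C.N, Φ g = ∑ i, a i • h (Sum.inr i) g := sorry

-- ===== RigNew.lean =====
/-- **The new element** of a family of forms without scaled common zero. -/
theorem new_elt (hD : ∀ (K : Type u) [Field K] (κ : ℕ), DStep K κ) {K : Type u} [Field K]
    {n κ : ℕ} (C : Circ K n κ) (hN : 0 < C.N) (e : ℕ) (he : 0 < e) {ι : Type} [Fintype ι]
    (h : ι → ℕ → MvPolynomial (Fin (κ + 2)) K) (hh : ∀ m g, (h m g).IsHomogeneous e)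
    (hI : ∀ (Ω : Type u) [Field Ω] [IsAlgClosed Ω] [Algebra K Ω] (p : ℕ → Fin (κ + 2) → Ω),
      (∀ g < C.N, ∀ i, aeval (p g) ((C.β g).rel i) = 0) →
      (∀ m, ∑ g ∈ Finset.range C.N, aeval (p g) (h m g) = 0) → ∀ g < C.N, p g = 0) :
    ∃ (K' : Type u) (_ : Field K') (φ : K →+* K') (κ' : ℕ) (C' : Circ K' n κ') (ξ : Gen →₀ K')
      (Y : ι → K'), C.Ext φ C' ∧ C'.S ξ ∧ (∀ c : ι → K, ∑ m, φ (c m) * Y m = 0 → c = 0) ∧
      lin K' ξ ^ e - ∑ m, MvPolynomial.C (Y m) *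
        MvPolynomial.map φ (∑ g ∈ Finset.range C.N, C.ev g (h m g)) ∈ C'.I := sorry

-- ===== RigStage.lean =====
theorem stageBin (hD : ∀ (K : Type u) [Field K] (κ : ℕ), DStep K κ) (K : Type u) [Field K]
    [Infinite K] : StageBin K := sorry

-- ===== RigRec.lean =====
theorem stageAll (h : ∀ (K : Type u) [Field K] [Infinite K], StageBin K) : StageAll.{u} := sorry

-- ===== RigMain.lean =====
/-- the polynomials in `x_0, …, x_(n-1)` as elements of the ring of the circuits -/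
noncomputable def xr (K : Type u) [Field K] (n : ℕ) : MvPolynomial (Fin n) K →ₐ[K] MvPolynomial Gen K :=
  rename fun i : Fin n => Sum.inl (i : ℕ)

/-- **The circuit of a complete intersection.** -/
theorem exists_circ (hS : StageAll.{u}) {k : Type u} [Field k] [Infinite k] {n : ℕ} (hn : 0 < n)
    (C0 : Circ k n 0)
    (f : Fin n → MvPolynomial (Fin n) k) (d : Fin n → ℕ) (hd : ∀ i, 0 < d i) (hmono : Monotone d)
    (hf : ∀ i, (f i).IsHomogeneous (d i))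
    (hfin : ∃ m, ∀ P : MvPolynomial (Fin n) k, P.IsHomogeneous m → P ∈ Ideal.span (Set.range f)) :
    ∃ (K : Type u) (_ : Field K) (φ : k →+* K) (κ : ℕ) (C : Circ K n κ) (ξ : Fin n → (Gen →₀ K))
      (G : Fin n → MvPolynomial (Fin n) K) (L : Fin n → Fin n → K),
      (∀ i, C.S (ξ i)) ∧ (∀ i, (G i).IsHomogeneous (d i)) ∧
      (∀ i, G i ∈ Ideal.span (Set.range fun i => MvPolynomial.map φ (f i))) ∧
      Ideal.span (Set.range G) = Ideal.span (Set.range fun i => MvPolynomial.map φ (f i)) ∧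
      ∀ i, lin K (ξ i) ^ d i - xr K n (G i) -
        ∑ j ∈ Finset.univ.filter (fun j => i < j), MvPolynomial.C (L i j) * lin K (ξ j) ^ d i ∈ C.I :=
  sorry

/-- the empty circuit -/
theorem exists_circ0 {k : Type u} [Field k] (n : ℕ) (h0 : ∀ R, IntAll k fun _ : Fin R => Blk.triv k 0) :
    Nonempty (Circ k n 0) := sorry

end Vale.Agent.P200.V.Rig
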