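import Vale.Agent.P200.V.DStep

/-!
Rigid circuits: the new parameters are linearly independent over the old field.
-/

namespace Vale.Agent.P200.V.Rig

open MvPolynomial

universe u

/-- the parameters are linearly independent over the old field -/
theorem tv_indep {K : Type u} [Field K] {io : Type} [Fintype io] (c : io → K)
    (h : ∑ m, algebraMap K (KF K io) (c m) * Tv K m = 0) : c = 0 := by
  classical
  have h1 : algebraMap (MvPolynomial io K) (KF K io) (∑ m, MvPolynomial.C (c m) * X m) = 0 := by
    rw [map_sum, ← h]
    refine Finset.sum_congr rfl fun m _ => ?_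
    rw [map_mul, Tv, IsScalarTower.algebraMap_apply K (MvPolynomial io K) (KF K io),
      MvPolynomial.algebraMap_eq]
  have h2 : (∑ m, MvPolynomial.C (c m) * X m : MvPolynomial io K) = 0 :=
    (IsFractionRing.injective (MvPolynomial io K) (KF K io)) (by rw [h1, map_zero])
  funext m
  have h3 := congrArg (coeff (Finsupp.single m 1)) h2
  rw [coeff_sum, coeff_zero] at h3
  rw [Finset.sum_eq_single m] at h3
  · rwa [coeff_C_mul, coeff_X, if_pos rfl, mul_one] at h3
  · intro m' _ hm'
    rw [coeff_C_mul, coeff_X, if_neg, mul_zero]
    intro h'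
    exact hm' (Finsupp.single_left_injective one_ne_zero h')
  · intro h'
    exact absurd (Finset.mem_univ m) h'

/-- the parameters are not zero -/
theorem tv_ne {K : Type u} [Field K] {io : Type} (j : io) : Tv K j ≠ 0 := by
  intro h
  rw [Tv] at h
  have h1 : (X j : MvPolynomial io K) = 0 :=
    (IsFractionRing.injective (MvPolynomial io K) (KF K io)) (by rw [h, map_zero])
  exact X_ne_zero j h1

/-- the parameters are linearly independent over the old field, after an extension -/
theorem tv_indep_map {K K1 : Type u} [Field K] [Field K1] (φ : K →+* K1) {io : Type} [Fintype io]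
    (c : io → K) (h : ∑ m, algebraMap K1 (KF K1 io) (φ (c m)) * Tv K1 m = 0) : c = 0 := by
  have h1 := tv_indep (fun m => φ (c m)) h
  funext m
  exact φ.injective (by rw [congrFun h1 m, Pi.zero_apply, Pi.zero_apply, map_zero])

/-- the parameters are linearly independent over the old field, in a further extension -/
theorem tv_indep_comp {K K2 : Type u} [Field K] [Field K2] {io : Type} [Fintype io]
    (φ : KF K io →+* K2) (c : io → K)
    (h : ∑ m, φ (algebraMap K (KF K io) (c m)) * φ (Tv K m) = 0) : c = 0 := by
  refine tv_indep c (φ.injective ?_)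
  rw [map_zero, map_sum, ← h]
  exact Finset.sum_congr rfl fun m _ => map_mul φ _ _

/-- the parameters are not zero in a further extension -/
theorem tv_ne_comp {K K2 : Type u} [Field K] [Field K2] {io : Type} (φ : KF K io →+* K2) (j : io) :
    φ (Tv K j) ≠ 0 := by
  intro h
  exact tv_ne j (φ.injective (by rw [h, map_zero]))

/-- both extensions -/
theorem tv_indep_map_comp {K K1 K2 : Type u} [Field K] [Field K1] [Field K2] (φ : K →+* K1)
    {io : Type} [Fintype io] (χ : KF K1 io →+* K2) (c : io → K)
    (h : ∑ m, χ (algebraMap K1 (KF K1 io) (φ (c m))) * χ (Tv K1 m) = 0) : c = 0 := by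
  have h1 := tv_indep_comp χ (fun m => φ (c m)) h
  funext m
  exact φ.injective (by rw [congrFun h1 m, Pi.zero_apply, Pi.zero_apply, map_zero])

end Vale.Agent.P200.V.Rig
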