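import Vale.Agent.P200.V.RkFree

/-!
**(A), part 4: the rank function of one block.**  (`RkGr`, `RkGrB`, `RkFree` as black boxes.)  `N0` = `N0i`, `qd` = `qdi`, `PA^s` = `PA^ι`, `s = card ι`.

Hypothesis everywhere: `hI : IntP D (fun _ : Fin 1 => β)`, i.e. every object `N ≤ PA^s` has
`dim (PA^s / N)_m = A h_O(m) + B dl` in large degrees, `rho N = A - B`.  `h_O` is affine with slope `dl > 0`,
so `A`, `B` are unique (`isRho_unique`).

`exists_AB`: `0 ≤ A ≤ s` and `0 ≤ B`.  Proof.  `s = 1`: if `N = N0` then `A = 1`, `B = 0` (`qd_N0`).  Otherwise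
take a homogeneous `u ∈ N`, `u ∉ N0` of degree `n1`; the `x^(k-i) y^i u`, `i ≤ k`, are independent modulo `N0`
(`free_xy`), so `qd N0 (n1+k) - qd N (n1+k) ≥ k + 1`, i.e. `(1 - A) h_O(m) - B dl ≥ m - n1 + 1` for large `m`,
hence `A ≤ 0`, and `qd ≥ 0` gives `A ≥ 0` and then `B ≥ 0`.  `s + 1`: let `φ : PA^1 → PA^(s+1)` be the first coordinate:
`qd N = qd (N.comap φ) + qd (N ⊔ range φ)` (`qd_comap`, `d = 0`) and `N ⊔ range φ` is the preimage of an object
of `PA^s` under the surjection `PA^(s+1) → PA^s` (`qd_comap` again with `range = ⊤`); add.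

`isRho_mod` from `qd_mod`; `isRho_comap` from `qd_comap`.
`exists_isRk`: `ρ(N') = A - B ≤ A ≤ s`; the set of values is nonempty (`N` itself, and `⊤` gives `0 ≤ k`) and bounded.
`isRk_comap_le` (A2): take `N'' ≥ N'` with `ρ N'' = k'`; `ρ N'' = ρ (N''.comap φ) + ρ (N'' ⊔ range φ) ≤ k + k''`.
`isRk_dsum` (A3): `≥` from `qd_dsum`; `≤` from (A2) for the inclusion `PA^s → PA^(s+t)`.
`isRk_N0`: `ρ (N0 D β s) = s` and `A - B ≤ A ≤ s`.
-/

namespace Vale.Agent.P200.V

open Module

universe u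

variable {K : Type u} [Field K] {D : Type u} [DivisionRing D] [Algebra K D] {κ : ℕ}
  {ι ι' : Type} {β : Blk K κ}

theorem dl_pos (β : Blk K κ) : 0 < dl β.e := by
  unfold dl
  apply Finset.prod_pos
  intro i _
  exact_mod_cast β.e_pos i

theorem hO_succ (β : Blk K κ) (n : ℤ) : hO β.e (n + 1) = hO β.e n + dl β.e := by
  unfold hO
  ring

/-- `A`, `B` are determined by the values of `A h_O + B dl` in large degrees -/
theorem a5_ab_unique {A B A' B' : ℤ} {m0 : ℕ}
    (h : ∀ m : ℕ, m0 ≤ m → A * hO β.e m + B * dl β.e = A' * hO β.e m + B' * dl β.e) :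
    A = A' ∧ B = B' := by
  have hd := dl_pos β
  have h1 := h m0 le_rfl
  have h2 := h (m0 + 1) (Nat.le_succ _)
  push_cast at h2
  rw [hO_succ] at h2
  have h3 : (A - A') * dl β.e = 0 := by linear_combination h2 - h1
  have hA : A = A' := by
    rcases mul_eq_zero.1 h3 with h4 | h4
    · linarith
    · exact absurd h4 hd.ne'
  subst hA
  refine ⟨rfl, ?_⟩
  have h5 : (B - B') * dl β.e = 0 := by linear_combination h1
  rcases mul_eq_zero.1 h5 with h4 | h4
  · linarith
  · exact absurd h4 hd.ne'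

theorem isRho_unique {N : Submodule (PA D κ 1) (ι → PA D κ 1)} {r r' : ℤ}
    (h : IsRho β N r) (h' : IsRho β N r') : r = r' := by
  obtain ⟨A, B, rfl, m0, h0⟩ := h
  obtain ⟨A', B', rfl, m1, h1⟩ := h'
  have h2 : A = A' ∧ B = B' := by
    apply a5_ab_unique (β := β) (m0 := max m0 m1)
    intro m hm
    rw [← h0 m (le_trans (le_max_left _ _) hm), ← h1 m (le_trans (le_max_right _ _) hm)]
  rw [h2.1, h2.2]

/-- existence of `A`, `B` (without the bounds) -/
theorem a5_exists_ab [Finite ι] (hI : IntP D (fun _ : Fin 1 => β))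
    {N : Submodule (PA D κ 1) (ι → PA D κ 1)} (hN : IsGi (fun _ : Fin 1 => β) N) :
    ∃ A B : ℤ, ∃ m0 : ℕ, ∀ m, m0 ≤ m →
      (qdi N (fun _ => m) : ℤ) = A * hO β.e m + B * dl β.e := by
  obtain ⟨f, hf, n0, h⟩ := hI.gen hN
  rw [lam_succ] at hf
  obtain ⟨A, B, _, _, hAB⟩ := hf
  refine ⟨A default, B default, n0, fun m hm => ?_⟩
  have e1 : (Fin.tail fun _ : Fin 1 => (m : ℤ)) = default := Subsingleton.elim _ _
  rw [h (fun _ => m) (fun _ => hm), hAB, e1]

/-- additivity of `rho` from additivity of the dimensions -/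
theorem a5_rho_add {ι1 ι2 ι3 ι4 : Type} {N1 : Submodule (PA D κ 1) (ι1 → PA D κ 1)}
    {N2 : Submodule (PA D κ 1) (ι2 → PA D κ 1)}
    {N3 : Submodule (PA D κ 1) (ι3 → PA D κ 1)}
    {N4 : Submodule (PA D κ 1) (ι4 → PA D κ 1)} {a b c d : ℤ}
    (h1 : IsRho β N1 a) (h2 : IsRho β N2 b) (h3 : IsRho β N3 c) (h4 : IsRho β N4 d)
    (h : ∀ m : ℕ, qdi N1 (fun _ : Fin 1 => m) + qdi N2 (fun _ : Fin 1 => m) =
      qdi N3 (fun _ : Fin 1 => m) + qdi N4 (fun _ : Fin 1 => m)) : a + b = c + d := by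
  obtain ⟨A1, B1, rfl, m1, h1⟩ := h1
  obtain ⟨A2, B2, rfl, m2, h2⟩ := h2
  obtain ⟨A3, B3, rfl, m3, h3⟩ := h3
  obtain ⟨A4, B4, rfl, m4, h4⟩ := h4
  have h5 : A1 + A2 = A3 + A4 ∧ B1 + B2 = B3 + B4 := by
    apply a5_ab_unique (β := β) (m0 := max (max m1 m2) (max m3 m4))
    intro m hm
    have e1 : (qdi N1 (fun _ : Fin 1 => m) : ℤ) = _ := h1 m (by omega)
    have e2 : (qdi N2 (fun _ : Fin 1 => m) : ℤ) = _ := h2 m (by omega)
    have e3 : (qdi N3 (fun _ : Fin 1 => m) : ℤ) = _ := h3 m (by omega)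
    have e4 : (qdi N4 (fun _ : Fin 1 => m) : ℤ) = _ := h4 m (by omega)
    have e6 : (qdi N1 (fun _ : Fin 1 => m) : ℤ) + qdi N2 (fun _ : Fin 1 => m) =
        qdi N3 (fun _ : Fin 1 => m) + qdi N4 (fun _ : Fin 1 => m) := by exact_mod_cast h m
    rw [e1, e2, e3, e4] at e6
    linear_combination e6
  obtain ⟨h6, h7⟩ := h5
  linear_combination h6 - h7

omit [Algebra K D] in
theorem a5_isRho_top (β : Blk K κ) (ι : Type) :
    IsRho β (⊤ : Submodule (PA D κ 1) (ι → PA D κ 1)) 0 := by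
  refine ⟨0, 0, by norm_num, 0, fun m _ => ?_⟩
  rw [qdi_top]
  simp

/-- `h_O` is affine -/
theorem a8_hO_add (β : Blk K κ) (n : ℤ) (k : ℕ) : hO β.e (n + k) = hO β.e n + k * dl β.e := by
  unfold hO
  ring

/-- `h_O` is large in large degrees -/
theorem a8_hO_large (β : Blk K κ) (c : ℤ) : ∃ m0 : ℕ, ∀ m : ℕ, m0 ≤ m → c ≤ hO β.e m := by
  have hd := dl_pos β
  refine ⟨(c - hO β.e 0).toNat, fun m hm => ?_⟩
  have h1 := a8_hO_add β 0 m
  rw [zero_add] at h1
  have h2 : c - hO β.e 0 ≤ m := by omega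
  nlinarith

/-- existence of `A`, `B`; `A` is nonnegative -/
theorem a8_exists_ab [Finite ι] (hI : IntP D (fun _ : Fin 1 => β))
    {N : Submodule (PA D κ 1) (ι → PA D κ 1)} (hN : IsGi (fun _ : Fin 1 => β) N) :
    ∃ A B : ℤ, 0 ≤ A ∧ (A = 0 → 0 ≤ B) ∧ ∃ m0 : ℕ, ∀ m, m0 ≤ m →
      (qdi N (fun _ => m) : ℤ) = A * hO β.e m + B * dl β.e := by
  obtain ⟨f, hf, n0, h⟩ := hI.gen hN
  rw [lam_succ] at hf
  obtain ⟨A, B, _, _, hAB⟩ := hf
  have h0 : ∀ m, n0 ≤ m →
      (qdi N (fun _ => m) : ℤ) = A default * hO β.e m + B default * dl β.e := by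
    intro m hm
    rw [h (fun _ => m) (fun _ => hm), hAB]
    congr 3 <;> exact Subsingleton.elim _ _
  have hd := dl_pos β
  refine ⟨A default, B default, ?_, ?_, n0, h0⟩
  · by_contra hA
    obtain ⟨m1, h1⟩ := a8_hO_large β (B default * dl β.e + 1)
    have h2 := h0 (max n0 m1) (le_max_left _ _)
    have h3 := h1 (max n0 m1) (le_max_right _ _)
    obtain ⟨m2, h4⟩ := a8_hO_large β (max 1 (B default * dl β.e + 1))
    have h5 := h0 (max n0 m2) (le_max_left _ _)
    have h6 := h4 (max n0 m2) (le_max_right _ _)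
    have h7 : (0 : ℤ) ≤ qdi N (fun _ => max n0 m2) := Int.natCast_nonneg _
    have h8 := le_trans (le_max_left _ _) h6
    have h9 := le_trans (le_max_right _ _) h6
    nlinarith
  · intro hA
    have h2 := h0 n0 le_rfl
    rw [hA, zero_mul, zero_add] at h2
    have h7 : (0 : ℤ) ≤ qdi N (fun _ => n0) := Int.natCast_nonneg _
    rw [h2] at h7
    by_contra hB
    nlinarith

/-- the inclusion of some coordinates -/
noncomputable def a8_inc (D : Type u) [DivisionRing D] (κ : ℕ) {ι ι' : Type} (f : ι' → Option ι) :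
    (ι → PA D κ 1) →ₗ[PA D κ 1] (ι' → PA D κ 1) where
  toFun u j := (f j).elim 0 u
  map_add' u v := by
    funext j
    rw [Pi.add_apply]
    cases f j with
    | none => exact (add_zero _).symm
    | some i => rfl
  map_smul' k u := by
    funext j
    rw [Pi.smul_apply, RingHom.id_apply]
    cases f j with
    | none => exact (smul_zero _).symm
    | some i => rfl

theorem a8_inc_apply (f : ι' → Option ι) (u : ι → PA D κ 1) (j : ι') :
    a8_inc D κ f u j = (f j).elim 0 u := rfl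

theorem a8_inc_isHomg (f : ι' → Option ι) : IsHomg 0 (a8_inc D κ f) := by
  intro n u
  funext j
  change cp D κ 1 (n + 0) ((f j).elim 0 u) = (f j).elim 0 (cvi D κ 1 ι n u)
  rw [add_zero]
  cases f j with
  | none => exact map_zero _
  | some i => rfl

/-- the dimensions of an object, its intersection with some coordinates and its projection to
the others -/
theorem a8_split {I I1 I2 : Type} [Finite I] [Finite I1] [Finite I2] (f : I → Option I1)
    (g : I → Option I2)
    (htop : LinearMap.range (a8_inc D κ f) ⊔ LinearMap.range (a8_inc D κ g) = ⊤)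
    {N : Submodule (PA D κ 1) (I → PA D κ 1)} (hN : IsGi (fun _ : Fin 1 => β) N) (m : ℕ) :
    qdi (N.comap (a8_inc D κ f)) (fun _ : Fin 1 => m) +
      qdi ((N ⊔ LinearMap.range (a8_inc D κ f)).comap (a8_inc D κ g)) (fun _ : Fin 1 => m) =
      qdi N (fun _ : Fin 1 => m) := by
  have hN2 : IsGi (fun _ : Fin 1 => β) (N ⊔ LinearMap.range (a8_inc D κ f)) :=
    hN.sup_range (a8_inc_isHomg f)
  have h1 := qdi_comap (a8_inc_isHomg f) hN.hom (fun _ : Fin 1 => m)
  have h2 := qdi_comap (a8_inc_isHomg g) hN2.hom (fun _ : Fin 1 => m)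
  rw [sup_assoc, htop, sup_top_eq, qdi_top, add_zero, add_zero] at h2
  rw [add_zero] at h1
  rw [h2, h1]

theorem a8_smul (a : D) (v : PA D κ 1) :
    a • v = (AddMonoidAlgebra.single 0 a : PA D κ 1) * v := by
  induction v using AddMonoidAlgebra.induction_linear with
  | zero => rw [smul_zero, mul_zero]
  | add v w hv hw => rw [smul_add, mul_add, hv, hw]
  | single m d =>
    rw [AddMonoidAlgebra.smul_single, AddMonoidAlgebra.single_mul_single, zero_add, smul_eq_mul]

/-- the case of one coordinate -/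
theorem a8_exists_AB_one (hI : IntP D (fun _ : Fin 1 => β))
    {N : Submodule (PA D κ 1) (Fin 1 → PA D κ 1)} (hN : IsGi (fun _ : Fin 1 => β) N) :
    ∃ A B : ℤ, 0 ≤ A ∧ A ≤ 1 ∧ 0 ≤ B ∧ ∃ m0 : ℕ, ∀ m, m0 ≤ m →
      (qdi N (fun _ => m) : ℤ) = A * hO β.e m + B * dl β.e := by
  obtain ⟨n0, h0⟩ := qdi_N0i D β (Fin 1)
  rw [Nat.card_eq_fintype_card, Fintype.card_fin] at h0
  by_cases hNN : N ≤ N0i D (fun _ : Fin 1 => β) (Fin 1)
  · have h1 : N = N0i D (fun _ : Fin 1 => β) (Fin 1) := le_antisymm hNN (N0i_le hN)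
    refine ⟨1, 0, zero_le_one, le_rfl, le_rfl, n0, fun m hm => ?_⟩
    rw [h1, h0 m hm]
    ring
  · obtain ⟨w, hw, hw0⟩ := Set.not_subset.1 hNN
    have h1 : ∃ n, cvi D κ 1 (Fin 1) n w ∉ N0i D (fun _ : Fin 1 => β) (Fin 1) := by
      by_contra h
      push Not at h
      exact hw0 (a1_mem_of_cvi h)
    obtain ⟨n, hn⟩ := h1
    set u : PA D κ 1 := cp D κ 1 n (w 0) with hu
    have h2 : cvi D κ 1 (Fin 1) n w = fun _ => u := by
      funext j
      rw [Subsingleton.elim j 0]
      rfl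
    have hu0 : (fun _ => u) ∉ N0i D (fun _ : Fin 1 => β) (Fin 1) := by
      rw [← h2]
      exact hn
    have huN : (fun _ => u) ∈ N := by
      rw [← h2]
      exact hN.hom w hw n
    have hun : u ∈ pp D κ 1 n := a1_cp_mem n (w 0)
    obtain ⟨A, B, hA, hAB, m0, h3⟩ := a8_exists_ab hI hN
    have hd := dl_pos β
    -- the dimension estimate
    have key : ∀ k : ℕ, qdi N (fun _ : Fin 1 => n 0 + k) + (k + 1) ≤
        qdi (N0i D (fun _ : Fin 1 => β) (Fin 1)) (fun _ : Fin 1 => n 0 + k) := by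
      intro k
      have hfin := finite_pvi (D := D) (κ := κ) (ι := Fin 1) (fun _ : Fin 1 => n 0 + k)
      let L : (Fin (k + 1) → D) →ₗ[D] (Fin 1 → PA D κ 1) :=
        { toFun := fun a _ => ∑ i : Fin (k + 1), a i •
            (va D κ 1 (0, 0) ^ (k - i : ℕ) * va D κ 1 (0, 1) ^ (i : ℕ) * u)
          map_add' := fun a b => by
            funext j
            simp only [Pi.add_apply, add_smul, Finset.sum_add_distrib]
          map_smul' := fun c a => by
            funext j
            simp only [Pi.smul_apply, RingHom.id_apply, Finset.smul_sum, smul_eq_mul, mul_smul] }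
      have hL0 : ∀ a, L a ∈ N0i D (fun _ : Fin 1 => β) (Fin 1) → a = 0 := fun a ha =>
        free_xy β hu0 k a ha
      have hinj : Function.Injective L := by
        intro a b hab
        have h4 : L (a - b) = 0 := by rw [map_sub, hab, sub_self]
        exact sub_eq_zero.1 (hL0 _ (h4 ▸ Submodule.zero_mem _))
      have hmon : ∀ i : Fin (k + 1),
          va D κ 1 (0, 0) ^ (k - i : ℕ) * va D κ 1 (0, 1) ^ (i : ℕ) * u ∈
            pp D κ 1 (fun _ : Fin 1 => n 0 + k) := by
        intro i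
        have h5 := a1_single_mem (D := D) (Finsupp.single ((0 : Fin 1), (0 : Fin (κ + 2)))
          (k - i : ℕ) + Finsupp.single ((0 : Fin 1), (1 : Fin (κ + 2))) (i : ℕ)) 1
        have h6 : mdeg (Finsupp.single ((0 : Fin 1), (0 : Fin (κ + 2)))
          (k - i : ℕ) + Finsupp.single ((0 : Fin 1), (1 : Fin (κ + 2))) (i : ℕ)) =
            fun _ : Fin 1 => k := by
          funext g
          rw [a4_mdeg_add, a4_mdeg_single, a4_mdeg_single]
          have := i.isLt
          omega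
        rw [h6] at h5
        have h7 := a1_mul_mem h5 hun
        have h8 : ((fun _ : Fin 1 => k) + n) = fun _ : Fin 1 => n 0 + k := by
          funext g
          rw [Pi.add_apply, Subsingleton.elim g 0, add_comm]
        rw [h8] at h7
        rw [va, va, AddMonoidAlgebra.single_pow, AddMonoidAlgebra.single_pow,
          AddMonoidAlgebra.single_mul_single, one_pow, one_pow, mul_one, Finsupp.smul_single,
          Finsupp.smul_single, smul_eq_mul, smul_eq_mul, mul_one, mul_one]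
        exact h7
      have hLp : ∀ a, L a ∈ pvi D κ 1 (Fin 1) (fun _ : Fin 1 => n 0 + k) := fun a j =>
        Submodule.sum_mem _ fun i _ => Submodule.smul_mem _ _ (hmon i)
      have hLN : ∀ a, L a ∈ N := by
        intro a
        have h9 : L a = ∑ i : Fin (k + 1), (AddMonoidAlgebra.single 0 (a i) *
            (va D κ 1 (0, 0) ^ (k - i : ℕ) * va D κ 1 (0, 1) ^ (i : ℕ))) •
              (fun _ => u : Fin 1 → PA D κ 1) := by
          funext j
          rw [Finset.sum_apply]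
          change (∑ i : Fin (k + 1), a i •
            (va D κ 1 (0, 0) ^ (k - i : ℕ) * va D κ 1 (0, 1) ^ (i : ℕ) * u)) =
              ∑ i : Fin (k + 1), (AddMonoidAlgebra.single 0 (a i) *
            (va D κ 1 (0, 0) ^ (k - i : ℕ) * va D κ 1 (0, 1) ^ (i : ℕ))) * u
          refine Finset.sum_congr rfl fun i _ => ?_
          rw [a8_smul, mul_assoc (AddMonoidAlgebra.single 0 (a i))]
        rw [h9]
        exact N.sum_mem fun i _ => N.smul_mem _ huN
      have hr : finrank D (LinearMap.range L) = k + 1 := by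
        rw [LinearMap.finrank_range_of_inj hinj, Module.finrank_fin_fun]
      have hinf : (pvi D κ 1 (Fin 1) (fun _ : Fin 1 => n 0 + k) ⊓
          (N0i D (fun _ : Fin 1 => β) (Fin 1)).restrictScalars D : Submodule D _) ⊓
            LinearMap.range L = ⊥ := by
        rw [eq_bot_iff]
        rintro v ⟨⟨_, hv⟩, ⟨a, rfl⟩⟩
        rw [hL0 a hv, map_zero]
        exact Submodule.zero_mem _
      have hfin0 : FiniteDimensional D (pvi D κ 1 (Fin 1) (fun _ : Fin 1 => n 0 + k) ⊓
          (N0i D (fun _ : Fin 1 => β) (Fin 1)).restrictScalars D : Submodule D _) :=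
        Submodule.finiteDimensional_of_le inf_le_left
      have hfin1 : FiniteDimensional D (pvi D κ 1 (Fin 1) (fun _ : Fin 1 => n 0 + k) ⊓
          N.restrictScalars D : Submodule D _) :=
        Submodule.finiteDimensional_of_le inf_le_left
      have hdim := Submodule.finrank_sup_add_finrank_inf_eq
        (pvi D κ 1 (Fin 1) (fun _ : Fin 1 => n 0 + k) ⊓
          (N0i D (fun _ : Fin 1 => β) (Fin 1)).restrictScalars D : Submodule D _)
        (LinearMap.range L)
      rw [hinf, finrank_bot, hr] at hdim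
      have hle : (pvi D κ 1 (Fin 1) (fun _ : Fin 1 => n 0 + k) ⊓
          (N0i D (fun _ : Fin 1 => β) (Fin 1)).restrictScalars D : Submodule D _) ⊔
            LinearMap.range L ≤ (pvi D κ 1 (Fin 1) (fun _ : Fin 1 => n 0 + k) ⊓
          N.restrictScalars D : Submodule D _) := by
        apply sup_le
        · exact inf_le_inf_left _ (N0i_le hN)
        · rintro v ⟨a, rfl⟩
          exact ⟨hLp a, hLN a⟩
      have hle2 := Submodule.finrank_mono hle
      have hle3 : finrank D (pvi D κ 1 (Fin 1) (fun _ : Fin 1 => n 0 + k) ⊓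
          N.restrictScalars D : Submodule D _) ≤
            finrank D (pvi D κ 1 (Fin 1) (fun _ : Fin 1 => n 0 + k)) :=
        Submodule.finrank_mono inf_le_left
      unfold qdi
      omega
    have hA0 : A = 0 := by
      by_contra hA0
      have hA1 : 1 ≤ A := by omega
      obtain ⟨m1, h4⟩ := a8_hO_large β 0
      set M : ℕ := n 0 + (max (max n0 m0) m1 + (-(B * dl β.e)).toNat) with hM
      have h5 := key (max (max n0 m0) m1 + (-(B * dl β.e)).toNat)
      rw [← hM] at h5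
      have h6 := h3 M (by omega)
      have h7 := h0 M (by omega)
      have h8 := h4 M (by omega)
      have h9 : (qdi N (fun _ : Fin 1 => M) : ℤ) +
          ((max (max n0 m0) m1 + (-(B * dl β.e)).toNat : ℕ) + 1) ≤
            qdi (N0i D (fun _ : Fin 1 => β) (Fin 1)) (fun _ : Fin 1 => M) := by
        exact_mod_cast h5
      rw [h6, h7] at h9
      have h10 : -(B * dl β.e) ≤ (max (max n0 m0) m1 + (-(B * dl β.e)).toNat : ℕ) := by
        omega
      have h11 := mul_nonneg (sub_nonneg.2 hA1) h8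
      rw [Nat.cast_one, one_mul] at h9
      linarith
    exact ⟨A, B, hA, by omega, hAB hA0, m0, h3⟩

theorem exists_AB [Finite ι] (hI : IntP D (fun _ : Fin 1 => β))
    {N : Submodule (PA D κ 1) (ι → PA D κ 1)} (hN : IsGi (fun _ : Fin 1 => β) N) :
    ∃ A B : ℤ, 0 ≤ A ∧ A ≤ Nat.card ι ∧ 0 ≤ B ∧ ∃ m0 : ℕ, ∀ m, m0 ≤ m →
      (qdi N (fun _ => m) : ℤ) = A * hO β.e m + B * dl β.e := by
  induction ι using Finite.induction_empty_option with
  | of_equiv e ih =>
    obtain ⟨A, B, h1, h2, h3, m0, h4⟩ := ih (isGi_funLeft e.symm hN)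
    refine ⟨A, B, h1, ?_, h3, m0, fun m hm => ?_⟩
    · rwa [← Nat.card_congr e]
    · rw [← h4 m hm, qdi_funLeft]
  | h_empty =>
    refine ⟨0, 0, le_rfl, by simp, le_rfl, 0, fun m _ => ?_⟩
    have h : N = ⊤ := Subsingleton.elim _ _
    rw [h, qdi_top]
    simp
  | h_option ih =>
    rename_i I _
    have htop : LinearMap.range (a8_inc D κ (fun j : Option I => j.elim (some (0 : Fin 1))
        fun _ => none)) ⊔ LinearMap.range (a8_inc D κ (fun j : Option I => j)) = ⊤ := by
      rw [eq_top_iff]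
      intro u _
      rw [Submodule.mem_sup]
      refine ⟨_, ⟨fun _ => u none, rfl⟩, _, ⟨fun i => u (some i), rfl⟩, ?_⟩
      funext j
      rw [Pi.add_apply, a8_inc_apply, a8_inc_apply]
      cases j with
      | none => exact add_zero _
      | some i => exact zero_add _
    have hs := a8_split (β := β) _ _ htop hN
    obtain ⟨A1, B1, h1, h2, h3, m1, h4⟩ := a8_exists_AB_one hI
      (hN.comap (a8_inc_isHomg (fun j : Option I => j.elim (some (0 : Fin 1)) fun _ => none)))
    obtain ⟨A2, B2, k1, k2, k3, m2, k4⟩ := ih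
      ((hN.sup_range (a8_inc_isHomg (fun j : Option I => j.elim (some (0 : Fin 1))
        fun _ => none))).comap (a8_inc_isHomg (fun j : Option I => j)))
    refine ⟨A1 + A2, B1 + B2, add_nonneg h1 k1, ?_, add_nonneg h3 k3, max m1 m2,
      fun m hm => ?_⟩
    · rw [Finite.card_option]
      push_cast
      linarith
    · rw [← hs m]
      push_cast
      rw [h4 m (le_trans (le_max_left _ _) hm), k4 m (le_trans (le_max_right _ _) hm)]
      ring

theorem exists_isRho [Finite ι] (hI : IntP D (fun _ : Fin 1 => β))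
    {N : Submodule (PA D κ 1) (ι → PA D κ 1)} (hN : IsGi (fun _ : Fin 1 => β) N) :
    ∃ r, IsRho β N r ∧ r ≤ Nat.card ι := by
  obtain ⟨A, B, _, hA, hB, m0, h⟩ := exists_AB hI hN
  exact ⟨A - B, ⟨A, B, rfl, m0, h⟩, by linarith⟩

theorem isRho_mod [Finite ι] {N N' : Submodule (PA D κ 1) (ι → PA D κ 1)}
    (hN : IsGi (fun _ : Fin 1 => β) N) (hN' : IsGi (fun _ : Fin 1 => β) N') {a b c d : ℤ}
    (h1 : IsRho β (N ⊓ N') a) (h2 : IsRho β (N ⊔ N') b) (h3 : IsRho β N c)
    (h4 : IsRho β N' d) : a + b = c + d :=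
  a5_rho_add h1 h2 h3 h4 fun _ => qdi_mod hN.hom hN'.hom _

theorem isRho_comap [Finite ι] [Finite ι'] {φ : (ι → PA D κ 1) →ₗ[PA D κ 1] (ι' → PA D κ 1)}
    (hφ : IsHomg 0 φ) {N' : Submodule (PA D κ 1) (ι' → PA D κ 1)}
    (hN' : IsGi (fun _ : Fin 1 => β) N') {a b c : ℤ}
    (h1 : IsRho β (N'.comap φ) a) (h2 : IsRho β (N' ⊔ LinearMap.range φ) b)
    (h3 : IsRho β N' c) : a + b = c := by
  have h := a5_rho_add h1 h2 h3 (a5_isRho_top (D := D) β (Fin 0)) fun m => by
    have h0 := qdi_comap hφ hN'.hom (fun _ => m)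
    rw [add_zero] at h0
    rw [h0, qdi_top, add_zero]
  rw [add_zero] at h
  exact h

theorem exists_isRk [Finite ι] (hI : IntP D (fun _ : Fin 1 => β))
    {N : Submodule (PA D κ 1) (ι → PA D κ 1)} (hN : IsGi (fun _ : Fin 1 => β) N) :
    ∃ k, IsRk β N k := by
  have hN' := hN
  let S : Set ℕ := {r | ∃ N', N ≤ N' ∧ IsGi (fun _ : Fin 1 => β) N' ∧ IsRho β N' (r : ℤ)}
  have h0 : (0 : ℕ) ∈ S := ⟨⊤, le_top, isGi_top _, by
    rw [Nat.cast_zero]
    exact a5_isRho_top β ι⟩
  have hb : ∀ (r : ℤ) (N' : Submodule (PA D κ 1) (ι → PA D κ 1)),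
      IsGi (fun _ : Fin 1 => β) N' → IsRho β N' r →
      r ≤ Nat.card ι := by
    intro r N' hG hr
    obtain ⟨r', hr', hle⟩ := exists_isRho hI (ι := ι) hG
    rw [isRho_unique hr hr']
    exact hle
  have hbdd : BddAbove S := ⟨Nat.card ι, fun r hr => by
    obtain ⟨N', _, hG, hr⟩ := hr
    have := hb r N' hG hr
    exact_mod_cast this⟩
  have hmem : sSup S ∈ S := Nat.sSup_mem ⟨0, h0⟩ hbdd
  refine ⟨sSup S, hmem, fun N' hle hG r hr => ?_⟩
  by_cases hr0 : r ≤ 0
  · exact hr0.trans (Int.natCast_nonneg _)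
  · have h1 : ((r.toNat : ℕ) : ℤ) = r := Int.toNat_of_nonneg (by omega)
    have h2 : r.toNat ∈ S := ⟨N', hle, hG, by rw [h1]; exact hr⟩
    have h3 : r.toNat ≤ sSup S := le_csSup hbdd h2
    rw [← h1]
    exact_mod_cast h3

theorem isRk_unique {N : Submodule (PA D κ 1) (ι → PA D κ 1)} {k k' : ℕ}
    (h : IsRk β N k) (h' : IsRk β N k') : k = k' := by
  obtain ⟨N1, a1, a2, a3⟩ := h.1
  obtain ⟨N2, b1, b2, b3⟩ := h'.1
  have h1 := h'.2 N1 a1 a2 _ a3
  have h2 := h.2 N2 b1 b2 _ b3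
  omega

theorem isRk_mono {N N' : Submodule (PA D κ 1) (ι → PA D κ 1)} (hNN' : N ≤ N') {k k' : ℕ}
    (h : IsRk β N k) (h' : IsRk β N' k') : k' ≤ k := by
  obtain ⟨N2, b1, b2, b3⟩ := h'.1
  have h2 := h.2 N2 (hNN'.trans b1) b2 _ b3
  omega

theorem isRk_comap_le [Finite ι] [Finite ι'] (hI : IntP D (fun _ : Fin 1 => β))
    {φ : (ι → PA D κ 1) →ₗ[PA D κ 1] (ι' → PA D κ 1)} (hφ : IsHomg 0 φ)
    {N : Submodule (PA D κ 1) (ι → PA D κ 1)} {N' : Submodule (PA D κ 1) (ι' → PA D κ 1)}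
    (hle : N ≤ N'.comap φ) {k k' k'' : ℕ} (h : IsRk β N k) (h' : IsRk β N' k')
    (h'' : IsRk β (N' ⊔ LinearMap.range φ) k'') : k' ≤ k + k'' := by
  obtain ⟨N2, b1, b2, b3⟩ := h'.1
  have hc : IsGi (fun _ : Fin 1 => β) (N2.comap φ) := IsGi.comap hφ b2
  have hs : IsGi (fun _ : Fin 1 => β) (N2 ⊔ LinearMap.range φ) := IsGi.sup_range hφ b2
  obtain ⟨a, ha, -⟩ := exists_isRho hI hc
  obtain ⟨b, hb, -⟩ := exists_isRho hI hs
  have h1 := isRho_comap hφ b2 ha hb b3
  have h2 := h.2 _ (hle.trans (Submodule.comap_mono b1)) hc a ha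
  have h3 := h''.2 _ (sup_le_sup_right b1 _) hs b hb
  omega

/-- the inclusion of the first summand -/
noncomputable def a5_inl (D : Type u) [DivisionRing D] (κ : ℕ) (ι ι' : Type) :
    (ι → PA D κ 1) →ₗ[PA D κ 1] (ι ⊕ ι' → PA D κ 1) where
  toFun u := Sum.elim u 0
  map_add' u v := by
    funext i
    cases i with
    | inl i => rfl
    | inr i => exact (add_zero _).symm
  map_smul' c u := by
    funext i
    cases i with
    | inl i => rfl
    | inr i => exact (smul_zero (A := PA D κ 1) c).symm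

/-- the inclusion of the second summand -/
noncomputable def a5_inr (D : Type u) [DivisionRing D] (κ : ℕ) (ι ι' : Type) :
    (ι' → PA D κ 1) →ₗ[PA D κ 1] (ι ⊕ ι' → PA D κ 1) where
  toFun u := Sum.elim 0 u
  map_add' u v := by
    funext i
    cases i with
    | inl i => exact (add_zero _).symm
    | inr i => rfl
  map_smul' c u := by
    funext i
    cases i with
    | inl i => exact (smul_zero (A := PA D κ 1) c).symm
    | inr i => rfl

theorem a5_inl_homg : IsHomg 0 (a5_inl D κ ι ι') := by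
  intro n u
  funext i
  rw [add_zero]
  cases i with
  | inl i => rfl
  | inr i => exact map_zero (cp D κ 1 n)

theorem a5_inr_homg : IsHomg 0 (a5_inr D κ ι ι') := by
  intro n u
  funext i
  rw [add_zero]
  cases i with
  | inl i => exact map_zero (cp D κ 1 n)
  | inr i => rfl

theorem a5_inl_mem {N : Submodule (PA D κ 1) (ι → PA D κ 1)}
    (N' : Submodule (PA D κ 1) (ι' → PA D κ 1)) {u : ι → PA D κ 1} (hu : u ∈ N) :
    a5_inl D κ ι ι' u ∈ dsum N N' := by
  have h1 : (fun i => a5_inl D κ ι ι' u (Sum.inl i)) = u := rfl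
  have h2 : (fun i => a5_inl D κ ι ι' u (Sum.inr i)) = 0 := rfl
  refine ⟨?_, ?_⟩
  · rw [h1]
    exact hu
  · rw [h2]
    exact N'.zero_mem

theorem a5_inr_mem (N : Submodule (PA D κ 1) (ι → PA D κ 1))
    {N' : Submodule (PA D κ 1) (ι' → PA D κ 1)} {u : ι' → PA D κ 1} (hu : u ∈ N') :
    a5_inr D κ ι ι' u ∈ dsum N N' := by
  have h1 : (fun i => a5_inr D κ ι ι' u (Sum.inl i)) = 0 := rfl
  have h2 : (fun i => a5_inr D κ ι ι' u (Sum.inr i)) = u := rfl
  refine ⟨?_, ?_⟩
  · rw [h1]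
    exact N.zero_mem
  · rw [h2]
    exact hu

theorem isRk_dsum [Finite ι] [Finite ι'] (hI : IntP D (fun _ : Fin 1 => β))
    {N : Submodule (PA D κ 1) (ι → PA D κ 1)} {N' : Submodule (PA D κ 1) (ι' → PA D κ 1)}
    (hN : IsGi (fun _ : Fin 1 => β) N) (hN' : IsGi (fun _ : Fin 1 => β) N')
    {k k' : ℕ} (h : IsRk β N k) (h' : IsRk β N' k') : IsRk β (dsum N N') (k + k') := by
  have hN1 := hN
  have hN2 := hN'
  constructor
  · obtain ⟨M, a1, a2, A, B, a3, m0, a4⟩ := h.1
    obtain ⟨M', b1, b2, A', B', b3, m0', b4⟩ := h'.1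
    refine ⟨dsum M M', fun u hu => ⟨a1 hu.1, b1 hu.2⟩, IsGi.dsum a2 b2, A + A', B + B', ?_,
      max m0 m0', fun m hm => ?_⟩
    · push_cast
      omega
    · rw [qdi_dsum]
      push_cast
      rw [a4 m ((le_max_left _ _).trans hm), b4 m ((le_max_right _ _).trans hm)]
      ring
  · intro M hle hM r hr
    have hs1 : IsGi (fun _ : Fin 1 => β) (M ⊔ LinearMap.range (a5_inl D κ ι ι')) :=
      IsGi.sup_range a5_inl_homg hM
    have hc1 : IsGi (fun _ : Fin 1 => β) (M.comap (a5_inl D κ ι ι')) :=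
      IsGi.comap a5_inl_homg hM
    have hc2 : IsGi (fun _ : Fin 1 => β)
        ((M ⊔ LinearMap.range (a5_inl D κ ι ι')).comap (a5_inr D κ ι ι')) :=
      IsGi.comap a5_inr_homg hs1
    obtain ⟨a, ha, -⟩ := exists_isRho hI hc1
    obtain ⟨b, hb, -⟩ := exists_isRho hI hs1
    obtain ⟨c, hc, -⟩ := exists_isRho hI hc2
    have htop : (M ⊔ LinearMap.range (a5_inl D κ ι ι')) ⊔ LinearMap.range (a5_inr D κ ι ι') =
        ⊤ := by
      rw [eq_top_iff]
      intro u _
      have hu : u = a5_inl D κ ι ι' (fun i => u (Sum.inl i)) +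
          a5_inr D κ ι ι' (fun i => u (Sum.inr i)) := by
        funext i
        cases i with
        | inl i => exact (add_zero _).symm
        | inr i => exact (zero_add _).symm
      rw [hu]
      refine Submodule.add_mem _ ?_ ?_
      · exact Submodule.mem_sup_left (Submodule.mem_sup_right ⟨_, rfl⟩)
      · exact Submodule.mem_sup_right ⟨_, rfl⟩
    have h0 : IsRho β ((M ⊔ LinearMap.range (a5_inl D κ ι ι')) ⊔
        LinearMap.range (a5_inr D κ ι ι')) 0 := by
      rw [htop]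
      exact a5_isRho_top β _
    have h1 := isRho_comap a5_inl_homg hM ha hb hr
    have h2 := isRho_comap a5_inr_homg hs1 hc h0 hb
    have hle1 : N ≤ M.comap (a5_inl D κ ι ι') := by
      intro u hu
      rw [Submodule.mem_comap]
      exact hle (a5_inl_mem N' hu)
    have hle2 : N' ≤ (M ⊔ LinearMap.range (a5_inl D κ ι ι')).comap (a5_inr D κ ι ι') := by
      intro u hu
      rw [Submodule.mem_comap]
      exact Submodule.mem_sup_left (hle (a5_inr_mem N hu))
    have h3 := h.2 _ hle1 hc1 a ha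
    have h4 := h'.2 _ hle2 hc2 c hc
    push_cast
    omega

theorem isRk_N0i (hI : IntP D (fun _ : Fin 1 => β)) (ι : Type) [Finite ι] :
    IsRk β (N0i D (fun _ : Fin 1 => β) ι) (Nat.card ι) := by
  refine ⟨⟨_, le_rfl, isGi_N0i _, ?_⟩, fun N' _ hG r hr => ?_⟩
  · obtain ⟨n0, h⟩ := qdi_N0i D β ι
    refine ⟨Nat.card ι, 0, by ring, n0, fun m hm => ?_⟩
    rw [h m hm]
    ring
  · obtain ⟨r', hr', hle⟩ := exists_isRho hI hG
    rw [isRho_unique hr hr']
    exact hle

theorem isRk_top (β : Blk K κ) (ι : Type) :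
    IsRk β (⊤ : Submodule (PA D κ 1) (ι → PA D κ 1)) 0 := by
  refine ⟨⟨⊤, le_rfl, isGi_top _, by rw [Nat.cast_zero]; exact a5_isRho_top β ι⟩,
    fun N' hle _ r hr => ?_⟩
  rw [top_le_iff.mp hle] at hr
  rw [isRho_unique hr (a5_isRho_top β ι)]
  rfl

end Vale.Agent.P200.V
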