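import Vale.Agent.P200.V.Rk
import Vale.Agent.P200.U.Noeth

/-!
**(A), part 6: the closure of an object.**  (`RkGr`, `RkGrB`, `Rk`, `U/Noeth` as black boxes.)

`exists_isCl`: `PA^s` is noetherian; take a maximal element of `{N' ≥ N | ρ N' = rk N}`; this set is closed
under `⊔` because `ρ(N' ⊔ N'') = ρ N' + ρ N'' - ρ(N' ⊓ N'') ≥ 2 k - k`; so the maximal element is the largest.
`isCl_comap`: `C1 ⊓ C2.comap Φ ≥ N1` gives `ρ(C1 ⊓ Φ⁻¹ C2) ≤ k1 = ρ C1`, so `ρ(C1 ⊔ Φ⁻¹ C2) ≥ ρ(Φ⁻¹ C2)` (modularity).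
`Φ⁻¹ (C2 ⊔ Φ C1) = Φ⁻¹ C2 ⊔ C1` and `C2 ⊔ Φ C1 ⊔ range Φ = C2 ⊔ range Φ`, so by `isRho_comap` (twice)
`ρ(C2 ⊔ Φ C1) ≥ ρ C2 = k2`, hence `= k2` and `C2 ⊔ Φ C1 ≤ C2`.
-/

namespace Vale.Agent.P200.V

open Module

universe u

variable {K : Type u} [Field K] {D : Type u} [DivisionRing D] [Algebra K D] {κ : ℕ}
  {ι ι' : Type} {β : Blk K κ}

theorem exists_isCl [Finite ι] (hI : IntP D (fun _ : Fin 1 => β))
    {N : Submodule (PA D κ 1) (ι → PA D κ 1)} (hN : IsGi (fun _ : Fin 1 => β) N) :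
    ∃ N', IsCl β N N' := by
  obtain ⟨k, hk⟩ := exists_isRk hI hN
  have hnr : IsNoetherianRing (PA D κ 1) := U.isNoetherianRing_pa
  have hnm : IsNoetherian (PA D κ 1) (ι → PA D κ 1) := isNoetherian_pi
  have hwf : WellFounded ((· > ·) :
      Submodule (PA D κ 1) (ι → PA D κ 1) → Submodule (PA D κ 1) (ι → PA D κ 1) → Prop) :=
    (isNoetherian_iff'.1 hnm).wf
  obtain ⟨N', ⟨h1, h2, h3⟩, hmax⟩ := hwf.has_min
    {N' | N ≤ N' ∧ IsGi (fun _ : Fin 1 => β) N' ∧ IsRho β N' k} hk.1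
  refine ⟨N', h1, h2, k, hk, h3, fun N'' g1 g2 g3 => ?_⟩
  obtain ⟨r, hr, -⟩ := exists_isRho hI (h2.sup g2)
  obtain ⟨a, ha, -⟩ := exists_isRho hI (h2.inf g2)
  have e1 := isRho_mod h2 g2 ha hr h3 g3
  have e2 : a ≤ k := hk.2 _ (le_inf h1 g1) (h2.inf g2) a ha
  have e3 : r ≤ k := hk.2 _ (h1.trans le_sup_left) (h2.sup g2) r hr
  have e4 : r = k := by omega
  have h5 : ¬ (N' ⊔ N'' > N') := hmax _ ⟨h1.trans le_sup_left, h2.sup g2, e4 ▸ hr⟩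
  have h6 : N' ⊔ N'' = N' := by
    by_contra hne
    exact h5 (lt_of_le_of_ne le_sup_left (Ne.symm hne))
  exact h6 ▸ le_sup_right

theorem isCl_comap [Finite ι] [Finite ι'] (hI : IntP D (fun _ : Fin 1 => β))
    {Φ : (ι → PA D κ 1) →ₗ[PA D κ 1] (ι' → PA D κ 1)}
    (hΦ : ∀ n u, Φ (cvi D κ 1 ι n u) = cvi D κ 1 ι' n (Φ u))
    {N1 C1 : Submodule (PA D κ 1) (ι → PA D κ 1)}
    {N2 C2 : Submodule (PA D κ 1) (ι' → PA D κ 1)}
    (hle : N1 ≤ N2.comap Φ) (h1 : IsCl β N1 C1) (h2 : IsCl β N2 C2) : C1 ≤ C2.comap Φ := by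
  obtain ⟨a1, a2, k1, a3, a4, -⟩ := h1
  obtain ⟨b1, b2, k2, b3, b4, b5⟩ := h2
  have hh : IsHomg 0 Φ := fun n u => by rw [add_zero, hΦ]
  have gP : IsGi (fun _ : Fin 1 => β) (C2.comap Φ) := IsGi.comap hh b2
  have gM : IsGi (fun _ : Fin 1 => β) (C2 ⊔ C1.map Φ) := IsGi.sup_map hh a2 b2
  obtain ⟨a, ha, -⟩ := exists_isRho hI (a2.inf gP)
  obtain ⟨b, hb, -⟩ := exists_isRho hI (a2.sup gP)
  obtain ⟨c, hc, -⟩ := exists_isRho hI gP
  obtain ⟨m, hm, -⟩ := exists_isRho hI gM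
  obtain ⟨t, ht, -⟩ := exists_isRho hI (IsGi.sup_range hh b2)
  have e1 := isRho_mod a2 gP ha hb a4 hc
  have e2 : a ≤ k1 :=
    a3.2 _ (le_inf a1 (hle.trans (Submodule.comap_mono b1))) (a2.inf gP) a ha
  have e3 := isRho_comap hh b2 hc ht b4
  have hco : (C2 ⊔ C1.map Φ).comap Φ = C1 ⊔ C2.comap Φ := by
    apply le_antisymm
    · intro u hu
      obtain ⟨c2, hc2, w, hw, hs⟩ := Submodule.mem_sup.1 (Submodule.mem_comap.1 hu)
      obtain ⟨c1, hc1, rfl⟩ := Submodule.mem_map.1 hw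
      have h3 : u - c1 ∈ C2.comap Φ := by
        rw [Submodule.mem_comap, map_sub, ← hs, add_sub_cancel_right]
        exact hc2
      have h4 := Submodule.add_mem_sup hc1 h3
      rwa [add_sub_cancel] at h4
    · refine sup_le ?_ (Submodule.comap_mono le_sup_left)
      intro u hu
      exact Submodule.mem_sup_right (Submodule.mem_map_of_mem hu)
  have hra : C2 ⊔ C1.map Φ ⊔ LinearMap.range Φ = C2 ⊔ LinearMap.range Φ := by
    rw [sup_assoc]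
    congr 1
    exact sup_eq_right.2 LinearMap.map_le_range
  have e4 := isRho_comap hh gM (a := b) (b := t) (by rw [hco]; exact hb) (by rw [hra]; exact ht) hm
  have e5 : m ≤ k2 := b3.2 _ (b1.trans le_sup_left) gM m hm
  have e6 : m = k2 := by omega
  have h7 : C2 ⊔ C1.map Φ ≤ C2 := b5 _ (b1.trans le_sup_left) gM (e6 ▸ hm)
  exact Submodule.map_le_iff_le_comap.1 (le_sup_right.trans h7)

end Vale.Agent.P200.V
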