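import Vale.Agent.P200.V.Blk

/-!
Rank and closure for one block: definitions (interface between (A), (B) and (C) of note 8822).

Vectors are indexed by an arbitrary type `ι` (finite in the applications).

`pvi`, `cvi`, `IsGi`, `qdi` : `pv`, `cv`, `IsG`, `qd` of `V/Blk` for an arbitrary index type.
`IsRho β N r` : `r = A - B` where `dim (PA D κ 1)^ι / N` is `A h_O(m) + B dl` in large degrees `m`.
`IsRk β N k` : `k` is the largest `rho N'`, `N' ≥ N`.
`IsCl β N N'` : `N'` is the largest object above `N` with `rho N' = rk N`.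
`RS N f z a` : the relations of the object `X^I / (z f, a)`, `X = (PA D κ 1)^π / N`.
-/

namespace Vale.Agent.P200.V

open Module

universe u

section gen
variable (D : Type u) [DivisionRing D] (κ R : ℕ) (ι : Type)

/-- the vectors of multidegree `n` -/
def pvi (n : Fin R → ℕ) : Submodule D (ι → PA D κ R) where
  carrier := {u | ∀ i, u i ∈ pp D κ R n}
  add_mem' ha hb i := Submodule.add_mem _ (ha i) (hb i)
  zero_mem' _ := Submodule.zero_mem _
  smul_mem' k _ ha i := Submodule.smul_mem _ k (ha i)

/-- the component of multidegree `n` of a vector -/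
noncomputable def cvi (n : Fin R → ℕ) : (ι → PA D κ R) →ₗ[D] (ι → PA D κ R) where
  toFun u i := cp D κ R n (u i)
  map_add' u v := by
    ext1 i
    exact map_add (cp D κ R n) _ _
  map_smul' k u := by
    ext1 i
    exact map_smul (cp D κ R n) _ _

end gen

section
variable {K : Type u} [Field K] {D : Type u} [DivisionRing D] [Algebra K D] {κ R : ℕ} {ι : Type}

/-- the multihomogeneous submodules containing the multiples of the relations -/
structure IsGi (β : Fin R → Blk K κ) (N : Submodule (PA D κ R) (ι → PA D κ R)) : Prop where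
  hom : ∀ u ∈ N, ∀ n, cvi D κ R ι n u ∈ N
  rel : ∀ g i (w : ι → PA D κ R), bm K D κ g ((β g).rel i) • w ∈ N

/-- the dimension of `(PA D κ R)^ι / N` in degree `n` -/
noncomputable def qdi (N : Submodule (PA D κ R) (ι → PA D κ R)) (n : Fin R → ℕ) : ℕ :=
  finrank D (pvi D κ R ι n) - finrank D (pvi D κ R ι n ⊓ N.restrictScalars D : Submodule D _)

theorem qdi_fin {s : ℕ} (N : Submodule (PA D κ R) (Fin s → PA D κ R)) (n : Fin R → ℕ) :
    qdi N n = qd N n := rfl

/-- `rho N = r` -/
def IsRho (β : Blk K κ) (N : Submodule (PA D κ 1) (ι → PA D κ 1)) (r : ℤ) : Prop :=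
  ∃ A B : ℤ, r = A - B ∧ ∃ m0 : ℕ, ∀ m, m0 ≤ m →
    (qdi N (fun _ => m) : ℤ) = A * hO β.e m + B * dl β.e

/-- `k` is the maximum of `rho N'`, `N' ≥ N` -/
def IsRk (β : Blk K κ) (N : Submodule (PA D κ 1) (ι → PA D κ 1)) (k : ℕ) : Prop :=
  (∃ N', N ≤ N' ∧ IsGi (fun _ : Fin 1 => β) N' ∧ IsRho β N' k) ∧
    ∀ N', N ≤ N' → IsGi (fun _ : Fin 1 => β) N' → ∀ r, IsRho β N' r → r ≤ k

/-- `N'` is the largest object above `N` with `rho N' = rk N` -/
def IsCl (β : Blk K κ) (N N' : Submodule (PA D κ 1) (ι → PA D κ 1)) : Prop :=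
  N ≤ N' ∧ IsGi (fun _ : Fin 1 => β) N' ∧ ∃ k : ℕ, IsRk β N k ∧ IsRho β N' k ∧
    ∀ N'', N ≤ N'' → IsGi (fun _ : Fin 1 => β) N'' → IsRho β N'' k → N'' ≤ N'

/-- the multiples of the relations are central -/
theorem bm_comm (g : Fin R) (p : MvPolynomial (Fin (κ + 2)) K) (a : PA D κ R) :
    bm K D κ g p * a = a * bm K D κ g p := by
  induction p using MvPolynomial.induction_on with
  | C k =>
    have : bm K D κ (R := R) g (MvPolynomial.C k) = algebraMap K (PA D κ R) k := by
      rw [← MvPolynomial.algebraMap_eq]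
      exact AlgHom.commutes _ _
    rw [this]
    exact Algebra.commutes _ _
  | add p q hp hq => rw [map_add, add_mul, mul_add, hp, hq]
  | mul_X p v hp =>
    have h1 : bm K D κ (R := R) g (MvPolynomial.X v) = va D κ R (g, v) := by
      rw [bm, AlgHom.comp_apply]
      have h2 : (AddMonoidAlgebra.mapDomainAlgHom K K
          (Finsupp.mapDomain.addMonoidHom fun v : Fin (κ + 2) => (g, v)))
            (MvPolynomial.X v : MvPolynomial (Fin (κ + 2)) K) =
          (AddMonoidAlgebra.single (Finsupp.single (g, v) 1) (1 : K) :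
            AddMonoidAlgebra K (Mon κ R)) := by
        change AddMonoidAlgebra.mapDomain _ (AddMonoidAlgebra.single (Finsupp.single v 1) (1 : K)) = _
        rw [AddMonoidAlgebra.mapDomain_single]
        congr 1
        exact Finsupp.mapDomain_single
      rw [h2, AddMonoidAlgebra.mapAlgHom_single, map_one]
      rfl
    have h3 : va D κ R (g, v) * a = a * va D κ R (g, v) := by
      clear hp
      induction a using AddMonoidAlgebra.induction_linear with
      | zero => rw [zero_mul, mul_zero]
      | add a b ha hb => rw [add_mul, mul_add, ha, hb]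
      | single m d =>
        rw [va, AddMonoidAlgebra.single_mul_single, AddMonoidAlgebra.single_mul_single, one_mul,
          mul_one, add_comm]
    rw [map_mul, h1, mul_assoc, h3, ← mul_assoc, hp, mul_assoc]

theorem isGi_iff {β : Fin R → Blk K κ} {s : ℕ} (N : Submodule (PA D κ R) (Fin s → PA D κ R)) :
    IsGi β N ↔ IsG β N := by
  constructor
  · intro h
    refine ⟨h.hom, fun g i j => ?_⟩
    have h1 := h.rel g i (Pi.single j 1)
    have h2 : bm K D κ g ((β g).rel i) • (Pi.single j 1 : Fin s → PA D κ R) =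
        Pi.single j (bm K D κ g ((β g).rel i)) := by
      rw [← Pi.single_smul, smul_eq_mul, mul_one]
    rwa [h2] at h1
  · intro h
    refine ⟨h.hom, fun g i w => ?_⟩
    have h2 : bm K D κ g ((β g).rel i) • w =
        ∑ j, w j • (Pi.single j (bm K D κ g ((β g).rel i)) : Fin s → PA D κ R) := by
      funext j
      rw [Finset.sum_apply, Finset.sum_eq_single j]
      · rw [Pi.smul_apply, Pi.smul_apply, Pi.single_eq_same, smul_eq_mul, smul_eq_mul]
        exact bm_comm _ _ _
      · intro j' _ hj
        rw [Pi.smul_apply, Pi.single_eq_of_ne hj.symm, smul_zero]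
      · intro hj
        exact absurd (Finset.mem_univ _) hj
    rw [h2]
    exact Submodule.sum_mem _ fun j _ => N.smul_mem _ (h.rel g i j)

end

section rs
variable (K : Type u) [Field K] {D : Type u} [DivisionRing D] [Algebra K D] {κ : ℕ}

/-- constants -/
noncomputable def cpo (D : Type u) [DivisionRing D] (κ R : ℕ) (d : D) : PA D κ R :=
  AddMonoidAlgebra.single 0 d

/-- `N` in every copy -/
def cpw (I : Type) {π : Type} (N : Submodule (PA D κ 1) (π → PA D κ 1)) :
    Submodule (PA D κ 1) (I × π → PA D κ 1) where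
  carrier := {w | ∀ i, (fun q => w (i, q)) ∈ N}
  add_mem' ha hb i := N.add_mem (ha i) (hb i)
  zero_mem' _ := N.zero_mem
  smul_mem' k _ ha i := N.smul_mem k (ha i)

/-- The relations of `X^I / (∑ z_(j,i,k) f_k, a_(j',i) X)`, where `X = (PA D κ 1)^π / N` and the `f k`
are (constant) elements of `X`. -/
noncomputable def RS {I J J' π : Type} {t : ℕ} (N : Submodule (PA D κ 1) (π → PA D κ 1))
    (f : Fin t → π → D) (z : J → I → Fin t → K) (a : J' → I → K) :
    Submodule (PA D κ 1) (I × π → PA D κ 1) :=
  cpw I N ⊔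
    (Submodule.span (PA D κ 1) (Set.range fun j (w : I × π) =>
        cpo D κ 1 (∑ k, algebraMap K D (z j w.1 k) * f k w.2)) ⊔
      Submodule.span (PA D κ 1) {v | ∃ (j : J') (b : π → PA D κ 1),
        v = fun w : I × π => cpo D κ 1 (algebraMap K D (a j w.1)) * b w.2})

end rs

end Vale.Agent.P200.V
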