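import Vale.Agent.P200.V.RkNf

/-!
**(A), part 3: consequences of the normal form.**  (`exists_nf` as black box.)

* `mem_N0i_iff`: membership in `N0` componentwise;
* `qdi_N0i`: `dim (PA^s / N0)_n = s h_O(n)` for large `n`: the normal monomials `x^i y^j η^k` of degree `n`,
  `∑_{k ∈ Box} (n - |k| + 1) = δ (n + 1) - ∑_k |k|` for `n ≥ ∑ (e i - 1)`, and
  `∑_{k ∈ Box} |k| = δ ∑ (e i - 1) / 2` (symmetry `k ↦ e - 1 - k`);
* `free_xy`: `O = PA / N0` is torsion free over `D[x, y]` (`D[x, y]` is a domain; here only: if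
  `p = ∑ a_i x^(k-i) y^i ≠ 0` and `p * v = 0` in `AddMonoidAlgebra D (Fin 2 →₀ ℕ)` then `v = 0`, by leading monomials);
* `koszul_xy`: if `y f = x g` in `O` then `f = x h`, `g = y h` (coefficientwise in the normal form: `x` divides
  `f` because it divides `y f`).
-/

namespace Vale.Agent.P200.V

open Module

universe u

variable {K : Type u} [Field K] {D : Type u} [DivisionRing D] [Algebra K D] {κ : ℕ}

theorem mem_N0i_iff {R : ℕ} {ι : Type} [Finite ι] (β : Fin R → Blk K κ) (u : ι → PA D κ R) :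
    u ∈ N0i D β ι ↔ ∀ j, (fun _ => u j) ∈ N0i D β (Fin 1) := by
  classical
  cases nonempty_fintype ι
  constructor
  · intro hu j
    let L : (ι → PA D κ R) →ₗ[PA D κ R] (Fin 1 → PA D κ R) :=
      LinearMap.pi fun _ => LinearMap.proj j
    have h : N0i D β ι ≤ (N0i D β (Fin 1)).comap L := by
      refine Submodule.span_le.2 ?_
      rintro v ⟨g, i, w, rfl⟩
      change L _ ∈ N0i D β (Fin 1)
      rw [map_smul]
      exact Submodule.subset_span ⟨g, i, L w, rfl⟩
    exact h hu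
  · intro h
    have hsum : u = ∑ j, (Pi.single j (u j) : ι → PA D κ R) := by
      exact (Finset.univ_sum_single u).symm
    rw [hsum]
    refine Submodule.sum_mem _ fun j _ => ?_
    let L : (Fin 1 → PA D κ R) →ₗ[PA D κ R] (ι → PA D κ R) :=
      (LinearMap.single (PA D κ R) (fun _ : ι => PA D κ R) j).comp (LinearMap.proj 0)
    have hL : N0i D β (Fin 1) ≤ (N0i D β ι).comap L := by
      refine Submodule.span_le.2 ?_
      rintro v ⟨g, i, w, rfl⟩
      change L _ ∈ N0i D β ι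
      rw [map_smul]
      exact Submodule.subset_span ⟨g, i, L w, rfl⟩
    exact hL (h j)

/-- the normal form data -/
structure A4 (D : Type u) [DivisionRing D] [Algebra K D] (β : Blk K κ)
    (ν : PA D κ 1 →ₗ[D] ((∀ i, Fin (β.e i)) → AddMonoidAlgebra D (Fin 2 →₀ ℕ))) : Prop where
  ker : ∀ u, ν u = 0 ↔ (fun _ => u) ∈ N0i D (fun _ : Fin 1 => β) (Fin 1)
  mx : ∀ u k, ν (va D κ 1 (0, 0) * u) k =
    AddMonoidAlgebra.single (Finsupp.single 0 1) 1 * ν u k
  my : ∀ u k, ν (va D κ 1 (0, 1) * u) k =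
    AddMonoidAlgebra.single (Finsupp.single 1 1) 1 * ν u k
  et : ∀ k : (∀ i, Fin (β.e i)), ν (AddMonoidAlgebra.single
    (∑ i, Finsupp.single ((0 : Fin 1), i.succ.succ) (k i : ℕ)) 1) = Pi.single k 1
  hg : ∀ (n : ℕ) (u : PA D κ 1), u ∈ pp D κ 1 (fun _ => n) → ∀ k m, (ν u k).coeff m ≠ 0 →
    m 0 + m 1 + ∑ i, (k i : ℕ) = n

/-- the monomial `η^k` -/
noncomputable def a4eta (D : Type u) [DivisionRing D] {κ : ℕ} (k : Fin κ → ℕ) : PA D κ 1 :=
  AddMonoidAlgebra.single (∑ i, Finsupp.single ((0 : Fin 1), i.succ.succ) (k i)) 1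

theorem a4_exists (D : Type u) [DivisionRing D] [Algebra K D] (β : Blk K κ) :
    ∃ ν, A4 D β ν := by
  obtain ⟨ν, h1, h2, h3, h4, h5⟩ := exists_nf D β
  exact ⟨ν, ⟨h1, h2, h3, h4, h5⟩⟩

section
variable {β : Blk K κ}
  {ν : PA D κ 1 →ₗ[D] ((∀ i, Fin (β.e i)) → AddMonoidAlgebra D (Fin 2 →₀ ℕ))}

theorem a4_mul_pow {A : Type*} [AddCommMonoid A] (e : A) (n : ℕ) (v : AddMonoidAlgebra D A) :
    (AddMonoidAlgebra.single e (1 : D)) ^ n * v = AddMonoidAlgebra.single (n • e) 1 * v := by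
  rw [AddMonoidAlgebra.single_pow, one_pow]

theorem a4_x (h : A4 D β ν) (a : ℕ) (u : PA D κ 1) (k) :
    ν (va D κ 1 (0, 0) ^ a * u) k = (AddMonoidAlgebra.single (Finsupp.single 0 1) 1) ^ a * ν u k := by
  induction a with
  | zero => simp
  | succ a ih => rw [pow_succ', mul_assoc, h.mx, ih, pow_succ', mul_assoc]

theorem a4_y (h : A4 D β ν) (a : ℕ) (u : PA D κ 1) (k) :
    ν (va D κ 1 (0, 1) ^ a * u) k = (AddMonoidAlgebra.single (Finsupp.single 1 1) 1) ^ a * ν u k := by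
  induction a with
  | zero => simp
  | succ a ih => rw [pow_succ', mul_assoc, h.my, ih, pow_succ', mul_assoc]

theorem a4_mon (h : A4 D β ν) (a b : ℕ) (k l : ∀ i, Fin (β.e i)) :
    ν (va D κ 1 (0, 0) ^ a * (va D κ 1 (0, 1) ^ b * a4eta D fun i => (k i : ℕ))) l =
      if l = k then AddMonoidAlgebra.single (Finsupp.single 0 a + Finsupp.single 1 b) 1 else 0 := by
  classical
  rw [a4_x h, a4_y h, a4eta, h.et k]
  by_cases hl : l = k
  · subst hl
    rw [if_pos rfl, Pi.single_eq_same, mul_one, AddMonoidAlgebra.single_pow,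
      AddMonoidAlgebra.single_pow, AddMonoidAlgebra.single_mul_single]
    simp
  · rw [if_neg hl, Pi.single_eq_of_ne hl, mul_zero, mul_zero]

theorem a4_fin2 (m : Fin 2 →₀ ℕ) : Finsupp.single 0 (m 0) + Finsupp.single 1 (m 1) = m := by
  ext i
  fin_cases i <;> simp

theorem a4_surj (h : A4 D β ν) (w : (∀ i, Fin (β.e i)) → AddMonoidAlgebra D (Fin 2 →₀ ℕ)) :
    ∃ p, ν p = w := by
  classical
  refine ⟨∑ k, ∑ m ∈ (w k).coeff.support, (w k).coeff m •
    (va D κ 1 (0, 0) ^ (m 0) * (va D κ 1 (0, 1) ^ (m 1) * a4eta D fun i => (k i : ℕ))), ?_⟩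
  funext l
  rw [map_sum, Finset.sum_apply]
  have h1 : ∀ k, (ν (∑ m ∈ (w k).coeff.support, (w k).coeff m •
      (va D κ 1 (0, 0) ^ (m 0) * (va D κ 1 (0, 1) ^ (m 1) * a4eta D fun i => (k i : ℕ))))) l =
      if l = k then w k else 0 := by
    intro k
    rw [map_sum, Finset.sum_apply]
    have h2 : ∀ m : Fin 2 →₀ ℕ, (ν ((w k).coeff m •
        (va D κ 1 (0, 0) ^ (m 0) * (va D κ 1 (0, 1) ^ (m 1) * a4eta D fun i => (k i : ℕ))))) l =
        if l = k then AddMonoidAlgebra.single m ((w k).coeff m) else 0 := by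
      intro m
      rw [map_smul, Pi.smul_apply, a4_mon h, a4_fin2]
      split_ifs
      · apply AddMonoidAlgebra.ext
        simp
      · simp
    simp only [h2]
    split_ifs
    · apply AddMonoidAlgebra.ext
      rw [AddMonoidAlgebra.coeff_sum]
      exact Finsupp.sum_single (w k).coeff
    · simp
  simp only [h1]
  simp

end

theorem free_xy (β : Blk K κ) {u : PA D κ 1}
    (hu : (fun _ => u) ∉ N0i D (fun _ : Fin 1 => β) (Fin 1)) (k : ℕ) (a : Fin (k + 1) → D)
    (h : (fun _ => ∑ i : Fin (k + 1), a i •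
      (va D κ 1 (0, 0) ^ (k - i : ℕ) * va D κ 1 (0, 1) ^ (i : ℕ) * u)) ∈
      N0i D (fun _ : Fin 1 => β) (Fin 1)) : a = 0 := by
  classical
  obtain ⟨ν, hν⟩ := a4_exists D β
  rw [← hν.ker] at hu h
  obtain ⟨l, hl⟩ : ∃ l, ν u l ≠ 0 := by
    by_contra hc
    push Not at hc
    exact hu (funext hc)
  have h1 := congrFun h l
  rw [map_sum, Finset.sum_apply] at h1
  set p : AddMonoidAlgebra D (Fin 2 →₀ ℕ) := ∑ i : Fin (k + 1),
    AddMonoidAlgebra.single (Finsupp.single 0 (k - i : ℕ) + Finsupp.single 1 (i : ℕ)) (a i) with hp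
  have h2 : p * ν u l = 0 := by
    rw [hp, Finset.sum_mul]
    rw [Pi.zero_apply] at h1
    rw [← h1]
    refine Finset.sum_congr rfl fun i _ => ?_
    rw [map_smul, Pi.smul_apply, mul_assoc, a4_x hν, a4_y hν, ← mul_assoc,
      AddMonoidAlgebra.single_pow, AddMonoidAlgebra.single_pow,
      AddMonoidAlgebra.single_mul_single, ← smul_mul_assoc]
    refine congrArg (fun z => z * ν u l) ?_
    apply AddMonoidAlgebra.ext
    simp
  have h3 : p = 0 := (mul_eq_zero.1 h2).resolve_right hl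
  funext i
  have h4 : p.coeff (Finsupp.single 0 (k - i : ℕ) + Finsupp.single 1 (i : ℕ)) = a i := by
    rw [hp, AddMonoidAlgebra.coeff_sum, Finsupp.finsetSum_apply, Finset.sum_eq_single i]
    · simp
    · intro j _ hj
      rw [AddMonoidAlgebra.coeff_single, Finsupp.single_apply, if_neg]
      intro hc
      apply hj
      have := DFunLike.congr_fun hc 1
      simp only [Finsupp.add_apply, Finsupp.single_apply] at this
      simp at this
      exact Fin.ext this
    · intro hi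
      exact absurd (Finset.mem_univ i) hi
  rw [h3] at h4
  simpa using h4.symm

theorem a4_div {F G : AddMonoidAlgebra D (Fin 2 →₀ ℕ)}
    (h : AddMonoidAlgebra.single (Finsupp.single 1 1) 1 * F =
      AddMonoidAlgebra.single (Finsupp.single 0 1) 1 * G) :
    ∃ H : AddMonoidAlgebra D (Fin 2 →₀ ℕ),
      F = AddMonoidAlgebra.single (Finsupp.single 0 1) 1 * H ∧
      G = AddMonoidAlgebra.single (Finsupp.single 1 1) 1 * H := by
  classical
  set X : AddMonoidAlgebra D (Fin 2 →₀ ℕ) := AddMonoidAlgebra.single (Finsupp.single 0 1) 1 with hX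
  set Y : AddMonoidAlgebra D (Fin 2 →₀ ℕ) := AddMonoidAlgebra.single (Finsupp.single 1 1) 1 with hY
  have hinj : Function.Injective fun m : Fin 2 →₀ ℕ => Finsupp.single 0 1 + m :=
    fun a b hab => add_left_cancel hab
  let H : AddMonoidAlgebra D (Fin 2 →₀ ℕ) :=
    AddMonoidAlgebra.ofCoeff (F.coeff.comapDomain (fun m => Finsupp.single 0 1 + m) hinj.injOn)
  have hH : ∀ m, H.coeff m = F.coeff (Finsupp.single 0 1 + m) := fun m => rfl
  have h0 : ∀ m : Fin 2 →₀ ℕ, m 0 = 0 → F.coeff m = 0 := by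
    intro m hm
    have h1 : (Y * F).coeff (Finsupp.single 1 1 + m) = F.coeff m := by
      rw [hY, AddMonoidAlgebra.coeff_single_mul_add, one_mul]
    rw [← h1, h, hX]
    refine AddMonoidAlgebra.coeff_single_mul_of_forall_add_ne _ _ fun d hd => ?_
    have := DFunLike.congr_fun hd 0
    simp [hm] at this
  have h1 : F = X * H := by
    apply AddMonoidAlgebra.ext
    ext m
    by_cases hm : m 0 = 0
    · rw [h0 m hm, hX]
      symm
      refine AddMonoidAlgebra.coeff_single_mul_of_forall_add_ne _ _ fun d hd => ?_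
      have := DFunLike.congr_fun hd 0
      simp [hm] at this
    · have hm' : m = Finsupp.single 0 1 + (Finsupp.single 0 (m 0 - 1) + Finsupp.single 1 (m 1)) := by
        ext i
        fin_cases i
        · simp
          omega
        · simp
      rw [hm', hX, AddMonoidAlgebra.coeff_single_mul_add, one_mul, hH]
  refine ⟨H, h1, ?_⟩
  have h2 : X * G = X * (Y * H) := by
    rw [← h, h1, ← mul_assoc, ← mul_assoc]
    refine congrArg (fun z => z * H) ?_
    rw [hX, hY, AddMonoidAlgebra.single_mul_single, AddMonoidAlgebra.single_mul_single, add_comm]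
  have hX0 : X ≠ 0 := by
    rw [hX, Ne, AddMonoidAlgebra.single_eq_zero]
    exact one_ne_zero
  exact mul_left_cancel₀ hX0 h2

theorem koszul_xy (β : Blk K κ) {f g : PA D κ 1}
    (h : (fun _ => va D κ 1 (0, 1) * f - va D κ 1 (0, 0) * g) ∈
      N0i D (fun _ : Fin 1 => β) (Fin 1)) :
    ∃ p : PA D κ 1, (fun _ => f - va D κ 1 (0, 0) * p) ∈ N0i D (fun _ : Fin 1 => β) (Fin 1) ∧
      (fun _ => g - va D κ 1 (0, 1) * p) ∈ N0i D (fun _ : Fin 1 => β) (Fin 1) := by
  obtain ⟨ν, hν⟩ := a4_exists D β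
  rw [← hν.ker, map_sub] at h
  have h1 : ∀ k, ∃ H : AddMonoidAlgebra D (Fin 2 →₀ ℕ),
      ν f k = AddMonoidAlgebra.single (Finsupp.single 0 1) 1 * H ∧
      ν g k = AddMonoidAlgebra.single (Finsupp.single 1 1) 1 * H := by
    intro k
    refine a4_div ?_
    have h2 := congrFun h k
    rw [Pi.sub_apply, Pi.zero_apply, hν.mx, hν.my] at h2
    exact sub_eq_zero.1 h2
  choose H hF hG using h1
  obtain ⟨p, hp⟩ := a4_surj hν H
  refine ⟨p, ?_, ?_⟩
  · rw [← hν.ker, map_sub, sub_eq_zero]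
    funext k
    rw [hν.mx, hp, hF]
  · rw [← hν.ker, map_sub, sub_eq_zero]
    funext k
    rw [hν.my, hp, hG]

/-! ### the Hilbert function of `PA^s / N0` -/

theorem a4_box_sum (e : Fin κ → ℕ) :
    2 * ∑ k : ∀ i, Fin (e i), ∑ i, ((k i : ℕ) : ℤ) = dl e * ∑ i, ((e i : ℤ) - 1) := by
  have h1 : ∑ k : ∀ i, Fin (e i), ∑ i, ((k i : ℕ) : ℤ) =
      ∑ k : ∀ i, Fin (e i), ∑ i, ((e i : ℤ) - 1 - ((k i : ℕ) : ℤ)) := by
    refine Fintype.sum_equiv (Equiv.piCongrRight fun i => (Fin.revPerm : Fin (e i) ≃ Fin (e i)))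
      _ _ fun k => ?_
    refine Finset.sum_congr rfl fun i _ => ?_
    have h2 : ((Fin.rev (k i) : Fin (e i)) : ℕ) = e i - (k i + 1) := Fin.val_rev (k i)
    have h3 := (k i).2
    simp only [Equiv.piCongrRight_apply, Pi.map_apply, Fin.revPerm_apply]
    rw [h2]
    have : ((e i - ((k i : ℕ) + 1) : ℕ) : ℤ) = (e i : ℤ) - ((k i : ℕ) + 1) := by
      push_cast [Nat.cast_sub (show (k i : ℕ) + 1 ≤ e i from h3)]
      ring
    rw [this]
    ring
  have h2 : ∑ k : ∀ i, Fin (e i), ∑ i, ((k i : ℕ) : ℤ) +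
      ∑ k : ∀ i, Fin (e i), ∑ i, ((e i : ℤ) - 1 - ((k i : ℕ) : ℤ)) =
      dl e * ∑ i, ((e i : ℤ) - 1) := by
    rw [← Finset.sum_add_distrib]
    have h3 : ∀ k : ∀ i, Fin (e i), ∑ i, ((k i : ℕ) : ℤ) + ∑ i, ((e i : ℤ) - 1 - ((k i : ℕ) : ℤ)) =
        ∑ i, ((e i : ℤ) - 1) := by
      intro k
      rw [← Finset.sum_add_distrib]
      refine Finset.sum_congr rfl fun i _ => ?_
      ring
    rw [Finset.sum_congr rfl fun k _ => h3 k, Finset.sum_const, Finset.card_univ, Fintype.card_pi]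
    simp [dl]
  linarith

/-- the index of the normal monomials of degree `n` -/
abbrev a4I (ι : Type) {κ : ℕ} (e : Fin κ → ℕ) (n : ℕ) : Type :=
  ι × (Σ k : (∀ i, Fin (e i)), Fin (n - ∑ i, (k i : ℕ) + 1))

theorem a4_card (ι : Type) [Fintype ι] (β : Blk K κ) (n : ℕ) (hn : ∑ i, β.e i ≤ n) :
    (Fintype.card (a4I ι β.e n) : ℤ) = Nat.card ι * hO β.e n := by
  rw [Fintype.card_prod, Fintype.card_sigma, ← Nat.card_eq_fintype_card (α := ι)]
  push_cast
  refine congrArg (fun z => (Nat.card ι : ℤ) * z) ?_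
  have h1 : ∀ k : ∀ i, Fin (β.e i), ∑ i, (k i : ℕ) ≤ n := by
    intro k
    exact (Finset.sum_le_sum fun i _ => (k i).2.le).trans hn
  have h2 : ∀ k : ∀ i, Fin (β.e i), ((Fintype.card (Fin (n - ∑ i, (k i : ℕ) + 1)) : ℕ) : ℤ) =
      ((n : ℤ) + 1) - ∑ i, ((k i : ℕ) : ℤ) := by
    intro k
    rw [Fintype.card_fin]
    push_cast [Nat.cast_sub (h1 k)]
    ring
  rw [Finset.sum_congr rfl fun k _ => h2 k, Finset.sum_sub_distrib, Finset.sum_const,
    Finset.card_univ, Fintype.card_pi, hO]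
  have h3 := a4_box_sum β.e
  have h5 : (dl β.e * ∑ i, ((β.e i : ℤ) - 1)) / 2 = ∑ k : ∀ i, Fin (β.e i), ∑ i, ((k i : ℕ) : ℤ) := by
    rw [← h3]
    exact Int.mul_ediv_cancel_left _ (by norm_num)
  rw [h5]
  simp [dl]

theorem a4_mdeg_single (v : Fin (κ + 2)) (c : ℕ) (g : Fin 1) :
    mdeg (Finsupp.single ((0 : Fin 1), v) c) g = c := by
  have hg : g = 0 := Subsingleton.elim _ _
  subst hg
  rw [mdeg, Finset.sum_eq_single v]
  · simp
  · intro w _ hw
    rw [Finsupp.single_apply, if_neg]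
    intro h
    exact hw (Prod.mk.inj h).2.symm
  · intro h
    exact absurd (Finset.mem_univ v) h

theorem a4_mdeg_add {R : ℕ} (m m' : Mon κ R) (g : Fin R) :
    mdeg (m + m') g = mdeg m g + mdeg m' g := by
  simp [mdeg, Finset.sum_add_distrib]

theorem a4_mdeg_sum {R : ℕ} {I : Type*} (S : Finset I) (m : I → Mon κ R) (g : Fin R) :
    mdeg (∑ i ∈ S, m i) g = ∑ i ∈ S, mdeg (m i) g := by
  simp only [mdeg, Finsupp.finsetSum_apply]
  exact Finset.sum_comm

theorem a4_mon_mem (a b : ℕ) (k : Fin κ → ℕ) :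
    va D κ 1 (0, 0) ^ a * (va D κ 1 (0, 1) ^ b * a4eta D k) ∈
      pp D κ 1 (fun _ => a + b + ∑ i, k i) := by
  rw [va, va, a4eta, AddMonoidAlgebra.single_pow, AddMonoidAlgebra.single_pow,
    AddMonoidAlgebra.single_mul_single, AddMonoidAlgebra.single_mul_single]
  intro m hm
  rw [AddMonoidAlgebra.coeff_single, Finsupp.single_apply] at hm
  have hm' : a • Finsupp.single ((0 : Fin 1), (0 : Fin (κ + 2))) 1 +
      (b • Finsupp.single ((0 : Fin 1), (1 : Fin (κ + 2))) 1 +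
        ∑ i, Finsupp.single ((0 : Fin 1), i.succ.succ) (k i)) = m := by
    by_contra hc
    exact hm (if_neg hc)
  subst hm'
  funext g
  rw [a4_mdeg_add, a4_mdeg_add, a4_mdeg_sum, Finsupp.smul_single, Finsupp.smul_single,
    a4_mdeg_single, a4_mdeg_single, Finset.sum_congr rfl fun i _ => a4_mdeg_single _ _ g]
  simp only [smul_eq_mul, mul_one]
  ring

section
variable {β : Blk K κ}

/-- the coefficients of the normal form -/
noncomputable def a4Phi
    (ν : PA D κ 1 →ₗ[D] ((∀ i, Fin (β.e i)) → AddMonoidAlgebra D (Fin 2 →₀ ℕ))) (ι : Type)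
    (n : ℕ) : (pvi D κ 1 ι (fun _ => n)) →ₗ[D] (a4I ι β.e n → D) where
  toFun u w := (ν ((u : ι → PA D κ 1) w.1) w.2.1).coeff
    (Finsupp.single 0 (n - ∑ i, (w.2.1 i : ℕ) - (w.2.2 : ℕ)) + Finsupp.single 1 (w.2.2 : ℕ))
  map_add' u v := by
    funext w
    simp only [Submodule.coe_add, Pi.add_apply, map_add, AddMonoidAlgebra.coeff_add,
      Finsupp.add_apply]
  map_smul' d u := by
    funext w
    simp only [Submodule.coe_smul, Pi.smul_apply, map_smul, AddMonoidAlgebra.coeff_smul_apply,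
      RingHom.id_apply]

theorem a4_ker {ν : PA D κ 1 →ₗ[D] ((∀ i, Fin (β.e i)) → AddMonoidAlgebra D (Fin 2 →₀ ℕ))}
    (h : A4 D β ν) (ι : Type) [Finite ι] (n : ℕ) (u : pvi D κ 1 ι (fun _ => n)) :
    a4Phi ν ι n u = 0 ↔ (u : ι → PA D κ 1) ∈ N0i D (fun _ : Fin 1 => β) ι := by
  rw [mem_N0i_iff]
  constructor
  · intro hu j
    rw [← h.ker]
    funext k
    apply AddMonoidAlgebra.ext
    ext m
    by_contra hm
    have h1 := h.hg n _ (u.2 j) k m hm
    have h2 : m 1 < n - ∑ i, (k i : ℕ) + 1 := by omega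
    have h3 := congrFun hu (j, ⟨k, ⟨m 1, h2⟩⟩)
    apply hm
    have h4 : Finsupp.single 0 (n - ∑ i, (k i : ℕ) - m 1) + Finsupp.single 1 (m 1) = m := by
      rw [show n - ∑ i, (k i : ℕ) - m 1 = m 0 by omega, a4_fin2]
    have h5 : a4Phi ν ι n u (j, ⟨k, ⟨m 1, h2⟩⟩) = (ν ((u : ι → PA D κ 1) j) k).coeff
      (Finsupp.single 0 (n - ∑ i, (k i : ℕ) - m 1) + Finsupp.single 1 (m 1)) := rfl
    rw [h5, h4] at h3
    exact h3
  · intro hu
    funext w
    have h1 := (h.ker _).2 (hu w.1)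
    change (ν ((u : ι → PA D κ 1) w.1) w.2.1).coeff _ = 0
    rw [h1]
    rfl

theorem a4_range {ν : PA D κ 1 →ₗ[D] ((∀ i, Fin (β.e i)) → AddMonoidAlgebra D (Fin 2 →₀ ℕ))}
    (h : A4 D β ν) (ι : Type) (n : ℕ) (hn : ∑ i, β.e i ≤ n) :
    LinearMap.range (a4Phi ν ι n) = ⊤ := by
  classical
  rw [LinearMap.range_eq_top]
  intro c
  have h1 : ∀ k : ∀ i, Fin (β.e i), ∑ i, (k i : ℕ) ≤ n := by
    intro k
    exact (Finset.sum_le_sum fun i _ => (k i).2.le).trans hn
  let p : ι → PA D κ 1 := fun j => ∑ k : (∀ i, Fin (β.e i)),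
    ∑ l : Fin (n - ∑ i, (k i : ℕ) + 1), c (j, ⟨k, l⟩) •
      (va D κ 1 (0, 0) ^ (n - ∑ i, (k i : ℕ) - (l : ℕ)) *
        (va D κ 1 (0, 1) ^ (l : ℕ) * a4eta D fun i => (k i : ℕ)))
  have hp : p ∈ pvi D κ 1 ι (fun _ => n) := by
    intro j
    refine Submodule.sum_mem _ fun k _ => Submodule.sum_mem _ fun l _ => Submodule.smul_mem _ _ ?_
    have h2 := a4_mon_mem (D := D) (n - ∑ i, (k i : ℕ) - (l : ℕ)) (l : ℕ)
      (fun i => (k i : ℕ))
    have h3 := l.2
    have h4 := h1 k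
    have h5 : n - ∑ i, (k i : ℕ) - (l : ℕ) + (l : ℕ) + ∑ i, (k i : ℕ) = n := by omega
    rw [h5] at h2
    exact h2
  refine ⟨⟨p, hp⟩, ?_⟩
  funext w
  obtain ⟨j, k, l⟩ := w
  change (ν (p j) k).coeff
    (Finsupp.single 0 (n - ∑ i, (k i : ℕ) - (l : ℕ)) + Finsupp.single 1 (l : ℕ)) = c (j, ⟨k, l⟩)
  have h2 : ν (p j) k = ∑ k' : (∀ i, Fin (β.e i)), ∑ l' : Fin (n - ∑ i, (k' i : ℕ) + 1),
      if k = k' then AddMonoidAlgebra.single (Finsupp.single 0 (n - ∑ i, (k' i : ℕ) - (l' : ℕ)) +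
        Finsupp.single 1 (l' : ℕ)) (c (j, ⟨k', l'⟩)) else 0 := by
    simp only [p]
    rw [map_sum, Finset.sum_apply]
    refine Finset.sum_congr rfl fun k' _ => ?_
    rw [map_sum, Finset.sum_apply]
    refine Finset.sum_congr rfl fun l' _ => ?_
    rw [map_smul, Pi.smul_apply, a4_mon h]
    split_ifs
    · apply AddMonoidAlgebra.ext
      simp
    · simp
  rw [h2, Finset.sum_eq_single k]
  · simp only [if_true]
    rw [AddMonoidAlgebra.coeff_sum, Finsupp.finsetSum_apply, Finset.sum_eq_single l]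
    · rw [AddMonoidAlgebra.coeff_single, Finsupp.single_eq_same]
    · intro l' _ hl
      rw [AddMonoidAlgebra.coeff_single, Finsupp.single_apply, if_neg]
      intro hc
      apply hl
      have := DFunLike.congr_fun hc 1
      simp only [Finsupp.add_apply, Finsupp.single_apply] at this
      simp at this
      exact Fin.ext this
    · intro hl
      exact absurd (Finset.mem_univ l) hl
  · intro k' _ hk
    refine Finset.sum_eq_zero fun l' _ => if_neg fun hc => hk hc.symm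
  · intro hk
    exact absurd (Finset.mem_univ k) hk

end

theorem qdi_N0i (D : Type u) [DivisionRing D] [Algebra K D] (β : Blk K κ) (ι : Type)
    [Finite ι] : ∃ n0 : ℕ, ∀ n, n0 ≤ n →
      (qdi (N0i D (fun _ : Fin 1 => β) ι) (fun _ => n) : ℤ) = Nat.card ι * hO β.e n := by
  cases nonempty_fintype ι
  obtain ⟨ν, hν⟩ := a4_exists D β
  refine ⟨∑ i, β.e i, fun n hn => ?_⟩
  rw [← a4_card ι β n hn]
  refine congrArg (fun z : ℕ => (z : ℤ)) ?_
  have hfd : FiniteDimensional D (pvi D κ 1 ι fun _ => n) := finite_pvi _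
  have h1 := LinearMap.finrank_range_add_finrank_ker (a4Phi ν ι n)
  rw [a4_range hν ι n hn, finrank_top, Module.finrank_fintype_fun_eq_card] at h1
  have h2 : finrank D (LinearMap.ker (a4Phi ν ι n)) =
      finrank D (pvi D κ 1 ι (fun _ => n) ⊓
        (N0i D (fun _ : Fin 1 => β) ι).restrictScalars D : Submodule D _) := by
    have h3 : Submodule.map (pvi D κ 1 ι (fun _ => n)).subtype (LinearMap.ker (a4Phi ν ι n)) =
        pvi D κ 1 ι (fun _ => n) ⊓ (N0i D (fun _ : Fin 1 => β) ι).restrictScalars D := by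
      ext v
      simp only [Submodule.mem_map, LinearMap.mem_ker, Submodule.mem_inf,
        Submodule.restrictScalars_mem, Submodule.subtype_apply]
      constructor
      · rintro ⟨w, hw, rfl⟩
        exact ⟨w.2, (a4_ker hν ι n w).1 hw⟩
      · rintro ⟨h4, h5⟩
        exact ⟨⟨v, h4⟩, (a4_ker hν ι n ⟨v, h4⟩).2 h5, rfl⟩
    rw [← h3, Submodule.finrank_map_subtype_eq]
  rw [qdi, ← h2]
  omega

end Vale.Agent.P200.V
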