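import Vale.Agent.P200.V.RkDefs

/-!
**(A), part 1: dimensions of the graded pieces of the objects.**

All statements are elementary (components, finite dimension, the smallest object `N0i`).
-/

namespace Vale.Agent.P200.V

open Module

universe u

variable {K : Type u} [Field K] {D : Type u} [DivisionRing D] [Algebra K D] {κ R : ℕ}
  {ι : Type}

/-! ### Components of polynomials -/

section comp

theorem a1_cp_coeff (n : Fin R → ℕ) (u : PA D κ R) (m : Mon κ R) :
    (cp D κ R n u).coeff m = if mdeg m = n then u.coeff m else 0 := by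
  change (u.coeff.filter fun m => mdeg m = n) m = _
  rw [Finsupp.filter_apply]

theorem a1_cp_mem (n : Fin R → ℕ) (u : PA D κ R) : cp D κ R n u ∈ pp D κ R n := by
  intro m hm
  rw [a1_cp_coeff] at hm
  by_contra h
  rw [if_neg h] at hm
  exact hm rfl

theorem a1_cp_of_mem {n : Fin R → ℕ} {u : PA D κ R} (hu : u ∈ pp D κ R n) :
    cp D κ R n u = u := by
  apply AddMonoidAlgebra.ext
  ext m
  rw [a1_cp_coeff]
  split_ifs with h
  · rfl
  · by_contra h'
    exact h (hu m (fun h0 => h' h0.symm))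

theorem a1_cp_of_mem_ne {n n' : Fin R → ℕ} {u : PA D κ R} (hu : u ∈ pp D κ R n) (h : n' ≠ n) :
    cp D κ R n' u = 0 := by
  apply AddMonoidAlgebra.ext
  ext m
  rw [a1_cp_coeff, AddMonoidAlgebra.coeff_zero, Finsupp.zero_apply]
  split_ifs with h1
  · by_contra h'
    exact h (h1.symm.trans (hu m h'))
  · rfl

/-- the monomials of one multidegree are finitely many -/
theorem a1_finite_mon (κ : ℕ) {R : ℕ} (n : Fin R → ℕ) : {m : Mon κ R | mdeg m = n}.Finite := by
  apply (Set.finite_Iic (Finsupp.equivFunOnFinite.symm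
    (fun v : Fin R × Fin (κ + 2) => n v.1) : Mon κ R)).subset
  intro m hm
  rw [Set.mem_Iic, Finsupp.le_def]
  rintro ⟨g, v⟩
  rw [Set.mem_ofPred_eq] at hm
  change m (g, v) ≤ n g
  rw [← hm]
  exact Finset.single_le_sum (f := fun v => m (g, v)) (fun _ _ => Nat.zero_le _)
    (Finset.mem_univ v)

theorem a1_finite_pp (n : Fin R → ℕ) : Module.Finite D (pp D κ R n) := by
  let S := (a1_finite_mon κ n).toFinset
  let e : (pp D κ R n) →ₗ[D] (S → D) :=
    { toFun := fun u m => u.1.coeff m.1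
      map_add' := fun u v => rfl
      map_smul' := fun k u => by
        funext m
        change (k • u.1).coeff m.1 = k • u.1.coeff m.1
        rw [AddMonoidAlgebra.coeff_smul_apply] }
  apply Module.Finite.of_injective e
  intro u v huv
  apply Subtype.ext
  apply AddMonoidAlgebra.ext
  ext m
  by_cases h : mdeg m = n
  · exact congrFun huv ⟨m, by simpa [S] using h⟩
  · have h1 : u.1.coeff m = 0 := by
      by_contra h'
      exact h (u.2 m h')
    have h2 : v.1.coeff m = 0 := by
      by_contra h'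
      exact h (v.2 m h')
    rw [h1, h2]

theorem a1_mdeg_add (m m' : Mon κ R) : mdeg (m + m') = mdeg m + mdeg m' := by
  funext g
  rw [Pi.add_apply]
  unfold mdeg
  rw [← Finset.sum_add_distrib]
  rfl

theorem a1_single_mem (m : Mon κ R) (d : D) : AddMonoidAlgebra.single m d ∈ pp D κ R (mdeg m) := by
  intro m' hm'
  rw [AddMonoidAlgebra.coeff_single] at hm'
  by_contra h
  rw [Finsupp.single_eq_of_ne (fun h' => h (by rw [h']))] at hm'
  exact hm' rfl

theorem a1_cp_single (n : Fin R → ℕ) (m : Mon κ R) (d : D) :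
    cp D κ R n (AddMonoidAlgebra.single m d) =
      if mdeg m = n then AddMonoidAlgebra.single m d else 0 := by
  split_ifs with h
  · exact a1_cp_of_mem (h ▸ a1_single_mem m d)
  · exact a1_cp_of_mem_ne (a1_single_mem m d) (Ne.symm h)

/-- products of homogeneous polynomials -/
theorem a1_mul_mem {d d' : Fin R → ℕ} {p q : PA D κ R} (hp : p ∈ pp D κ R d)
    (hq : q ∈ pp D κ R d') : p * q ∈ pp D κ R (d + d') := by
  classical
  intro m hm
  have h1 := AddMonoidAlgebra.support_coeff_mul_subset p q (Finsupp.mem_support_iff.2 hm)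
  obtain ⟨a, ha, b, hb, rfl⟩ := Finset.mem_add.1 h1
  rw [a1_mdeg_add, hp a (Finsupp.mem_support_iff.1 ha), hq b (Finsupp.mem_support_iff.1 hb)]

/-- a monomial -/
theorem a1_bm_monomial (g : Fin R) (m : Fin (κ + 2) →₀ ℕ) (a : K) :
    bm K D κ g (MvPolynomial.monomial m a) =
      AddMonoidAlgebra.single (Finsupp.mapDomain (fun v : Fin (κ + 2) => (g, v)) m)
        (algebraMap K D a) := by
  have h1 : AddMonoidAlgebra.mapDomainAlgHom K K
      (Finsupp.mapDomain.addMonoidHom fun v : Fin (κ + 2) => (g, v))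
        (AddMonoidAlgebra.single m a) =
      AddMonoidAlgebra.single (Finsupp.mapDomain (fun v : Fin (κ + 2) => (g, v)) m) a := by
    exact AddMonoidAlgebra.mapDomain_single
  change AddMonoidAlgebra.mapAlgHom (R := K) (Mon κ R) (Algebra.ofId K D)
    (AddMonoidAlgebra.mapDomainAlgHom K K
      (Finsupp.mapDomain.addMonoidHom fun v : Fin (κ + 2) => (g, v))
        (AddMonoidAlgebra.single m a)) = _
  rw [h1, AddMonoidAlgebra.mapAlgHom_single]
  rfl

theorem a1_bm_X (g : Fin R) (v : Fin (κ + 2)) :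
    bm K D κ g (MvPolynomial.X v) = va D κ R (g, v) := by
  rw [MvPolynomial.X, a1_bm_monomial, Finsupp.mapDomain_single, map_one]
  rfl

/-- the multidegree of a monomial of the block `g` -/
theorem a1_mdeg_mapDomain (g : Fin R) (m : Fin (κ + 2) →₀ ℕ) :
    mdeg (Finsupp.mapDomain (fun v : Fin (κ + 2) => (g, v)) m : Mon κ R) =
      Pi.single g m.degree := by
  funext g'
  unfold mdeg
  by_cases h : g' = g
  · subst h
    rw [Pi.single_eq_same, Finsupp.degree_eq_sum]
    apply Finset.sum_congr rfl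
    intro v _
    exact Finsupp.mapDomain_apply (fun a b hab => (Prod.ext_iff.1 hab).2) m v
  · rw [Pi.single_eq_of_ne h]
    apply Finset.sum_eq_zero
    intro v _
    apply Finsupp.mapDomain_of_notMem_range
    rintro ⟨w, hw⟩
    exact h (Prod.ext_iff.1 hw).1.symm

/-- homogeneous polynomials over `K` in one block -/
theorem a1_bm_mem (g : Fin R) {p : MvPolynomial (Fin (κ + 2)) K} {e : ℕ}
    (hp : p.IsHomogeneous e) : bm K D κ g p ∈ pp D κ R (Pi.single g e) := by
  rw [p.as_sum, map_sum]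
  apply Submodule.sum_mem
  intro m hm
  rw [a1_bm_monomial]
  have h1 : m.degree = e := by
    by_contra h
    exact (MvPolynomial.mem_support_iff.1 hm) (hp.coeff_eq_zero h)
  have h2 := a1_single_mem (Finsupp.mapDomain (fun v : Fin (κ + 2) => (g, v)) m : Mon κ R)
    (algebraMap K D (MvPolynomial.coeff m p))
  rw [a1_mdeg_mapDomain, h1] at h2
  exact h2

/-- every polynomial is the sum of its components -/
theorem a1_sum_cp (u : PA D κ R) : ∃ S : Finset (Fin R → ℕ), u = ∑ n ∈ S, cp D κ R n u := by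
  classical
  refine ⟨u.coeff.support.image mdeg, ?_⟩
  apply AddMonoidAlgebra.ext
  ext m
  rw [AddMonoidAlgebra.coeff_sum, Finsupp.finsetSum_apply,
    Finset.sum_congr rfl fun n _ => a1_cp_coeff n u m, Finset.sum_ite_eq]
  split_ifs with h
  · rfl
  · by_contra h'
    apply h
    exact Finset.mem_image_of_mem _ (Finsupp.mem_support_iff.2 h')

/-- a product with a homogeneous polynomial has no components in the other degrees -/
theorem a1_cp_mul_zero {d n : Fin R → ℕ} {p : PA D κ R} (hp : p ∈ pp D κ R d)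
    (h : ∀ n', n ≠ n' + d) (u : PA D κ R) : cp D κ R n (p * u) = 0 := by
  obtain ⟨S, hS⟩ := a1_sum_cp u
  rw [hS, Finset.mul_sum, map_sum]
  apply Finset.sum_eq_zero
  intro n' _
  apply a1_cp_of_mem_ne (a1_mul_mem hp (a1_cp_mem n' u))
  rw [add_comm]
  exact h n'

end comp

/-- the submodule generated by the relations -/
noncomputable def N0i (D : Type u) [DivisionRing D] [Algebra K D] (β : Fin R → Blk K κ)
    (ι : Type) : Submodule (PA D κ R) (ι → PA D κ R) :=
  Submodule.span _ {u | ∃ g i, ∃ w : ι → PA D κ R, u = bm K D κ g ((β g).rel i) • w}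

/-- the relations are homogeneous: degree `(β g).e i` in the block `g`, degree `0` in the others -/
theorem bm_rel_mem (β : Fin R → Blk K κ) (g : Fin R) (i : Fin κ) :
    bm K D κ g ((β g).rel i) ∈ pp D κ R (Pi.single g ((β g).e i)) := by
  apply a1_bm_mem
  unfold Blk.rel
  exact (MvPolynomial.isHomogeneous_X_pow _ _).sub ((β g).hom i)

/-- the graded pieces are finite dimensional -/
theorem finite_pvi [Finite ι] (n : Fin R → ℕ) : FiniteDimensional D (pvi D κ R ι n) := by
  have := a1_finite_pp (D := D) (κ := κ) n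
  let e : (pvi D κ R ι n) →ₗ[D] (ι → pp D κ R n) :=
    { toFun := fun u i => ⟨u.1 i, u.2 i⟩
      map_add' := fun u v => rfl
      map_smul' := fun k u => rfl }
  apply Module.Finite.of_injective e
  intro u v huv
  apply Subtype.ext
  funext i
  exact congrArg Subtype.val (congrFun huv i)

theorem cvi_mem (n : Fin R → ℕ) (u : ι → PA D κ R) : cvi D κ R ι n u ∈ pvi D κ R ι n :=
  fun i => a1_cp_mem n (u i)

theorem cvi_of_mem {n : Fin R → ℕ} {u : ι → PA D κ R} (hu : u ∈ pvi D κ R ι n) :
    cvi D κ R ι n u = u := funext fun i => a1_cp_of_mem (hu i)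

theorem cvi_of_mem_ne {n n' : Fin R → ℕ} {u : ι → PA D κ R} (hu : u ∈ pvi D κ R ι n)
    (h : n' ≠ n) : cvi D κ R ι n' u = 0 := funext fun i => a1_cp_of_mem_ne (hu i) h

/-- every vector is the sum of its components -/
theorem sum_cvi [Finite ι] (u : ι → PA D κ R) :
    ∃ S : Finset (Fin R → ℕ), u = ∑ n ∈ S, cvi D κ R ι n u := by
  classical
  have := Fintype.ofFinite ι
  refine ⟨Finset.univ.biUnion fun i => (u i).coeff.support.image mdeg, ?_⟩
  funext i
  apply AddMonoidAlgebra.ext
  ext m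
  rw [Finset.sum_apply]
  have h1 : ∀ n, (cvi D κ R ι n u i).coeff m = if mdeg m = n then (u i).coeff m else 0 :=
    fun n => a1_cp_coeff n (u i) m
  rw [AddMonoidAlgebra.coeff_sum, Finsupp.finsetSum_apply, Finset.sum_congr rfl fun n _ => h1 n,
    Finset.sum_ite_eq]
  split_ifs with h
  · rfl
  · by_contra h'
    apply h
    rw [Finset.mem_biUnion]
    exact ⟨i, Finset.mem_univ _, Finset.mem_image_of_mem _ (Finsupp.mem_support_iff.2 h')⟩

/-- components of a product with a homogeneous polynomial -/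
theorem cp_mul {d : Fin R → ℕ} {p : PA D κ R} (hp : p ∈ pp D κ R d) (n : Fin R → ℕ)
    (u : PA D κ R) : cp D κ R (n + d) (p * u) = p * cp D κ R n u := by
  obtain ⟨S, hS⟩ := a1_sum_cp u
  have key : ∀ n', cp D κ R (n + d) (p * cp D κ R n' u) = p * cp D κ R n (cp D κ R n' u) := by
    intro n'
    have h1 : p * cp D κ R n' u ∈ pp D κ R (d + n') := a1_mul_mem hp (a1_cp_mem n' u)
    by_cases h : n = n'
    · subst h
      rw [add_comm n d, a1_cp_of_mem h1, a1_cp_of_mem (a1_cp_mem n u)]
    · rw [a1_cp_of_mem_ne (a1_cp_mem n' u) h, mul_zero, a1_cp_of_mem_ne h1]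
      intro h'
      rw [add_comm] at h'
      exact h (add_left_cancel h')
  rw [hS, Finset.mul_sum, map_sum, map_sum, Finset.mul_sum]
  exact Finset.sum_congr rfl fun n' _ => key n'

/-- components of a product with a homogeneous polynomial (from the right) -/
theorem cp_mul_right {d : Fin R → ℕ} {p : PA D κ R} (hp : p ∈ pp D κ R d) (n : Fin R → ℕ)
    (u : PA D κ R) : cp D κ R (n + d) (u * p) = cp D κ R n u * p := by
  obtain ⟨S, hS⟩ := a1_sum_cp u
  have key : ∀ n', cp D κ R (n + d) (cp D κ R n' u * p) = cp D κ R n (cp D κ R n' u) * p := by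
    intro n'
    have h1 : cp D κ R n' u * p ∈ pp D κ R (n' + d) := a1_mul_mem (a1_cp_mem n' u) hp
    by_cases h : n = n'
    · subst h
      rw [a1_cp_of_mem h1, a1_cp_of_mem (a1_cp_mem n u)]
    · rw [a1_cp_of_mem_ne (a1_cp_mem n' u) h, zero_mul, a1_cp_of_mem_ne h1]
      intro h'
      exact h (add_right_cancel h')
  rw [hS, Finset.sum_mul, map_sum, map_sum, Finset.sum_mul]
  exact Finset.sum_congr rfl fun n' _ => key n'

/-- if all components of `u` are in `N`, then `u` is -/
theorem a1_mem_of_cvi [Finite ι] {N : Submodule (PA D κ R) (ι → PA D κ R)} {u : ι → PA D κ R}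
    (h : ∀ n, cvi D κ R ι n u ∈ N) : u ∈ N := by
  obtain ⟨S, hS⟩ := sum_cvi u
  rw [hS]
  exact Submodule.sum_mem _ fun n _ => h n

/-- products of homogeneous polynomials and homogeneous vectors -/
theorem a1_smul_mem_pvi {d d' : Fin R → ℕ} {p : PA D κ R} (hp : p ∈ pp D κ R d)
    {u : ι → PA D κ R} (hu : u ∈ pvi D κ R ι d') : p • u ∈ pvi D κ R ι (d + d') :=
  fun i => a1_mul_mem hp (hu i)

theorem a1_cvi_smul {d : Fin R → ℕ} {p : PA D κ R} (hp : p ∈ pp D κ R d) (n : Fin R → ℕ)
    (u : ι → PA D κ R) : cvi D κ R ι (n + d) (p • u) = p • cvi D κ R ι n u :=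
  funext fun i => cp_mul hp n (u i)

/-- homogeneous elements of a submodule have all their components in it -/
theorem a1_cvi_mem_of_mem_pvi {N : Submodule (PA D κ R) (ι → PA D κ R)}
    {u : ι → PA D κ R} {n : Fin R → ℕ} (hu : u ∈ N) (hn : u ∈ pvi D κ R ι n)
    (n' : Fin R → ℕ) : cvi D κ R ι n' u ∈ N := by
  by_cases h : n' = n
  · subst h
    rwa [cvi_of_mem hn]
  · rw [cvi_of_mem_ne hn h]
    exact N.zero_mem

/-- if the components of `u` are in `N`, then those of the multiples of `u` are -/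
theorem a1_cvi_smul_mem {N : Submodule (PA D κ R) (ι → PA D κ R)} {u : ι → PA D κ R}
    (h : ∀ n, cvi D κ R ι n u ∈ N) (a : PA D κ R) (n : Fin R → ℕ) :
    cvi D κ R ι n (a • u) ∈ N := by
  obtain ⟨T, hT⟩ := a1_sum_cp a
  rw [hT, Finset.sum_smul, map_sum]
  apply Submodule.sum_mem
  intro d _
  by_cases h1 : ∃ n', n = n' + d
  · obtain ⟨n', rfl⟩ := h1
    rw [a1_cvi_smul (a1_cp_mem d a)]
    exact N.smul_mem _ (h n')
  · have h2 : cvi D κ R ι n (cp D κ R d a • u) = 0 :=
      funext fun i => a1_cp_mul_zero (a1_cp_mem d a) (fun n' hn' => h1 ⟨n', hn'⟩) (u i)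
    rw [h2]
    exact N.zero_mem

/-- a submodule generated by vectors with components in it is homogeneous -/
theorem a1_span_hom {S : Set (ι → PA D κ R)}
    (hS : ∀ u ∈ S, ∀ n, cvi D κ R ι n u ∈ Submodule.span (PA D κ R) S) :
    ∀ u ∈ Submodule.span (PA D κ R) S, ∀ n, cvi D κ R ι n u ∈ Submodule.span (PA D κ R) S := by
  intro u hu
  induction hu using Submodule.span_induction with
  | mem x hx => exact hS x hx
  | zero =>
    intro n
    rw [map_zero]
    exact Submodule.zero_mem _
  | add a b _ _ ha hb =>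
    intro n
    rw [map_add]
    exact Submodule.add_mem _ (ha n) (hb n)
  | smul a x _ hx => exact a1_cvi_smul_mem hx a

/-- `N0i` is the smallest object -/
theorem isGi_N0i (β : Fin R → Blk K κ) [Finite ι] : IsGi β (N0i D β ι) := by
  refine ⟨a1_span_hom ?_, fun g i w => Submodule.subset_span ⟨g, i, w, rfl⟩⟩
  rintro u ⟨g, i, w, rfl⟩ n
  by_cases h : ∃ n' : Fin R → ℕ, n = n' + Pi.single g ((β g).e i)
  · obtain ⟨n', rfl⟩ := h
    rw [a1_cvi_smul (bm_rel_mem β g i)]
    exact Submodule.subset_span ⟨g, i, _, rfl⟩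
  · have h2 : cvi D κ R ι n (bm K D κ g ((β g).rel i) • w) = 0 :=
      funext fun j => a1_cp_mul_zero (bm_rel_mem β g i) (fun n' hn' => h ⟨n', hn'⟩) (w j)
    rw [h2]
    exact Submodule.zero_mem _

theorem N0i_le {β : Fin R → Blk K κ} {N : Submodule (PA D κ R) (ι → PA D κ R)}
    (h : IsGi β N) : N0i D β ι ≤ N := by
  unfold N0i
  rw [Submodule.span_le]
  rintro u ⟨g, i, w, rfl⟩
  exact h.rel g i w

/-- the sum of homogeneous submodules -/
theorem a1_sup_hom {N N' : Submodule (PA D κ R) (ι → PA D κ R)}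
    (h : ∀ u ∈ N, ∀ n, cvi D κ R ι n u ∈ N) (h' : ∀ u ∈ N', ∀ n, cvi D κ R ι n u ∈ N') :
    ∀ u ∈ N ⊔ N', ∀ n, cvi D κ R ι n u ∈ N ⊔ N' := by
  intro u hu n
  obtain ⟨a, ha, b, hb, rfl⟩ := Submodule.mem_sup.1 hu
  rw [map_add]
  exact Submodule.add_mem_sup (h a ha n) (h' b hb n)

/-- a submodule generated by homogeneous vectors and containing the relations is an object -/
theorem IsGi.sup_span {β : Fin R → Blk K κ} {N : Submodule (PA D κ R) (ι → PA D κ R)}
    (h : IsGi β N) {S : Set (ι → PA D κ R)} (hS : ∀ u ∈ S, ∃ n, u ∈ pvi D κ R ι n) :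
    IsGi β (N ⊔ Submodule.span _ S) := by
  refine ⟨a1_sup_hom h.hom (a1_span_hom ?_), fun g i w => Submodule.mem_sup_left (h.rel g i w)⟩
  intro u hu
  obtain ⟨n, hn⟩ := hS u hu
  exact a1_cvi_mem_of_mem_pvi (Submodule.subset_span hu) hn

theorem IsGi.inf {β : Fin R → Blk K κ} {N N' : Submodule (PA D κ R) (ι → PA D κ R)}
    (h : IsGi β N) (h' : IsGi β N') : IsGi β (N ⊓ N') :=
  ⟨fun u hu n => ⟨h.hom u hu.1 n, h'.hom u hu.2 n⟩, fun g i w => ⟨h.rel g i w, h'.rel g i w⟩⟩

theorem IsGi.sup {β : Fin R → Blk K κ} {N N' : Submodule (PA D κ R) (ι → PA D κ R)}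
    (h : IsGi β N) (h' : IsGi β N') : IsGi β (N ⊔ N') :=
  ⟨a1_sup_hom h.hom h'.hom, fun g i w => Submodule.mem_sup_left (h.rel g i w)⟩

theorem isGi_top (β : Fin R → Blk K κ) :
    IsGi β (⊤ : Submodule (PA D κ R) (ι → PA D κ R)) :=
  ⟨fun _ _ _ => Submodule.mem_top, fun _ _ _ => Submodule.mem_top⟩

theorem qdi_top (n : Fin R → ℕ) :
    qdi (⊤ : Submodule (PA D κ R) (ι → PA D κ R)) n = 0 := by
  have h1 : (pvi D κ R ι n ⊓ (⊤ : Submodule (PA D κ R) (ι → PA D κ R)).restrictScalars D :
      Submodule D (ι → PA D κ R)) = pvi D κ R ι n := by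
    rw [Submodule.restrictScalars_top, inf_top_eq]
  unfold qdi
  rw [h1, Nat.sub_self]

theorem qdi_anti [Finite ι] {N N' : Submodule (PA D κ R) (ι → PA D κ R)} (h : N ≤ N')
    (n : Fin R → ℕ) : qdi N' n ≤ qdi N n := by
  have := finite_pvi (D := D) (κ := κ) (ι := ι) n
  unfold qdi
  apply Nat.sub_le_sub_left
  have : FiniteDimensional D
      (pvi D κ R ι n ⊓ N'.restrictScalars D : Submodule D (ι → PA D κ R)) :=
    Submodule.finiteDimensional_of_le inf_le_left
  exact Submodule.finrank_mono (inf_le_inf_left _ h)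

end Vale.Agent.P200.V
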