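import Vale.Agent.P200.V.RkGr

/-!
**(A), part 1b: modularity, preimages, matrices, direct sums, reindexing.**

All statements are elementary.  `IsHomg d φ`: `φ` is a homogeneous `PA`-linear map of degree `d`.
`qdi N n = dim (pvi n) - dim (pvi n ⊓ N)` with finite dimensional `pvi n` (`finite_pvi`).
-/

namespace Vale.Agent.P200.V

open Module

universe u

section lin
variable {F : Type*} [DivisionRing F] {V W : Type*} [AddCommGroup V] [Module F V]
  [AddCommGroup W] [Module F W]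

/-- rank and nullity on a subspace -/
theorem finrank_map_add_inf_ker (f : V →ₗ[F] W) (P : Submodule F V) [FiniteDimensional F P] :
    finrank F (P.map f) + finrank F (P ⊓ LinearMap.ker f : Submodule F V) = finrank F P := by
  rw [← LinearMap.finrank_range_add_finrank_ker (f.domRestrict P), LinearMap.range_domRestrict,
    LinearMap.ker_domRestrict, ← Submodule.map_comap_subtype,
    (Submodule.equivMapOfInjective P.subtype P.injective_subtype _).finrank_eq]

theorem finrank_prod_sub (P : Submodule F V) (Q : Submodule F W) [FiniteDimensional F P]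
    [FiniteDimensional F Q] : finrank F (P.prod Q) = finrank F P + finrank F Q := by
  rw [← Module.finrank_prod]
  let e : (P.prod Q) ≃ₗ[F] P × Q :=
    { toFun := fun x => (⟨x.1.1, x.2.1⟩, ⟨x.1.2, x.2.2⟩)
      map_add' := fun _ _ => rfl
      map_smul' := fun _ _ => rfl
      invFun := fun y => ⟨(y.1.1, y.2.1), ⟨y.1.2, y.2.2⟩⟩
      left_inv := fun _ => rfl
      right_inv := fun _ => rfl }
  exact e.finrank_eq

end lin

variable {K : Type u} [Field K] {D : Type u} [DivisionRing D] [Algebra K D] {κ R : ℕ}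
  {ι ι' : Type}

/-- `pvi n ⊓ N` -/
noncomputable def pn (N : Submodule (PA D κ R) (ι → PA D κ R)) (n : Fin R → ℕ) :
    Submodule D (ι → PA D κ R) :=
  pvi D κ R ι n ⊓ N.restrictScalars D

theorem mem_pn {N : Submodule (PA D κ R) (ι → PA D κ R)} {n : Fin R → ℕ}
    {u : ι → PA D κ R} : u ∈ pn N n ↔ u ∈ pvi D κ R ι n ∧ u ∈ N := Iff.rfl

theorem finite_pn [Finite ι] (N : Submodule (PA D κ R) (ι → PA D κ R)) (n : Fin R → ℕ) :
    FiniteDimensional D (pn N n) := by
  have := finite_pvi (D := D) (κ := κ) (ι := ι) n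
  exact Submodule.finiteDimensional_of_le (inf_le_left : pn N n ≤ pvi D κ R ι n)

theorem finrank_pn_le [Finite ι] (N : Submodule (PA D κ R) (ι → PA D κ R)) (n : Fin R → ℕ) :
    finrank D (pn N n) ≤ finrank D (pvi D κ R ι n) := by
  have := finite_pvi (D := D) (κ := κ) (ι := ι) n
  exact Submodule.finrank_mono (inf_le_left : pn N n ≤ pvi D κ R ι n)

theorem qdi_eq (N : Submodule (PA D κ R) (ι → PA D κ R)) (n : Fin R → ℕ) :
    qdi N n = finrank D (pvi D κ R ι n) - finrank D (pn N n) := rfl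

theorem qdi_add [Finite ι] (N : Submodule (PA D κ R) (ι → PA D κ R)) (n : Fin R → ℕ) :
    qdi N n + finrank D (pn N n) = finrank D (pvi D κ R ι n) :=
  Nat.sub_add_cancel (finrank_pn_le N n)

theorem pn_sup {N N' : Submodule (PA D κ R) (ι → PA D κ R)}
    (h : ∀ u ∈ N, ∀ n, cvi D κ R ι n u ∈ N) (h' : ∀ u ∈ N', ∀ n, cvi D κ R ι n u ∈ N')
    (n : Fin R → ℕ) : pn (N ⊔ N') n = pn N n ⊔ pn N' n := by
  apply le_antisymm
  · rintro u ⟨hu, hu'⟩
    obtain ⟨a, ha, b, hb, rfl⟩ := Submodule.mem_sup.1 (show u ∈ N ⊔ N' from hu')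
    rw [← cvi_of_mem hu, map_add]
    exact Submodule.add_mem_sup (mem_pn.2 ⟨cvi_mem n a, h a ha n⟩)
      (mem_pn.2 ⟨cvi_mem n b, h' b hb n⟩)
  · apply sup_le
    · exact fun u hu => mem_pn.2 ⟨(mem_pn.1 hu).1, Submodule.mem_sup_left (mem_pn.1 hu).2⟩
    · exact fun u hu => mem_pn.2 ⟨(mem_pn.1 hu).1, Submodule.mem_sup_right (mem_pn.1 hu).2⟩

/-- modularity -/
theorem qdi_mod [Finite ι] {N N' : Submodule (PA D κ R) (ι → PA D κ R)}
    (h : ∀ u ∈ N, ∀ n, cvi D κ R ι n u ∈ N) (h' : ∀ u ∈ N', ∀ n, cvi D κ R ι n u ∈ N')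
    (n : Fin R → ℕ) : qdi (N ⊓ N') n + qdi (N ⊔ N') n = qdi N n + qdi N' n := by
  have := finite_pn N n
  have := finite_pn N' n
  have h1 := Submodule.finrank_sup_add_finrank_inf_eq (pn N n) (pn N' n)
  have h2 : pn (N ⊓ N') n = pn N n ⊓ pn N' n := by
    ext u
    simp only [mem_pn, Submodule.mem_inf]
    tauto
  rw [← pn_sup h h', ← h2] at h1
  have h3 := qdi_add (N ⊓ N') n
  have h4 := qdi_add (N ⊔ N') n
  have h5 := qdi_add N n
  have h6 := qdi_add N' n
  omega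

/-- homogeneous maps of degree `d` -/
def IsHomg (d : Fin R → ℕ) (φ : (ι → PA D κ R) →ₗ[PA D κ R] (ι' → PA D κ R)) : Prop :=
  ∀ n u, cvi D κ R ι' (n + d) (φ u) = φ (cvi D κ R ι n u)

theorem IsHomg.mem_pvi {d : Fin R → ℕ}
    {φ : (ι → PA D κ R) →ₗ[PA D κ R] (ι' → PA D κ R)} (hφ : IsHomg d φ)
    {n : Fin R → ℕ} {u : ι → PA D κ R} (hu : u ∈ pvi D κ R ι n) :
    φ u ∈ pvi D κ R ι' (n + d) := by
  have h := hφ n u
  rw [cvi_of_mem hu] at h
  rw [← h]
  exact cvi_mem _ _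

/-- the components of the values of a homogeneous map -/
theorem IsHomg.cvi_apply [Finite ι] {d : Fin R → ℕ}
    {φ : (ι → PA D κ R) →ₗ[PA D κ R] (ι' → PA D κ R)} (hφ : IsHomg d φ)
    (n : Fin R → ℕ) (u : ι → PA D κ R) :
    (∃ m, cvi D κ R ι' n (φ u) = φ (cvi D κ R ι m u)) ∨ cvi D κ R ι' n (φ u) = 0 := by
  by_cases h : ∃ m, n = m + d
  · obtain ⟨m, rfl⟩ := h
    exact Or.inl ⟨m, hφ m u⟩
  · right
    obtain ⟨S, hS⟩ := sum_cvi u
    have h1 : φ u = ∑ m ∈ S, φ (cvi D κ R ι m u) := by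
      conv_lhs => rw [hS]
      rw [map_sum]
    rw [h1, map_sum]
    refine Finset.sum_eq_zero fun m _ => ?_
    exact cvi_of_mem_ne (hφ.mem_pvi (cvi_mem m u)) fun h' => h ⟨m, h'⟩

/-- the dimension formula for the preimage under a homogeneous map `φ` of degree `d`:
`PA^ι / φ⁻¹ N' ≅ (N' + φ PA^ι) / N'` -/
theorem qdi_comap [Finite ι] [Finite ι'] {d : Fin R → ℕ}
    {φ : (ι → PA D κ R) →ₗ[PA D κ R] (ι' → PA D κ R)} (hφ : IsHomg d φ)
    {N' : Submodule (PA D κ R) (ι' → PA D κ R)} (h' : ∀ u ∈ N', ∀ n, cvi D κ R ι' n u ∈ N')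
    (n : Fin R → ℕ) :
    qdi (N'.comap φ) n + qdi (N' ⊔ LinearMap.range φ) (n + d) = qdi N' (n + d) := by
  have := finite_pvi (D := D) (κ := κ) (ι := ι) n
  have := finite_pn (N'.comap φ) n
  have := finite_pn N' (n + d)
  set f : (ι → PA D κ R) →ₗ[D] (ι' → PA D κ R) := φ.restrictScalars D with hf
  have e1 : pn (N' ⊔ LinearMap.range φ) (n + d) =
      pn N' (n + d) ⊔ (pvi D κ R ι n).map f := by
    apply le_antisymm
    · rintro u ⟨hu, hu'⟩
      obtain ⟨a, ha, b, hb, rfl⟩ := Submodule.mem_sup.1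
        (show u ∈ N' ⊔ LinearMap.range φ from hu')
      obtain ⟨c, rfl⟩ := LinearMap.mem_range.1 hb
      rw [← cvi_of_mem hu, map_add, hφ]
      exact Submodule.add_mem_sup (mem_pn.2 ⟨cvi_mem _ a, h' a ha _⟩)
        (Submodule.mem_map.2 ⟨_, cvi_mem n c, rfl⟩)
    · apply sup_le
      · exact fun u hu => mem_pn.2 ⟨(mem_pn.1 hu).1, Submodule.mem_sup_left (mem_pn.1 hu).2⟩
      · rintro _ ⟨u, hu, rfl⟩
        exact mem_pn.2 ⟨hφ.mem_pvi hu, Submodule.mem_sup_right ⟨u, rfl⟩⟩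
  have e2 : pn N' (n + d) ⊓ (pvi D κ R ι n).map f = (pn (N'.comap φ) n).map f := by
    ext u
    constructor
    · rintro ⟨h1, ⟨w, hw, rfl⟩⟩
      exact ⟨w, mem_pn.2 ⟨hw, (mem_pn.1 h1).2⟩, rfl⟩
    · rintro ⟨w, hw, rfl⟩
      exact ⟨mem_pn.2 ⟨hφ.mem_pvi (mem_pn.1 hw).1, (mem_pn.1 hw).2⟩, ⟨w, (mem_pn.1 hw).1, rfl⟩⟩
  have e3 : (pn (N'.comap φ) n ⊓ LinearMap.ker f : Submodule D _) =
      pvi D κ R ι n ⊓ LinearMap.ker f := by
    ext u
    constructor
    · rintro ⟨h1, h2⟩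
      exact ⟨(mem_pn.1 h1).1, h2⟩
    · rintro ⟨h1, h2⟩
      refine ⟨mem_pn.2 ⟨h1, ?_⟩, h2⟩
      rw [Submodule.mem_comap]
      have h3 : φ u = 0 := h2
      rw [h3]
      exact N'.zero_mem
  have a1 := Submodule.finrank_sup_add_finrank_inf_eq (pn N' (n + d)) ((pvi D κ R ι n).map f)
  have a2 := finrank_map_add_inf_ker f (pvi D κ R ι n)
  have a3 := finrank_map_add_inf_ker f (pn (N'.comap φ) n)
  rw [← e1, e2] at a1
  rw [e3] at a3
  have h3 := qdi_add (N'.comap φ) n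
  have h4 := qdi_add (N' ⊔ LinearMap.range φ) (n + d)
  have h5 := qdi_add N' (n + d)
  omega

theorem IsGi.comap {β : Fin R → Blk K κ} {d : Fin R → ℕ}
    {φ : (ι → PA D κ R) →ₗ[PA D κ R] (ι' → PA D κ R)} (hφ : IsHomg d φ)
    {N' : Submodule (PA D κ R) (ι' → PA D κ R)} (h' : IsGi β N') : IsGi β (N'.comap φ) where
  hom u hu n := by
    rw [Submodule.mem_comap, ← hφ]
    exact h'.hom _ hu _
  rel g i w := by
    rw [Submodule.mem_comap, map_smul]
    exact h'.rel g i _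

/-- images under homogeneous maps -/
theorem IsGi.sup_map {β : Fin R → Blk K κ} {d : Fin R → ℕ} [Finite ι]
    {φ : (ι → PA D κ R) →ₗ[PA D κ R] (ι' → PA D κ R)} (hφ : IsHomg d φ)
    {N : Submodule (PA D κ R) (ι → PA D κ R)} {N' : Submodule (PA D κ R) (ι' → PA D κ R)}
    (h : IsGi β N) (h' : IsGi β N') : IsGi β (N' ⊔ N.map φ) where
  hom u hu n := by
    obtain ⟨a, ha, b, hb, rfl⟩ := Submodule.mem_sup.1 hu
    obtain ⟨c, hc, rfl⟩ := Submodule.mem_map.1 hb
    rw [map_add]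
    refine Submodule.add_mem_sup (h'.hom a ha n) ?_
    rcases hφ.cvi_apply n c with ⟨m, hm⟩ | h0
    · rw [hm]
      exact Submodule.mem_map.2 ⟨_, h.hom c hc m, rfl⟩
    · rw [h0]
      exact Submodule.zero_mem _
  rel g i w := Submodule.mem_sup_left (h'.rel g i w)

/-- (write every vector as the sum of its components, `φ` maps `pvi n` to `pvi (n + d)`) -/
theorem IsGi.sup_range {β : Fin R → Blk K κ} {d : Fin R → ℕ} [Finite ι]
    {φ : (ι → PA D κ R) →ₗ[PA D κ R] (ι' → PA D κ R)} (hφ : IsHomg d φ)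
    {N' : Submodule (PA D κ R) (ι' → PA D κ R)} (h' : IsGi β N') :
    IsGi β (N' ⊔ LinearMap.range φ) := by
  rw [LinearMap.range_eq_map]
  exact IsGi.sup_map hφ (isGi_top β) h'

/-- matrices with entries in `PA` (acting from the right) -/
noncomputable def pmat [Fintype ι] (a : ι → ι' → PA D κ R) :
    (ι → PA D κ R) →ₗ[PA D κ R] (ι' → PA D κ R) where
  toFun u j := ∑ i, u i * a i j
  map_add' u v := by
    ext1 j
    simp only [Pi.add_apply, add_mul, Finset.sum_add_distrib]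
  map_smul' k u := by
    ext1 j
    simp only [Pi.smul_apply, smul_eq_mul, mul_assoc, Finset.mul_sum, RingHom.id_apply]

theorem pmat_apply [Fintype ι] (a : ι → ι' → PA D κ R) (u : ι → PA D κ R) (j : ι') :
    pmat a u j = ∑ i, u i * a i j := rfl

theorem pmat_isHomg [Fintype ι] {d : Fin R → ℕ} {a : ι → ι' → PA D κ R}
    (ha : ∀ i j, a i j ∈ pp D κ R d) : IsHomg d (pmat a) := by
  intro n u
  funext j
  change cp D κ R (n + d) (∑ i, u i * a i j) = ∑ i, cp D κ R n (u i) * a i j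
  rw [map_sum]
  exact Finset.sum_congr rfl fun i _ => cp_mul_right (ha i j) n (u i)

/-- every `PA`-linear map is a matrix -/
theorem exists_pmat [Fintype ι] (φ : (ι → PA D κ R) →ₗ[PA D κ R] (ι' → PA D κ R)) :
    ∃ a, φ = pmat a := by
  classical
  refine ⟨fun i j => φ (Pi.single i 1) j, ?_⟩
  apply LinearMap.ext
  intro u
  have h1 : u = ∑ i, u i • (Pi.single i 1 : ι → PA D κ R) := by
    funext k
    rw [Finset.sum_apply, Finset.sum_eq_single k]
    · rw [Pi.smul_apply, Pi.single_eq_same, smul_eq_mul, mul_one]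
    · intro j _ hj
      rw [Pi.smul_apply, Pi.single_eq_of_ne hj.symm, smul_zero]
    · exact fun hk => absurd (Finset.mem_univ k) hk
  conv_lhs => rw [h1]
  rw [map_sum]
  funext j
  rw [Finset.sum_apply, pmat_apply]
  refine Finset.sum_congr rfl fun i _ => ?_
  rw [map_smul, Pi.smul_apply, smul_eq_mul]

/-- the sum of two objects -/
def dsum (N : Submodule (PA D κ R) (ι → PA D κ R))
    (N' : Submodule (PA D κ R) (ι' → PA D κ R)) :
    Submodule (PA D κ R) (ι ⊕ ι' → PA D κ R) where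
  carrier := {u | (fun i => u (Sum.inl i)) ∈ N ∧ (fun i => u (Sum.inr i)) ∈ N'}
  add_mem' ha hb := ⟨N.add_mem ha.1 hb.1, N'.add_mem ha.2 hb.2⟩
  zero_mem' := ⟨N.zero_mem, N'.zero_mem⟩
  smul_mem' k _ ha := ⟨N.smul_mem k ha.1, N'.smul_mem k ha.2⟩

theorem IsGi.dsum {β : Fin R → Blk K κ} {N : Submodule (PA D κ R) (ι → PA D κ R)}
    {N' : Submodule (PA D κ R) (ι' → PA D κ R)} (h : IsGi β N) (h' : IsGi β N') :
    IsGi β (dsum N N') where
  hom _ hu n := ⟨h.hom _ hu.1 n, h'.hom _ hu.2 n⟩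
  rel g i w := ⟨h.rel g i fun j => w (Sum.inl j), h'.rel g i fun j => w (Sum.inr j)⟩

/-- the two parts of a vector -/
noncomputable def spl (D : Type u) [DivisionRing D] (κ R : ℕ) (ι ι' : Type) :
    (ι ⊕ ι' → PA D κ R) →ₗ[D] (ι → PA D κ R) × (ι' → PA D κ R) where
  toFun u := (fun i => u (Sum.inl i), fun i => u (Sum.inr i))
  map_add' _ _ := rfl
  map_smul' _ _ := rfl

theorem spl_inj : Function.Injective (spl D κ R ι ι') := by
  intro u v h
  funext j
  have h1 := congrArg Prod.fst h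
  have h2 := congrArg Prod.snd h
  cases j with
  | inl j => exact congrFun h1 j
  | inr j => exact congrFun h2 j

theorem finrank_pn_dsum [Finite ι] [Finite ι'] (N : Submodule (PA D κ R) (ι → PA D κ R))
    (N' : Submodule (PA D κ R) (ι' → PA D κ R)) (n : Fin R → ℕ) :
    finrank D (pn (dsum N N') n) = finrank D (pn N n) + finrank D (pn N' n) := by
  have := finite_pn N n
  have := finite_pn N' n
  rw [← finrank_prod_sub,
    (Submodule.equivMapOfInjective (spl D κ R ι ι') spl_inj (pn (dsum N N') n)).finrank_eq]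
  have h1 : (pn (dsum N N') n).map (spl D κ R ι ι') = (pn N n).prod (pn N' n) := by
    ext ⟨a, b⟩
    constructor
    · rintro ⟨u, ⟨h1, h2⟩, h3⟩
      rw [← h3]
      exact ⟨mem_pn.2 ⟨fun i => h1 _, h2.1⟩, mem_pn.2 ⟨fun i => h1 _, h2.2⟩⟩
    · rintro ⟨h1, h2⟩
      refine ⟨Sum.elim a b, mem_pn.2 ⟨?_, (mem_pn.1 h1).2, (mem_pn.1 h2).2⟩, rfl⟩
      intro i
      cases i with
      | inl i => exact (mem_pn.1 h1).1 i
      | inr i => exact (mem_pn.1 h2).1 i
  rw [h1]

theorem qdi_dsum [Finite ι] [Finite ι'] (N : Submodule (PA D κ R) (ι → PA D κ R))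
    (N' : Submodule (PA D κ R) (ι' → PA D κ R)) (n : Fin R → ℕ) :
    qdi (dsum N N') n = qdi N n + qdi N' n := by
  have h1 := finrank_pn_dsum N N' n
  have h2 := finrank_pn_dsum (⊤ : Submodule (PA D κ R) (ι → PA D κ R))
    (⊤ : Submodule (PA D κ R) (ι' → PA D κ R)) n
  have h3 : ∀ r : Type, pn (⊤ : Submodule (PA D κ R) (r → PA D κ R)) n = pvi D κ R r n := by
    intro r
    ext u
    exact ⟨fun h => (mem_pn.1 h).1, fun h => mem_pn.2 ⟨h, Submodule.mem_top⟩⟩
  have h4 : dsum (⊤ : Submodule (PA D κ R) (ι → PA D κ R))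
      (⊤ : Submodule (PA D κ R) (ι' → PA D κ R)) = ⊤ := by
    ext u
    exact ⟨fun _ => Submodule.mem_top, fun _ => ⟨Submodule.mem_top, Submodule.mem_top⟩⟩
  rw [h4, h3, h3, h3] at h2
  have a1 := qdi_add (dsum N N') n
  have a2 := qdi_add N n
  have a3 := qdi_add N' n
  omega

/-- reindexing -/
theorem qdi_funLeft (e : ι ≃ ι') (N : Submodule (PA D κ R) (ι → PA D κ R)) (n : Fin R → ℕ) :
    qdi (N.comap (LinearMap.funLeft (PA D κ R) (PA D κ R) e)) n = qdi N n := by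
  have hinj : Function.Injective (LinearMap.funLeft D (PA D κ R) e) :=
    LinearMap.funLeft_injective_of_surjective _ _ _ e.surjective
  have h1 : (pvi D κ R ι' n).map (LinearMap.funLeft D (PA D κ R) e) = pvi D κ R ι n := by
    ext u
    constructor
    · rintro ⟨w, hw, rfl⟩
      exact fun i => hw (e i)
    · intro hu
      refine ⟨fun i => u (e.symm i), fun i => hu _, ?_⟩
      funext i
      exact congrArg u (e.symm_apply_apply i)
  have h2 : (pn (N.comap (LinearMap.funLeft (PA D κ R) (PA D κ R) e)) n).map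
      (LinearMap.funLeft D (PA D κ R) e) = pn N n := by
    ext u
    constructor
    · rintro ⟨w, hw, rfl⟩
      exact mem_pn.2 ⟨fun i => (mem_pn.1 hw).1 (e i), (mem_pn.1 hw).2⟩
    · intro hu
      have h3 : LinearMap.funLeft (PA D κ R) (PA D κ R) e (fun i => u (e.symm i)) = u := by
        funext i
        exact congrArg u (e.symm_apply_apply i)
      refine ⟨fun i => u (e.symm i), mem_pn.2 ⟨fun i => (mem_pn.1 hu).1 _, ?_⟩, h3⟩
      rw [Submodule.mem_comap, h3]
      exact (mem_pn.1 hu).2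
  have e1 := (Submodule.equivMapOfInjective _ hinj (pvi D κ R ι' n)).finrank_eq
  have e2 := (Submodule.equivMapOfInjective _ hinj
    (pn (N.comap (LinearMap.funLeft (PA D κ R) (PA D κ R) e)) n)).finrank_eq
  rw [h1] at e1
  rw [h2] at e2
  rw [qdi_eq, qdi_eq, e1, e2]

theorem isGi_funLeft {β : Fin R → Blk K κ} (e : ι ≃ ι')
    {N : Submodule (PA D κ R) (ι → PA D κ R)} (h : IsGi β N) :
    IsGi β (N.comap (LinearMap.funLeft (PA D κ R) (PA D κ R) e)) where
  hom u hu n := by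
    rw [Submodule.mem_comap]
    exact h.hom _ hu n
  rel g i w := by
    rw [Submodule.mem_comap, map_smul]
    exact h.rel g i _

/-- integrality for an arbitrary finite index type -/
theorem IntP.gen {β : Fin R → Blk K κ} (hI : IntP D β) [Finite ι]
    {N : Submodule (PA D κ R) (ι → PA D κ R)} (hN : IsGi β N) :
    ∃ f, Lam R (fun g => (β g).e) f ∧ ∃ n0 : ℕ, ∀ n : Fin R → ℕ, (∀ g, n0 ≤ n g) →
      (qdi N n : ℤ) = f fun g => n g := by
  obtain ⟨s, ⟨e⟩⟩ := Finite.exists_equiv_fin ι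
  obtain ⟨f, hf, n0, h0⟩ := hI s _ ((isGi_iff _).1 (isGi_funLeft e hN))
  refine ⟨f, hf, n0, fun n hn => ?_⟩
  rw [← h0 n hn, ← qdi_fin, qdi_funLeft]

end Vale.Agent.P200.V
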