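import Vale.Agent.P200.V.Rk

/-!
**(A), part 5: the objects `O(n)` and `O(-1)`.**  (`RkGr`, `RkGrB`, `RkFree`, `Rk` as black boxes.)

`isRk_mu` (A5): `s = n + 1`, `μ = (x^i y^(n-i))_i`, `N1 = N0 ⊔ PA μ`: rank `0`.  Let `N' ≥ N1` be an object, and let
`ψ : PA^(n+1) → PA^n`, `(ψ u)_i = x u_i - y u_(i+1)` (degree `1`, central entries), so that `ψ μ = 0` and
`ψ⁻¹ N0 = N1` (by `koszul_xy`, induction on `n`: from `x u_i - y u_(i+1) ∈ N0` for all `i < n` get `u = p μ` modulo `N0`).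
`N'' = N0 ⊔ ψ N'` is an object of `PA^n` (`IsG.sup_map`), `ψ⁻¹ N'' = N' ⊔ ψ⁻¹ N0 = N'`.  By `qd_comap`
`qd N' (m) + qd (N'' ⊔ range ψ) (m + 1) = qd N'' (m + 1)` and `qd N1 (m) + qd (N0 ⊔ range ψ) (m + 1) = qd N0 (m + 1)`
with `N'' ⊔ range ψ = N0 ⊔ range ψ`.  Now `qd N1 (m) = (n+1) h_O(m) - h_O(m - n)` (`PA μ ≅ PA` modulo `N0`:
`qd_comap` for `φ : PA^1 → PA^(n+1)`, `p ↦ p μ`, `φ⁻¹ N0 = N0` by `free_xy`), so `qd (N0 ⊔ range ψ) (m+1) = n h_O(m+1) -
(n+1) h_O(m) + h_O(m-n) = 0` for large `m`.  So `qd N' (m) = qd N'' (m+1) = A'' h_O(m+1) + B'' dl =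
A'' h_O(m) + (A'' + B'') dl`, `ρ N' = - B'' ≤ 0`.  And `ρ ⊤ = 0`.
`isRk_eta` (A6): `v = (x, y, -η_i)`, `N = N0 ⊔ PA v` in `PA^3`; `p v ∈ N0` implies `p ∈ N0`, so
`qd N (m+1) = 3 h_O(m+1) - h_O(m) = 2 h_O(m+1) + dl`, `ρ N = 1`.
-/

namespace Vale.Agent.P200.V

open Module

universe u

variable {K : Type u} [Field K] {D : Type u} [DivisionRing D] [Algebra K D] {κ : ℕ} {s : ℕ}
  {β : Blk K κ}

/-! variables are central and homogeneous -/

private theorem mu_va_comm (v : Fin 1 × Fin (κ + 2)) (u : PA D κ 1) :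
    va D κ 1 v * u = u * va D κ 1 v := by
  unfold va
  induction u using AddMonoidAlgebra.induction_linear with
  | zero => rw [mul_zero, zero_mul]
  | add f g hf hg => rw [mul_add, add_mul, hf, hg]
  | single m d => rw [AddMonoidAlgebra.single_mul_single, AddMonoidAlgebra.single_mul_single,
      one_mul, mul_one, add_comm]

private theorem mu_pow_mem (v : Fin (κ + 2)) (w : Fin (κ + 2)) (a b : ℕ) :
    va D κ 1 (0, v) ^ a * va D κ 1 (0, w) ^ b ∈ pp D κ 1 (fun _ => a + b) := by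
  unfold va
  rw [AddMonoidAlgebra.single_pow, AddMonoidAlgebra.single_pow,
    AddMonoidAlgebra.single_mul_single]
  intro m hm
  rw [AddMonoidAlgebra.coeff_single, Finsupp.single_apply] at hm
  have h : a • Finsupp.single ((0 : Fin 1), v) 1 + b • Finsupp.single ((0 : Fin 1), w) 1 = m := by
    by_contra hne
    rw [if_neg hne] at hm
    exact hm rfl
  subst h
  funext g
  have hg : g = 0 := Subsingleton.elim _ _
  subst hg
  unfold mdeg
  simp [Finsupp.single_apply, Finset.sum_add_distrib]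

private theorem mu_va_mem (v : Fin (κ + 2)) : va D κ 1 (0, v) ∈ pp D κ 1 (fun _ => 1) := by
  have := mu_pow_mem (D := D) v v 1 0
  simpa using this

/-- the ideal of one component -/
private noncomputable def muJ (D : Type u) [DivisionRing D] [Algebra K D] (β : Blk K κ) :
    Submodule (PA D κ 1) (PA D κ 1) :=
  (N0i D (fun _ : Fin 1 => β) (Fin 1)).comap (LinearMap.pi fun _ => LinearMap.id)

private theorem mem_muJ {p : PA D κ 1} :
    p ∈ muJ D β ↔ (fun _ => p) ∈ N0i D (fun _ : Fin 1 => β) (Fin 1) := Iff.rfl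

private theorem mu_mem_N0 {u : Fin s → PA D κ 1} :
    u ∈ N0i D (fun _ : Fin 1 => β) (Fin s) ↔ ∀ j, u j ∈ muJ D β := by
  rw [mem_N0i_iff]
  rfl

private theorem mu_kernel (β : Blk K κ) : ∀ (n : ℕ) (u : Fin (n + 1) → PA D κ 1),
    (∀ i : Fin n, va D κ 1 (0, 0) * u i.castSucc - va D κ 1 (0, 1) * u i.succ ∈ muJ D β) →
    ∃ p : PA D κ 1, ∀ i : Fin (n + 1),
      u i - p * (va D κ 1 (0, 0) ^ (i : ℕ) * va D κ 1 (0, 1) ^ (n - i : ℕ)) ∈ muJ D β := by
  intro n
  induction n with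
  | zero =>
    intro u _
    refine ⟨u 0, fun i => ?_⟩
    have hi : i = 0 := Fin.ext (by omega)
    subst hi
    simp
  | succ n ih =>
    intro u hu
    have h1 : ∀ i : Fin (n + 1), ∃ p : PA D κ 1,
        u i.succ - va D κ 1 (0, 0) * p ∈ muJ D β ∧
        u i.castSucc - va D κ 1 (0, 1) * p ∈ muJ D β := by
      intro i
      have h := (muJ D β).neg_mem (hu i)
      rw [neg_sub] at h
      exact koszul_xy β (mem_muJ.1 h)
    choose p hp1 hp2 using h1
    obtain ⟨q, hq⟩ := ih p (fun i => by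
      have h2 := hp1 i.castSucc
      have h3 := hp2 i.succ
      rw [Fin.succ_castSucc] at h2
      have h4 := (muJ D β).sub_mem h3 h2
      have e : u i.succ.castSucc - va D κ 1 (0, 1) * p i.succ -
          (u i.succ.castSucc - va D κ 1 (0, 0) * p i.castSucc) =
          va D κ 1 (0, 0) * p i.castSucc - va D κ 1 (0, 1) * p i.succ := by abel
      rwa [e] at h4)
    refine ⟨q, fun i => ?_⟩
    refine Fin.lastCases ?_ (fun j => ?_) i
    · have h2 := hp1 (Fin.last n)
      have h3 := (muJ D β).smul_mem (va D κ 1 (0, 0)) (hq (Fin.last n))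
      have h4 := (muJ D β).add_mem h2 h3
      have e : u (Fin.last n).succ - va D κ 1 (0, 0) * p (Fin.last n) +
          va D κ 1 (0, 0) • (p (Fin.last n) - q * (va D κ 1 (0, 0) ^ ((Fin.last n : Fin (n + 1)) : ℕ) *
            va D κ 1 (0, 1) ^ (n - (Fin.last n : Fin (n + 1)) : ℕ))) =
          u (Fin.last (n + 1)) - q * (va D κ 1 (0, 0) ^ ((Fin.last (n + 1) : Fin (n + 2)) : ℕ) *
            va D κ 1 (0, 1) ^ (n + 1 - (Fin.last (n + 1) : Fin (n + 2)) : ℕ)) := by
        rw [Fin.succ_last, smul_eq_mul, mul_sub, ← mul_assoc (va D κ 1 (0, 0)) q,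
          mu_va_comm (0, 0) q, mul_assoc q, ← mul_assoc (va D κ 1 (0, 0)) (_ ^ _), ← pow_succ']
        simp
      rwa [e] at h4
    · have h2 := hp2 j
      have h3 := (muJ D β).smul_mem (va D κ 1 (0, 1)) (hq j)
      have h4 := (muJ D β).add_mem h2 h3
      have hj : (j : ℕ) ≤ n := Nat.lt_succ_iff.1 j.2
      have e : u j.castSucc - va D κ 1 (0, 1) * p j +
          va D κ 1 (0, 1) • (p j - q * (va D κ 1 (0, 0) ^ (j : ℕ) *
            va D κ 1 (0, 1) ^ (n - j : ℕ))) =
          u j.castSucc - q * (va D κ 1 (0, 0) ^ ((j.castSucc : Fin (n + 2)) : ℕ) *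
            va D κ 1 (0, 1) ^ (n + 1 - (j.castSucc : Fin (n + 2)) : ℕ)) := by
        rw [smul_eq_mul, mul_sub, ← mul_assoc (va D κ 1 (0, 1)) q,
          mu_va_comm (0, 1) q, mul_assoc q, ← mul_assoc (va D κ 1 (0, 1)) (_ ^ _),
          mu_va_comm (0, 1) (_ ^ _), mul_assoc, ← pow_succ', Fin.val_castSucc,
          Nat.succ_sub hj]
        abel
      rwa [e] at h4

/-- the map `u ↦ (x u_i - y u_(i+1))` -/
private noncomputable def muPsi (D : Type u) [DivisionRing D] (κ n : ℕ) :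
    (Fin (n + 1) → PA D κ 1) →ₗ[PA D κ 1] (Fin n → PA D κ 1) :=
  pmat fun i j => (if i = j.castSucc then va D κ 1 (0, 0) else 0) -
    (if i = j.succ then va D κ 1 (0, 1) else 0)

private theorem muPsi_apply (n : ℕ) (w : Fin (n + 1) → PA D κ 1) (j : Fin n) :
    muPsi D κ n w j = va D κ 1 (0, 0) * w j.castSucc - va D κ 1 (0, 1) * w j.succ := by
  unfold muPsi
  rw [pmat_apply]
  simp only [mul_sub, Finset.sum_sub_distrib, mul_ite, mul_zero, Finset.sum_ite_eq',
    Finset.mem_univ, if_true]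
  rw [mu_va_comm, mu_va_comm]

private theorem muPsi_homg (n : ℕ) : IsHomg (fun _ => 1) (muPsi D κ n) := by
  apply pmat_isHomg
  intro i j
  apply Submodule.sub_mem
  · split_ifs
    · exact mu_va_mem 0
    · exact Submodule.zero_mem _
  · split_ifs
    · exact mu_va_mem 1
    · exact Submodule.zero_mem _

/-- the vector of monomials -/
private noncomputable def muV (D : Type u) [DivisionRing D] (κ n : ℕ) : Fin (n + 1) → PA D κ 1 :=
  fun i : Fin (n + 1) => va D κ 1 (0, 0) ^ (i : ℕ) * va D κ 1 (0, 1) ^ (n - i : ℕ)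

private theorem muPsi_muV (n : ℕ) : muPsi D κ n (muV D κ n) = 0 := by
  funext j
  rw [muPsi_apply]
  unfold muV
  have hj : (j : ℕ) < n := j.2
  rw [Fin.val_castSucc, Fin.val_succ, ← mul_assoc, ← pow_succ', ← mul_assoc,
    mu_va_comm (0, 1) (_ ^ _), mul_assoc, ← pow_succ', Nat.sub_add_eq, Nat.sub_add_cancel (by omega)]
  exact sub_self _

private theorem muPsi_comap (n : ℕ) :
    (N0i D (fun _ : Fin 1 => β) (Fin n)).comap (muPsi D κ n) =
      N0i D (fun _ : Fin 1 => β) (Fin (n + 1)) ⊔ Submodule.span (PA D κ 1) {muV D κ n} := by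
  apply le_antisymm
  · intro w hw
    rw [Submodule.mem_comap, mu_mem_N0] at hw
    obtain ⟨p, hp⟩ := mu_kernel β n w (fun i => by
      have := hw i
      rwa [muPsi_apply] at this)
    have h1 : w - p • muV D κ n ∈ N0i D (fun _ : Fin 1 => β) (Fin (n + 1)) := by
      rw [mu_mem_N0]
      exact hp
    have h2 : w = (w - p • muV D κ n) + p • muV D κ n := by abel
    rw [h2]
    exact Submodule.add_mem_sup h1 (Submodule.smul_mem _ _ (Submodule.mem_span_singleton_self _))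
  · refine sup_le ?_ ?_
    · intro w hw
      rw [mu_mem_N0] at hw
      rw [Submodule.mem_comap, mu_mem_N0]
      intro j
      rw [muPsi_apply]
      exact (muJ D β).sub_mem ((muJ D β).smul_mem _ (hw _)) ((muJ D β).smul_mem _ (hw _))
    · rw [Submodule.span_singleton_le_iff_mem, Submodule.mem_comap, muPsi_muV]
      exact Submodule.zero_mem _

/-- multiples of a vector, as a map from `PA^1` -/
private noncomputable def muPhi (v : Fin s → PA D κ 1) :
    (Fin 1 → PA D κ 1) →ₗ[PA D κ 1] (Fin s → PA D κ 1) :=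
  pmat fun _ j => v j

private theorem muPhi_apply (v : Fin s → PA D κ 1) (w : Fin 1 → PA D κ 1) :
    muPhi v w = w 0 • v := by
  funext j
  unfold muPhi
  rw [pmat_apply, Fin.sum_univ_one]
  rfl

private theorem muPhi_range (v : Fin s → PA D κ 1) :
    LinearMap.range (muPhi v) = Submodule.span (PA D κ 1) {v} := by
  apply le_antisymm
  · rintro _ ⟨w, rfl⟩
    rw [muPhi_apply]
    exact Submodule.smul_mem _ _ (Submodule.mem_span_singleton_self _)
  · rw [Submodule.span_singleton_le_iff_mem]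
    exact ⟨fun _ => 1, by rw [muPhi_apply, one_smul]⟩

private theorem mu_free_x (β : Blk K κ) {p : PA D κ 1} (n a : ℕ) (ha : a ≤ n)
    (h : p * (va D κ 1 (0, 0) ^ a * va D κ 1 (0, 1) ^ (n - a)) ∈ muJ D β) : p ∈ muJ D β := by
  by_contra hcon
  have h1 := free_xy β (u := p) (fun h' => hcon (mem_muJ.2 h')) n
    (fun i => if (i : ℕ) = n - a then 1 else 0) (by
      rw [← mem_muJ]
      have hlt : n - a < n + 1 := by omega
      rw [Finset.sum_eq_single (⟨n - a, hlt⟩ : Fin (n + 1))]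
      · simp only [if_true, one_smul]
        have e1 : n - (n - a) = a := by omega
        rw [e1]
        have e2 : ∀ (k l : ℕ), va D κ 1 (0, 0) ^ k * va D κ 1 (0, 1) ^ l * p =
            p * (va D κ 1 (0, 0) ^ k * va D κ 1 (0, 1) ^ l) := by
          intro k l
          have c1 : ∀ (v : Fin 1 × Fin (κ + 2)) (k : ℕ) (q : PA D κ 1),
              va D κ 1 v ^ k * q = q * va D κ 1 v ^ k := by
            intro v k q
            exact (Commute.pow_left (mu_va_comm v q) k)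
          rw [mul_assoc, c1 (0, 1) l p, ← mul_assoc, c1 (0, 0) k p, mul_assoc]
        rw [e2]
        exact h
      · intro b _ hb
        rw [if_neg, zero_smul]
        intro hb'
        exact hb (Fin.ext hb')
      · intro hb
        exact absurd (Finset.mem_univ _) hb)
  have h2 := congrFun h1 ⟨n - a, by omega⟩
  simp at h2

private theorem muPhi_comap (β : Blk K κ) (v : Fin s → PA D κ 1) (j : Fin s) (n a : ℕ) (ha : a ≤ n)
    (hv : v j = va D κ 1 (0, 0) ^ a * va D κ 1 (0, 1) ^ (n - a))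
    (hcen : ∀ i q, v i * q = q * v i) :
    (N0i D (fun _ : Fin 1 => β) (Fin s)).comap (muPhi v) = N0i D (fun _ : Fin 1 => β) (Fin 1) := by
  apply le_antisymm
  · intro w hw
    rw [Submodule.mem_comap, mu_mem_N0] at hw
    rw [mu_mem_N0]
    intro i
    have hi : i = 0 := Subsingleton.elim _ _
    subst hi
    have h1 := hw j
    rw [muPhi_apply, Pi.smul_apply, smul_eq_mul, hv] at h1
    exact mu_free_x β n a ha h1
  · intro w hw
    rw [mu_mem_N0] at hw
    rw [Submodule.mem_comap, mu_mem_N0]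
    intro i
    rw [muPhi_apply, Pi.smul_apply, smul_eq_mul, ← hcen]
    exact (muJ D β).smul_mem _ (hw 0)

private theorem mu_pow_comm (v w : Fin 1 × Fin (κ + 2)) (a b : ℕ) (q : PA D κ 1) :
    va D κ 1 v ^ a * va D κ 1 w ^ b * q = q * (va D κ 1 v ^ a * va D κ 1 w ^ b) := by
  have c1 : ∀ (v : Fin 1 × Fin (κ + 2)) (k : ℕ) (q : PA D κ 1),
      va D κ 1 v ^ k * q = q * va D κ 1 v ^ k := fun v k q =>
    (Commute.pow_left (mu_va_comm v q) k)
  rw [mul_assoc, c1 w b q, ← mul_assoc, c1 v a q, mul_assoc]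

private theorem mu_hO (β : Blk K κ) (m n : ℤ) : hO β.e (m + n) = hO β.e m + n * dl β.e := by
  unfold hO
  ring

/-- the dimensions of `PA^s / (N0 + PA v)`, `v` homogeneous of degree `n` -/
private theorem mu_qd (β : Blk K κ) (v : Fin s → PA D κ 1) (j : Fin s) (n a : ℕ) (ha : a ≤ n)
    (hv : v j = va D κ 1 (0, 0) ^ a * va D κ 1 (0, 1) ^ (n - a))
    (hcen : ∀ i q, v i * q = q * v i) (hdeg : ∀ i, v i ∈ pp D κ 1 (fun _ => n)) :
    ∃ m0 : ℕ, ∀ m, m0 ≤ m →
      (qdi (N0i D (fun _ : Fin 1 => β) (Fin s) ⊔ Submodule.span (PA D κ 1) {v}) (fun _ => m) : ℤ) =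
        (s - 1) * hO β.e m + n * dl β.e := by
  obtain ⟨n1, h1⟩ := qdi_N0i D β (Fin s)
  obtain ⟨n2, h2⟩ := qdi_N0i D β (Fin 1)
  refine ⟨max n1 n2 + n, fun m hm => ?_⟩
  have hm1 : n1 ≤ m := by omega
  have hm2 : n2 ≤ m - n := by omega
  have hmn : n ≤ m := by omega
  have hhom : IsHomg (fun _ => n) (muPhi v) := pmat_isHomg fun _ i => hdeg i
  have key := qdi_comap hhom (N' := N0i D (fun _ : Fin 1 => β) (Fin s)) (isGi_N0i _).hom (fun _ => m - n)
  have e0 : ((fun _ => m - n) + fun _ => n : Fin 1 → ℕ) = fun _ => m := by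
    funext i
    simp only [Pi.add_apply]
    omega
  rw [muPhi_comap β v j n a ha hv hcen, muPhi_range, e0] at key
  have k1 := h1 m hm1
  have k2 := h2 (m - n) hm2
  have k3 := mu_hO β (m - n : ℕ) n
  have e1 : (((m - n : ℕ) : ℤ) + n) = m := by omega
  rw [e1] at k3
  have key' : (qdi (N0i D (fun _ : Fin 1 => β) (Fin 1)) (fun _ => m - n) : ℤ) +
      qdi (N0i D (fun _ : Fin 1 => β) (Fin s) ⊔ Submodule.span (PA D κ 1) {v}) (fun _ => m) =
      qdi (N0i D (fun _ : Fin 1 => β) (Fin s)) (fun _ => m) := by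
    exact_mod_cast key
  rw [k1, k2, Nat.card_fin, Nat.card_fin] at key'
  push_cast at key' ⊢
  linear_combination key' + k3

theorem isRk_mu (hI : IntP D (fun _ : Fin 1 => β)) (n : ℕ) :
    IsRk β (N0i D (fun _ : Fin 1 => β) (Fin (n + 1)) ⊔ Submodule.span (PA D κ 1)
      {fun i : Fin (n + 1) => va D κ 1 (0, 0) ^ (i : ℕ) * va D κ 1 (0, 1) ^ (n - i : ℕ)}) 0 := by
  change IsRk β (N0i D (fun _ : Fin 1 => β) (Fin (n + 1)) ⊔ Submodule.span (PA D κ 1) {muV D κ n}) 0
  refine ⟨⟨⊤, le_top, isGi_top _, 0, 0, rfl, 0, fun m _ => ?_⟩, ?_⟩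
  · rw [qdi_top]; simp
  intro N' hle hN' r hr
  have hψ := muPsi_homg (D := D) (κ := κ) n
  have hcomap := muPsi_comap (D := D) (β := β) n
  have hN'' : IsGi (fun _ : Fin 1 => β) (N0i D (fun _ : Fin 1 => β) (Fin n) ⊔ N'.map (muPsi D κ n)) :=
    IsGi.sup_map hψ hN' (isGi_N0i _)
  have hc2 : (N0i D (fun _ : Fin 1 => β) (Fin n) ⊔ N'.map (muPsi D κ n)).comap (muPsi D κ n) = N' := by
    apply le_antisymm
    · intro w hw
      rw [Submodule.mem_comap, Submodule.mem_sup] at hw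
      obtain ⟨a, ha, b, hb, hab⟩ := hw
      obtain ⟨v, hv, rfl⟩ := Submodule.mem_map.1 hb
      have h3 : w - v ∈ (N0i D (fun _ : Fin 1 => β) (Fin n)).comap (muPsi D κ n) := by
        rw [Submodule.mem_comap, map_sub, ← hab, add_sub_cancel_right]
        exact ha
      rw [hcomap] at h3
      have h4 := N'.add_mem (hle h3) hv
      rwa [sub_add_cancel] at h4
    · intro w hw
      rw [Submodule.mem_comap]
      exact Submodule.mem_sup_right (Submodule.mem_map_of_mem hw)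
  obtain ⟨A, B, -, -, hB, m0, hAB⟩ := exists_AB hI hN''
  have hrng : N0i D (fun _ : Fin 1 => β) (Fin n) ⊔ N'.map (muPsi D κ n) ⊔
      LinearMap.range (muPsi D κ n) =
      N0i D (fun _ : Fin 1 => β) (Fin n) ⊔ LinearMap.range (muPsi D κ n) := by
    rw [sup_assoc]
    congr 1
    exact sup_eq_right.2 LinearMap.map_le_range
  obtain ⟨n1, h1⟩ := qdi_N0i D β (Fin n)
  obtain ⟨n2, h2⟩ := mu_qd β (muV D κ n) 0 n 0 (Nat.zero_le n) (by simp [muV])
    (fun i q => mu_pow_comm _ _ _ _ q) (fun i => by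
      have := mu_pow_mem (D := D) (κ := κ) 0 1 (i : ℕ) (n - i)
      have hi : (i : ℕ) ≤ n := Nat.lt_succ_iff.1 i.2
      rwa [Nat.add_sub_cancel' hi] at this)
  have hkey : IsRho β N' (-B) := by
    refine ⟨A, A + B, by ring, max (max n1 n2) m0, fun m hm => ?_⟩
    have hm1 : n1 ≤ m + 1 := by omega
    have hm2 : n2 ≤ m := by omega
    have hm3 : m0 ≤ m + 1 := by omega
    have key1 := qdi_comap hψ hN''.hom (fun _ => m)
    have key2 := qdi_comap hψ (N' := N0i D (fun _ : Fin 1 => β) (Fin n)) (isGi_N0i _).hom (fun _ => m)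
    have e0 : ((fun _ => m) + fun _ => 1 : Fin 1 → ℕ) = fun _ => m + 1 := rfl
    rw [hc2, hrng, e0] at key1
    rw [hcomap, e0] at key2
    have k1 := h1 (m + 1) hm1
    have k2 := h2 m hm2
    have k3 := hAB (m + 1) hm3
    have k4 := mu_hO β m 1
    have key1' : (qdi N' (fun _ => m) : ℤ) +
        qdi (N0i D (fun _ : Fin 1 => β) (Fin n) ⊔ LinearMap.range (muPsi D κ n)) (fun _ => m + 1) =
        qdi (N0i D (fun _ : Fin 1 => β) (Fin n) ⊔ N'.map (muPsi D κ n)) (fun _ => m + 1) := by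
      exact_mod_cast key1
    have key2' : (qdi (N0i D (fun _ : Fin 1 => β) (Fin (n + 1)) ⊔
        Submodule.span (PA D κ 1) {muV D κ n}) (fun _ => m) : ℤ) +
        qdi (N0i D (fun _ : Fin 1 => β) (Fin n) ⊔ LinearMap.range (muPsi D κ n)) (fun _ => m + 1) =
        qdi (N0i D (fun _ : Fin 1 => β) (Fin n)) (fun _ => m + 1) := by
      exact_mod_cast key2
    rw [k3] at key1'
    rw [k1, k2, Nat.card_fin] at key2'
    push_cast at *
    rw [k4] at key1' key2'
    linear_combination key1' - key2'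
  have := isRho_unique hr hkey
  omega

theorem isRk_eta (hI : IntP D (fun _ : Fin 1 => β)) (i : Fin κ) {k : ℕ}
    (h : IsRk β (N0i D (fun _ : Fin 1 => β) (Fin 3) ⊔ Submodule.span (PA D κ 1)
      {![va D κ 1 (0, 0), va D κ 1 (0, 1), -va D κ 1 (0, i.succ.succ)]}) k) : 1 ≤ k := by
  have hdeg : ∀ j, (![va D κ 1 (0, 0), va D κ 1 (0, 1), -va D κ 1 (0, i.succ.succ)] :
      Fin 3 → PA D κ 1) j ∈ pp D κ 1 (fun _ => 1) := by
    intro j
    fin_cases j
    · exact mu_va_mem 0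
    · exact mu_va_mem 1
    · exact Submodule.neg_mem _ (mu_va_mem _)
  obtain ⟨m0, hm⟩ := mu_qd (D := D) β ![va D κ 1 (0, 0), va D κ 1 (0, 1),
    -va D κ 1 (0, i.succ.succ)] 0 1 1 le_rfl (by simp) (fun j q => by
      fin_cases j
      · exact mu_va_comm _ _
      · exact mu_va_comm _ _
      · change -va D κ 1 (0, i.succ.succ) * q = q * -va D κ 1 (0, i.succ.succ)
        rw [neg_mul, mul_neg, mu_va_comm]) hdeg
  have h1 := h.2 _ le_rfl ((IsGi.sup_span (isGi_N0i _) (fun w hw => by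
    rw [Set.mem_singleton_iff] at hw
    subst hw
    exact ⟨_, hdeg⟩))) 1 ⟨2, 1, by norm_num, m0, fun m hm' => by
      rw [hm m hm']
      push_cast
      ring⟩
  exact_mod_cast h1

end Vale.Agent.P200.V
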