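import Vale.Agent.P200.V.RkNfA

/-!
**(A), part 2: normal form.**  `PA D κ 1` modulo the relations of one block is free over
`D[x, y]` with basis `η^k`, `k i < e i`.

The composition `r_0 ∘ r_1 ∘ ... ∘ r_(κ-1)` of the reductions of `RkNfA` kills all the
relations, because the relation `i` does not contain the `η_j`, `j > i`, and its values are combinations of the
`x^a y^b η^k` with `k i < e i`.  Then take the coefficients.
-/

namespace Vale.Agent.P200.V

open Module

universe u

variable {K : Type u} [Field K] {D : Type u} [DivisionRing D] [Algebra K D] {κ : ℕ}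

theorem a3_F_mem (β : Blk K κ) (i : Fin κ) (m : Mon κ 1) : a3_F D β i m ∈ pp D κ 1 (mdeg m) := by
  have h1 := a3_pp_mul (a3_pp_pow (a3_bm_mem (D := D) (β.hom i)) (m (a3_et i) / β.e i))
    (a3_single_mem (a3_rm β i m) (1 : D))
  have h2 : ((fun _ => m (a3_et i) / β.e i * β.e i) + mdeg (a3_rm β i m) : Fin 1 → ℕ) =
      mdeg m := by
    funext g
    conv_rhs => rw [a3_eq_rm β i m]
    rw [Subsingleton.elim g 0, Pi.add_apply, mdeg, mdeg]
    have h3 : ∀ v : Fin (κ + 2), (Finsupp.single (a3_et i) (β.e i * (m (a3_et i) / β.e i)) +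
        a3_rm β i m) (0, v) = (Finsupp.single (a3_et i) (β.e i * (m (a3_et i) / β.e i))) (0, v) +
        a3_rm β i m (0, v) := fun v => Finsupp.add_apply _ _ _
    have h5 : ∑ v : Fin (κ + 2), (Finsupp.single (a3_et i) (β.e i * (m (a3_et i) / β.e i)))
        ((0 : Fin 1), v) = β.e i * (m (a3_et i) / β.e i) := by
      rw [Finset.sum_eq_single i.succ.succ]
      · exact Finsupp.single_eq_same
      · intro v _ hv
        rw [Finsupp.single_eq_of_ne]
        intro h
        exact hv (Prod.mk.inj h).2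
      · intro h
        exact absurd (Finset.mem_univ _) h
    rw [Finset.sum_congr rfl fun v _ => h3 v, Finset.sum_add_distrib, h5, mul_comm]
  rw [h2] at h1
  exact h1

theorem a3_r_mem (β : Blk K κ) (i : Fin κ) {n : Fin 1 → ℕ} {u : PA D κ 1}
    (hu : u ∈ pp D κ 1 n) : a3_r D β i u ∈ pp D κ 1 n := by
  have h1 : u = ∑ m ∈ u.coeff.support, AddMonoidAlgebra.single m (u.coeff m) := by
    conv_lhs => rw [← AddMonoidAlgebra.sum_coeff_single u, Finsupp.sum]
  rw [h1, map_sum]
  apply Submodule.sum_mem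
  intro m hm
  rw [a3_r_single, ← hu m (Finsupp.mem_support_iff.1 hm)]
  exact Submodule.smul_mem _ _ (a3_F_mem β i m)

/-- the exponents of the `η_l`, `l ≥ j`, are small -/
def a3_T (β : Blk K κ) (j : ℕ) (u : PA D κ 1) : Prop :=
  ∀ m, u.coeff m ≠ 0 → ∀ l : Fin κ, j ≤ l → m (a3_et l) < β.e l

theorem a3_r_T (β : Blk K κ) (i : Fin κ) {u : PA D κ 1} (hu : a3_T β (i + 1) u) :
    a3_T β i (a3_r D β i u) := by
  have h1 : u = ∑ m ∈ u.coeff.support, AddMonoidAlgebra.single m (u.coeff m) := by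
    conv_lhs => rw [← AddMonoidAlgebra.sum_coeff_single u, Finsupp.sum]
  intro m' hm' l hl
  rw [h1, map_sum, AddMonoidAlgebra.coeff_sum, Finsupp.finsetSum_apply] at hm'
  obtain ⟨m, hm, hmm⟩ := Finset.exists_ne_zero_of_sum_ne_zero hm'
  rw [a3_r_single, AddMonoidAlgebra.coeff_smul_apply] at hmm
  have h2 : (a3_F D β i m).coeff m' ≠ 0 := by
    intro h0
    rw [h0, smul_zero] at hmm
    exact hmm rfl
  obtain ⟨a, b, rfl, ha, hb⟩ := a3_coeff_mul h2
  have h3 : a (a3_et l) = 0 := a3_Fr_pow (a3_Fr_Phi β i) _ a ha l hl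
  have h4 : b = a3_rm β i m := by
    by_contra h'
    apply hb
    rw [AddMonoidAlgebra.coeff_single]
    exact Finsupp.single_eq_of_ne h'
  rw [Finsupp.add_apply, h3, zero_add, h4]
  by_cases hli : l = i
  · rw [hli, a3_rm_self]
    exact Nat.mod_lt _ (β.e_pos i)
  · rw [a3_rm_ne β i m (fun h => hli (a3_et_inj h))]
    apply hu m (Finsupp.mem_support_iff.1 hm) l
    have : (l : ℕ) ≠ i := fun h => hli (Fin.ext h)
    omega

/-- the composition `r_0 ∘ ... ∘ r_(j-1)` -/
noncomputable def a3_R (D : Type u) [DivisionRing D] [Algebra K D] (β : Blk K κ) (j : ℕ) :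
    PA D κ 1 →ₗ[D] PA D κ 1 :=
  Nat.rec LinearMap.id (fun j f => if h : j < κ then f.comp (a3_r D β ⟨j, h⟩) else f) j

theorem a3_R_zero (β : Blk K κ) (u : PA D κ 1) : a3_R D β 0 u = u := rfl

theorem a3_R_succ (β : Blk K κ) {j : ℕ} (h : j < κ) (u : PA D κ 1) :
    a3_R D β (j + 1) u = a3_R D β j (a3_r D β ⟨j, h⟩ u) := by
  have h1 : a3_R D β (j + 1) = if h : j < κ then (a3_R D β j).comp (a3_r D β ⟨j, h⟩) else
      a3_R D β j := rfl
  rw [h1, dif_pos h, LinearMap.comp_apply]

theorem a3_R_rel (β : Blk K κ) {j : ℕ} (hj : j ≤ κ) (i : Fin κ) (hi : (i : ℕ) < j)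
    (u : PA D κ 1) : a3_R D β j (bm K D κ (0 : Fin 1) (β.rel i) * u) = 0 := by
  induction j generalizing u with
  | zero => omega
  | succ j ih =>
    rw [a3_R_succ β (by omega)]
    by_cases hij : (i : ℕ) = j
    · have h1 : (⟨j, by omega⟩ : Fin κ) = i := Fin.ext hij.symm
      rw [h1, a3_r_rel, map_zero]
    · rw [a3_r_mul, ih (by omega) (by omega)]
      intro m hm
      exact a3_Fr_rel β i (j := j) (by omega) m hm ⟨j, by omega⟩ le_rfl

theorem a3_R_N (β : Blk K κ) {j : ℕ} (hj : j ≤ κ) (u : PA D κ 1) :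
    a3_N D β (u - a3_R D β j u) := by
  induction j generalizing u with
  | zero =>
    rw [a3_R_zero, sub_self]
    exact a3_N_zero
  | succ j ih =>
    rw [a3_R_succ β (by omega)]
    have h1 := a3_N_add (a3_N_r β ⟨j, by omega⟩ u) (ih (by omega) (a3_r D β ⟨j, by omega⟩ u))
    rw [sub_add_sub_cancel] at h1
    exact h1

theorem a3_R_T (β : Blk K κ) {j : ℕ} (hj : j ≤ κ) {u : PA D κ 1} (hu : a3_T β j u) :
    a3_T β 0 (a3_R D β j u) := by
  induction j generalizing u with
  | zero => exact hu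
  | succ j ih =>
    rw [a3_R_succ β (by omega)]
    exact ih (by omega) (a3_r_T β ⟨j, by omega⟩ hu)

theorem a3_R_mem (β : Blk K κ) {j : ℕ} (hj : j ≤ κ) {n : Fin 1 → ℕ} {u : PA D κ 1}
    (hu : u ∈ pp D κ 1 n) : a3_R D β j u ∈ pp D κ 1 n := by
  induction j generalizing u with
  | zero => exact hu
  | succ j ih =>
    rw [a3_R_succ β (by omega)]
    exact ih (by omega) (a3_r_mem β ⟨j, by omega⟩ hu)

theorem a3_R_single_mul (β : Blk K κ) {j : ℕ} (hj : j ≤ κ) {a : Mon κ 1}
    (ha : ∀ i, a (a3_et i) = 0) (c : D) (u : PA D κ 1) :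
    a3_R D β j (AddMonoidAlgebra.single a c * u) =
      AddMonoidAlgebra.single a c * a3_R D β j u := by
  induction j generalizing u with
  | zero => rfl
  | succ j ih =>
    rw [a3_R_succ β (by omega), a3_R_succ β (by omega), a3_r_single_mul β _ (ha _),
      ih (by omega)]

theorem a3_R_fix (β : Blk K κ) {j : ℕ} (hj : j ≤ κ) {m : Mon κ 1}
    (hm : ∀ i, m (a3_et i) < β.e i) : a3_R D β j (AddMonoidAlgebra.single m 1) =
      AddMonoidAlgebra.single m 1 := by
  induction j with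
  | zero => rfl
  | succ j ih =>
    rw [a3_R_succ β (by omega), a3_r_single, a3_F, Nat.div_eq_of_lt (hm _), pow_zero, one_mul,
      a3_rm_eq β _ m (hm _), one_smul, ih (by omega)]

/-- the monomial `x^(a 0) y^(a 1) η^k` -/
noncomputable def a3_g {e : Fin κ → ℕ} (k : ∀ i, Fin (e i)) (a : Fin 2 →₀ ℕ) : Mon κ 1 :=
  Finsupp.single (0, 0) (a 0) + Finsupp.single (0, 1) (a 1) +
    ∑ i, Finsupp.single ((0 : Fin 1), i.succ.succ) (k i : ℕ)

theorem a3_sum_apply {e : Fin κ → ℕ} (k : ∀ i, Fin (e i)) (v : Fin 1 × Fin (κ + 2)) :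
    (∑ i, Finsupp.single ((0 : Fin 1), i.succ.succ) (k i : ℕ) : Mon κ 1) v =
      ∑ i, (Finsupp.single ((0 : Fin 1), i.succ.succ) (k i : ℕ) : Mon κ 1) v :=
  Finsupp.finsetSum_apply _ _ _

theorem a3_g_zero {e : Fin κ → ℕ} (k : ∀ i, Fin (e i)) (a : Fin 2 →₀ ℕ) :
    a3_g k a (0, 0) = a 0 := by
  have h1 : (0 : Fin 1 × Fin (κ + 2)) = ((0 : Fin 1), (0 : Fin (κ + 2))) := rfl
  rw [a3_g, Finsupp.add_apply, Finsupp.add_apply, a3_sum_apply, Finsupp.single_eq_same,
    Finsupp.single_eq_of_ne, Finset.sum_eq_zero, add_zero, add_zero]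
  · intro i _
    rw [Finsupp.single_eq_of_ne]
    intro h
    exact Fin.succ_ne_zero _ (Prod.mk.inj h).2.symm
  · intro h
    have := (Prod.mk.inj h).2
    exact absurd this (by simp)

theorem a3_g_one {e : Fin κ → ℕ} (k : ∀ i, Fin (e i)) (a : Fin 2 →₀ ℕ) :
    a3_g k a (0, 1) = a 1 := by
  rw [a3_g, Finsupp.add_apply, Finsupp.add_apply, a3_sum_apply, Finsupp.single_eq_same,
    Finsupp.single_eq_of_ne, Finset.sum_eq_zero, zero_add, add_zero]
  · intro i _
    rw [Finsupp.single_eq_of_ne]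
    intro h
    have h2 : (1 : Fin (κ + 2)) = i.succ.succ := (Prod.mk.inj h).2
    have h3 := congrArg Fin.val h2
    rw [Fin.val_succ, Fin.val_succ] at h3
    have h4 : ((1 : Fin (κ + 2)) : ℕ) = 1 := rfl
    omega
  · intro h
    have := (Prod.mk.inj h).2
    exact absurd this (by simp)

theorem a3_g_et {e : Fin κ → ℕ} (k : ∀ i, Fin (e i)) (a : Fin 2 →₀ ℕ) (l : Fin κ) :
    a3_g k a (a3_et l) = k l := by
  rw [a3_g, Finsupp.add_apply, Finsupp.add_apply, a3_sum_apply, Finsupp.single_eq_of_ne,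
    Finsupp.single_eq_of_ne, Finset.sum_eq_single l, zero_add, zero_add]
  · exact Finsupp.single_eq_same
  · intro i _ hi
    rw [Finsupp.single_eq_of_ne]
    intro h
    exact hi (a3_et_inj h).symm
  · intro h
    exact absurd (Finset.mem_univ _) h
  · intro h
    have h2 : l.succ.succ = (1 : Fin (κ + 2)) := (Prod.mk.inj h).2
    have h3 := congrArg Fin.val h2
    rw [Fin.val_succ, Fin.val_succ] at h3
    have h4 : ((1 : Fin (κ + 2)) : ℕ) = 1 := rfl
    omega
  · intro h
    exact Fin.succ_ne_zero _ (Prod.mk.inj h).2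

theorem a3_g_inj {e : Fin κ → ℕ} (k : ∀ i, Fin (e i)) : Function.Injective (a3_g k) := by
  intro a b h
  ext i
  refine Fin.cases ?_ (fun i => ?_) i
  · rw [← a3_g_zero k a, ← a3_g_zero k b, h]
  · rw [Subsingleton.elim i 0]
    have h1 : a3_g k a (0, 1) = a3_g k b (0, 1) := by rw [h]
    rw [a3_g_one, a3_g_one] at h1
    exact h1

theorem a3_var_cases (v : Fin 1 × Fin (κ + 2)) : v = (0, 0) ∨ v = (0, 1) ∨ ∃ l, v = a3_et l := by
  obtain ⟨g, v⟩ := v
  rw [Subsingleton.elim g 0]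
  refine Fin.cases ?_ (fun v => ?_) v
  · exact Or.inl rfl
  · refine Fin.cases ?_ (fun v => ?_) v
    · exact Or.inr (Or.inl rfl)
    · exact Or.inr (Or.inr ⟨v, rfl⟩)

theorem a3_g_surj (β : Blk K κ) (m : Mon κ 1) (hm : ∀ i, m (a3_et i) < β.e i) :
    ∃ (k : ∀ i, Fin (β.e i)) (a : Fin 2 →₀ ℕ), a3_g k a = m := by
  refine ⟨fun i => ⟨m (a3_et i), hm i⟩, Finsupp.equivFunOnFinite.symm ![m (0, 0), m (0, 1)], ?_⟩
  ext v
  rcases a3_var_cases v with h | h | ⟨l, h⟩
  · rw [h, a3_g_zero]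
    rfl
  · rw [h, a3_g_one]
    rfl
  · rw [h, a3_g_et]

/-- the coefficients of the monomials `x^(a 0) y^(a 1) η^k` -/
noncomputable def a3_E (D : Type u) [DivisionRing D] (e : Fin κ → ℕ) :
    PA D κ 1 →ₗ[D] ((∀ i, Fin (e i)) → AddMonoidAlgebra D (Fin 2 →₀ ℕ)) where
  toFun u k := AddMonoidAlgebra.comapDomain (a3_g k) (a3_g_inj k) u
  map_add' u v := by
    funext k
    exact AddMonoidAlgebra.comapDomain_add _ _ _ _
  map_smul' d u := by
    funext k
    apply AddMonoidAlgebra.ext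
    ext a
    rfl

theorem a3_E_coeff {e : Fin κ → ℕ} (u : PA D κ 1) (k : ∀ i, Fin (e i)) (a : Fin 2 →₀ ℕ) :
    (a3_E D e u k).coeff a = u.coeff (a3_g k a) := rfl

theorem a3_E_mul {e : Fin κ → ℕ} (b : Mon κ 1) (a0 : Fin 2 →₀ ℕ)
    (hb : ∀ (k : ∀ i, Fin (e i)) a, a3_g k (a0 + a) = b + a3_g k a)
    (hb' : ∀ (k : ∀ i, Fin (e i)) (a : Fin 2 →₀ ℕ) (m : Mon κ 1), b + m = a3_g k a →
      ∃ a', a = a0 + a') (u : PA D κ 1) (k : ∀ i, Fin (e i)) :
    a3_E D e (AddMonoidAlgebra.single b 1 * u) k =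
      AddMonoidAlgebra.single a0 1 * a3_E D e u k := by
  apply AddMonoidAlgebra.ext
  ext a
  rw [a3_E_coeff]
  by_cases h : ∃ a', a = a0 + a'
  · obtain ⟨a', rfl⟩ := h
    rw [hb, AddMonoidAlgebra.coeff_single_mul_eq_mul_coeff (a3_g k a') (by
        intro m' _
        exact ⟨fun h => add_left_cancel h, fun h => by rw [h]⟩),
      AddMonoidAlgebra.coeff_single_mul_eq_mul_coeff a' (by
        intro m' _
        exact ⟨fun h => add_left_cancel h, fun h => by rw [h]⟩), a3_E_coeff]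
  · rw [AddMonoidAlgebra.coeff_single_mul_of_forall_add_ne,
      AddMonoidAlgebra.coeff_single_mul_of_forall_add_ne]
    · intro d hd
      exact h ⟨d, hd.symm⟩
    · intro d hd
      exact h (hb' k a d hd)

theorem a3_g_ext {m m' : Mon κ 1} (h0 : m (0, 0) = m' (0, 0)) (h1 : m (0, 1) = m' (0, 1))
    (h2 : ∀ l, m (a3_et l) = m' (a3_et l)) : m = m' := by
  ext v
  rcases a3_var_cases v with h | h | ⟨l, h⟩
  · rw [h, h0]
  · rw [h, h1]
  · rw [h, h2]

theorem a3_mdeg_g {e : Fin κ → ℕ} (k : ∀ i, Fin (e i)) (a : Fin 2 →₀ ℕ) :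
    mdeg (a3_g k a) = fun _ => a 0 + a 1 + ∑ i, (k i : ℕ) := by
  funext g
  rw [Subsingleton.elim g 0, mdeg, Fin.sum_univ_succ, Fin.sum_univ_succ, ← add_assoc]
  have h1 := a3_g_one k a
  have h2 : ∀ l : Fin κ, a3_g k a (0, l.succ.succ) = k l := a3_g_et k a
  rw [a3_g_zero, Finset.sum_congr rfl fun l _ => h2 l]
  congr 1
  exact congrArg _ h1

/-- normal form -/
theorem exists_nf (D : Type u) [DivisionRing D] [Algebra K D] (β : Blk K κ) :
    ∃ ν : PA D κ 1 →ₗ[D] ((∀ i, Fin (β.e i)) → AddMonoidAlgebra D (Fin 2 →₀ ℕ)),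
      (∀ u, ν u = 0 ↔ (fun _ => u) ∈ N0i D (fun _ : Fin 1 => β) (Fin 1)) ∧
      (∀ u k, ν (va D κ 1 (0, 0) * u) k =
        AddMonoidAlgebra.single (Finsupp.single 0 1) 1 * ν u k) ∧
      (∀ u k, ν (va D κ 1 (0, 1) * u) k =
        AddMonoidAlgebra.single (Finsupp.single 1 1) 1 * ν u k) ∧
      (∀ k : (∀ i, Fin (β.e i)), ν (AddMonoidAlgebra.single
        (∑ i, Finsupp.single ((0 : Fin 1), i.succ.succ) (k i : ℕ)) 1) = Pi.single k 1) ∧
      (∀ (n : ℕ) (u : PA D κ 1), u ∈ pp D κ 1 (fun _ => n) → ∀ k m, (ν u k).coeff m ≠ 0 →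
        m 0 + m 1 + ∑ i, (k i : ℕ) = n) := by
  classical
  have hne : ∀ (v : Fin 1 × Fin (κ + 2)), v = (0, 0) ∨ v = (0, 1) → ∀ i : Fin κ,
      (Finsupp.single v 1 : Mon κ 1) (a3_et i) = 0 := by
    intro v hv i
    rw [Finsupp.single_eq_of_ne]
    intro h
    rcases hv with hv | hv
    · rw [hv] at h
      exact Fin.succ_ne_zero _ (Prod.mk.inj h).2
    · rw [hv] at h
      have h2 : i.succ.succ = (1 : Fin (κ + 2)) := (Prod.mk.inj h).2
      have h3 := congrArg Fin.val h2
      rw [Fin.val_succ, Fin.val_succ] at h3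
      have h4 : ((1 : Fin (κ + 2)) : ℕ) = 1 := rfl
      omega
  have h01 : ((0 : Fin 1), (0 : Fin (κ + 2))) ≠ (0, 1) := by
    intro h
    have := (Prod.mk.inj h).2
    exact absurd this (by simp)
  refine ⟨(a3_E D β.e).comp (a3_R D β κ), ?_, ?_, ?_, ?_, ?_⟩
  · intro u
    constructor
    · intro h
      have h1 : a3_R D β κ u = 0 := by
        apply AddMonoidAlgebra.ext
        ext m
        by_contra h0
        have h2 : a3_T β 0 (a3_R D β κ u) := by
          apply a3_R_T β le_rfl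
          intro m _ l hl
          have := l.2
          omega
        obtain ⟨k, a, hka⟩ := a3_g_surj β m fun i => h2 m h0 i (Nat.zero_le _)
        apply h0
        have h3 : ((a3_E D β.e).comp (a3_R D β κ) u k).coeff a = 0 := by
          rw [h]
          rfl
        rw [← hka]
        exact h3
      have h4 := a3_R_N β le_rfl u
      rw [h1, sub_zero] at h4
      exact h4
    · intro h
      have h1 : ∀ v ∈ N0i D (fun _ : Fin 1 => β) (Fin 1), ∀ w : PA D κ 1,
          a3_R D β κ (w * v 0) = 0 := by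
        intro v hv
        refine Submodule.span_induction ?_ ?_ ?_ ?_ hv
        · rintro v ⟨g, i, b, rfl⟩ w
          rw [Pi.smul_apply, smul_eq_mul, Subsingleton.elim g 0, ← mul_assoc, ← bm_comm, mul_assoc]
          exact a3_R_rel β le_rfl i i.2 _
        · intro w
          rw [Pi.zero_apply, mul_zero, map_zero]
        · intro u v _ _ hu hv w
          rw [Pi.add_apply, mul_add, map_add, hu, hv, add_zero]
        · intro c v _ hv w
          rw [Pi.smul_apply, smul_eq_mul, ← mul_assoc]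
          exact hv _
      have h2 := h1 _ h 1
      rw [one_mul] at h2
      rw [LinearMap.comp_apply, h2, map_zero]
  · intro u k
    rw [LinearMap.comp_apply, LinearMap.comp_apply, va,
      a3_R_single_mul β le_rfl (hne _ (Or.inl rfl))]
    apply a3_E_mul
    · intro k a
      apply a3_g_ext
      · rw [a3_g_zero, Finsupp.add_apply, Finsupp.add_apply, a3_g_zero, Finsupp.single_eq_same,
          Finsupp.single_eq_same]
      · rw [a3_g_one, Finsupp.add_apply, Finsupp.add_apply, a3_g_one,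
          Finsupp.single_eq_of_ne (by simp), Finsupp.single_eq_of_ne h01.symm]
      · intro l
        rw [a3_g_et, Finsupp.add_apply, a3_g_et, hne _ (Or.inl rfl), zero_add]
    · intro k a m hm
      have h1 : 1 ≤ a 0 := by
        rw [← a3_g_zero k a, ← hm, Finsupp.add_apply, Finsupp.single_eq_same]
        omega
      refine ⟨a - Finsupp.single 0 1, ?_⟩
      rw [add_tsub_cancel_of_le]
      rw [Finsupp.single_le_iff]
      exact h1
  · intro u k
    rw [LinearMap.comp_apply, LinearMap.comp_apply, va,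
      a3_R_single_mul β le_rfl (hne _ (Or.inr rfl))]
    apply a3_E_mul
    · intro k a
      apply a3_g_ext
      · rw [a3_g_zero, Finsupp.add_apply, Finsupp.add_apply, a3_g_zero,
          Finsupp.single_eq_of_ne (by simp), Finsupp.single_eq_of_ne h01]
      · rw [a3_g_one, Finsupp.add_apply, Finsupp.add_apply, a3_g_one, Finsupp.single_eq_same,
          Finsupp.single_eq_same]
      · intro l
        rw [a3_g_et, Finsupp.add_apply, a3_g_et, hne _ (Or.inr rfl), zero_add]
    · intro k a m hm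
      have h1 : 1 ≤ a 1 := by
        rw [← a3_g_one k a, ← hm, Finsupp.add_apply, Finsupp.single_eq_same]
        omega
      refine ⟨a - Finsupp.single 1 1, ?_⟩
      rw [add_tsub_cancel_of_le]
      rw [Finsupp.single_le_iff]
      exact h1
  · intro k
    have h1 : (∑ i, Finsupp.single ((0 : Fin 1), i.succ.succ) (k i : ℕ) : Mon κ 1) =
        a3_g k 0 := by
      rw [a3_g, Finsupp.zero_apply, Finsupp.zero_apply, Finsupp.single_zero, Finsupp.single_zero,
        zero_add, zero_add]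
    rw [h1, LinearMap.comp_apply, a3_R_fix β le_rfl (by
      intro i
      rw [a3_g_et]
      exact (k i).2)]
    funext k'
    apply AddMonoidAlgebra.ext
    ext a
    rw [a3_E_coeff, AddMonoidAlgebra.coeff_single]
    by_cases hk : k' = k
    · rw [hk, Pi.single_eq_same, AddMonoidAlgebra.one_def, AddMonoidAlgebra.coeff_single]
      by_cases ha : a = 0
      · rw [ha, Finsupp.single_eq_same, Finsupp.single_eq_same]
      · rw [Finsupp.single_eq_of_ne ha, Finsupp.single_eq_of_ne]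
        intro h
        exact ha (a3_g_inj k h)
    · rw [Pi.single_eq_of_ne hk, Finsupp.single_eq_of_ne]
      · rfl
      · intro h
        apply hk
        funext i
        have h2 : a3_g k' a (a3_et i) = a3_g k 0 (a3_et i) := by rw [h]
        rw [a3_g_et, a3_g_et] at h2
        exact Fin.ext h2
  · intro n u hu k m hm
    have h1 := a3_R_mem β le_rfl hu (a3_g k m) hm
    rw [a3_mdeg_g] at h1
    exact congrFun h1 0

end Vale.Agent.P200.V
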