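import Vale.Agent.P200.V.RkGrB

/-!
**(A), part 2: normal form, preparations.**  (`RkNf`: `PA D κ 1` modulo the relations of one block is
free over `D[x, y]` with basis `η^k`, `k i < e i`.)

Proof.  `r_i` is the `D`-linear map which replaces `η_i^(q e_i + r)` by `Φ_i^q η_i^r`.  It commutes with the
multiplication by the polynomials without `η_i`, kills the multiples of the relation `i`, and is
congruent to the identity modulo the relation `i`.  The composition `r_0 ∘ r_1 ∘ ... ∘ r_(κ-1)` kills all the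
relations, because the relation `i` does not contain the `η_j`, `j > i`, and its values are combinations of the
`x^a y^b η^k` with `k i < e i`.  Then take the coefficients.
-/

namespace Vale.Agent.P200.V

open Module

universe u

variable {K : Type u} [Field K] {D : Type u} [DivisionRing D] [Algebra K D] {κ : ℕ}

/-- the index of the variable `η_i` -/
def a3_et (i : Fin κ) : Fin 1 × Fin (κ + 2) := (0, i.succ.succ)

theorem a3_et_inj {i j : Fin κ} (h : a3_et i = a3_et j) : i = j := by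
  unfold a3_et at h
  have := (Prod.mk.inj h).2
  exact Fin.succ_injective _ (Fin.succ_injective _ this)

theorem a3_smul (d : D) (u : PA D κ 1) : d • u = AddMonoidAlgebra.single 0 d * u := by
  apply AddMonoidAlgebra.ext
  ext m
  rw [AddMonoidAlgebra.coeff_smul_apply, AddMonoidAlgebra.coeff_single_zero_mul, smul_eq_mul]

theorem a3_single_comm (a : Mon κ 1) (u : PA D κ 1) :
    AddMonoidAlgebra.single a 1 * u = u * AddMonoidAlgebra.single a 1 := by
  induction u using AddMonoidAlgebra.induction_linear with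
  | zero => rw [mul_zero, zero_mul]
  | add u v hu hv => rw [mul_add, add_mul, hu, hv]
  | single m d =>
    rw [AddMonoidAlgebra.single_mul_single, AddMonoidAlgebra.single_mul_single, one_mul, mul_one,
      add_comm]

theorem a3_single_mul_smul (a : Mon κ 1) (c d : D) (u : PA D κ 1) :
    AddMonoidAlgebra.single a c * (d • u) = (c * d) • (AddMonoidAlgebra.single a 1 * u) := by
  rw [a3_smul d, a3_smul (c * d), ← mul_assoc, ← mul_assoc,
    AddMonoidAlgebra.single_mul_single, AddMonoidAlgebra.single_mul_single, add_zero, zero_add,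
    mul_one]

/-- the linear map with the given values on the monomials -/
noncomputable def a3_lin (F : Mon κ 1 → PA D κ 1) : PA D κ 1 →ₗ[D] PA D κ 1 :=
  (Finsupp.linearCombination D F).comp (AddMonoidAlgebra.coeffLinearEquiv D).toLinearMap

theorem a3_lin_single (F : Mon κ 1 → PA D κ 1) (m : Mon κ 1) (d : D) :
    a3_lin F (AddMonoidAlgebra.single m d) = d • F m := by
  have h : a3_lin F (AddMonoidAlgebra.single m d) =
      Finsupp.linearCombination D F (Finsupp.single m d) := rfl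
  rw [h, Finsupp.linearCombination_single]

/-- remainder of a monomial -/
noncomputable def a3_rm (β : Blk K κ) (i : Fin κ) (m : Mon κ 1) : Mon κ 1 :=
  Finsupp.update m (a3_et i) (m (a3_et i) % β.e i)

theorem a3_rm_self (β : Blk K κ) (i : Fin κ) (m : Mon κ 1) :
    a3_rm β i m (a3_et i) = m (a3_et i) % β.e i := by
  unfold a3_rm
  rw [Finsupp.coe_update, Function.update_self]

theorem a3_rm_ne (β : Blk K κ) (i : Fin κ) (m : Mon κ 1) {v : Fin 1 × Fin (κ + 2)}
    (h : v ≠ a3_et i) : a3_rm β i m v = m v := by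
  unfold a3_rm
  rw [Finsupp.coe_update, Function.update_of_ne h]

theorem a3_rm_add (β : Blk K κ) (i : Fin κ) (a m : Mon κ 1) (h : a (a3_et i) = 0) :
    a3_rm β i (a + m) = a + a3_rm β i m := by
  ext v
  by_cases hv : v = a3_et i
  · rw [hv, a3_rm_self, Finsupp.add_apply, Finsupp.add_apply, a3_rm_self, h, zero_add, zero_add]
  · rw [a3_rm_ne β i _ hv, Finsupp.add_apply, Finsupp.add_apply, a3_rm_ne β i _ hv]

theorem a3_rm_add_self (β : Blk K κ) (i : Fin κ) (m : Mon κ 1) :
    a3_rm β i (Finsupp.single (a3_et i) (β.e i) + m) = a3_rm β i m := by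
  ext v
  by_cases hv : v = a3_et i
  · rw [hv, a3_rm_self, a3_rm_self, Finsupp.add_apply, Finsupp.single_eq_same, Nat.add_mod_left]
  · rw [a3_rm_ne β i _ hv, a3_rm_ne β i _ hv, Finsupp.add_apply,
      Finsupp.single_eq_of_ne hv, zero_add]

theorem a3_rm_eq (β : Blk K κ) (i : Fin κ) (m : Mon κ 1) (h : m (a3_et i) < β.e i) :
    a3_rm β i m = m := by
  ext v
  by_cases hv : v = a3_et i
  · rw [hv, a3_rm_self, Nat.mod_eq_of_lt h]
  · rw [a3_rm_ne β i _ hv]

theorem a3_eq_rm (β : Blk K κ) (i : Fin κ) (m : Mon κ 1) :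
    m = Finsupp.single (a3_et i) (β.e i * (m (a3_et i) / β.e i)) + a3_rm β i m := by
  ext v
  by_cases hv : v = a3_et i
  · rw [hv, Finsupp.add_apply, a3_rm_self, Finsupp.single_eq_same, Nat.div_add_mod]
  · rw [Finsupp.add_apply, a3_rm_ne β i _ hv, Finsupp.single_eq_of_ne hv, zero_add]

/-- the value of `r_i` at a monomial -/
noncomputable def a3_F (D : Type u) [DivisionRing D] [Algebra K D] (β : Blk K κ) (i : Fin κ)
    (m : Mon κ 1) : PA D κ 1 :=
  bm K D κ (0 : Fin 1) (β.Phi i) ^ (m (a3_et i) / β.e i) *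
    AddMonoidAlgebra.single (a3_rm β i m) 1

/-- the reduction with respect to the relation `i` -/
noncomputable def a3_r (D : Type u) [DivisionRing D] [Algebra K D] (β : Blk K κ) (i : Fin κ) :
    PA D κ 1 →ₗ[D] PA D κ 1 :=
  a3_lin (a3_F D β i)

theorem a3_r_single (β : Blk K κ) (i : Fin κ) (m : Mon κ 1) (d : D) :
    a3_r D β i (AddMonoidAlgebra.single m d) = d • a3_F D β i m :=
  a3_lin_single _ _ _

theorem a3_r_single_mul (β : Blk K κ) (i : Fin κ) {a : Mon κ 1} (ha : a (a3_et i) = 0) (c : D)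
    (u : PA D κ 1) : a3_r D β i (AddMonoidAlgebra.single a c * u) =
      AddMonoidAlgebra.single a c * a3_r D β i u := by
  induction u using AddMonoidAlgebra.induction_linear with
  | zero => rw [mul_zero, map_zero, mul_zero]
  | add u v hu hv => rw [mul_add, map_add, hu, hv, map_add, mul_add]
  | single m d =>
    rw [AddMonoidAlgebra.single_mul_single, a3_r_single, a3_r_single, a3_single_mul_smul, a3_F,
      a3_F, a3_rm_add β i a m ha, Finsupp.add_apply, ha, zero_add, ← mul_assoc,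
      a3_single_comm a, mul_assoc, AddMonoidAlgebra.single_mul_single, mul_one]

theorem a3_r_mul (β : Blk K κ) (i : Fin κ) {p : PA D κ 1}
    (hp : ∀ m, p.coeff m ≠ 0 → m (a3_et i) = 0) (u : PA D κ 1) :
    a3_r D β i (p * u) = p * a3_r D β i u := by
  have h1 : p = ∑ m ∈ p.coeff.support, AddMonoidAlgebra.single m (p.coeff m) := by
    conv_lhs => rw [← AddMonoidAlgebra.sum_coeff_single p, Finsupp.sum]
  rw [h1, Finset.sum_mul, map_sum, Finset.sum_mul]
  apply Finset.sum_congr rfl
  intro m hm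
  exact a3_r_single_mul β i (hp m (Finsupp.mem_support_iff.1 hm)) _ u

theorem a3_r_pow_mul (β : Blk K κ) (i : Fin κ) (u : PA D κ 1) :
    a3_r D β i (AddMonoidAlgebra.single (Finsupp.single (a3_et i) (β.e i)) 1 * u) =
      bm K D κ (0 : Fin 1) (β.Phi i) * a3_r D β i u := by
  induction u using AddMonoidAlgebra.induction_linear with
  | zero => rw [mul_zero, map_zero, mul_zero]
  | add u v hu hv => rw [mul_add, map_add, hu, hv, map_add, mul_add]
  | single m d =>
    rw [AddMonoidAlgebra.single_mul_single, one_mul, a3_r_single, a3_r_single, a3_smul,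
      a3_smul d (a3_F D β i m), ← mul_assoc (bm K D κ (0 : Fin 1) (β.Phi i)),
      bm_comm _ _ (AddMonoidAlgebra.single 0 d), mul_assoc]
    congr 1
    rw [a3_F, a3_F, a3_rm_add_self, Finsupp.add_apply, Finsupp.single_eq_same,
      Nat.add_div_left _ (β.e_pos i), ← mul_assoc, ← pow_succ']

/-- the monomials of a polynomial over `K` in the variables of the block -/
theorem a3_bm_coeff (p : MvPolynomial (Fin (κ + 2)) K) (m : Mon κ 1)
    (h : (bm K D κ (0 : Fin 1) p).coeff m ≠ 0) :
    ∃ m' ∈ p.support, m = m'.mapDomain fun v : Fin (κ + 2) => ((0 : Fin 1), v) := by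
  classical
  have h1 : (bm K D κ (0 : Fin 1) p).coeff m = algebraMap K D (Finsupp.mapDomain
      (Finsupp.mapDomain fun v : Fin (κ + 2) => ((0 : Fin 1), v)) (AddMonoidAlgebra.coeff p) m) := rfl
  rw [h1] at h
  have h2 : Finsupp.mapDomain
      (Finsupp.mapDomain fun v : Fin (κ + 2) => ((0 : Fin 1), v)) (AddMonoidAlgebra.coeff p) m ≠ 0 := by
    intro h0
    rw [h0, map_zero] at h
    exact h rfl
  have h3 := Finsupp.mapDomain_support (Finsupp.mem_support_iff.2 h2)
  rw [Finset.mem_image] at h3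
  obtain ⟨m', hm', hm⟩ := h3
  exact ⟨m', hm', hm.symm⟩

theorem a3_map_apply (m' : Fin (κ + 2) →₀ ℕ) (v : Fin (κ + 2)) :
    (m'.mapDomain fun v : Fin (κ + 2) => ((0 : Fin 1), v)) (0, v) = m' v :=
  Finsupp.mapDomain_apply (f := fun v : Fin (κ + 2) => ((0 : Fin 1), v))
    (fun _ _ h => (Prod.mk.inj h).2) m' v

theorem a3_mdeg (m' : Fin (κ + 2) →₀ ℕ) :
    mdeg (m'.mapDomain fun v : Fin (κ + 2) => ((0 : Fin 1), v)) = fun _ => m'.degree := by
  funext g
  rw [Subsingleton.elim g 0, mdeg, Finsupp.degree_eq_sum]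
  exact Finset.sum_congr rfl fun v _ => a3_map_apply m' v

theorem a3_bm_mem {p : MvPolynomial (Fin (κ + 2)) K} {n : ℕ} (hp : p.IsHomogeneous n) :
    bm K D κ (0 : Fin 1) p ∈ pp D κ 1 (fun _ => n) := by
  intro m hm
  obtain ⟨m', hm', rfl⟩ := a3_bm_coeff p m hm
  rw [a3_mdeg]
  funext g
  have := hp (MvPolynomial.mem_support_iff.1 hm')
  rwa [Finsupp.degree_eq_weight_one]

theorem a3_coeff_mul {u v : PA D κ 1} {m : Mon κ 1} (h : (u * v).coeff m ≠ 0) :
    ∃ a b, a + b = m ∧ u.coeff a ≠ 0 ∧ v.coeff b ≠ 0 := by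
  classical
  by_contra hc
  apply h
  rw [AddMonoidAlgebra.coeff_mul, Finsupp.sum]
  apply Finset.sum_eq_zero
  intro a ha
  rw [Finsupp.sum]
  apply Finset.sum_eq_zero
  intro b hb
  rw [if_neg]
  intro hab
  exact hc ⟨a, b, hab, Finsupp.mem_support_iff.1 ha, Finsupp.mem_support_iff.1 hb⟩

theorem a3_pp_mul {u v : PA D κ 1} {a b : Fin 1 → ℕ} (hu : u ∈ pp D κ 1 a)
    (hv : v ∈ pp D κ 1 b) : u * v ∈ pp D κ 1 (a + b) := by
  intro m hm
  obtain ⟨a', b', rfl, ha, hb⟩ := a3_coeff_mul hm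
  rw [← hu a' ha, ← hv b' hb]
  funext g
  rw [mdeg, Pi.add_apply, mdeg, mdeg, ← Finset.sum_add_distrib]
  exact Finset.sum_congr rfl fun v _ => Finsupp.add_apply _ _ _

theorem a3_pp_pow {u : PA D κ 1} {a : ℕ} (hu : u ∈ pp D κ 1 (fun _ => a)) (q : ℕ) :
    u ^ q ∈ pp D κ 1 (fun _ => q * a) := by
  induction q with
  | zero =>
    intro m hm
    rw [pow_zero, AddMonoidAlgebra.one_def, AddMonoidAlgebra.coeff_single] at hm
    have : m = 0 := by
      by_contra h'
      exact hm (Finsupp.single_eq_of_ne h')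
    rw [this]
    funext g
    rw [mdeg, zero_mul]
    exact Finset.sum_eq_zero fun v _ => rfl
  | succ q ih =>
    have := a3_pp_mul ih hu
    rw [← pow_succ] at this
    have h1 : ((fun _ => q * a) + fun _ => a : Fin 1 → ℕ) = fun _ => (q + 1) * a := by
      funext g
      rw [Pi.add_apply, Nat.succ_mul]
    rwa [h1] at this

theorem a3_single_mem (m : Mon κ 1) (d : D) :
    (AddMonoidAlgebra.single m d : PA D κ 1) ∈ pp D κ 1 (mdeg m) := by
  intro m' hm'
  rw [AddMonoidAlgebra.coeff_single] at hm'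
  have : m' = m := by
    by_contra h'
    exact hm' (Finsupp.single_eq_of_ne h')
  rw [this]

/-- no variable `η_l`, `l ≥ i` -/
def a3_Fr (i : ℕ) (u : PA D κ 1) : Prop :=
  ∀ m, u.coeff m ≠ 0 → ∀ l : Fin κ, i ≤ l → m (a3_et l) = 0

theorem a3_Fr_mul {i : ℕ} {u v : PA D κ 1} (hu : a3_Fr i u) (hv : a3_Fr i v) :
    a3_Fr i (u * v) := by
  intro m hm l hl
  obtain ⟨a, b, rfl, ha, hb⟩ := a3_coeff_mul hm
  rw [Finsupp.add_apply, hu a ha l hl, hv b hb l hl]

theorem a3_Fr_pow {i : ℕ} {u : PA D κ 1} (hu : a3_Fr i u) (q : ℕ) : a3_Fr i (u ^ q) := by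
  induction q with
  | zero =>
    intro m hm l hl
    rw [pow_zero, AddMonoidAlgebra.one_def, AddMonoidAlgebra.coeff_single] at hm
    have : m = 0 := by
      by_contra h'
      exact hm (Finsupp.single_eq_of_ne h')
    rw [this]
    rfl
  | succ q ih =>
    rw [pow_succ]
    exact a3_Fr_mul ih hu

theorem a3_Fr_Phi (β : Blk K κ) (i : Fin κ) : a3_Fr (D := D) i (bm K D κ (0 : Fin 1) (β.Phi i)) := by
  intro m hm l hl
  obtain ⟨m', hm', rfl⟩ := a3_bm_coeff _ m hm
  have h1 := a3_map_apply m' l.succ.succ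
  rw [a3_et, h1]
  by_contra h0
  have h2 : l.succ.succ ∈ (β.Phi i).vars := by
    rw [MvPolynomial.mem_vars_iff_mem_support]
    exact ⟨m', hm', Finsupp.mem_support_iff.2 h0⟩
  have h3 := β.tri i _ h2
  rw [Fin.val_succ, Fin.val_succ] at h3
  omega

theorem a3_bm_X (v : Fin (κ + 2)) : bm K D κ (0 : Fin 1) (MvPolynomial.X v) =
    AddMonoidAlgebra.single (Finsupp.single ((0 : Fin 1), v) 1) 1 := by
  have h1 : bm K D κ (0 : Fin 1) (MvPolynomial.X v) = AddMonoidAlgebra.mapAlgHom (R := K)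
      (Mon κ 1) (Algebra.ofId K D) (AddMonoidAlgebra.mapDomain
      (Finsupp.mapDomain fun v : Fin (κ + 2) => ((0 : Fin 1), v))
      (AddMonoidAlgebra.single (Finsupp.single v 1) 1)) := rfl
  rw [h1, AddMonoidAlgebra.mapDomain_single, Finsupp.mapDomain_single,
    AddMonoidAlgebra.mapAlgHom_single, map_one]

theorem a3_bm_rel (β : Blk K κ) (i : Fin κ) : bm K D κ (0 : Fin 1) (β.rel i) =
    AddMonoidAlgebra.single (Finsupp.single (a3_et i) (β.e i)) 1 -
      bm K D κ (0 : Fin 1) (β.Phi i) := by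
  rw [Blk.rel, map_sub, map_pow, a3_bm_X, AddMonoidAlgebra.single_pow, one_pow,
    Finsupp.smul_single, smul_eq_mul, mul_one]
  rfl

theorem a3_Fr_rel (β : Blk K κ) (i : Fin κ) {j : ℕ} (hj : (i : ℕ) < j) :
    a3_Fr (D := D) j (bm K D κ (0 : Fin 1) (β.rel i)) := by
  intro m hm l hl
  rw [a3_bm_rel] at hm
  by_cases h1 : (bm K D κ (0 : Fin 1) (β.Phi i)).coeff m = 0
  · have h2 : (AddMonoidAlgebra.single (Finsupp.single (a3_et i) (β.e i)) 1 -
        bm K D κ (0 : Fin 1) (β.Phi i)).coeff m =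
        (Finsupp.single (Finsupp.single (a3_et i) (β.e i)) (1 : D)) m -
          (bm K D κ (0 : Fin 1) (β.Phi i)).coeff m := rfl
    rw [h2, h1, sub_zero] at hm
    have h3 : m = Finsupp.single (a3_et i) (β.e i) := by
      by_contra h'
      exact hm (Finsupp.single_eq_of_ne h')
    rw [h3, Finsupp.single_eq_of_ne]
    intro h4
    have := a3_et_inj h4
    rw [this] at hl
    omega
  · exact a3_Fr_Phi β i m h1 l (by omega)

theorem a3_r_rel (β : Blk K κ) (i : Fin κ) (u : PA D κ 1) :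
    a3_r D β i (bm K D κ (0 : Fin 1) (β.rel i) * u) = 0 := by
  rw [a3_bm_rel, sub_mul, map_sub, a3_r_pow_mul, a3_r_mul β i (u := u), sub_self]
  intro m hm
  exact a3_Fr_Phi β i m hm i le_rfl

/-- the elements which are zero in the quotient -/
def a3_N (D : Type u) [DivisionRing D] [Algebra K D] (β : Blk K κ) (u : PA D κ 1) : Prop :=
  (fun _ => u) ∈ N0i D (fun _ : Fin 1 => β) (Fin 1)

theorem a3_N_add {β : Blk K κ} {u v : PA D κ 1} (hu : a3_N D β u) (hv : a3_N D β v) :
    a3_N D β (u + v) :=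
  Submodule.add_mem _ hu hv

theorem a3_N_zero {β : Blk K κ} : a3_N D β 0 :=
  Submodule.zero_mem _

theorem a3_N_mul {β : Blk K κ} (w : PA D κ 1) {u : PA D κ 1} (hu : a3_N D β u) :
    a3_N D β (w * u) :=
  Submodule.smul_mem _ w hu

theorem a3_N_rel (β : Blk K κ) (i : Fin κ) : a3_N D β (bm K D κ (0 : Fin 1) (β.rel i)) := by
  have h1 : (fun _ => bm K D κ (0 : Fin 1) (β.rel i) : Fin 1 → PA D κ 1) =
      bm K D κ (0 : Fin 1) (β.rel i) • (fun _ => 1) := by
    funext j
    rw [Pi.smul_apply, smul_eq_mul, mul_one]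
  rw [a3_N, h1]
  exact Submodule.subset_span ⟨0, i, fun _ => 1, rfl⟩

theorem a3_N_pow (β : Blk K κ) (i : Fin κ) (q : ℕ) :
    a3_N D β (AddMonoidAlgebra.single (Finsupp.single (a3_et i) (β.e i)) 1 ^ q -
      bm K D κ (0 : Fin 1) (β.Phi i) ^ q) := by
  induction q with
  | zero =>
    rw [pow_zero, pow_zero, sub_self]
    exact a3_N_zero
  | succ q ih =>
    have h1 : AddMonoidAlgebra.single (Finsupp.single (a3_et i) (β.e i)) 1 ^ (q + 1) -
        bm K D κ (0 : Fin 1) (β.Phi i) ^ (q + 1) =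
        AddMonoidAlgebra.single (Finsupp.single (a3_et i) (β.e i)) 1 ^ q *
          bm K D κ (0 : Fin 1) (β.rel i) + bm K D κ (0 : Fin 1) (β.Phi i) *
          (AddMonoidAlgebra.single (Finsupp.single (a3_et i) (β.e i)) 1 ^ q -
            bm K D κ (0 : Fin 1) (β.Phi i) ^ q) := by
      rw [a3_bm_rel, mul_sub, mul_sub, bm_comm _ _ (AddMonoidAlgebra.single _ _ ^ q),
        ← pow_succ, ← pow_succ']
      abel
    rw [h1]
    exact a3_N_add (a3_N_mul _ (a3_N_rel β i)) (a3_N_mul _ ih)

theorem a3_N_r (β : Blk K κ) (i : Fin κ) (u : PA D κ 1) : a3_N D β (u - a3_r D β i u) := by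
  induction u using AddMonoidAlgebra.induction_linear with
  | zero =>
    rw [map_zero, sub_zero]
    exact a3_N_zero
  | add u v hu hv =>
    have h1 : u + v - a3_r D β i (u + v) = (u - a3_r D β i u) + (v - a3_r D β i v) := by
      rw [map_add]
      abel
    rw [h1]
    exact a3_N_add hu hv
  | single m d =>
    have h1 : (AddMonoidAlgebra.single m d : PA D κ 1) = d •
        (AddMonoidAlgebra.single (a3_rm β i m) 1 *
        AddMonoidAlgebra.single (Finsupp.single (a3_et i) (β.e i)) 1 ^ (m (a3_et i) / β.e i)) := by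
      rw [AddMonoidAlgebra.single_pow, one_pow, AddMonoidAlgebra.single_mul_single, one_mul,
        Finsupp.smul_single, smul_eq_mul, a3_smul, AddMonoidAlgebra.single_mul_single, zero_add,
        mul_one, mul_comm (m (a3_et i) / β.e i), add_comm, ← a3_eq_rm]
    rw [a3_r_single, h1, a3_F, ← map_pow, bm_comm, map_pow, ← smul_sub, ← mul_sub, a3_smul]
    exact a3_N_mul _ (a3_N_mul _ (a3_N_pow β i _))

end Vale.Agent.P200.V
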