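import Vale.Agent.P200.V.Tr

/-!
Transfer (C), part C: `RS N f z a` is an object.
-/

namespace Vale.Agent.P200.V

open Module

universe u

variable {K : Type u} [Field K] {D : Type u} [DivisionRing D] [Algebra K D] {κ : ℕ}

theorem trc_cp_single {R : ℕ} (n : Fin R → ℕ) (m : Mon κ R) (d : D) :
    cp D κ R n (AddMonoidAlgebra.single m d) =
      if mdeg m = n then AddMonoidAlgebra.single m d else 0 := by
  split_ifs with h
  · apply AddMonoidAlgebra.ext
    exact Finsupp.filter_single_of_pos _ h
  · apply AddMonoidAlgebra.ext
    exact Finsupp.filter_single_of_neg _ h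

/-- the components of `u * d` -/
theorem trc_cp_mul_cpo {R : ℕ} (n : Fin R → ℕ) (u : PA D κ R) (d : D) :
    cp D κ R n (u * cpo D κ R d) = cp D κ R n u * cpo D κ R d := by
  induction u using AddMonoidAlgebra.induction_linear with
  | zero => rw [zero_mul, map_zero, zero_mul]
  | add f g hf hg => rw [add_mul, map_add, map_add, add_mul, hf, hg]
  | single m c =>
    rw [cpo, AddMonoidAlgebra.single_mul_single, add_zero, trc_cp_single, trc_cp_single]
    split_ifs
    · rw [AddMonoidAlgebra.single_mul_single, add_zero]
    · rw [zero_mul]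

/-- the components of `d * u` -/
theorem trc_cp_cpo_mul {R : ℕ} (n : Fin R → ℕ) (u : PA D κ R) (d : D) :
    cp D κ R n (cpo D κ R d * u) = cpo D κ R d * cp D κ R n u := by
  induction u using AddMonoidAlgebra.induction_linear with
  | zero => rw [mul_zero, map_zero, mul_zero]
  | add f g hf hg => rw [mul_add, map_add, map_add, mul_add, hf, hg]
  | single m c =>
    rw [cpo, AddMonoidAlgebra.single_mul_single, zero_add, trc_cp_single, trc_cp_single]
    split_ifs
    · rw [AddMonoidAlgebra.single_mul_single, zero_add]
    · rw [mul_zero]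

/-- the constants of `K` are central -/
theorem trc_cpo_comm {R : ℕ} (k : K) (u : PA D κ R) :
    u * cpo D κ R (algebraMap K D k) = cpo D κ R (algebraMap K D k) * u := by
  induction u using AddMonoidAlgebra.induction_linear with
  | zero => rw [zero_mul, mul_zero]
  | add f g hf hg => rw [add_mul, mul_add, hf, hg]
  | single m c =>
    rw [cpo, AddMonoidAlgebra.single_mul_single, AddMonoidAlgebra.single_mul_single, add_zero,
      zero_add, Algebra.commutes]

/-- Proof: `hom`: the three parts of `RS` are homogeneous (`cvi n (c • row) = cp n c • row` for a row of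
constants; in the third part `c • (cpo a * b) = cpo a * (c * b)` since `a ∈ K`); `rel`: `rel • w ∈ cpw I N`. -/
theorem isGi_RS {I J J' π : Type} {t : ℕ} {β0 : Blk K κ}
    {N : Submodule (PA D κ 1) (π → PA D κ 1)} (hN : IsGi (fun _ : Fin 1 => β0) N)
    (f : Fin t → π → D) (z : J → I → Fin t → K) (a : J' → I → K) :
    IsGi (fun _ : Fin 1 => β0) (RS K N f z a) := by
  have h1 : cpw I N ≤ RS K N f z a := le_sup_left
  have h2 : Submodule.span (PA D κ 1) (Set.range fun j (w : I × π) =>
      cpo D κ 1 (∑ k, algebraMap K D (z j w.1 k) * f k w.2)) ≤ RS K N f z a :=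
    le_sup_left.trans le_sup_right
  have h3 : Submodule.span (PA D κ 1) {v | ∃ (j : J') (b : π → PA D κ 1),
      v = fun w : I × π => cpo D κ 1 (algebraMap K D (a j w.1)) * b w.2} ≤ RS K N f z a :=
    le_sup_right.trans le_sup_right
  constructor
  · intro u hu n
    obtain ⟨u1, hu1, u2, hu2, rfl⟩ := Submodule.mem_sup.1 hu
    obtain ⟨u3, hu3, u4, hu4, rfl⟩ := Submodule.mem_sup.1 hu2
    rw [map_add, map_add]
    refine Submodule.add_mem _ (h1 ?_) (Submodule.add_mem _ ?_ ?_)
    · intro i
      exact hN.hom _ (hu1 i) n
    · have key : ∀ c : PA D κ 1, cvi D κ 1 (I × π) n (c • u3) ∈ RS K N f z a := by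
        refine Submodule.span_induction
          (p := fun x _ => ∀ c : PA D κ 1, cvi D κ 1 (I × π) n (c • x) ∈ RS K N f z a)
          ?_ ?_ ?_ ?_ hu3
        · rintro x ⟨j, rfl⟩ c
          have h4 : cvi D κ 1 (I × π) n (c • fun w : I × π =>
              cpo D κ 1 (∑ k, algebraMap K D (z j w.1 k) * f k w.2)) =
              cp D κ 1 n c • fun w : I × π =>
                cpo D κ 1 (∑ k, algebraMap K D (z j w.1 k) * f k w.2) := by
            funext w
            exact trc_cp_mul_cpo n c _
          rw [h4]
          exact Submodule.smul_mem _ _ (h2 (Submodule.subset_span ⟨j, rfl⟩))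
        · intro c
          rw [smul_zero, map_zero]
          exact Submodule.zero_mem _
        · intro x y _ _ hx hy c
          rw [smul_add, map_add]
          exact Submodule.add_mem _ (hx c) (hy c)
        · intro c' x _ hx c
          rw [smul_smul]
          exact hx _
      have h5 := key 1
      rwa [one_smul] at h5
    · have key : ∀ c : PA D κ 1, cvi D κ 1 (I × π) n (c • u4) ∈ RS K N f z a := by
        refine Submodule.span_induction
          (p := fun x _ => ∀ c : PA D κ 1, cvi D κ 1 (I × π) n (c • x) ∈ RS K N f z a)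
          ?_ ?_ ?_ ?_ hu4
        · rintro x ⟨j, b, rfl⟩ c
          refine h3 (Submodule.subset_span ⟨j, fun q => cp D κ 1 n (c * b q), ?_⟩)
          funext w
          change cp D κ 1 n (c * (cpo D κ 1 (algebraMap K D (a j w.1)) * b w.2)) = _
          rw [← mul_assoc, trc_cpo_comm, mul_assoc, trc_cp_cpo_mul]
        · intro c
          rw [smul_zero, map_zero]
          exact Submodule.zero_mem _
        · intro x y _ _ hx hy c
          rw [smul_add, map_add]
          exact Submodule.add_mem _ (hx c) (hy c)
        · intro c' x _ hx c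
          rw [smul_smul]
          exact hx _
      have h5 := key 1
      rwa [one_smul] at h5
  · intro g i w
    refine h1 fun i' => ?_
    exact hN.rel g i fun q => w (i', q)

end Vale.Agent.P200.V
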