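import Vale.Agent.P200.V.SysB
import Vale.Agent.P200.V.TrC
import Vale.Agent.P200.V.RkAxP
import Vale.Agent.P200.E.RklGen

/-!
# The dimension formula (interface between the localization and the transfer)

`X^I / (rows)` as an object of `sysB D β`: `powO`, `presO`; its rank is the codimension of the span of the
rows over `U` (`rank_pres`).
-/

open CategoryTheory CategoryTheory.Limits

universe v' u' u

namespace Vale.Agent.P200.V.SB

open Module Vale.Agent.P200.E

section transport

/-- the dimension of a span is invariant under isomorphisms of rings -/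
theorem finrank_span_transport {U : Type*} [Ring U] {E' : Type*} [Ring E'] (θ : U ≃+* E')
    {I : Type*} (A : Set (I → U)) :
    finrank U (Submodule.span U A) =
      finrank E' (Submodule.span E' ((fun v i => θ (v i)) '' A)) := by
  have h1 : ∀ x ∈ Submodule.span U A, (fun i => θ (x i)) ∈
      Submodule.span E' ((fun v i => θ (v i)) '' A) := by
    intro x hx
    induction hx using Submodule.span_induction with
    | mem x hx => exact Submodule.subset_span ⟨x, hx, rfl⟩
    | zero =>
      have : (fun i : I => θ ((0 : I → U) i)) = 0 := by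
        funext i
        simp
      rw [this]
      exact Submodule.zero_mem _
    | add x y _ _ hx hy =>
      have : (fun i : I => θ ((x + y) i)) = (fun i => θ (x i)) + fun i => θ (y i) := by
        funext i
        simp
      rw [this]
      exact Submodule.add_mem _ hx hy
    | smul c x _ hx =>
      have : (fun i : I => θ ((c • x) i)) = θ c • fun i => θ (x i) := by
        funext i
        simp
      rw [this]
      exact Submodule.smul_mem _ _ hx
  have h2 : ∀ y ∈ Submodule.span E' ((fun v i => θ (v i)) '' A), (fun i => θ.symm (y i)) ∈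
      Submodule.span U A := by
    intro x hx
    induction hx using Submodule.span_induction with
    | mem x hx =>
      obtain ⟨v, hv, rfl⟩ := hx
      have : (fun i : I => θ.symm (θ (v i))) = v := by
        funext i
        simp
      rw [this]
      exact Submodule.subset_span hv
    | zero =>
      have : (fun i : I => θ.symm ((0 : I → E') i)) = 0 := by
        funext i
        simp
      rw [this]
      exact Submodule.zero_mem _
    | add x y _ _ hx hy =>
      have : (fun i : I => θ.symm ((x + y) i)) =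
          (fun i => θ.symm (x i)) + fun i => θ.symm (y i) := by
        funext i
        simp
      rw [this]
      exact Submodule.add_mem _ hx hy
    | smul c x _ hx =>
      have : (fun i : I => θ.symm ((c • x) i)) = θ.symm c • fun i => θ.symm (x i) := by
        funext i
        simp
      rw [this]
      exact Submodule.smul_mem _ _ hx
  let j : Submodule.span U A ≃+ Submodule.span E' ((fun v i => θ (v i)) '' A) :=
    { toFun := fun x => ⟨fun i => θ (x.1 i), h1 x.1 x.2⟩
      invFun := fun y => ⟨fun i => θ.symm (y.1 i), h2 y.1 y.2⟩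
      left_inv := fun x => by
        apply Subtype.ext
        funext i
        exact θ.symm_apply_apply _
      right_inv := fun x => by
        apply Subtype.ext
        funext i
        exact θ.apply_symm_apply _
      map_add' := fun x y => by
        apply Subtype.ext
        funext i
        exact map_add θ _ _ }
  have h3 := lift_rank_eq_of_equiv_equiv θ j θ.bijective (fun c x => by
    apply Subtype.ext
    funext i
    exact map_mul θ _ _)
  have h4 := congrArg Cardinal.toNat h3
  rwa [Cardinal.toNat_lift, Cardinal.toNat_lift] at h4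

end transport

variable {K : Type u} [Field K] {D : Type u} [DivisionRing D] [Algebra K D] {κ : ℕ} {β : Blk K κ}

theorem isGi_cpw (I : Type) {π : Type} {N : Submodule (PA D κ 1) (π → PA D κ 1)}
    (hN : IsGi (fun _ : Fin 1 => β) N) : IsGi (fun _ : Fin 1 => β) (cpw I N) where
  hom u hu n i := hN.hom _ (hu i) n
  rel g i w j := hN.rel g i fun q => w (j, q)

/-- constants in `K` are central -/
theorem cpo_comm (c : K) (a : PA D κ 1) :
    cpo D κ 1 (algebraMap K D c) * a = a * cpo D κ 1 (algebraMap K D c) := by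
  induction a using AddMonoidAlgebra.induction_linear with
  | zero => rw [zero_mul, mul_zero]
  | add a b ha hb => rw [add_mul, mul_add, ha, hb]
  | single m d =>
    rw [cpo, AddMonoidAlgebra.single_mul_single, AddMonoidAlgebra.single_mul_single, zero_add,
      add_zero, Algebra.commutes]

/-- linear maps of a sum -/
theorem lin_sum {D P : Type u} [Ring D] [Ring P] {𝒮 : Sys D P} {X Y : Ob 𝒮} {ι : Type*}
    (s : Finset ι) (f : ι → (X ⟶ Y)) : Ob.lin (∑ i ∈ s, f i) = ∑ i ∈ s, Ob.lin (f i) := by
  classical
  induction s using Finset.induction_on with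
  | empty => rw [Finset.sum_empty, Finset.sum_empty, Ob.lin_zero]
  | insert a s ha ih => rw [Finset.sum_insert ha, Finset.sum_insert ha, Ob.lin_add, ih]

section obj
variable {I J J' : Type} [DecidableEq I] {t : ℕ} (X : Ob (sysB D β)) {m : ℕ}
  (e : I × Fin X.m ≃ Fin m)

/-- the power `X^I` -/
noncomputable abbrev powO : Ob (sysB D β) :=
  ⟨m, (cpw I X.N).comap (LinearMap.funLeft (PA D κ 1) (PA D κ 1) e),
    isGi_funLeft e (isGi_cpw I X.h)⟩

/-- the quotient by the rows -/
noncomputable abbrev presO (f : Fin t → Fin X.m → D) (z : J → I → Fin t → K) (a : J' → I → K) :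
    Ob (sysB D β) :=
  ⟨m, (RS K X.N f z a).comap (LinearMap.funLeft (PA D κ 1) (PA D κ 1) e),
    isGi_funLeft e (isGi_RS X.h f z a)⟩

/-- the vector of a coordinate -/
noncomputable def incL (i : I) : (Fin X.m → PA D κ 1) →ₗ[PA D κ 1] (Fin m → PA D κ 1) :=
  LinearMap.pi fun k => if (e.symm k).1 = i then LinearMap.proj (e.symm k).2 else 0

theorem incL_apply (i : I) (v : Fin X.m → PA D κ 1) (k : Fin m) :
    incL X e i v k = if (e.symm k).1 = i then v (e.symm k).2 else 0 := by
  unfold incL
  rw [LinearMap.pi_apply]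
  split_ifs <;> rfl

theorem incL_e (i j : I) (v : Fin X.m → PA D κ 1) (q : Fin X.m) :
    incL X e i v (e (j, q)) = if j = i then v q else 0 := by
  rw [incL_apply, e.symm_apply_apply]

/-- the inclusions -/
noncomputable def incO (i : I) : X ⟶ powO X e :=
  Ob.ofLin (Submodule.mapQ _ _ (incL X e i) (by
    intro v hv j
    have h1 : (fun q => LinearMap.funLeft (PA D κ 1) (PA D κ 1) e (incL X e i v) (j, q)) =
        if j = i then v else 0 := by
      funext q
      rw [LinearMap.funLeft_apply, incL_e]
      split_ifs <;> rfl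
    rw [h1]
    split_ifs
    · exact hv
    · exact X.N.zero_mem)) (fun v => ⟨fun k => if (e.symm k).1 = i then v (e.symm k).2 else 0, by
      refine congrArg (powO X e).N.mkQ ?_
      funext k
      change _ = (sysB D β).C (if (e.symm k).1 = i then v (e.symm k).2 else 0)
      rw [incL_apply, apply_ite (sysB D β).C, map_zero]⟩)

theorem lin_incO (i : I) (p : Fin X.m → PA D κ 1) :
    Ob.lin (incO X e i) (X.N.mkQ p) = (powO X e).N.mkQ (incL X e i p) := rfl

/-- the projections -/
noncomputable def prO (i : I) : powO X e ⟶ X :=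
  Ob.ofLin (Submodule.mapQ _ _ (LinearMap.funLeft (PA D κ 1) (PA D κ 1) fun q => e (i, q))
    (fun w hw => hw i)) (fun v => ⟨fun q => v (e (i, q)), rfl⟩)

theorem lin_prO (i : I) (p : Fin m → PA D κ 1) :
    Ob.lin (prO X e i) ((powO X e).N.mkQ p) = X.N.mkQ fun q => p (e (i, q)) := rfl

theorem inc_pr (i k : I) : incO X e i ≫ prO X e k = if i = k then 𝟙 X else 0 := by
  apply Ob.mkQ_ext
  intro p
  rw [Ob.lin_comp, LinearMap.comp_apply, lin_incO, lin_prO]
  have h1 : (fun q => incL X e i p (e (k, q))) = if i = k then p else 0 := by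
    funext q
    rw [incL_e]
    by_cases h : i = k
    · rw [if_pos h.symm, if_pos h]
    · rw [if_neg (fun h' => h h'.symm), if_neg h]
      rfl
  rw [h1]
  split_ifs
  · rfl
  · rw [map_zero]
    rfl

theorem pr_inc [Fintype I] : ∑ i, prO X e i ≫ incO X e i = 𝟙 (powO X e) := by
  apply Ob.mkQ_ext
  intro p
  rw [lin_sum, LinearMap.sum_apply]
  have h1 : ∀ i ∈ Finset.univ, Ob.lin (prO X e i ≫ incO X e i) ((powO X e).N.mkQ p) =
      (powO X e).N.mkQ (incL X e i fun q => p (e (i, q))) := fun i _ => rfl
  rw [Finset.sum_congr rfl h1, ← map_sum]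
  refine congrArg (powO X e).N.mkQ ?_
  funext k
  rw [Finset.sum_apply]
  have h2 : ∀ i ∈ Finset.univ, incL X e i (fun q => p (e (i, q))) k =
      if (e.symm k).1 = i then p (e (i, (e.symm k).2)) else 0 := fun i _ => incL_apply X e i _ k
  rw [Finset.sum_congr rfl h2, Finset.sum_ite_eq, if_pos (Finset.mem_univ _)]
  exact congrArg p (e.apply_symm_apply k)

/-- multiplication by a scalar of `K` -/
noncomputable def scL (c : K) {n : ℕ} : (Fin n → PA D κ 1) →ₗ[PA D κ 1] (Fin n → PA D κ 1) where
  toFun v k := cpo D κ 1 (algebraMap K D c) * v k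
  map_add' v w := by
    funext k
    exact mul_add _ _ _
  map_smul' p v := by
    funext k
    change cpo D κ 1 (algebraMap K D c) * (p * v k) = p * (cpo D κ 1 (algebraMap K D c) * v k)
    rw [← mul_assoc, cpo_comm, mul_assoc]

/-- multiplication by a scalar of `K` -/
noncomputable def scO (c : K) : X ⟶ X :=
  Ob.ofLin (Submodule.mapQ _ _ (scL c) (fun v hv => X.N.smul_mem _ hv))
    (fun v => ⟨fun k => algebraMap K D c * v k, by
      refine congrArg X.N.mkQ ?_
      funext k
      exact (map_mul (sysB D β).C _ _).symm⟩)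

theorem lin_scO (c : K) (p : Fin X.m → PA D κ 1) :
    Ob.lin (scO X c) (X.N.mkQ p) = X.N.mkQ fun k => cpo D κ 1 (algebraMap K D c) * p k := rfl

theorem lin_scO' (c : K) (x : X.M) :
    Ob.lin (scO X c) x = (sysB D β).C (algebraMap K D c) • x := by
  obtain ⟨p, rfl⟩ := X.N.mkQ_surjective x
  rfl

variable (f : Fin t → Fin X.m → D) (z : J → I → Fin t → K) (a : J' → I → K)

/-- the projection -/
noncomputable def qO : powO X e ⟶ presO X e f z a :=
  Ob.ofLin (Submodule.mapQ _ _ LinearMap.id (by
    intro w hw
    exact Submodule.mem_sup_left hw)) (fun v => ⟨v, rfl⟩)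

theorem lin_qO (p : Fin m → PA D κ 1) :
    Ob.lin (qO X e f z a) ((powO X e).N.mkQ p) = (presO X e f z a).N.mkQ p := rfl

theorem epi_qO : Epi (qO X e f z a) := by
  apply Ob.epi_of_surjective
  intro y
  obtain ⟨p, rfl⟩ := (presO X e f z a).N.mkQ_surjective y
  exact ⟨(powO X e).N.mkQ p, rfl⟩

/-- the rows -/
noncomputable def alO (j : J) : (free1 D β).O ⟶ powO X e :=
  (free1 D β).hom (powO X e) fun k => ∑ l, algebraMap K D (z j (e.symm k).1 l) * f l (e.symm k).2

/-- the scalar rows -/
noncomputable def gaO [Fintype I] (j : J') : X ⟶ powO X e := ∑ i, scO X (a j i) ≫ incO X e i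

theorem gaO_pr [Fintype I] (j : J') (i : I) : gaO X e a j ≫ prO X e i = scO X (a j i) := by
  rw [gaO, Preadditive.sum_comp, Finset.sum_eq_single i]
  · rw [Category.assoc, inc_pr, if_pos rfl, Category.comp_id]
  · intro k _ hk
    rw [Category.assoc, inc_pr, if_neg hk, comp_zero]
  · intro h
    exact absurd (Finset.mem_univ _) h

theorem lin_gaO [Fintype I] (j : J') (b : Fin X.m → PA D κ 1) :
    Ob.lin (gaO X e a j) (X.N.mkQ b) = (powO X e).N.mkQ fun k =>
      cpo D κ 1 (algebraMap K D (a j (e.symm k).1)) * b (e.symm k).2 := by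
  rw [gaO, lin_sum, LinearMap.sum_apply]
  have h1 : ∀ i ∈ Finset.univ, Ob.lin (scO X (a j i) ≫ incO X e i) (X.N.mkQ b) =
      (powO X e).N.mkQ (incL X e i (scL (a j i) b)) := fun i _ => rfl
  rw [Finset.sum_congr rfl h1, ← map_sum]
  refine congrArg (powO X e).N.mkQ ?_
  funext k
  rw [Finset.sum_apply]
  have h2 : ∀ i ∈ Finset.univ, incL X e i (scL (a j i) b) k =
      if (e.symm k).1 = i then scL (a j i) b (e.symm k).2 else 0 := fun i _ => incL_apply X e i _ k
  rw [Finset.sum_congr rfl h2, Finset.sum_ite_eq, if_pos (Finset.mem_univ _)]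
  rfl

theorem lin_alO (j : J) : Ob.lin (alO X e f z j) (free1 D β).one = (powO X e).N.mkQ fun k =>
      cpo D κ 1 (∑ l, algebraMap K D (z j (e.symm k).1 l) * f l (e.symm k).2) := by
  rw [alO, Ob.Free1.lin_hom_one]
  rfl

theorem alO_q (j : J) : alO X e f z j ≫ qO X e f z a = 0 := by
  apply Ob.Free1.hom_ext_one
  rw [Ob.lin_comp, LinearMap.comp_apply, lin_alO, lin_qO, Ob.lin_zero, LinearMap.zero_apply]
  refine (Submodule.Quotient.mk_eq_zero _).2 ?_
  refine Submodule.mem_sup_right (Submodule.mem_sup_left (Submodule.subset_span ⟨j, ?_⟩))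
  funext w
  rw [LinearMap.funLeft_apply, e.symm_apply_apply]

theorem gaO_q [Fintype I] (j : J') : gaO X e a j ≫ qO X e f z a = 0 := by
  apply Ob.mkQ_ext
  intro b
  rw [Ob.lin_comp, LinearMap.comp_apply, lin_gaO, lin_qO, Ob.lin_zero, LinearMap.zero_apply]
  refine (Submodule.Quotient.mk_eq_zero _).2 ?_
  refine Submodule.mem_sup_right (Submodule.mem_sup_right (Submodule.subset_span ⟨j, b, ?_⟩))
  funext w
  rw [LinearMap.funLeft_apply, e.symm_apply_apply]

theorem univO [Fintype I] {Z : Ob (sysB D β)} (g : powO X e ⟶ Z)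
    (h1 : ∀ j, alO X e f z j ≫ g = 0) (h2 : ∀ j, gaO X e a j ≫ g = 0) :
    ∃ g' : presO X e f z a ⟶ Z, qO X e f z a ≫ g' = g := by
  have hle : RS K X.N f z a ≤ (LinearMap.ker ((Ob.lin g).comp (powO X e).N.mkQ)).comap
      (LinearMap.funLeft (PA D κ 1) (PA D κ 1) e.symm) := by
    refine sup_le ?_ (sup_le ?_ ?_)
    · intro w hw
      have h3 : LinearMap.funLeft (PA D κ 1) (PA D κ 1) e.symm w ∈ (powO X e).N := by
        intro i
        have h4 : (fun q => LinearMap.funLeft (PA D κ 1) (PA D κ 1) e
            (LinearMap.funLeft (PA D κ 1) (PA D κ 1) e.symm w) (i, q)) = fun q => w (i, q) := by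
          funext q
          rw [LinearMap.funLeft_apply, LinearMap.funLeft_apply, e.symm_apply_apply]
        rw [h4]
        exact hw i
      have h5 : (powO X e).N.mkQ (LinearMap.funLeft (PA D κ 1) (PA D κ 1) e.symm w) = 0 :=
        (Submodule.Quotient.mk_eq_zero _).2 h3
      rw [Submodule.mem_comap, LinearMap.mem_ker, LinearMap.comp_apply, h5, map_zero]
    · rw [Submodule.span_le]
      rintro _ ⟨j, rfl⟩
      have h3 := congrArg (fun F : (free1 D β).O ⟶ Z => Ob.lin F (free1 D β).one) (h1 j)
      rw [Ob.lin_comp, LinearMap.comp_apply, lin_alO, Ob.lin_zero, LinearMap.zero_apply] at h3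
      exact h3
    · rw [Submodule.span_le]
      rintro _ ⟨j, b, rfl⟩
      have h3 := congrArg (fun F : X ⟶ Z => Ob.lin F (X.N.mkQ b)) (h2 j)
      rw [Ob.lin_comp, LinearMap.comp_apply, lin_gaO, Ob.lin_zero, LinearMap.zero_apply] at h3
      exact h3
  refine ⟨Ob.ofLin (Submodule.liftQ _ ((Ob.lin g).comp (powO X e).N.mkQ) ?_) ?_, ?_⟩
  · intro p hp
    have h3 := hle hp
    rw [Submodule.mem_comap] at h3
    have h4 : LinearMap.funLeft (PA D κ 1) (PA D κ 1) e.symm
        (LinearMap.funLeft (PA D κ 1) (PA D κ 1) e p) = p := by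
      funext k
      rw [LinearMap.funLeft_apply, LinearMap.funLeft_apply, e.apply_symm_apply]
    rwa [h4] at h3
  · intro v
    obtain ⟨w, hw⟩ := Ob.lin_cst g v
    exact ⟨w, hw⟩
  · apply Ob.mkQ_ext
    intro p
    rfl

end obj

section main
variable (h : RkAx D β) {𝒟 : Type u'} [Category.{v'} 𝒟] [Preadditive 𝒟]
  (L : Ob (sysB D β) ⥤ 𝒟) [L.IsLocalization (rkD h).toRankFn.S] [L.Additive]
  {U : Type u} [DivisionRing U] [Algebra K U] (θ : U ≃+* (End (L.obj (free1 D β).O))ᵐᵒᵖ)

include h in
/-- **The dimension formula** -/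
theorem rkl (hK : ∀ c : K, algebraMap K U c = ιU (free1 D β) L θ (algebraMap K D c))
    (t : ℕ) (u : Fin t → U) : ∃ (p : ℕ) (N : Submodule (PA D κ 1) (Fin p → PA D κ 1))
    (f : Fin t → Fin p → D), IsGi (fun _ : Fin 1 => β) N ∧
      ∀ (I J J' : Type) [Finite I] [Finite J] [Finite J'] (z : J → I → Fin t → K)
        (a : J' → I → K),
        IsRk β (RS K N f z a) (finrank U ((I → U) ⧸
          (Submodule.span U (Set.range fun (j : J) (i : I) => ∑ k, algebraMap K U (z j i k) * u k) ⊔
            Submodule.span U (Set.range fun (j : J') (i : I) => algebraMap K U (a j i))))) := by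
  obtain ⟨X, s, f, hs, hf⟩ := (rkD h).toRankFn.exists_common L
    (fun k : Fin t => mo (free1 D β) L θ (u k))
  choose fv hfv using fun k => Ob.Free1.lin_one (free1 D β) X (f k)
  refine ⟨X.m, X.N, fv, X.h, ?_⟩
  intro I J J' _ _ _ z a
  classical
  cases nonempty_fintype I
  let m := Fintype.card (I × Fin X.m)
  let e : I × Fin X.m ≃ Fin m := Fintype.equivFin _
  have hsi := (rkD h).toRankFn.isIso_map L s hs
  have hpr : ∀ j i, alO X e fv z j ≫ prO X e i =
      ∑ k, (free1 D β).rm (algebraMap K D (z j i k)) ≫ f k := by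
    intro j i
    apply Ob.Free1.hom_ext_one
    rw [Ob.lin_comp, LinearMap.comp_apply, lin_alO, lin_prO, lin_sum, LinearMap.sum_apply]
    have h1 : ∀ k ∈ Finset.univ, Ob.lin ((free1 D β).rm (algebraMap K D (z j i k)) ≫ f k)
        (free1 D β).one = X.N.mkQ fun q => cpo D κ 1 (algebraMap K D (z j i k) * fv k q) := by
      intro k _
      rw [Ob.Free1.rm_comp, hfv, ← Ob.cst_smul]
      rfl
    rw [Finset.sum_congr rfl h1, ← map_sum]
    refine congrArg X.N.mkQ ?_
    funext q
    rw [Finset.sum_apply]
    simp only [e.symm_apply_apply]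
    exact map_sum (AddMonoidAlgebra.singleZeroRingHom (R := D) (M := Mon κ 1)) _ _
  have hrow := (rkD h).toRankFn.rank_pres L (rk_O h) s hs (incO X e) (prO X e) (inc_pr X e)
    (pr_inc X e) (qO X e fv z a) (epi_qO X e fv z a) (alO X e fv z) (gaO X e a)
    (alO_q X e fv z a) (gaO_q X e fv z a) (fun g h1 h2 => univO X e fv z a g h1 h2)
    (fun j i => θ (∑ k, algebraMap K U (z j i k) * u k)) (by
      intro j i
      rw [hpr, L.map_sum]
      change mo (free1 D β) L θ (∑ k, algebraMap K U (z j i k) * u k) ≫ L.map s = _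
      have h1 : mo (free1 D β) L θ (∑ k, algebraMap K U (z j i k) * u k) =
          ∑ k, mo (free1 D β) L θ (algebraMap K U (z j i k) * u k) := by
        refine map_sum (AddMonoidHom.mk' (mo (free1 D β) L θ)
          (fun x y => mo_add (free1 D β) L θ x y)) _ _
      rw [h1, Preadditive.sum_comp]
      refine Finset.sum_congr rfl fun k _ => ?_
      rw [mo_mul, hK, mo_ιU, Category.assoc, hf, L.map_comp])
    (fun j i => θ (algebraMap K U (a j i))) (by
      intro j i
      rw [gaO_pr]
      change mo (free1 D β) L θ (algebraMap K U (a j i)) ≫ L.map s = _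
      rw [hK, mo_ιU, ← L.map_comp]
      refine congrArg L.map ?_
      apply Ob.Free1.hom_ext_one
      rw [Ob.Free1.rm_comp, Ob.lin_comp, LinearMap.comp_apply, lin_scO'])
  have h2 : Submodule.span (End (L.obj (free1 D β).O))ᵐᵒᵖ
        (Set.range fun (j : J) (i : I) => θ (∑ k, algebraMap K U (z j i k) * u k)) ⊔
      Submodule.span (End (L.obj (free1 D β).O))ᵐᵒᵖ
        (Set.range fun (j : J') (i : I) => θ (algebraMap K U (a j i))) =
      Submodule.span (End (L.obj (free1 D β).O))ᵐᵒᵖ ((fun v i => θ (v i)) ''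
        ((Set.range fun (j : J) (i : I) => ∑ k, algebraMap K U (z j i k) * u k) ∪
          Set.range fun (j : J') (i : I) => algebraMap K U (a j i))) := by
    rw [Set.image_union, Submodule.span_union, ← Set.range_comp, ← Set.range_comp]
    rfl
  rw [h2, ← finrank_span_transport θ, Submodule.span_union] at hrow
  have h3 := Submodule.finrank_quotient_add_finrank
    (Submodule.span U (Set.range fun (j : J) (i : I) => ∑ k, algebraMap K U (z j i k) * u k) ⊔
            Submodule.span U (Set.range fun (j : J') (i : I) => algebraMap K U (a j i)))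
  rw [Module.finrank_fintype_fun_eq_card] at h3
  have h4 : finrank U ((I → U) ⧸
          (Submodule.span U (Set.range fun (j : J) (i : I) => ∑ k, algebraMap K U (z j i k) * u k) ⊔
            Submodule.span U (Set.range fun (j : J') (i : I) => algebraMap K U (a j i)))) =
      (rkD h).rk (presO X e fv z a) := by
    have h5 : (rkD h).toRankFn.rk (presO X e fv z a) = (rkD h).rk (presO X e fv z a) := rfl
    omega
  rw [h4]
  have h6 := isRk_funLeft e.symm (rkD_spec h (presO X e fv z a))
  have h7 : (presO X e fv z a).N.comap (LinearMap.funLeft (PA D κ 1) (PA D κ 1) e.symm) =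
      RS K X.N fv z a := by
    ext w
    have h8 : LinearMap.funLeft (PA D κ 1) (PA D κ 1) e
        (LinearMap.funLeft (PA D κ 1) (PA D κ 1) e.symm w) = w := by
      funext k
      rw [LinearMap.funLeft_apply, LinearMap.funLeft_apply, e.symm_apply_apply]
    change LinearMap.funLeft (PA D κ 1) (PA D κ 1) e
        (LinearMap.funLeft (PA D κ 1) (PA D κ 1) e.symm w) ∈ RS K X.N fv z a ↔ _
    rw [h8]
  rwa [h7] at h6

end main

end Vale.Agent.P200.V.SB
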