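import Vale.Agent.P200.V.Gr

/-!
Leading forms for the last degree: the degrees are pairs `(n, t)`; for a submodule `NA` the homogeneous
submodule `initM NA` consists of the leading forms (largest `t`) of the elements of `NA` which are
homogeneous for the first degree.
-/

namespace Vale.Agent.P200.V.SL

open Module MvPolynomial

universe u

section basic
variable {k : Type u} [Field k] {σ G S : Type} [AddCommGroup G] {wt : σ → G} {sh : S → G}

open scoped Classical in
theorem coeff_cmp (ν : G) (f : S → MvPolynomial σ k) (j : S) (m : σ →₀ ℕ) :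
    coeff m (cmp wt sh ν f j) = if dg wt m + sh j = ν then coeff m (f j) else 0 := by
  unfold cmp
  rw [coeff_sum]
  simp only [coeff_monomial]
  rw [Finset.sum_ite_eq']
  by_cases h : dg wt m + sh j = ν
  · rw [if_pos h]
    by_cases h2 : coeff m (f j) = 0
    · rw [h2, ite_self]
    · rw [if_pos]
      exact Finset.mem_filter.mpr ⟨mem_support_iff.mpr h2, h⟩
  · rw [if_neg h, if_neg]
    intro h2
    exact h (Finset.mem_filter.mp h2).2

theorem dg_add (m m' : σ →₀ ℕ) : dg wt (m + m') = dg wt m + dg wt m' := by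
  classical
  unfold dg
  exact Finsupp.sum_add_index' (fun v => zero_smul ℕ (wt v)) (fun v a b => add_smul a b (wt v))

theorem dg_single (v : σ) : dg wt (Finsupp.single v 1) = wt v := by
  unfold dg
  rw [Finsupp.sum_single_index (zero_smul ℕ (wt v)), one_smul]

/-- the component as a linear map -/
noncomputable def cmpL (wt : σ → G) (sh : S → G) (ν : G) :
    (S → MvPolynomial σ k) →ₗ[k] (S → MvPolynomial σ k) where
  toFun := cmp wt sh ν
  map_add' f g := by
    classical
    funext j
    refine MvPolynomial.ext _ _ fun m => ?_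
    rw [Pi.add_apply, coeff_add, coeff_cmp, coeff_cmp, coeff_cmp, Pi.add_apply, coeff_add]
    split_ifs
    · rfl
    · rw [add_zero]
  map_smul' c f := by
    classical
    funext j
    refine MvPolynomial.ext _ _ fun m => ?_
    rw [RingHom.id_apply, Pi.smul_apply, coeff_smul, coeff_cmp, coeff_cmp, Pi.smul_apply,
      coeff_smul]
    split_ifs
    · rfl
    · rw [smul_zero]

theorem cmp_of_mem {ν : G} {f : S → MvPolynomial σ k} (hf : f ∈ gp k wt sh ν) :
    cmp wt sh ν f = f := by
  classical
  funext j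
  refine MvPolynomial.ext _ _ fun m => ?_
  rw [coeff_cmp]
  split_ifs with h
  · rfl
  · by_contra h2
    exact h (hf j m fun h3 => h2 h3.symm)

theorem cmp_of_mem_ne {ν ν' : G} (hne : ν' ≠ ν) {f : S → MvPolynomial σ k}
    (hf : f ∈ gp k wt sh ν) : cmp wt sh ν' f = 0 := by
  classical
  funext j
  refine MvPolynomial.ext _ _ fun m => ?_
  rw [coeff_cmp, Pi.zero_apply, coeff_zero]
  split_ifs with h
  · by_contra h2
    exact hne (h.symm.trans (hf j m h2))
  · rfl

theorem cmp_gp (ν : G) (f : S → MvPolynomial σ k) : cmp wt sh ν f ∈ gp k wt sh ν := by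
  classical
  intro j m hm
  rw [coeff_cmp] at hm
  by_contra h
  rw [if_neg h] at hm
  exact hm rfl

theorem X_smul_gp (v : σ) {ν : G} {f : S → MvPolynomial σ k} (hf : f ∈ gp k wt sh ν) :
    (X v : MvPolynomial σ k) • f ∈ gp k wt sh (ν + wt v) := by
  classical
  intro j m hm
  rw [Pi.smul_apply, smul_eq_mul, coeff_X_mul'] at hm
  split_ifs at hm with h
  · have h1 := hf j _ hm
    have h2 : m = (m - Finsupp.single v 1) + Finsupp.single v 1 := by
      rw [tsub_add_cancel_of_le]
      exact Finsupp.single_le_iff.mpr (Nat.one_le_iff_ne_zero.mpr (Finsupp.mem_support_iff.mp h))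
    rw [h2, dg_add, dg_single, ← h1]
    abel
  · exact absurd rfl hm

theorem cmp_X_smul (v : σ) (ν : G) (f : S → MvPolynomial σ k) :
    cmp wt sh ν ((X v : MvPolynomial σ k) • f) = (X v : MvPolynomial σ k) • cmp wt sh (ν - wt v) f := by
  classical
  funext j
  refine MvPolynomial.ext _ _ fun m => ?_
  rw [coeff_cmp, Pi.smul_apply, Pi.smul_apply, smul_eq_mul, smul_eq_mul, coeff_X_mul',
    coeff_X_mul']
  by_cases h : v ∈ m.support
  · rw [if_pos h, if_pos h, coeff_cmp]
    have h2 : m = (m - Finsupp.single v 1) + Finsupp.single v 1 := by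
      rw [tsub_add_cancel_of_le]
      exact Finsupp.single_le_iff.mpr (Nat.one_le_iff_ne_zero.mpr (Finsupp.mem_support_iff.mp h))
    have h3 : dg wt m = dg wt (m - Finsupp.single v 1) + wt v := by
      conv_lhs => rw [h2]
      rw [dg_add, dg_single]
    refine if_congr ?_ rfl rfl
    rw [h3, eq_sub_iff_add_eq]
    constructor
    · intro h4
      rw [← h4]
      abel
    · intro h4
      rw [← h4]
      abel
  · rw [if_neg h, if_neg h, ite_self]

end basic

section lead
variable {k : Type u} [Field k] {σ G S : Type} [AddCommGroup G] {wt : σ → G × ℤ}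
  {sh : S → G × ℤ}

/-- the vectors of first degree `n` and second degree at most `t` -/
def Flt (k : Type u) [Field k] (wt : σ → G × ℤ) (sh : S → G × ℤ) (n : G) (t : ℤ) :
    Submodule k (S → MvPolynomial σ k) where
  carrier := {f | ∀ j m, coeff m (f j) ≠ 0 →
    (dg wt m + sh j).1 = n ∧ (dg wt m + sh j).2 ≤ t}
  add_mem' := by
    intro a b ha hb j m hm
    by_cases h : coeff m (a j) = 0
    · rw [Pi.add_apply, coeff_add, h, zero_add] at hm
      exact hb j m hm
    · exact ha j m h
  zero_mem' := by
    intro j m hm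
    rw [Pi.zero_apply, coeff_zero] at hm
    exact absurd rfl hm
  smul_mem' := by
    intro c a ha j m hm
    rw [Pi.smul_apply, coeff_smul] at hm
    exact ha j m fun h => hm (by rw [h, smul_zero])

theorem gp_le_Flt (ν : G × ℤ) : gp k wt sh ν ≤ Flt k wt sh ν.1 ν.2 := by
  intro f hf j m hm
  rw [hf j m hm]
  exact ⟨rfl, le_rfl⟩

theorem Flt_mono (n : G) {t t' : ℤ} (h : t ≤ t') : Flt k wt sh n t ≤ Flt k wt sh n t' := by
  intro f hf j m hm
  exact ⟨(hf j m hm).1, (hf j m hm).2.trans h⟩

/-- the leading forms of degree `ν` -/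
def lead (wt : σ → G × ℤ) (sh : S → G × ℤ)
    (NA : Submodule (MvPolynomial σ k) (S → MvPolynomial σ k)) (ν : G × ℤ) :
    Submodule k (S → MvPolynomial σ k) where
  carrier := {f | f ∈ gp k wt sh ν ∧ ∃ r ∈ Flt k wt sh ν.1 (ν.2 - 1), f + r ∈ NA}
  add_mem' := by
    rintro a b ⟨ha, r, hr, har⟩ ⟨hb, s, hs, hbs⟩
    refine ⟨Submodule.add_mem _ ha hb, r + s, Submodule.add_mem _ hr hs, ?_⟩
    have : a + b + (r + s) = (a + r) + (b + s) := by abel
    rw [this]
    exact NA.add_mem har hbs
  zero_mem' := ⟨Submodule.zero_mem _, 0, Submodule.zero_mem _, by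
    rw [add_zero]
    exact NA.zero_mem⟩
  smul_mem' := by
    rintro c a ⟨ha, r, hr, har⟩
    refine ⟨Submodule.smul_mem _ c ha, c • r, Submodule.smul_mem _ c hr, ?_⟩
    rw [← smul_add]
    exact (NA.restrictScalars k).smul_mem c har

theorem X_smul_lead {NA : Submodule (MvPolynomial σ k) (S → MvPolynomial σ k)} {ν : G × ℤ}
    (v : σ) {f : S → MvPolynomial σ k} (hf : f ∈ lead wt sh NA ν) :
    (X v : MvPolynomial σ k) • f ∈ lead wt sh NA (ν + wt v) := by
  classical
  obtain ⟨hf, r, hr, hfr⟩ := hf
  refine ⟨X_smul_gp v hf, (X v : MvPolynomial σ k) • r, ?_, ?_⟩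
  · intro j m hm
    rw [Pi.smul_apply, smul_eq_mul, coeff_X_mul'] at hm
    split_ifs at hm with h
    · have h1 := hr j _ hm
      have h2 : m = (m - Finsupp.single v 1) + Finsupp.single v 1 := by
        rw [tsub_add_cancel_of_le]
        exact Finsupp.single_le_iff.mpr (Nat.one_le_iff_ne_zero.mpr (Finsupp.mem_support_iff.mp h))
      rw [h2, dg_add, dg_single]
      constructor
      · have h3 := h1.1
        rw [Prod.fst_add] at h3
        rw [Prod.fst_add, Prod.fst_add, Prod.fst_add, ← h3]
        abel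
      · have h3 := h1.2
        rw [Prod.snd_add] at h3
        rw [Prod.snd_add, Prod.snd_add, Prod.snd_add]
        linarith
    · exact absurd rfl hm
  · rw [← smul_add]
    exact NA.smul_mem _ hfr

/-- **The module of leading forms.** -/
def initM (wt : σ → G × ℤ) (sh : S → G × ℤ)
    (NA : Submodule (MvPolynomial σ k) (S → MvPolynomial σ k)) :
    Submodule (MvPolynomial σ k) (S → MvPolynomial σ k) where
  carrier := {f | ∀ ν, cmp wt sh ν f ∈ lead wt sh NA ν}
  add_mem' := by
    intro a b ha hb ν
    change cmpL wt sh ν (a + b) ∈ _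
    rw [map_add]
    exact Submodule.add_mem _ (ha ν) (hb ν)
  zero_mem' := by
    intro ν
    change cmpL wt sh ν 0 ∈ _
    rw [map_zero]
    exact Submodule.zero_mem _
  smul_mem' := by
    intro p f hf
    induction p using MvPolynomial.induction_on with
    | C c =>
      intro ν
      have h : (C c : MvPolynomial σ k) • f = c • f := by
        funext j
        rw [Pi.smul_apply, Pi.smul_apply, smul_eq_mul, C_mul']
      rw [h]
      change cmpL wt sh ν (c • f) ∈ _
      rw [map_smul]
      exact Submodule.smul_mem _ c (hf ν)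
    | add p q hp hq =>
      intro ν
      rw [add_smul]
      change cmpL wt sh ν (p • f + q • f) ∈ _
      rw [map_add]
      exact Submodule.add_mem _ (hp ν) (hq ν)
    | mul_X p v hp =>
      intro ν
      have h : (p * X v) • f = (X v : MvPolynomial σ k) • p • f := by
        rw [smul_smul, mul_comm]
      rw [h, cmp_X_smul]
      have h2 := X_smul_lead v (hp (ν - wt v))
      rw [sub_add_cancel] at h2
      exact h2

variable {NA : Submodule (MvPolynomial σ k) (S → MvPolynomial σ k)}

theorem homS_initM : HomS wt sh (initM wt sh NA) := by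
  intro f hf ν ν'
  by_cases h : ν' = ν
  · rw [h, cmp_of_mem (cmp_gp ν f)]
    exact hf ν
  · rw [cmp_of_mem_ne h (cmp_gp ν f)]
    exact Submodule.zero_mem _

theorem mem_initM_of_lead {ν : G × ℤ} {f : S → MvPolynomial σ k} (hf : f ∈ lead wt sh NA ν) :
    f ∈ initM wt sh NA := by
  intro ν'
  by_cases h : ν' = ν
  · rw [h, cmp_of_mem hf.1]
    exact hf
  · rw [cmp_of_mem_ne h hf.1]
    exact Submodule.zero_mem _

theorem gpart_initM (ν : G × ℤ) : gpart wt sh (initM wt sh NA) ν = lead wt sh NA ν := by
  refine le_antisymm ?_ ?_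
  · rintro f ⟨hf, hg⟩
    have := hf ν
    rw [cmp_of_mem hg] at this
    exact this
  · intro f hf
    exact ⟨mem_initM_of_lead hf, hf.1⟩

/-- homogeneous elements of `NA` are leading forms -/
theorem mem_initM_of_hom {ν : G × ℤ} {f : S → MvPolynomial σ k} (hf : f ∈ gp k wt sh ν)
    (hN : f ∈ NA) : f ∈ initM wt sh NA :=
  mem_initM_of_lead ⟨hf, 0, Submodule.zero_mem _, by rwa [add_zero]⟩

end lead

end Vale.Agent.P200.V.SL
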