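import Vale.Agent.P200.V.SLA
import Vale.Agent.P200.V.RankU

/-!
Dimension counts for leading forms; coefficients of the iterated polynomial ring.
-/

namespace Vale.Agent.P200.V.SL

open Module MvPolynomial

universe u

section lead
variable {k : Type u} [Field k] {σ G S : Type} [AddCommGroup G] {wt : σ → G × ℤ}
  {sh : S → G × ℤ}

theorem cmp_Flt_eq_zero {n : G} {t : ℤ} {f : S → MvPolynomial σ k}
    (hf : f ∈ Flt k wt sh n (t - 1)) : cmp wt sh (n, t) f = 0 := by
  funext j
  refine MvPolynomial.ext _ _ fun m => ?_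
  rw [coeff_cmp, Pi.zero_apply, coeff_zero]
  split_ifs with h
  · by_contra h2
    have h3 := (hf j m h2).2
    rw [h] at h3
    exact absurd h3 (by simp)
  · rfl

theorem sub_cmp_mem_Flt {n : G} {t : ℤ} {f : S → MvPolynomial σ k}
    (hf : f ∈ Flt k wt sh n t) : f - cmp wt sh (n, t) f ∈ Flt k wt sh n (t - 1) := by
  intro j m hm
  rw [Pi.sub_apply, coeff_sub, coeff_cmp] at hm
  split_ifs at hm with h
  · exact absurd (sub_self _) hm
  · rw [sub_zero] at hm
    obtain ⟨h1, h2⟩ := hf j m hm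
    refine ⟨h1, ?_⟩
    by_contra h3
    exact h (Prod.ext h1 (by
      change (dg wt m + sh j).2 = t
      omega))

theorem finrank_lead (NA : Submodule (MvPolynomial σ k) (S → MvPolynomial σ k)) (n : G) (t : ℤ)
    [FiniteDimensional k (Flt k wt sh n t)] :
    finrank k (Flt k wt sh n t ⊓ NA.restrictScalars k : Submodule k _) =
      finrank k (Flt k wt sh n (t - 1) ⊓ NA.restrictScalars k : Submodule k _) +
        finrank k (lead wt sh NA (n, t)) := by
  have hfin : Module.Finite k (Flt k wt sh n t ⊓ NA.restrictScalars k : Submodule k _) :=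
    Submodule.finiteDimensional_of_le inf_le_left
  rw [← finrank_inf_ker_add (Flt k wt sh n t ⊓ NA.restrictScalars k) (cmpL wt sh (n, t))]
  have h1 : Flt k wt sh n t ⊓ NA.restrictScalars k ⊓ LinearMap.ker (cmpL wt sh (n, t)) =
      Flt k wt sh n (t - 1) ⊓ NA.restrictScalars k := by
    refine le_antisymm ?_ ?_
    · rintro f ⟨⟨hf, hN⟩, hk⟩
      refine ⟨?_, hN⟩
      have h2 := sub_cmp_mem_Flt hf
      have h3 : cmp wt sh (n, t) f = 0 := hk
      rw [h3, sub_zero] at h2
      exact h2
    · rintro f ⟨hf, hN⟩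
      exact ⟨⟨Flt_mono n (by omega) hf, hN⟩, cmp_Flt_eq_zero hf⟩
  have h2 : (Flt k wt sh n t ⊓ NA.restrictScalars k).map (cmpL wt sh (n, t)) =
      lead wt sh NA (n, t) := by
    refine le_antisymm ?_ ?_
    · rintro _ ⟨f, ⟨hf, hN⟩, rfl⟩
      refine ⟨cmp_gp _ f, f - cmp wt sh (n, t) f, sub_cmp_mem_Flt hf, ?_⟩
      change cmp wt sh (n, t) f + (f - cmp wt sh (n, t) f) ∈ NA
      rw [add_sub_cancel]
      exact hN
    · rintro f ⟨hf, r, hr, hfr⟩
      refine ⟨f + r, ⟨Submodule.add_mem _ (gp_le_Flt _ hf) (Flt_mono n (by omega) hr), hfr⟩, ?_⟩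
      rw [map_add]
      change cmp wt sh (n, t) f + cmp wt sh (n, t) r = f
      rw [cmp_of_mem hf, cmp_Flt_eq_zero hr, add_zero]
  rw [h1, h2]

theorem lead_top (ν : G × ℤ) :
    lead wt sh (⊤ : Submodule (MvPolynomial σ k) (S → MvPolynomial σ k)) ν = gp k wt sh ν := by
  refine le_antisymm (fun f hf => hf.1) fun f hf => ?_
  exact ⟨hf, 0, Submodule.zero_mem _, Submodule.mem_top⟩

/-- the dimension of the filtration of the quotient -/
noncomputable def aF (wt : σ → G × ℤ) (sh : S → G × ℤ)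
    (NA : Submodule (MvPolynomial σ k) (S → MvPolynomial σ k)) (n : G) (t : ℤ) : ℤ :=
  finrank k (Flt k wt sh n t) - finrank k (Flt k wt sh n t ⊓ NA.restrictScalars k : Submodule k _)

theorem hd_initM (NA : Submodule (MvPolynomial σ k) (S → MvPolynomial σ k)) (n : G) (t : ℤ)
    [FiniteDimensional k (Flt k wt sh n t)] :
    (hd wt sh (⊤ : Submodule (MvPolynomial σ k) (S → MvPolynomial σ k)) (n, t) : ℤ) -
      hd wt sh (initM wt sh NA) (n, t) = aF wt sh NA n t - aF wt sh NA n (t - 1) := by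
  have h1 := finrank_lead (wt := wt) (sh := sh) NA n t
  have h2 := finrank_lead (wt := wt) (sh := sh) (⊤ : Submodule (MvPolynomial σ k) _) n t
  rw [lead_top, Submodule.restrictScalars_top, inf_top_eq, inf_top_eq] at h2
  have h3 : hd wt sh (⊤ : Submodule (MvPolynomial σ k) (S → MvPolynomial σ k)) (n, t) =
      finrank k (gp k wt sh (n, t)) := by
    rw [hd, gpart, Submodule.restrictScalars_top, top_inf_eq]
  rw [h3, hd, gpart_initM, aF, aF]
  omega

end lead

section coef
variable {k : Type u} [Field k] {Z J : Type}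

theorem sumAlg_monomial (m : Z ⊕ J →₀ ℕ) (c : k) :
    sumAlgEquiv k Z J (monomial m c) =
      monomial (Finsupp.sumFinsuppEquivProdFinsupp m).1
        (monomial (Finsupp.sumFinsuppEquivProdFinsupp m).2 c) := by
  simp [sumAlgEquiv, monomial]

theorem coeff_sumAlg (p : MvPolynomial (Z ⊕ J) k) (a : Z →₀ ℕ) (y : J →₀ ℕ) :
    coeff y (coeff a (sumAlgEquiv k Z J p)) = coeff (Finsupp.sumElim a y) p := by
  classical
  induction p using MvPolynomial.induction_on' with
  | monomial m c =>
    rw [sumAlg_monomial, coeff_monomial, coeff_monomial]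
    have h : m = Finsupp.sumElim a y ↔ (Finsupp.sumFinsuppEquivProdFinsupp m).1 = a ∧
        (Finsupp.sumFinsuppEquivProdFinsupp m).2 = y := by
      have h0 : m = Finsupp.sumFinsuppEquivProdFinsupp.symm (a, y) ↔
          Finsupp.sumFinsuppEquivProdFinsupp m = (a, y) :=
        Equiv.eq_symm_apply _
      exact h0.trans Prod.ext_iff
    by_cases h1 : (Finsupp.sumFinsuppEquivProdFinsupp m).1 = a
    · rw [if_pos h1, coeff_monomial]
      by_cases h2 : (Finsupp.sumFinsuppEquivProdFinsupp m).2 = y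
      · rw [if_pos h2, if_pos (h.mpr ⟨h1, h2⟩)]
      · rw [if_neg h2, if_neg fun h3 => h2 (h.mp h3).2]
    · rw [if_neg h1, coeff_zero, if_neg fun h3 => h1 (h.mp h3).1]
  | add p q hp hq => rw [map_add, coeff_add, coeff_add, coeff_add, hp, hq]

end coef

end Vale.Agent.P200.V.SL
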