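import Vale.Agent.P200.V.SLB
import Vale.Agent.P200.V.LvDefs

/-!
Coordinates of the vectors of given first degree.
-/

namespace Vale.Agent.P200.V.SL

open Module MvPolynomial

universe u

/-- the passage to the field of rational functions in the parameters -/
noncomputable def toK (k : Type u) [Field k] (Z J : Type) :
    MvPolynomial (Z ⊕ J) k →+* MvPolynomial Z (KF k J) :=
  (MvPolynomial.map (algebraMap (MvPolynomial J k) (KF k J))).comp
    (sumAlgEquiv k Z J).toRingEquiv.toRingHom

theorem toK_apply {k : Type u} [Field k] {Z J : Type} (p : MvPolynomial (Z ⊕ J) k) :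
    toK k Z J p = MvPolynomial.map (algebraMap (MvPolynomial J k) (KF k J))
      (sumAlgEquiv k Z J p) := rfl

theorem coeff_toK {k : Type u} [Field k] {Z J : Type} (p : MvPolynomial (Z ⊕ J) k) (a : Z →₀ ℕ) :
    coeff a (toK k Z J p) = algebraMap (MvPolynomial J k) (KF k J)
      (coeff a (sumAlgEquiv k Z J p)) := by
  rw [toK_apply, coeff_map]

section coord
variable {Z ι J S : Type} [Fintype Z] [DecidableEq Z] [Fintype ι] [DecidableEq ι] [Fintype J]
  [Fintype S] [DecidableEq S] (blk : Z → ι) (C : Finset Z) (e : ℕ) (sh : S → ι → ℤ)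

/-- the basis vectors of degree `n` -/
abbrev Kn (blk : Z → ι) (sh : S → ι → ℤ) (n : ι → ℤ) : Type :=
  {p : S × (Z →₀ ℕ) // dg (wb blk) p.2 + sh p.1 = n}

theorem dg_eq_sum {V G : Type} [Fintype V] [AddCommGroup G] (wt : V → G) (a : V →₀ ℕ) :
    dg wt a = ∑ v, a v • wt v :=
  Finsupp.sum_fintype a (fun v m => m • wt v) fun v => zero_smul ℕ (wt v)

theorem sum_dg_wb (a : Z →₀ ℕ) : ∑ i, dg (wb blk) a i = (a.degree : ℤ) := by
  rw [dg_eq_sum, Finsupp.degree_eq_sum]
  simp only [Finset.sum_apply, wb, Pi.smul_apply, Pi.single_apply]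
  rw [Finset.sum_comm]
  push_cast
  refine Finset.sum_congr rfl fun z _ => ?_
  rw [← Finset.smul_sum, Finset.sum_ite_eq' Finset.univ (blk z), if_pos (Finset.mem_univ _)]
  simp

instance finite_Kn (n : ι → ℤ) : Finite (Kn blk sh n) := by
  have h : ∀ j : S, ({a : Z →₀ ℕ | dg (wb blk) a + sh j = n}).Finite := by
    intro j
    refine (Finsupp.finite_of_degree_le (σ := Z) (∑ i, (n i - sh j i)).toNat).subset ?_
    intro a ha
    have h1 : ∑ i, dg (wb blk) a i = ∑ i, (n i - sh j i) := by
      refine Finset.sum_congr rfl fun i _ => ?_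
      rw [← show (dg (wb blk) a + sh j) i = n i from congrFun ha i, Pi.add_apply]
      ring
    rw [sum_dg_wb] at h1
    change a.degree ≤ _
    omega
  have h2 := fun j : S => (h j).to_subtype
  refine Finite.of_injective (β := Σ j : S, {a : Z →₀ ℕ | dg (wb blk) a + sh j = n})
    (fun p => ⟨p.1.1, p.1.2, p.2⟩) ?_
  rintro ⟨⟨j, a⟩, h⟩ ⟨⟨j', a'⟩, h'⟩ heq
  simp only [Sigma.mk.injEq] at heq
  obtain ⟨rfl, h3⟩ := heq
  have h4 := congrArg Subtype.val (eq_of_heq h3)
  simp only at h4
  subst h4
  rfl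

theorem dg_wT (a : Z →₀ ℕ) (y : J →₀ ℕ) : dg (wT J blk C e) (Finsupp.sumElim a y) =
    (dg (wb blk) a, (∑ c ∈ C, (a c : ℤ)) + e * (y.degree : ℤ)) := by
  rw [dg_eq_sum, dg_eq_sum, Fintype.sum_sum_type, Finsupp.degree_eq_sum]
  simp only [Finsupp.sumElim_apply, Sum.elim_inl, Sum.elim_inr, wT]
  refine Prod.ext ?_ ?_
  · rw [Prod.fst_add, Prod.fst_sum, Prod.fst_sum]
    simp
  · rw [Prod.snd_add, Prod.snd_sum, Prod.snd_sum]
    have h1 : ∀ z, (a z • ((wb blk z, if z ∈ C then (1 : ℤ) else 0) : (ι → ℤ) × ℤ)).2 =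
        if z ∈ C then (a z : ℤ) else 0 := by
      intro z
      rw [Prod.smul_snd]
      split_ifs
      · rw [nsmul_eq_mul, mul_one]
      · rw [smul_zero]
    have h2 : ∀ j, (y j • ((0, (e : ℤ)) : (ι → ℤ) × ℤ)).2 = (y j : ℤ) * e := by
      intro j
      rw [Prod.smul_snd, nsmul_eq_mul]
    rw [Finset.sum_congr rfl fun z _ => h1 z, Finset.sum_congr rfl fun j _ => h2 j,
      Finset.sum_ite_mem, Finset.univ_inter, ← Finset.sum_mul]
    push_cast
    ring

/-- the weight of a basis vector -/
def wn {n : ι → ℤ} (p : Kn blk sh n) : ℕ := ∑ c ∈ C, p.1.2 c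

open scoped Classical in
/-- the vector with given coordinates -/
noncomputable def Th (B : Type*) [CommRing B] (blk : Z → ι) (sh : S → ι → ℤ) (n : ι → ℤ) :
    (Kn blk sh n → B) →ₗ[B] (S → MvPolynomial Z B) :=
  letI := Fintype.ofFinite (Kn blk sh n)
  { toFun := fun x j => ∑ p : Kn blk sh n, if p.1.1 = j then monomial p.1.2 (x p) else 0
    map_add' := fun x y => by
      funext j
      rw [Pi.add_apply, ← Finset.sum_add_distrib]
      refine Finset.sum_congr rfl fun p _ => ?_
      split_ifs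
      · rw [Pi.add_apply, map_add]
      · rw [add_zero]
    map_smul' := fun b x => by
      funext j
      rw [RingHom.id_apply, Pi.smul_apply, Finset.smul_sum]
      refine Finset.sum_congr rfl fun p _ => ?_
      split_ifs
      · rw [Pi.smul_apply, map_smul]
      · rw [smul_zero] }

open scoped Classical in
theorem coeff_Th (B : Type*) [CommRing B] {n : ι → ℤ} (x : Kn blk sh n → B) (j : S)
    (a : Z →₀ ℕ) : coeff a (Th B blk sh n x j) =
      if h : dg (wb blk) a + sh j = n then x ⟨(j, a), h⟩ else 0 := by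
  let i0 := Fintype.ofFinite (Kn blk sh n)
  change coeff a (∑ p : Kn blk sh n, if p.1.1 = j then monomial p.1.2 (x p) else 0) = _
  rw [coeff_sum]
  split_ifs with h
  · rw [Finset.sum_eq_single (⟨(j, a), h⟩ : Kn blk sh n)]
    · rw [if_pos rfl, coeff_monomial, if_pos rfl]
    · intro p _ hp
      split_ifs with h1
      · rw [coeff_monomial, if_neg]
        intro h2
        exact hp (Subtype.ext (Prod.ext h1 h2))
      · exact coeff_zero _
    · intro h1
      exact absurd (Finset.mem_univ _) h1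
  · refine Finset.sum_eq_zero fun p _ => ?_
    split_ifs with h1
    · rw [coeff_monomial, if_neg]
      intro h2
      refine h ?_
      rw [← h1, ← h2]
      exact p.2
    · exact coeff_zero _

end coord

end Vale.Agent.P200.V.SL
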