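import Vale.Agent.P200.V.SLC

/-!
The filtration by the degree in the parameters, in coordinates.
-/

namespace Vale.Agent.P200.V.SL

open Module MvPolynomial

universe u

section corr
variable {k : Type u} [Field k] {Z ι J S : Type} [Fintype Z] [DecidableEq Z] [Fintype ι]
  [DecidableEq ι] [Fintype J] [Fintype S] [DecidableEq S] (blk : Z → ι) (C : Finset Z) (e : ℕ)
  (sh : S → ι → ℤ)

/-- the shifts, with last component zero -/
def sh0 {S ι : Type} (sh : S → ι → ℤ) : S → (ι → ℤ) × ℤ := fun j => (sh j, 0)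

/-- the coordinates of degree `n` -/
noncomputable def rho (k : Type u) [Field k] {Z ι : Type} [DecidableEq ι] (J : Type) {S : Type}
    (blk : Z → ι) (sh : S → ι → ℤ) (n : ι → ℤ) :
    (S → MvPolynomial (Z ⊕ J) k) →ₗ[k] (Kn blk sh n → MvPolynomial J k) where
  toFun f p := coeff p.1.2 (sumAlgEquiv k Z J (f p.1.1))
  map_add' f g := by
    funext p
    rw [Pi.add_apply, Pi.add_apply, map_add, coeff_add]
  map_smul' c f := by
    funext p
    rw [RingHom.id_apply, Pi.smul_apply, Pi.smul_apply, map_smul, coeff_smul]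

theorem coeff_rho {n : ι → ℤ} (f : S → MvPolynomial (Z ⊕ J) k) (p : Kn blk sh n) (y : J →₀ ℕ) :
    coeff y (rho k J blk sh n f p) = coeff (Finsupp.sumElim p.1.2 y) (f p.1.1) :=
  coeff_sumAlg _ _ _

theorem exists_sumElim (m : Z ⊕ J →₀ ℕ) : ∃ (a : Z →₀ ℕ) (y : J →₀ ℕ), m = Finsupp.sumElim a y :=
  ⟨_, _, (Finsupp.sumFinsuppEquivProdFinsupp.symm_apply_apply m).symm⟩

theorem mem_Flt_iff {n : ι → ℤ} {t : ℤ} {f : S → MvPolynomial (Z ⊕ J) k} :
    f ∈ Flt k (wT J blk C e) (sh0 sh) n t ↔ ∀ j (a : Z →₀ ℕ) (y : J →₀ ℕ),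
      coeff (Finsupp.sumElim a y) (f j) ≠ 0 → dg (wb blk) a + sh j = n ∧
        (∑ c ∈ C, (a c : ℤ)) + e * (y.degree : ℤ) ≤ t := by
  constructor
  · intro hf j a y h
    have := hf j _ h
    rw [dg_wT] at this
    simpa [sh0] using this
  · intro hf j m hm
    obtain ⟨a, y, rfl⟩ := exists_sumElim m
    have := hf j a y hm
    rw [dg_wT]
    simpa [sh0] using this

theorem Flt_neg {n : ι → ℤ} {t : ℤ} (ht : t < 0) :
    Flt k (wT J blk C e) (sh0 sh) n t = ⊥ := by
  rw [eq_bot_iff]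
  intro f hf
  rw [mem_Flt_iff] at hf
  rw [Submodule.mem_bot]
  funext j
  refine MvPolynomial.ext _ _ fun m => ?_
  obtain ⟨a, y, rfl⟩ := exists_sumElim m
  rw [Pi.zero_apply, coeff_zero]
  by_contra h
  have h1 := (hf j a y h).2
  have h2 : 0 ≤ ∑ c ∈ C, (a c : ℤ) := Finset.sum_nonneg fun _ _ => Int.natCast_nonneg _
  have h3 : 0 ≤ (e : ℤ) * (y.degree : ℤ) := mul_nonneg (Int.natCast_nonneg _) (Int.natCast_nonneg _)
  omega

theorem rho_injOn {n : ι → ℤ} {t : ℤ} {f : S → MvPolynomial (Z ⊕ J) k}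
    (hf : f ∈ Flt k (wT J blk C e) (sh0 sh) n t) (h0 : rho k J blk sh n f = 0) : f = 0 := by
  rw [mem_Flt_iff] at hf
  funext j
  refine MvPolynomial.ext _ _ fun m => ?_
  obtain ⟨a, y, rfl⟩ := exists_sumElim m
  rw [Pi.zero_apply, coeff_zero]
  by_contra h
  have h1 := (hf j a y h).1
  refine h ?_
  have h2 := coeff_rho (k := k) (J := J) blk sh f ⟨(j, a), h1⟩ y
  rw [h0, Pi.zero_apply, coeff_zero] at h2
  exact h2.symm

/-- the vector with given coordinates -/
noncomputable def TA {n : ι → ℤ} (v : Kn blk sh n → MvPolynomial J k) :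
    S → MvPolynomial (Z ⊕ J) k :=
  fun j => (sumAlgEquiv k Z J).symm (Th (MvPolynomial J k) blk sh n v j)

open scoped Classical in
theorem coeff_TA {n : ι → ℤ} (v : Kn blk sh n → MvPolynomial J k) (j : S) (a : Z →₀ ℕ)
    (y : J →₀ ℕ) : coeff (Finsupp.sumElim a y) (TA blk sh v j) =
      if h : dg (wb blk) a + sh j = n then coeff y (v ⟨(j, a), h⟩) else 0 := by
  rw [← coeff_sumAlg, TA, AlgEquiv.apply_symm_apply, coeff_Th]
  split_ifs
  · rfl
  · rw [coeff_zero]

theorem rho_TA {n : ι → ℤ} (v : Kn blk sh n → MvPolynomial J k) :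
    rho k J blk sh n (TA blk sh v) = v := by
  funext p
  refine MvPolynomial.ext _ _ fun y => ?_
  rw [coeff_rho, coeff_TA, dif_pos p.2]

theorem TA_mem {n : ι → ℤ} {t : ℕ} {v : Kn blk sh n → MvPolynomial J k}
    (hv : v ∈ Fil k J e (wn blk C sh) t) :
    TA blk sh v ∈ Flt k (wT J blk C e) (sh0 sh) n t := by
  rw [mem_Flt_iff]
  rw [mem_Fil] at hv
  intro j a y h
  rw [coeff_TA] at h
  split_ifs at h with h1
  · refine ⟨h1, ?_⟩
    have h2 := hv _ y (MvPolynomial.mem_support_iff.mpr h)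
    rw [wn] at h2
    zify at h2
    linarith
  · exact absurd rfl h

theorem rho_mem {n : ι → ℤ} {t : ℕ} {f : S → MvPolynomial (Z ⊕ J) k}
    (hf : f ∈ Flt k (wT J blk C e) (sh0 sh) n t) :
    rho k J blk sh n f ∈ Fil k J e (wn blk C sh) t := by
  rw [mem_Flt_iff] at hf
  rw [mem_Fil]
  intro p y hy
  rw [MvPolynomial.mem_support_iff, coeff_rho] at hy
  have h := (hf p.1.1 p.1.2 y hy).2
  rw [wn]
  zify
  linarith

theorem TA_rho {n : ι → ℤ} {t : ℤ} {f : S → MvPolynomial (Z ⊕ J) k}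
    (hf : f ∈ Flt k (wT J blk C e) (sh0 sh) n t) : TA blk sh (rho k J blk sh n f) = f := by
  rw [mem_Flt_iff] at hf
  funext j
  refine MvPolynomial.ext _ _ fun m => ?_
  obtain ⟨a, y, rfl⟩ := exists_sumElim m
  rw [coeff_TA]
  split_ifs with h
  · rw [coeff_rho]
  · by_contra h2
    exact h (hf j a y fun h3 => h2 h3.symm).1

theorem finite_Flt (he : 0 < e) (n : ι → ℤ) (t : ℤ) :
    FiniteDimensional k (Flt k (wT J blk C e) (sh0 sh) n t) := by
  rcases lt_or_ge t 0 with ht | ht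
  · rw [Flt_neg blk C e sh ht]
    infer_instance
  · lift t to ℕ using ht
    have := finite_Fil (k := k) (J := J) he (wn blk C sh (n := n)) t
    refine Module.Finite.of_injective
      (LinearMap.restrict (rho k J blk sh n) (p := Flt k (wT J blk C e) (sh0 sh) n t)
        (q := Fil k J e (wn blk C sh) t) fun f hf => rho_mem blk C e sh hf) ?_
    rw [← LinearMap.ker_eq_bot, LinearMap.ker_eq_bot']
    rintro ⟨f, hf⟩ h
    exact Subtype.ext (rho_injOn blk C e sh hf (congrArg Subtype.val h))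

end corr

end Vale.Agent.P200.V.SL
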