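import Vale.Agent.P200.V.SLD

/-!
The rank in one degree.
-/

namespace Vale.Agent.P200.V.SL

open Module MvPolynomial

universe u

section corr
variable {k : Type u} [Field k] {Z ι J S : Type} [Fintype Z] [DecidableEq Z] [Fintype ι]
  [DecidableEq ι] [Fintype J] [Fintype S] [DecidableEq S] (blk : Z → ι) (C : Finset Z) (e : ℕ)
  (sh : S → ι → ℤ)

/-- the vectors which belong to `N` over the field of rational functions -/
noncomputable def NAo (k : Type u) [Field k] {Z J S : Type}
    (N : Submodule (MvPolynomial Z (KF k J)) (S → MvPolynomial Z (KF k J))) :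
    Submodule (MvPolynomial (Z ⊕ J) k) (S → MvPolynomial (Z ⊕ J) k) where
  carrier := {f | (fun j => toK k Z J (f j)) ∈ N}
  add_mem' := by
    intro f g hf hg
    have h : (fun j => toK k Z J ((f + g) j)) = (fun j => toK k Z J (f j)) +
        fun j => toK k Z J (g j) := funext fun j => map_add _ _ _
    change (fun j => toK k Z J ((f + g) j)) ∈ N
    rw [h]
    exact N.add_mem hf hg
  zero_mem' := by
    have h : (fun j => toK k Z J ((0 : S → MvPolynomial (Z ⊕ J) k) j)) = 0 :=
      funext fun j => map_zero _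
    change (fun j => toK k Z J ((0 : S → MvPolynomial (Z ⊕ J) k) j)) ∈ N
    rw [h]
    exact N.zero_mem
  smul_mem' := by
    intro p f hf
    have h : (fun j => toK k Z J ((p • f) j)) = toK k Z J p • fun j => toK k Z J (f j) :=
      funext fun j => map_mul _ _ _
    change (fun j => toK k Z J ((p • f) j)) ∈ N
    rw [h]
    exact N.smul_mem _ hf

/-- the same in coordinates -/
noncomputable def NK {n : ι → ℤ}
    (N : Submodule (MvPolynomial Z (KF k J)) (S → MvPolynomial Z (KF k J))) :
    Submodule (MvPolynomial J k) (Kn blk sh n → MvPolynomial J k) where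
  carrier := {v | Th (KF k J) blk sh n (incl (MvPolynomial J k) (KF k J) _ v) ∈ N}
  add_mem' := by
    intro v w hv hw
    change Th (KF k J) blk sh n (incl (MvPolynomial J k) (KF k J) _ (v + w)) ∈ N
    rw [map_add, map_add]
    exact N.add_mem hv hw
  zero_mem' := by
    change Th (KF k J) blk sh n (incl (MvPolynomial J k) (KF k J) _ 0) ∈ N
    rw [map_zero, map_zero]
    exact N.zero_mem
  smul_mem' := by
    intro a v hv
    change Th (KF k J) blk sh n (incl (MvPolynomial J k) (KF k J) _ (a • v)) ∈ N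
    have h : incl (MvPolynomial J k) (KF k J) (Kn blk sh n) (a • v) =
        algebraMap (MvPolynomial J k) (KF k J) a • incl (MvPolynomial J k) (KF k J) _ v := by
      rw [map_smul, algebraMap_smul]
    rw [h, map_smul]
    exact (N.restrictScalars (KF k J)).smul_mem _ hv

theorem NK_sat {n : ι → ℤ}
    (N : Submodule (MvPolynomial Z (KF k J)) (S → MvPolynomial Z (KF k J)))
    (a : MvPolynomial J k) (v : Kn blk sh n → MvPolynomial J k) (ha : a ≠ 0)
    (h : a • v ∈ NK blk sh N) : v ∈ NK blk sh N := by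
  have h1 : Th (KF k J) blk sh n (incl (MvPolynomial J k) (KF k J) _ (a • v)) ∈ N := h
  have h2 : incl (MvPolynomial J k) (KF k J) (Kn blk sh n) (a • v) =
      algebraMap (MvPolynomial J k) (KF k J) a • incl (MvPolynomial J k) (KF k J) _ v := by
    rw [map_smul, algebraMap_smul]
  rw [h2, map_smul] at h1
  have h3 : algebraMap (MvPolynomial J k) (KF k J) a ≠ 0 := by
    rw [Ne, FaithfulSMul.algebraMap_eq_zero_iff]
    exact ha
  have h4 := (N.restrictScalars (KF k J)).smul_mem (algebraMap (MvPolynomial J k) (KF k J) a)⁻¹ h1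
  rw [inv_smul_smul₀ h3] at h4
  exact h4

theorem Th_rho {n : ι → ℤ} {t : ℤ} {f : S → MvPolynomial (Z ⊕ J) k}
    (hf : f ∈ Flt k (wT J blk C e) (sh0 sh) n t) :
    Th (KF k J) blk sh n (incl (MvPolynomial J k) (KF k J) _ (rho k J blk sh n f)) =
      fun j => toK k Z J (f j) := by
  rw [mem_Flt_iff] at hf
  funext j
  refine MvPolynomial.ext _ _ fun a => ?_
  rw [coeff_Th, coeff_toK]
  split_ifs with h
  · rfl
  · symm
    rw [FaithfulSMul.algebraMap_eq_zero_iff]
    refine MvPolynomial.ext _ _ fun y => ?_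
    rw [coeff_sumAlg, coeff_zero]
    by_contra h2
    exact h (hf j a y h2).1

theorem mem_NK_iff {n : ι → ℤ} {t : ℤ}
    (N : Submodule (MvPolynomial Z (KF k J)) (S → MvPolynomial Z (KF k J)))
    {f : S → MvPolynomial (Z ⊕ J) k} (hf : f ∈ Flt k (wT J blk C e) (sh0 sh) n t) :
    rho k J blk sh n f ∈ NK blk sh N ↔ f ∈ NAo k N := by
  change Th (KF k J) blk sh n (incl (MvPolynomial J k) (KF k J) _ (rho k J blk sh n f)) ∈ N ↔
    (fun j => toK k Z J (f j)) ∈ N
  rw [Th_rho blk C e sh hf]

theorem finrank_Flt_eq (he : 0 < e) (n : ι → ℤ) (t : ℕ)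
    (N : Submodule (MvPolynomial Z (KF k J)) (S → MvPolynomial Z (KF k J))) :
    finrank k (Flt k (wT J blk C e) (sh0 sh) n t ⊓ (NAo k N).restrictScalars k : Submodule k _) =
      finrank k (Fil k J e (wn blk C sh (n := n)) t ⊓ (NK blk sh N).restrictScalars k :
        Submodule k _) := by
  have h0 := finite_Flt (k := k) (J := J) blk C e sh he n t
  have hfin : Module.Finite k (Flt k (wT J blk C e) (sh0 sh) n t ⊓ (NAo k N).restrictScalars k :
      Submodule k _) := Submodule.finiteDimensional_of_le inf_le_left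
  rw [← finrank_inf_ker_add _ (rho k J blk sh n)]
  have h1 : Flt k (wT J blk C e) (sh0 sh) n t ⊓ (NAo k N).restrictScalars k ⊓
      LinearMap.ker (rho k J blk sh n) = ⊥ := by
    rw [eq_bot_iff]
    rintro f ⟨⟨hf, -⟩, hk⟩
    exact rho_injOn blk C e sh hf hk
  have h2 : (Flt k (wT J blk C e) (sh0 sh) n t ⊓ (NAo k N).restrictScalars k).map
      (rho k J blk sh n) = Fil k J e (wn blk C sh (n := n)) t ⊓
        (NK blk sh N).restrictScalars k := by
    refine le_antisymm ?_ ?_
    · rintro _ ⟨f, ⟨hf, hN⟩, rfl⟩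
      exact ⟨rho_mem blk C e sh hf, (mem_NK_iff blk C e sh N hf).mpr hN⟩
    · rintro v ⟨hv, hN⟩
      have h3 := TA_mem blk C e sh hv
      refine ⟨TA blk sh v, ⟨h3, ?_⟩, rho_TA blk sh v⟩
      refine (mem_NK_iff blk C e sh N h3).mp ?_
      rw [rho_TA]
      exact hN
  rw [h1, h2, finrank_bot, zero_add]

theorem NAo_top : NAo k (⊤ : Submodule (MvPolynomial Z (KF k J)) (S → MvPolynomial Z (KF k J)))
    = ⊤ := by
  rw [eq_top_iff]
  intro f _
  exact Submodule.mem_top

theorem NK_top {n : ι → ℤ} : NK blk sh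
    (⊤ : Submodule (MvPolynomial Z (KF k J)) (S → MvPolynomial Z (KF k J))) (n := n) = ⊤ := by
  rw [eq_top_iff]
  intro f _
  exact Submodule.mem_top

theorem aD_eq_aF (he : 0 < e) (n : ι → ℤ) (t : ℕ)
    (N : Submodule (MvPolynomial Z (KF k J)) (S → MvPolynomial Z (KF k J))) :
    aD k J e (wn blk C sh (n := n)) (NK blk sh N) t =
      aF (wT J blk C e) (sh0 sh) (NAo k N) n t := by
  have h1 := finrank_Flt_eq blk C e sh he n t N
  have h2 := finrank_Flt_eq (k := k) (J := J) blk C e sh he n t ⊤
  rw [NAo_top, NK_top, Submodule.restrictScalars_top, Submodule.restrictScalars_top, inf_top_eq,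
    inf_top_eq] at h2
  rw [aD, aF, h1, h2]

theorem Th_injective {n : ι → ℤ} : Function.Injective (Th (KF k J) blk sh n) := by
  rw [← LinearMap.ker_eq_bot, LinearMap.ker_eq_bot']
  intro x hx
  funext p
  have h := coeff_Th blk sh (KF k J) x p.1.1 p.1.2
  rw [hx, Pi.zero_apply, coeff_zero, dif_pos p.2] at h
  exact h.symm

theorem Th_mem_gp {n : ι → ℤ} (x : Kn blk sh n → KF k J) :
    Th (KF k J) blk sh n x ∈ gp (KF k J) (wb blk) sh n := by
  intro j a h
  rw [coeff_Th] at h
  split_ifs at h with h1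
  · exact h1
  · exact absurd rfl h

theorem exists_Th {n : ι → ℤ} {f : S → MvPolynomial Z (KF k J)}
    (hf : f ∈ gp (KF k J) (wb blk) sh n) : ∃ x, Th (KF k J) blk sh n x = f := by
  refine ⟨fun p => coeff p.1.2 (f p.1.1), ?_⟩
  funext j
  refine MvPolynomial.ext _ _ fun a => ?_
  rw [coeff_Th]
  split_ifs with h
  · rfl
  · by_contra h2
    exact h (hf j a fun h3 => h2 h3.symm)

theorem map_ext2 {n : ι → ℤ}
    (N : Submodule (MvPolynomial Z (KF k J)) (S → MvPolynomial Z (KF k J))) :
    (ext2 (KF k J) (NK blk sh N (n := n))).map (Th (KF k J) blk sh n) =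
      gpart (wb blk) sh N n := by
  refine le_antisymm ?_ ?_
  · rw [ext2, Submodule.map_span, Submodule.span_le]
    rintro _ ⟨_, ⟨v, hv, rfl⟩, rfl⟩
    exact ⟨hv, Th_mem_gp blk sh _⟩
  · rintro f ⟨hf, hg⟩
    obtain ⟨x, rfl⟩ := exists_Th blk sh hg
    refine ⟨x, ?_, rfl⟩
    obtain ⟨d, hd⟩ := IsLocalization.exist_integer_multiples_of_finite
      (nonZeroDivisors (MvPolynomial J k)) x
    choose b hb using hd
    have hd0 : algebraMap (MvPolynomial J k) (KF k J) d ≠ 0 := by
      rw [Ne, FaithfulSMul.algebraMap_eq_zero_iff]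
      exact nonZeroDivisors.ne_zero d.2
    have h1 : incl (MvPolynomial J k) (KF k J) _ b =
        algebraMap (MvPolynomial J k) (KF k J) d • x := by
      funext p
      change algebraMap (MvPolynomial J k) (KF k J) (b p) = _
      rw [hb p, Pi.smul_apply, smul_eq_mul]
      change (d : MvPolynomial J k) • x p = _
      rw [Algebra.smul_def]
    have h2 : b ∈ NK blk sh N (n := n) := by
      change Th (KF k J) blk sh n (incl (MvPolynomial J k) (KF k J) _ b) ∈ N
      rw [h1, map_smul]
      exact (N.restrictScalars (KF k J)).smul_mem _ hf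
    have h3 : x = (algebraMap (MvPolynomial J k) (KF k J) d)⁻¹ •
        incl (MvPolynomial J k) (KF k J) _ b := by
      rw [h1, inv_smul_smul₀ hd0]
    rw [h3]
    exact Submodule.smul_mem _ _ (incl_mem h2)

/-- **The rank is the dimension over the field of rational functions.** -/
theorem rank_eq_hd {n : ι → ℤ}
    (N : Submodule (MvPolynomial Z (KF k J)) (S → MvPolynomial Z (KF k J))) :
    (finrank (KF k J) ((Kn blk sh n → KF k J) ⧸ ext2 (KF k J) (NK blk sh N (n := n))) : ℤ) =
      hd (wb blk) sh (⊤ : Submodule (MvPolynomial Z (KF k J)) (S → MvPolynomial Z (KF k J))) n -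
        hd (wb blk) sh N n := by
  let i0 := Fintype.ofFinite (Kn blk sh n)
  have h1 := Submodule.finrank_quotient_add_finrank (ext2 (KF k J) (NK blk sh N (n := n)))
  have h2 : hd (wb blk) sh N n = finrank (KF k J) (ext2 (KF k J) (NK blk sh N (n := n))) := by
    rw [hd, ← map_ext2]
    exact (Submodule.equivMapOfInjective _ (Th_injective blk sh) _).finrank_eq.symm
  have h3 : hd (wb blk) sh
      (⊤ : Submodule (MvPolynomial Z (KF k J)) (S → MvPolynomial Z (KF k J))) n =
      finrank (KF k J) (Kn blk sh n → KF k J) := by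
    have h4 : gpart (wb blk) sh
        (⊤ : Submodule (MvPolynomial Z (KF k J)) (S → MvPolynomial Z (KF k J))) n =
        (⊤ : Submodule (KF k J) (Kn blk sh n → KF k J)).map (Th (KF k J) blk sh n) := by
      refine le_antisymm ?_ ?_
      · rintro f ⟨-, hg⟩
        obtain ⟨x, rfl⟩ := exists_Th blk sh hg
        exact ⟨x, Submodule.mem_top, rfl⟩
      · rintro _ ⟨x, -, rfl⟩
        exact ⟨Submodule.mem_top, Th_mem_gp blk sh x⟩
    rw [hd, h4]
    rw [← (Submodule.equivMapOfInjective _ (Th_injective blk sh) _).finrank_eq, finrank_top]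
  rw [h2, h3, ← h1]
  push_cast
  ring

end corr

end Vale.Agent.P200.V.SL
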