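import Vale.Agent.P200.V.SLE

/-!
Hilbert functions and power series in the last degree.
-/

namespace Vale.Agent.P200.V.SL

open Module

universe u

section ps
variable {ι : Type}

/-- the power series of a function in the last degree -/
noncomputable def PS (g : (ι → ℤ) × ℤ → ℤ) (n : ι → ℤ) : PowerSeries ℤ :=
  PowerSeries.mk fun t => g (n, (t : ℤ))

theorem act_one_sub (e : ℕ) (g : (ι → ℤ) × ℤ → ℤ) (n : ι → ℤ) (t : ℤ) :
    act ((ι → ℤ) × ℤ) (1 - el ((0 : ι → ℤ), (e : ℤ))) g (n, t) = g (n, t) - g (n, t - e) := by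
  rw [map_sub, map_one, LinearMap.sub_apply, Pi.sub_apply, act_el]
  change g (n, t) - g ((n, t) - (0, (e : ℤ))) = _
  rw [Prod.mk_sub_mk, sub_zero]

theorem neg_act (e m : ℕ) {g : (ι → ℤ) × ℤ → ℤ} {n : ι → ℤ} (hg : ∀ t, t < 0 → g (n, t) = 0)
    (t : ℤ) (ht : t < 0) :
    act ((ι → ℤ) × ℤ) ((1 - el ((0 : ι → ℤ), (e : ℤ))) ^ m) g (n, t) = 0 := by
  induction m generalizing t with
  | zero =>
    rw [pow_zero, map_one]
    exact hg t ht
  | succ m ih =>
    rw [pow_succ', map_mul, Module.End.mul_apply, act_one_sub, ih t ht, ih (t - e) (by omega),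
      sub_zero]

theorem PS_act_one (e : ℕ) {g : (ι → ℤ) × ℤ → ℤ} {n : ι → ℤ} (hg : ∀ t, t < 0 → g (n, t) = 0) :
    PS (act ((ι → ℤ) × ℤ) (1 - el ((0 : ι → ℤ), (e : ℤ))) g) n =
      (1 - PowerSeries.X ^ e) * PS g n := by
  refine PowerSeries.ext fun t => ?_
  rw [PS, PowerSeries.coeff_mk, act_one_sub, sub_mul, one_mul, map_sub,
    PowerSeries.coeff_X_pow_mul', PS, PowerSeries.coeff_mk]
  split_ifs with h
  · rw [PowerSeries.coeff_mk, Nat.cast_sub h]
  · rw [hg ((t : ℤ) - e) (by omega)]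

theorem PS_act (e m : ℕ) {g : (ι → ℤ) × ℤ → ℤ} {n : ι → ℤ} (hg : ∀ t, t < 0 → g (n, t) = 0) :
    PS (act ((ι → ℤ) × ℤ) ((1 - el ((0 : ι → ℤ), (e : ℤ))) ^ m) g) n =
      (1 - PowerSeries.X ^ e) ^ m * PS g n := by
  induction m with
  | zero => rw [pow_zero, map_one, pow_zero, one_mul]; rfl
  | succ m ih =>
    rw [pow_succ', map_mul, Module.End.mul_apply, PS_act_one e (neg_act e m hg), ih, pow_succ',
      mul_assoc]

/-- a function of the last degree with bounded support as a polynomial -/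
theorem exists_poly {g : (ι → ℤ) × ℤ → ℤ} {n : ι → ℤ} {t1 : ℤ}
    (hg : ∀ t, t1 < t → g (n, t) = 0) : ∃ q : Polynomial ℤ,
      (q : PowerSeries ℤ) = PS g n ∧ q.eval 1 = ∑ t ∈ Finset.Icc 0 t1, g (n, t) := by
  refine ⟨∑ t ∈ Finset.range (t1 + 1).toNat, Polynomial.monomial t (g (n, (t : ℤ))), ?_, ?_⟩
  · refine PowerSeries.ext fun t => ?_
    rw [Polynomial.coeff_coe, Polynomial.finsetSum_coeff, PS, PowerSeries.coeff_mk]
    simp only [Polynomial.coeff_monomial]
    rw [Finset.sum_ite_eq']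
    split_ifs with h
    · rfl
    · rw [Finset.mem_range] at h
      exact (hg t (by omega)).symm
  · rw [Polynomial.eval_finsetSum]
    simp only [Polynomial.eval_monomial, one_pow, mul_one]
    refine Finset.sum_bij (fun t _ => (t : ℤ)) ?_ ?_ ?_ ?_
    · intro t ht
      rw [Finset.mem_range] at ht
      rw [Finset.mem_Icc]
      omega
    · intro a _ b _ h
      exact_mod_cast h
    · intro t ht
      rw [Finset.mem_Icc] at ht
      refine ⟨t.toNat, ?_, ?_⟩
      · rw [Finset.mem_range]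
        omega
      · omega
    · intro t _
      rfl

end ps

section gen
variable {k : Type u} [Field k] {Z ι J S : Type} [Fintype Z] [DecidableEq Z] [Fintype ι]
  [DecidableEq ι] [Fintype J] [Fintype S] [DecidableEq S] (blk : Z → ι) (C : Finset Z) (e : ℕ)
  (sh : S → ι → ℤ)

/-- the Hilbert function of the leading forms -/
noncomputable def fg (N : Submodule (MvPolynomial Z (KF k J)) (S → MvPolynomial Z (KF k J))) :
    (ι → ℤ) × ℤ → ℤ := fun ν =>
  (hd (wT J blk C e) (sh0 sh)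
    (⊤ : Submodule (MvPolynomial (Z ⊕ J) k) (S → MvPolynomial (Z ⊕ J) k)) ν : ℤ) -
    hd (wT J blk C e) (sh0 sh) (initM (wT J blk C e) (sh0 sh) (NAo k N)) ν

theorem fg_eq (he : 0 < e)
    (N : Submodule (MvPolynomial Z (KF k J)) (S → MvPolynomial Z (KF k J))) (n : ι → ℤ) (t : ℤ) :
    fg blk C e sh N (n, t) = aF (wT J blk C e) (sh0 sh) (NAo k N) n t -
      aF (wT J blk C e) (sh0 sh) (NAo k N) n (t - 1) := by
  have := finite_Flt (k := k) (J := J) blk C e sh he n t
  exact hd_initM (NAo k N) n t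

theorem aF_neg (N : Submodule (MvPolynomial Z (KF k J)) (S → MvPolynomial Z (KF k J)))
    (n : ι → ℤ) {t : ℤ} (ht : t < 0) : aF (wT J blk C e) (sh0 sh) (NAo k N) n t = 0 := by
  rw [aF, Flt_neg blk C e sh ht, bot_inf_eq, sub_self]

theorem fg_neg (he : 0 < e)
    (N : Submodule (MvPolynomial Z (KF k J)) (S → MvPolynomial Z (KF k J))) (n : ι → ℤ) (t : ℤ)
    (ht : t < 0) : fg blk C e sh N (n, t) = 0 := by
  rw [fg_eq blk C e sh he, aF_neg blk C e sh N n ht, aF_neg blk C e sh N n (by omega), sub_self]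

/-- **The generators.** -/
theorem fg_sum (he : 0 < e)
    (N : Submodule (MvPolynomial Z (KF k J)) (S → MvPolynomial Z (KF k J))) (n : ι → ℤ) (t1 : ℤ)
    (h1 : ∀ t, t1 < t → act ((ι → ℤ) × ℤ) ((1 - el ((0 : ι → ℤ), (e : ℤ))) ^ Fintype.card J)
      (fg blk C e sh N) (n, t) = 0) :
    (hd (wb blk) sh (⊤ : Submodule (MvPolynomial Z (KF k J)) (S → MvPolynomial Z (KF k J))) n : ℤ)
      - hd (wb blk) sh N n = ∑ t ∈ Finset.Icc 0 t1, act ((ι → ℤ) × ℤ)
          ((1 - el ((0 : ι → ℤ), (e : ℤ))) ^ Fintype.card J) (fg blk C e sh N) (n, t) := by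
  obtain ⟨q, hq, hq1⟩ := exists_poly h1
  rw [← hq1, ← rank_eq_hd]
  let i0 := Fintype.ofFinite (Kn blk sh n)
  refine (rank_eval he (wn blk C sh (n := n)) (NK blk sh N)
    (fun a v ha h => NK_sat blk sh N a v ha h) q ?_).symm
  rw [hq, PS_act e (Fintype.card J) (fg_neg blk C e sh he N n)]
  congr 1
  refine PowerSeries.ext fun t => ?_
  rw [sub_mul, one_mul, map_sub, PowerSeries.coeff_mk, PS, PowerSeries.coeff_mk,
    fg_eq blk C e sh he, aD_eq_aF blk C e sh he]
  cases t with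
  | zero =>
    rw [PowerSeries.coeff_zero_X_mul, aF_neg blk C e sh N n (by norm_num : ((0 : ℕ) : ℤ) - 1 < 0)]
  | succ t =>
    rw [PowerSeries.coeff_succ_X_mul, PowerSeries.coeff_mk, aD_eq_aF blk C e sh he]
    congr 2
    push_cast
    ring

end gen

end Vale.Agent.P200.V.SL
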