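import Vale.Agent.P200.V.SLF

/-!
Homogeneous polynomials; functions of bounded support.
-/

namespace Vale.Agent.P200.V.SL

open Module MvPolynomial

universe u

section hom
variable {k : Type u} [Field k] {σ G : Type} [AddCommGroup G] {wt : σ → G}

/-- homogeneous polynomials -/
def HomD (wt : σ → G) (p : MvPolynomial σ k) (δ : G) : Prop :=
  ∀ m, coeff m p ≠ 0 → dg wt m = δ

theorem homD_mul {p q : MvPolynomial σ k} {δ ε : G} (hp : HomD wt p δ) (hq : HomD wt q ε) :
    HomD wt (p * q) (δ + ε) := by
  classical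
  intro m hm
  rw [coeff_mul] at hm
  obtain ⟨x, hx, hne⟩ := Finset.exists_ne_zero_of_sum_ne_zero hm
  rw [Finset.HasAntidiagonal.mem_antidiagonal] at hx
  rw [← hx, dg_add, hp _ (left_ne_zero_of_mul hne), hq _ (right_ne_zero_of_mul hne)]

theorem homD_one : HomD wt (1 : MvPolynomial σ k) 0 := by
  classical
  intro m hm
  rw [coeff_one] at hm
  split_ifs at hm with h
  · rw [← h]
    exact Finsupp.sum_zero_index
  · exact absurd rfl hm

theorem homD_pow {p : MvPolynomial σ k} {δ : G} (hp : HomD wt p δ) (n : ℕ) :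
    HomD wt (p ^ n) (n • δ) := by
  induction n with
  | zero =>
    rw [pow_zero, zero_smul]
    exact homD_one
  | succ n ih =>
    rw [pow_succ, succ_nsmul]
    exact homD_mul ih hp

theorem homD_sub {p q : MvPolynomial σ k} {δ : G} (hp : HomD wt p δ) (hq : HomD wt q δ) :
    HomD wt (p - q) δ := by
  intro m hm
  by_cases h : coeff m p = 0
  · refine hq m fun h2 => hm ?_
    rw [coeff_sub, h, h2, sub_zero]
  · exact hp m h

theorem homD_sum {α : Type} (T : Finset α) {p : α → MvPolynomial σ k} {δ : G}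
    (hp : ∀ a ∈ T, HomD wt (p a) δ) : HomD wt (∑ a ∈ T, p a) δ := by
  intro m hm
  rw [coeff_sum] at hm
  obtain ⟨x, hx, hne⟩ := Finset.exists_ne_zero_of_sum_ne_zero hm
  exact hp x hx m hne

theorem homD_X (v : σ) : HomD wt (X v : MvPolynomial σ k) (wt v) := by
  classical
  intro m hm
  rw [coeff_X] at hm
  split_ifs at hm with h
  · rw [← h, dg_single]
  · exact absurd rfl hm

theorem single_mem_gp {S : Type} [DecidableEq S] {sh : S → G} {p : MvPolynomial σ k} {δ : G}
    (hp : HomD wt p δ) (j : S) :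
    (Pi.single j p : S → MvPolynomial σ k) ∈ gp k wt sh (δ + sh j) := by
  intro i m hm
  by_cases h : i = j
  · subst h
    rw [Pi.single_eq_same] at hm
    rw [hp m hm]
  · rw [Pi.single_eq_of_ne h, coeff_zero] at hm
    exact absurd rfl hm

end hom

section rel
variable {k : Type u} [Field k] {Z ι J : Type} [Fintype Z] [DecidableEq Z] [Fintype ι]
  [DecidableEq ι] [Fintype J] {blk : Z → ι} {C : Finset Z} {e : ℕ}

theorem mapDomain_inl (m : Z →₀ ℕ) :
    Finsupp.mapDomain (Sum.inl : Z → Z ⊕ J) m = Finsupp.sumElim m 0 := by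
  refine Finsupp.ext fun v => ?_
  rw [Finsupp.sumElim_apply]
  cases v with
  | inl z => exact Finsupp.mapDomain_apply Sum.inl_injective m z
  | inr j =>
    rw [Finsupp.mapDomain_of_notMem_range _ _ (by rintro ⟨z, hz⟩; exact absurd hz (by simp))]
    rfl

theorem homD_rename {g : MvPolynomial Z k} {δ : ι → ℤ}
    (hg : ∀ m, coeff m g ≠ 0 → dg (wb blk) m = δ)
    (hg2 : ∀ m, coeff m g ≠ 0 → ∀ c ∈ C, m c = 0) :
    HomD (wT J blk C e) (rename (Sum.inl : Z → Z ⊕ J) g) (δ, 0) := by
  intro m hm
  obtain ⟨u, hu, hne⟩ := coeff_rename_ne_zero _ _ _ hm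
  rw [← hu, mapDomain_inl, dg_wT, hg u hne, Finset.sum_eq_zero, zero_add]
  · rw [map_zero]
    simp
  · intro c hc
    rw [hg2 u hne c hc]
    rfl

theorem homD_trelT {h : Z → J → MvPolynomial Z k}
    (hh : ∀ c ∈ C, ∀ j m, coeff m (h c j) ≠ 0 →
      dg (wb blk) m = Pi.single (blk c) (e : ℤ) ∧ ∀ c' ∈ C, m c' = 0) {c : Z} (hc : c ∈ C) :
    HomD (wT J blk C e) (trelT e h c) (Pi.single (blk c) (e : ℤ), (e : ℤ)) := by
  refine homD_sub ?_ (homD_sum _ fun j _ => ?_)
  · have h1 := homD_pow (homD_X (k := k) (wt := wT J blk C e) (Sum.inl c)) e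
    have h2 : e • wT J blk C e (Sum.inl c) = (Pi.single (blk c) (e : ℤ), (e : ℤ)) := by
      change e • ((wb blk c, if c ∈ C then 1 else 0) : (ι → ℤ) × ℤ) = _
      rw [if_pos hc]
      refine Prod.ext ?_ ?_
      · rw [Prod.smul_fst, wb]
        funext i
        change e • (Pi.single (blk c) (1 : ℤ) : ι → ℤ) i =
          (Pi.single (blk c) (e : ℤ) : ι → ℤ) i
        rw [Pi.single_apply, Pi.single_apply]
        split_ifs
        · rw [nsmul_eq_mul, mul_one]
        · rw [smul_zero]
      · rw [Prod.smul_snd]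
        simp
    rw [h2] at h1
    exact h1
  · have h1 := homD_mul (homD_X (k := k) (wt := wT J blk C e) (Sum.inr j))
      (homD_rename (J := J) (e := e) (fun m hm => (hh c hc j m hm).1)
        (fun m hm => (hh c hc j m hm).2))
    have h2 : wT J blk C e (Sum.inr j) + ((Pi.single (blk c) (e : ℤ), 0) : (ι → ℤ) × ℤ) =
        (Pi.single (blk c) (e : ℤ), (e : ℤ)) := by
      change ((0, (e : ℤ)) : (ι → ℤ) × ℤ) + _ = _
      rw [Prod.mk_add_mk, zero_add, add_zero]
    rw [h2] at h1
    exact h1

theorem toK_rename (g : MvPolynomial Z k) : toK k Z J (rename Sum.inl g) =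
    MvPolynomial.map (algebraMap k (KF k J)) g := by
  induction g using MvPolynomial.induction_on with
  | C a =>
    rw [rename_C, toK_apply, sumAlgEquiv_C_inl, map_C, map_C]
    rfl
  | add p q hp hq => rw [map_add, map_add, map_add, hp, hq]
  | mul_X p v hp =>
    rw [map_mul, map_mul, map_mul, hp, rename_X, toK_apply, sumAlgEquiv_X_inl, map_X, map_X]

theorem toK_inr (j : J) : toK k Z J (X (Sum.inr j)) = MvPolynomial.C (Tv k j) := by
  rw [toK_apply, sumAlgEquiv_X_inr, map_C]
  rfl

theorem toK_inl (z : Z) : toK k Z J (X (Sum.inl z)) = X z := by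
  rw [toK_apply, sumAlgEquiv_X_inl, map_X]

theorem toK_trelT (h : Z → J → MvPolynomial Z k) (c : Z) :
    toK k Z J (trelT e h c) = lrel e h c := by
  rw [trelT, lrel, map_sub, map_pow, toK_inl, map_sum]
  congr 1
  refine Finset.sum_congr rfl fun j _ => ?_
  rw [map_mul, toK_inr, toK_rename]

theorem pos_wT (he : 0 < e) : Pos (wT J blk C e) := by
  refine ⟨{ toFun := fun x => (∑ i, x.1 i) + x.2
            map_zero' := by simp
            map_add' := by
              intro x y
              rw [Prod.fst_add, Prod.snd_add]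
              simp only [Pi.add_apply]
              rw [Finset.sum_add_distrib]
              ring }, ?_⟩
  intro v
  change 0 < (∑ i, (wT J blk C e v).1 i) + (wT J blk C e v).2
  cases v with
  | inl z =>
    change 0 < (∑ i, wb blk z i) + (if z ∈ C then 1 else 0)
    have h1 : ∑ i, wb blk z i = 1 := by
      rw [wb]
      simp only [Pi.single_apply]
      rw [Finset.sum_ite_eq' Finset.univ, if_pos (Finset.mem_univ _)]
    rw [h1]
    split_ifs <;> norm_num
  | inr j =>
    change 0 < (∑ i, (0 : ι → ℤ) i) + (e : ℤ)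
    simp only [Pi.zero_apply, Finset.sum_const_zero, zero_add]
    exact_mod_cast he

/-- modules killed by the parameters have bounded support in the last degree -/
theorem fin_supp {J0 : Set (MvPolynomial (Z ⊕ J) k)} (hJ : ∀ j, X (Sum.inr j) ∈ J0)
    {f : (ι → ℤ) × ℤ → ℤ} (hf : f ∈ Hil k (wT J blk C e) J0) (n : ι → ℤ) :
    ∃ t1 : ℤ, ∀ t, t1 < t → f (n, t) = 0 := by
  classical
  induction hf using AddSubgroup.closure_induction with
  | mem f hf =>
    obtain ⟨s, sh, N, hN, hrel, hfν⟩ := hf
    refine ⟨∑ j, (|∑ i, (n i - (sh j).1 i)| + |(sh j).2|), fun t ht => ?_⟩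
    rw [hfν, sub_eq_zero]
    have h : gpart (wT J blk C e) sh
        (⊤ : Submodule (MvPolynomial (Z ⊕ J) k) (Fin s → MvPolynomial (Z ⊕ J) k)) (n, t) =
        gpart (wT J blk C e) sh N (n, t) := by
      refine le_antisymm ?_ ?_
      · rintro f ⟨-, hf⟩
        refine ⟨?_, hf⟩
        change f ∈ N
        have h1 : f = ∑ j, ∑ m ∈ (f j).support,
            (Pi.single j (monomial m (coeff m (f j))) : Fin s → MvPolynomial (Z ⊕ J) k) := by
          funext i
          rw [Finset.sum_apply, Finset.sum_eq_single i]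
          · rw [Finset.sum_apply]
            simp only [Pi.single_eq_same]
            exact (support_sum_monomial_coeff (f i)).symm
          · intro j _ hj
            rw [Finset.sum_apply]
            refine Finset.sum_eq_zero fun m _ => ?_
            rw [Pi.single_eq_of_ne hj.symm]
          · intro h
            exact absurd (Finset.mem_univ _) h
        rw [h1]
        refine Submodule.sum_mem _ fun j _ => Submodule.sum_mem _ fun m hm => ?_
        rw [MvPolynomial.mem_support_iff] at hm
        have h2 := hf j m hm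
        obtain ⟨a, y, rfl⟩ := exists_sumElim m
        rw [dg_wT] at h2
        have h3 : y ≠ 0 := by
          rintro rfl
          have h4 := congrArg Prod.snd h2
          have h5 : dg (wb blk) a + (sh j).1 = n := congrArg Prod.fst h2
          have h6 : ∑ i, dg (wb blk) a i = ∑ i, (n i - (sh j).1 i) := by
            refine Finset.sum_congr rfl fun i _ => ?_
            rw [← congrFun h5 i, Pi.add_apply]
            ring
          rw [sum_dg_wb, Finsupp.degree_eq_sum] at h6
          have h7 : (∑ c ∈ C, (a c : ℤ)) ≤ ∑ c, (a c : ℤ) :=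
            Finset.sum_le_sum_of_subset_of_nonneg (Finset.subset_univ _)
              fun _ _ _ => Int.natCast_nonneg _
          have h8 : |∑ i, (n i - (sh j).1 i)| + |(sh j).2| ≤
              ∑ j, (|∑ i, (n i - (sh j).1 i)| + |(sh j).2|) :=
            Finset.single_le_sum (f := fun j => |∑ i, (n i - (sh j).1 i)| + |(sh j).2|)
              (fun _ _ => add_nonneg (abs_nonneg _) (abs_nonneg _)) (Finset.mem_univ j)
          have h9 := le_abs_self (∑ i, (n i - (sh j).1 i))
          have h10 := le_abs_self (sh j).2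
          change (∑ c ∈ C, (a c : ℤ)) + (e : ℤ) * (((0 : J →₀ ℕ).degree : ℕ) : ℤ) + (sh j).2 = t
            at h4
          rw [map_zero, Nat.cast_zero, mul_zero, add_zero] at h4
          push_cast at h6
          linarith
        obtain ⟨j', hj'⟩ := Finsupp.ne_iff.mp h3
        rw [Finsupp.coe_zero, Pi.zero_apply] at hj'
        have h4 : (Pi.single j (monomial (Finsupp.sumElim a y) (coeff (Finsupp.sumElim a y) (f j))) :
            Fin s → MvPolynomial (Z ⊕ J) k) =
            (monomial (Finsupp.sumElim a y - Finsupp.single (Sum.inr j') 1)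
              (coeff (Finsupp.sumElim a y) (f j)) : MvPolynomial (Z ⊕ J) k) •
              (Pi.single j (X (Sum.inr j')) : Fin s → MvPolynomial (Z ⊕ J) k) := by
          rw [← Pi.single_smul, smul_eq_mul]
          congr 1
          rw [X, monomial_mul, mul_one, tsub_add_cancel_of_le]
          exact Finsupp.single_le_iff.mpr (Nat.one_le_iff_ne_zero.mpr hj')
        rw [h4]
        exact N.smul_mem _ (hrel _ (hJ j') j)
      · rintro f ⟨-, hf⟩
        exact ⟨Submodule.mem_top, hf⟩
    rw [hd, hd, h]
  | zero => exact ⟨0, fun _ _ => rfl⟩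
  | add f g _ _ hf hg =>
    obtain ⟨t1, h1⟩ := hf
    obtain ⟨t2, h2⟩ := hg
    refine ⟨max t1 t2, fun t ht => ?_⟩
    rw [Pi.add_apply, h1 t (lt_of_le_of_lt (le_max_left _ _) ht),
      h2 t (lt_of_le_of_lt (le_max_right _ _) ht), add_zero]
  | neg f _ hf =>
    obtain ⟨t1, h1⟩ := hf
    refine ⟨t1, fun t ht => ?_⟩
    rw [Pi.neg_apply, h1 t ht, neg_zero]

end rel

end Vale.Agent.P200.V.SL
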