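import Vale.Agent.P200.V.SeqAB

/-!
Basic properties of `psi` and `dia`.
-/

namespace Vale.Agent.P200.V

open MvPolynomial Module
open Vale.Agent.P200.B Vale.Agent.P200.G Vale.Agent.P200.L Vale.Agent.P200.M Vale.Agent.P200.W
open Vale.Agent.P200.Y

variable {D : Type*} [DivisionRing D] {n : ℕ}

theorem sx_sn_add (m : Fin n →₀ ℕ) (k : ℕ) (l : Fin n) :
    sn m k + Finsupp.single l.castSucc 1 = sn (m + Finsupp.single l 1) k := by
  ext i
  rw [Finsupp.add_apply]
  refine Fin.lastCases ?_ (fun i => ?_) i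
  · rw [sn_last, sn_last, Finsupp.single_eq_of_ne (Fin.castSucc_lt_last l).ne', add_zero]
  · rw [sn_castSucc, sn_castSucc, Finsupp.add_apply]
    congr 1
    by_cases hi : i = l
    · rw [hi, Finsupp.single_eq_same, Finsupp.single_eq_same]
    · rw [Finsupp.single_eq_of_ne hi, Finsupp.single_eq_of_ne fun h =>
        hi (Fin.castSucc_injective n h)]

theorem sx_sn_add_last (m : Fin n →₀ ℕ) (k : ℕ) :
    sn m k + Finsupp.single (Fin.last n) 1 = sn m (k + 1) := by
  ext i
  rw [Finsupp.add_apply]
  refine Fin.lastCases ?_ (fun i => ?_) i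
  · rw [sn_last, sn_last, Finsupp.single_eq_same]
  · rw [sn_castSucc, sn_castSucc, Finsupp.single_eq_of_ne (Fin.castSucc_lt_last i).ne, add_zero]

theorem sx_mul_cast (m : Fin n →₀ ℕ) (k : ℕ) (c : D) (l : Fin n) :
    (AddMonoidAlgebra.single (sn m k) c : YR D (n + 1)) * zv D (n + 1) l.castSucc =
      AddMonoidAlgebra.single (sn (m + Finsupp.single l 1) k) c := by
  rw [zv, AddMonoidAlgebra.single_mul_single, mul_one, sx_sn_add]

theorem sx_mul_last (m : Fin n →₀ ℕ) (k : ℕ) (c : D) :
    (AddMonoidAlgebra.single (sn m k) c : YR D (n + 1)) * zv D (n + 1) (Fin.last n) =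
      AddMonoidAlgebra.single (sn m (k + 1)) c := by
  rw [zv, AddMonoidAlgebra.single_mul_single, mul_one, sx_sn_add_last]

theorem dia_mul_castSucc (α : ℕ → D) (u : YR D (n + 1)) (l : Fin n) :
    dia α (u * zv D (n + 1) l.castSucc) = dia α u * zv D (n + 1) l.castSucc := by
  induction u using AddMonoidAlgebra.induction_linear with
  | zero => rw [zero_mul, map_zero, zero_mul]
  | add a b ha hb => rw [add_mul, map_add, ha, hb, map_add, add_mul]
  | single m c =>
    obtain ⟨m', hm'⟩ := deg_exists_sn m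
    rw [hm', sx_mul_cast, dia_single, dia_single, sx_mul_cast, sn_last, sn_last]

theorem psi_mul_castSucc (j : Fin n) (α : ℕ → D) (u : YR D (n + 1)) (l : Fin n) :
    psi j α (u * zv D (n + 1) l.castSucc) = psi j α u * zv D (n + 1) l.castSucc := by
  induction u using AddMonoidAlgebra.induction_linear with
  | zero => rw [zero_mul, map_zero, zero_mul]
  | add a b ha hb => rw [add_mul, map_add, ha, hb, map_add, add_mul]
  | single m c =>
    obtain ⟨m', hm'⟩ := deg_exists_sn m
    rw [hm', sx_mul_cast, psi_sn, psi_sn, Finset.sum_mul]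
    refine Finset.sum_congr rfl fun t _ => ?_
    rw [sx_mul_cast, add_right_comm]

/-- `π_{k+1} = (z + α_k t) π_k` -/
theorem psi_mul_last (j : Fin n) (α : ℕ → D) (u : YR D (n + 1)) :
    psi j α (u * zv D (n + 1) (Fin.last n)) =
      psi j α u * zv D (n + 1) (Fin.last n) + psi j α (dia α u) * zv D (n + 1) j.castSucc := by
  induction u using AddMonoidAlgebra.induction_linear with
  | zero => rw [zero_mul, map_zero, map_zero, map_zero, zero_mul, zero_mul, add_zero]
  | add a b ha hb =>
    rw [add_mul, map_add, ha, hb, map_add, map_add, map_add, add_mul, add_mul]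
    abel
  | single m c =>
    obtain ⟨m', hm'⟩ := deg_exists_sn m
    generalize hk : m (Fin.last n) = k at *
    rw [hm', sx_mul_last, dia_single, sn_last, psi_sn, psi_sn, psi_sn,
      Finset.sum_range_succ' _ (k + 1), Finset.sum_mul, Finset.sum_mul]
    have e1 : ∀ t ∈ Finset.range (k + 1), (AddMonoidAlgebra.single
        (sn (m' + (t + 1) • Finsupp.single j 1) (k + 1 - (t + 1))) (c * sw α (k + 1) (t + 1)) :
        YR D (n + 1)) = AddMonoidAlgebra.single
        (sn (m' + (t + 1) • Finsupp.single j 1) (k - t)) (c * sw α k (t + 1)) +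
        AddMonoidAlgebra.single (sn (m' + t • Finsupp.single j 1) (k - t))
          (c * α k * sw α k t) * zv D (n + 1) j.castSucc := by
      intro t _
      rw [sx_mul_cast, Nat.add_sub_add_right, sw_succ, mul_add, AddMonoidAlgebra.single_add,
        add_assoc m', ← succ_nsmul, mul_assoc c (α k)]
    rw [Finset.sum_congr rfl e1, Finset.sum_add_distrib, Finset.sum_range_succ _ k]
    have e2 : (AddMonoidAlgebra.single (sn (m' + (k + 1) • Finsupp.single j 1) (k - k))
        (c * sw α k (k + 1)) : YR D (n + 1)) = 0 := by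
      rw [sw_lt α (Nat.lt_succ_self k), mul_zero, AddMonoidAlgebra.single_zero]
    have e3 : ∀ t ∈ Finset.range k, (AddMonoidAlgebra.single
        (sn (m' + (t + 1) • Finsupp.single j 1) (k - t)) (c * sw α k (t + 1)) : YR D (n + 1)) =
        AddMonoidAlgebra.single (sn (m' + (t + 1) • Finsupp.single j 1) (k - (t + 1)))
          (c * sw α k (t + 1)) * zv D (n + 1) (Fin.last n) := by
      intro t ht
      have ht' := Finset.mem_range.1 ht
      rw [sx_mul_last]
      congr 2
      omega
    rw [e2, add_zero, Finset.sum_congr rfl e3]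
    have e4 : (AddMonoidAlgebra.single (sn (m' + 0 • Finsupp.single j 1) (k + 1 - 0))
        (c * sw α (k + 1) 0) : YR D (n + 1)) = AddMonoidAlgebra.single
        (sn (m' + 0 • Finsupp.single j 1) (k - 0)) (c * sw α k 0) *
          zv D (n + 1) (Fin.last n) := by
      rw [sx_mul_last, sw_zero_right, sw_zero_right]
      rfl
    have e5 : ∑ i ∈ Finset.range (k + 1), (AddMonoidAlgebra.single
        (sn (m' + i • Finsupp.single j 1) (k - i)) (c * sw α k i) : YR D (n + 1)) *
          zv D (n + 1) (Fin.last n) = _ := Finset.sum_range_succ' _ k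
    rw [e4, e5]
    abel

/-- `dia` does not enlarge supports -/
theorem dia_coeff (α : ℕ → D) (u : YR D (n + 1)) (m : Fin (n + 1) →₀ ℕ) :
    (dia α u).coeff m = u.coeff m * α (m (Fin.last n)) := by
  induction u using AddMonoidAlgebra.induction_linear with
  | zero => rw [map_zero, AddMonoidAlgebra.coeff_zero, Finsupp.zero_apply, zero_mul]
  | add a b ha hb =>
    rw [map_add, AddMonoidAlgebra.coeff_add, Finsupp.add_apply, ha, hb,
      AddMonoidAlgebra.coeff_add, Finsupp.add_apply, add_mul]
  | single m' c =>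
    rw [dia_single, sb_single_coeff, sb_single_coeff]
    split_ifs with h
    · rw [h]
    · rw [zero_mul]

theorem dia_monD (α : ℕ → D) (M : Set (Fin (n + 1) →₀ ℕ)) {u : YR D (n + 1)}
    (hu : u ∈ monD D M) : dia α u ∈ monD D M := by
  intro m hm
  refine hu m fun h => hm ?_
  rw [dia_coeff, h, zero_mul]

theorem psi_mem_YD (j : Fin n) (α : ℕ → D) {e : ℕ} {u : YR D (n + 1)}
    (hu : u ∈ YD D (n + 1) e) : psi j α u ∈ YD D (n + 1) e := by
  rw [sb_YD] at hu ⊢
  exact sb_mem α (sb_Cl_deg j e) hu

/-- the part of the highest last exponent is not changed -/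
theorem psi_coeff_top (j : Fin n) (α : ℕ → D) {e k : ℕ} {u : YR D (n + 1)}
    (hu : u ∈ monD D (y5_W n e k)) (m : Fin n →₀ ℕ) :
    (psi j α u).coeff (sn m k) = u.coeff (sn m k) := by
  refine sb_coeff_top j α fun m' hm' => ?_
  rw [sn_last]
  exact (hu m' hm').2

theorem psi_mem_W (j : Fin n) (α : ℕ → D) {e k : ℕ} {u : YR D (n + 1)}
    (hu : u ∈ monD D (y5_W n e k)) : psi j α u ∈ monD D (y5_W n e k) := by
  refine sb_mem α ?_ hu
  rintro m k' t ht ⟨h1, h2⟩
  refine ⟨?_, ?_⟩
  · rw [sb_sum_sn m j ht]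
    exact h1
  · rw [sn_last] at h2 ⊢
    omega

end Vale.Agent.P200.V
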