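import Vale.Agent.P200.V.SeqDefs

/-!
`psi` is unipotent with respect to the last exponent: injectivity, surjectivity on the spaces spanned by
finite sets of exponents closed under `x^m z^k ↦ x^m t^i z^(k-i)`.
-/

namespace Vale.Agent.P200.V

open MvPolynomial Module
open Vale.Agent.P200.B Vale.Agent.P200.G Vale.Agent.P200.L Vale.Agent.P200.M Vale.Agent.P200.W
open Vale.Agent.P200.Y

variable {D : Type*} [DivisionRing D] {n : ℕ}

theorem sb_single_coeff (m m0 : Fin (n + 1) →₀ ℕ) (c : D) :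
    (AddMonoidAlgebra.single m c : YR D (n + 1)).coeff m0 = if m = m0 then c else 0 := by
  classical
  rw [AddMonoidAlgebra.coeff_single, Finsupp.single_apply]

theorem sb_single_mem {S : Set (Fin (n + 1) →₀ ℕ)} {m : Fin (n + 1) →₀ ℕ} (hm : m ∈ S) (c : D) :
    (AddMonoidAlgebra.single m c : YR D (n + 1)) ∈ monD D S := by
  intro m' hm'
  rw [sb_single_coeff] at hm'
  by_cases h : m = m'
  · rw [← h]
    exact hm
  · rw [if_neg h] at hm'
    exact absurd rfl hm'

/-- `psi` on monomials, coefficients with large last exponent -/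
theorem sb_psi_single_coeff (j : Fin n) (α : ℕ → D) {m m0 : Fin (n + 1) →₀ ℕ}
    (h : m (Fin.last n) ≤ m0 (Fin.last n)) (c : D) :
    (psi j α (AddMonoidAlgebra.single m c)).coeff m0 =
      (AddMonoidAlgebra.single m c : YR D (n + 1)).coeff m0 := by
  obtain ⟨m', hm'⟩ := deg_exists_sn m
  generalize hk : m (Fin.last n) = k at *
  subst hm'
  rw [psi_sn, AddMonoidAlgebra.coeff_sum, Finsupp.finsetSum_apply, Finset.sum_eq_single 0]
  · rw [zero_smul, add_zero, Nat.sub_zero, sw_zero_right, mul_one]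
  · intro t ht ht0
    rw [sb_single_coeff, if_neg]
    intro h1
    have h2 : k - t = m0 (Fin.last n) := by
      rw [← h1, sn_last]
    have h3 : t ≤ k := Nat.lt_succ_iff.1 (Finset.mem_range.1 ht)
    omega
  · intro h1
    exact absurd (Finset.mem_range.2 (Nat.succ_pos k)) h1

theorem sb_psi_eq (j : Fin n) (α : ℕ → D) (u : YR D (n + 1)) :
    psi j α u = ∑ m ∈ u.coeff.support, psi j α (AddMonoidAlgebra.single m (u.coeff m)) := by
  conv_lhs => rw [m4_sum_single u]
  rw [map_sum]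

/-- the part of the highest last exponent is not changed -/
theorem sb_coeff_top (j : Fin n) (α : ℕ → D) {u : YR D (n + 1)} {m0 : Fin (n + 1) →₀ ℕ}
    (h : ∀ m, u.coeff m ≠ 0 → m (Fin.last n) ≤ m0 (Fin.last n)) :
    (psi j α u).coeff m0 = u.coeff m0 := by
  conv_rhs => rw [m4_sum_single u]
  rw [sb_psi_eq, AddMonoidAlgebra.coeff_sum, AddMonoidAlgebra.coeff_sum, Finsupp.finsetSum_apply,
    Finsupp.finsetSum_apply]
  refine Finset.sum_congr rfl fun m hm => ?_
  exact sb_psi_single_coeff j α (h m (Finsupp.mem_support_iff.1 hm)) _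

theorem psi_injective (j : Fin n) (α : ℕ → D) : Function.Injective (psi j α) := by
  rw [injective_iff_map_eq_zero]
  intro u hu
  by_contra h0
  have h1 : u.coeff.support.Nonempty := by
    rw [Finsupp.support_nonempty_iff]
    intro h
    exact h0 (AddMonoidAlgebra.coeff_injective (by rw [h, AddMonoidAlgebra.coeff_zero]))
  obtain ⟨m0, hm0, hmax⟩ := Finset.exists_max_image u.coeff.support
    (fun m => m (Fin.last n)) h1
  have h2 := sb_coeff_top j α (u := u) (m0 := m0)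
    fun m hm => hmax m (Finsupp.mem_support_iff.2 hm)
  rw [hu, AddMonoidAlgebra.coeff_zero, Finsupp.zero_apply] at h2
  exact Finsupp.mem_support_iff.1 hm0 h2.symm

/-- sets of exponents closed under `x^m z^k ↦ x^m t^i z^(k-i)` -/
def sb_Cl (j : Fin n) (S : Set (Fin (n + 1) →₀ ℕ)) : Prop :=
  ∀ (m : Fin n →₀ ℕ) (k t : ℕ), t ≤ k → sn m k ∈ S → sn (m + t • Finsupp.single j 1) (k - t) ∈ S

theorem sb_mem {j : Fin n} (α : ℕ → D) {S : Set (Fin (n + 1) →₀ ℕ)} (hS : sb_Cl j S)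
    {u : YR D (n + 1)} (hu : u ∈ monD D S) : psi j α u ∈ monD D S := by
  rw [sb_psi_eq]
  refine Submodule.sum_mem _ fun m hm => ?_
  have hmS : m ∈ S := hu m (Finsupp.mem_support_iff.1 hm)
  obtain ⟨m', hm'⟩ := deg_exists_sn m
  rw [hm'] at hmS
  rw [hm', psi_sn]
  refine Submodule.sum_mem _ fun t ht => ?_
  exact sb_single_mem (hS _ _ _ (Nat.lt_succ_iff.1 (Finset.mem_range.1 ht)) hmS) _

theorem sb_surj {j : Fin n} (α : ℕ → D) {S : Set (Fin (n + 1) →₀ ℕ)} (hS : sb_Cl j S) {e : ℕ}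
    (hdeg : ∀ m ∈ S, ∑ i, m i = e) {v : YR D (n + 1)} (hv : v ∈ monD D S) :
    ∃ u ∈ monD D S, psi j α u = v := by
  have hfin : Module.Finite D (monD D S) := finite_monD S hdeg
  have h1 : Function.Injective ((psi j α).restrict fun u hu => sb_mem α hS hu) := by
    intro a b hab
    apply Subtype.ext
    exact psi_injective j α (congrArg Subtype.val hab)
  obtain ⟨u, hu⟩ := LinearMap.surjective_of_injective h1 ⟨v, hv⟩
  exact ⟨u, u.2, congrArg Subtype.val hu⟩

theorem sb_sum_sn (m : Fin n →₀ ℕ) (j : Fin n) {t k : ℕ} (h : t ≤ k) :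
    ∑ i, sn (m + t • Finsupp.single j 1) (k - t) i = ∑ i, sn m k i := by
  rw [deg_sum_sn, deg_sum_sn, m4_deg_add]
  have h1 : ∑ i, (t • Finsupp.single j 1 : Fin n →₀ ℕ) i = t := by
    have h2 : ∀ i, (t • Finsupp.single j 1 : Fin n →₀ ℕ) i =
        t * (Finsupp.single j 1 : Fin n →₀ ℕ) i := fun i => rfl
    rw [Finset.sum_congr rfl fun i _ => h2 i, ← Finset.mul_sum, m4_deg_single, mul_one]
  rw [h1]
  omega

theorem sb_Cl_deg (j : Fin n) (e : ℕ) : sb_Cl j {m : Fin (n + 1) →₀ ℕ | ∑ i, m i = e} := by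
  intro m k t ht h
  rw [Set.mem_ofPred_eq] at h ⊢
  rw [sb_sum_sn m j ht]
  exact h

theorem sb_YD (e : ℕ) : YD D (n + 1) e = monD D {m : Fin (n + 1) →₀ ℕ | ∑ i, m i = e} := rfl

theorem psi_surj_YD (j : Fin n) (α : ℕ → D) {e : ℕ} {v : YR D (n + 1)}
    (hv : v ∈ YD D (n + 1) e) : ∃ u ∈ YD D (n + 1) e, psi j α u = v := by
  rw [sb_YD] at hv ⊢
  exact sb_surj α (sb_Cl_deg j e) (fun m hm => hm) hv

/-- the same for the monomials of degree `e` with exponent of `x_i` at least `b` (`i < n`) -/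
theorem psi_surj_pow (j : Fin n) (α : ℕ → D) {e b : ℕ} (i : Fin n) {v : YR D (n + 1)}
    (hv : v ∈ monD D {m | ∑ k, m k = e ∧ b ≤ m i.castSucc}) :
    ∃ u ∈ monD D {m : Fin (n + 1) →₀ ℕ | ∑ k, m k = e ∧ b ≤ m i.castSucc}, psi j α u = v := by
  refine sb_surj α ?_ (fun m hm => hm.1) hv
  intro m k t ht h
  rw [Set.mem_ofPred_eq] at h ⊢
  refine ⟨by rw [sb_sum_sn m j ht]; exact h.1, ?_⟩
  have h2 := h.2
  rw [sn_castSucc] at h2 ⊢
  rw [Finsupp.add_apply]
  omega

end Vale.Agent.P200.V
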