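import Vale.Agent.P200.Y.Stab

/-!
Products `(z + α_{k-1} t) ⋯ (z + α_0 t)` over a division ring, `z` the last variable, `t = x_j`, and the left
linear map `c x^m z^k ↦ c x^m (z + α_{k-1} t) ⋯ (z + α_0 t)`.
-/

namespace Vale.Agent.P200.V

open MvPolynomial Module
open Vale.Agent.P200.B Vale.Agent.P200.G Vale.Agent.P200.L Vale.Agent.P200.M Vale.Agent.P200.W
open Vale.Agent.P200.Y

universe u

/-- `(z + α_{k-1} t) ⋯ (z + α_0 t) = ∑_i (sw α k i) z^(k-i) t^i` -/
def sw {D : Type*} [DivisionRing D] (α : ℕ → D) : ℕ → ℕ → D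
  | _, 0 => 1
  | 0, _ + 1 => 0
  | k + 1, t + 1 => sw α k (t + 1) + α k * sw α k t

/-- a sequence with `(z + α_{N-1} t) ⋯ (z + α_0 t) = z^N + c t^N` (and `α_k = 0` for `k ≥ N`, say) whose partial
sums are not zero -/
def HasSeq (K : Type u) [Field K] (N : ℕ) : Prop :=
  ∃ (D : Type u) (_ : DivisionRing D) (_ : Algebra K D) (α : ℕ → D),
    (∀ k t, N ≤ k → 0 < t → t ≠ N → sw α k t = 0) ∧ ∀ i, 0 < i → i < N → sw α i 1 ≠ 0

section sw
variable {D : Type*} [DivisionRing D] (α : ℕ → D)

theorem sw_zero_right (k : ℕ) : sw α k 0 = 1 := by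
  cases k <;> rfl

theorem sw_succ (k t : ℕ) : sw α (k + 1) (t + 1) = sw α k (t + 1) + α k * sw α k t := rfl

theorem sw_lt {k t : ℕ} (h : k < t) : sw α k t = 0 := by
  induction k generalizing t with
  | zero =>
    obtain ⟨t, rfl⟩ := Nat.exists_eq_succ_of_ne_zero h.ne'
    rfl
  | succ k ih =>
    obtain ⟨t, rfl⟩ := Nat.exists_eq_succ_of_ne_zero (Nat.ne_zero_of_lt h)
    rw [Nat.succ_eq_add_one, sw_succ, ih (by omega), ih (by omega), mul_zero, add_zero]

end sw

section psi
variable {D : Type*} [DivisionRing D] {n : ℕ}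

/-- `x^m π_k` for the monomial `x^m z^k` -/
noncomputable def psiM (j : Fin n) (α : ℕ → D) (m : Fin (n + 1) →₀ ℕ) : YR D (n + 1) :=
  ∑ t ∈ Finset.range (m (Fin.last n) + 1),
    AddMonoidAlgebra.single
      (m - t • Finsupp.single (Fin.last n) 1 + t • Finsupp.single j.castSucc 1)
      (sw α (m (Fin.last n)) t)

/-- `c x^m z^k ↦ c x^m π_k`, left linear -/
noncomputable def psi (j : Fin n) (α : ℕ → D) : YR D (n + 1) →ₗ[D] YR D (n + 1) where
  toFun u := Finsupp.linearCombination D (psiM j α) u.coeff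
  map_add' := fun u v => by rw [AddMonoidAlgebra.coeff_add, map_add]
  map_smul' := fun c u => by
    rw [AddMonoidAlgebra.coeff_smul, map_smul, RingHom.id_apply]

/-- `c x^m z^k ↦ (c α_k) x^m z^k`, left linear -/
noncomputable def dia (α : ℕ → D) : YR D (n + 1) →ₗ[D] YR D (n + 1) where
  toFun u := Finsupp.linearCombination D
    (fun m : Fin (n + 1) →₀ ℕ => (AddMonoidAlgebra.single m (α (m (Fin.last n))) : YR D (n + 1)))
    u.coeff
  map_add' := fun u v => by rw [AddMonoidAlgebra.coeff_add, map_add]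
  map_smul' := fun c u => by
    rw [AddMonoidAlgebra.coeff_smul, map_smul, RingHom.id_apply]

theorem dia_single (α : ℕ → D) (m : Fin (n + 1) →₀ ℕ) (c : D) :
    dia α (AddMonoidAlgebra.single m c) = AddMonoidAlgebra.single m (c * α (m (Fin.last n))) := by
  change Finsupp.linearCombination D _ _ = _
  rw [AddMonoidAlgebra.coeff_single, Finsupp.linearCombination_single,
    AddMonoidAlgebra.smul_single, smul_eq_mul]

theorem psi_sn (j : Fin n) (α : ℕ → D) (m : Fin n →₀ ℕ) (k : ℕ) (c : D) :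
    psi j α (AddMonoidAlgebra.single (sn m k) c) = ∑ t ∈ Finset.range (k + 1),
      AddMonoidAlgebra.single (sn (m + t • Finsupp.single j 1) (k - t)) (c * sw α k t) := by
  change Finsupp.linearCombination D _ _ = _
  rw [AddMonoidAlgebra.coeff_single, Finsupp.linearCombination_single, psiM, sn_last,
    Finset.smul_sum]
  refine Finset.sum_congr rfl fun t ht => ?_
  have ht' : t ≤ k := Nat.lt_succ_iff.1 (Finset.mem_range.1 ht)
  rw [AddMonoidAlgebra.smul_single, smul_eq_mul]
  congr 1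
  ext i
  rw [Finsupp.add_apply, Finsupp.tsub_apply, Finsupp.smul_apply, Finsupp.smul_apply]
  refine Fin.lastCases ?_ (fun i => ?_) i
  · rw [sn_last, sn_last, Finsupp.single_eq_same,
      Finsupp.single_eq_of_ne (Fin.castSucc_lt_last j).ne', smul_zero, add_zero,
      smul_eq_mul, mul_one]
  · rw [sn_castSucc, sn_castSucc, Finsupp.add_apply, Finsupp.smul_apply,
      Finsupp.single_eq_of_ne (Fin.castSucc_lt_last i).ne, smul_zero, Nat.sub_zero]
    congr 2
    by_cases hi : i = j
    · rw [hi, Finsupp.single_eq_same, Finsupp.single_eq_same]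
    · rw [Finsupp.single_eq_of_ne hi, Finsupp.single_eq_of_ne fun h =>
        hi (Fin.castSucc_injective n h)]

end psi

end Vale.Agent.P200.V
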