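import Vale.Agent.P200.V.QPair

/-!
Skew Laurent series division rings over a field with an automorphism.
-/

set_option linter.all false

namespace Vale.Agent.P200.V

universe u

/-- the embedding of `L` in the ring of Laurent series over `End_K L` -/
noncomputable def skew_i (K L : Type u) [Field K] [Field L] [Algebra K L] :
    L →ₐ[K] HahnSeries ℤ (Module.End K L) where
  toFun l := HahnSeries.single 0 (Algebra.lmul K L l)
  map_one' := by
    rw [map_one]
    rfl
  map_mul' a b := by
    rw [HahnSeries.single_mul_single, zero_add, map_mul]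
  map_zero' := by
    rw [map_zero, map_zero]
  map_add' a b := by
    rw [map_add]
    exact map_add (HahnSeries.single.addMonoidHom 0) _ _
  commutes' r := by
    rw [HahnSeries.algebraMap_apply, HahnSeries.C_apply, AlgHom.commutes]

/-- a division ring with `T l = σ(l) T` -/
theorem exists_skew (K L : Type u) [Field K] [Field L] [Algebra K L] (sg : L ≃ₐ[K] L) :
    ∃ (D : Type u) (_ : DivisionRing D) (_ : Algebra K D) (i : L →ₐ[K] D) (T : D),
      T ≠ 0 ∧ ∀ l, T * i l = i (sg l) * T := by
  have hx : sg.toLinearMap ∈ qpair_G sg 1 := ⟨1, fun v => by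
    rw [zpow_one, one_mul, AlgEquiv.toLinearMap_apply]⟩
  have hy : ∀ l : L, Algebra.lmul K L l ∈ qpair_G sg 0 := fun l => ⟨l, fun v => by
    rw [zpow_zero]; rfl⟩
  have hU : ∀ F : qpair_D (qpair_G sg) (qpair_G_one sg) (qpair_G_mul sg), IsUnit F ∨ F = 0 := by
    rintro ⟨F, hF⟩
    by_cases h0 : F = 0
    · right
      subst h0
      rfl
    · left
      obtain ⟨E, hE, h1, h2⟩ := qpair_inv (qpair_G sg) (qpair_G_mul sg) (qpair_G_inv sg) F hF h0
      exact ⟨⟨⟨F, hF⟩, ⟨E, hE⟩, Subtype.ext h1, Subtype.ext h2⟩, rfl⟩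
  refine ⟨qpair_D (qpair_G sg) (qpair_G_one sg) (qpair_G_mul sg),
    DivisionRing.ofIsUnitOrEqZero hU, inferInstanceAs (Algebra K (qpair_D _ _ _)),
    (skew_i K L).codRestrict _ fun l => qpair_single _ _ _ _ _ (hy l),
    ⟨HahnSeries.single 1 sg.toLinearMap, qpair_single _ _ _ _ _ hx⟩, ?_, ?_⟩
  · intro h
    have h1 := congrArg Subtype.val h
    have h2 := HahnSeries.single_eq_zero_iff.mp h1
    have h3 := LinearMap.congr_fun h2 1
    rw [AlgEquiv.toLinearMap_apply, map_one] at h3
    exact one_ne_zero h3
  · intro l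
    apply Subtype.ext
    change HahnSeries.single 1 sg.toLinearMap * HahnSeries.single 0 (Algebra.lmul K L l) =
      HahnSeries.single 0 (Algebra.lmul K L (sg l)) * HahnSeries.single 1 sg.toLinearMap
    rw [HahnSeries.single_mul_single, HahnSeries.single_mul_single, zero_add, add_zero]
    congr 1
    ext v
    rw [Module.End.mul_apply, Module.End.mul_apply, AlgEquiv.toLinearMap_apply,
      AlgEquiv.toLinearMap_apply]
    change sg (l * v) = sg l * sg v
    rw [map_mul]

end Vale.Agent.P200.V
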