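import Vale.Agent.P200.V.SeqDefs
import Vale.Agent.P200.V.Skew

/-!
Existence of sequences.
-/

namespace Vale.Agent.P200.V

universe u

section se

variable {L : Type u} [Field L]

/-- `∏_{l < k, l ≠ j} (θ_j - θ_l)` -/
def se_q (θ : ℕ → L) (j k : ℕ) : L := ∏ l ∈ Finset.range k, if l = j then 1 else (θ j - θ l)

theorem se_q_ne (θ : ℕ → L) {N : ℕ} (hd : ∀ i j, i < N → j < N → i ≠ j → θ i ≠ θ j) {j k : ℕ}
    (hj : j < N) (hk : k ≤ N) : se_q θ j k ≠ 0 := by
  unfold se_q
  rw [Finset.prod_ne_zero_iff]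
  intro l hl
  split_ifs with h
  · exact one_ne_zero
  · exact sub_ne_zero.mpr (hd j l hj (lt_of_lt_of_le (Finset.mem_range.mp hl) hk)
      fun h' => h h'.symm)

theorem se_q_succ (θ : ℕ → L) (j k : ℕ) (h : k ≠ j) :
    se_q θ j (k + 1) = se_q θ j k * (θ j - θ k) := by
  rw [se_q, Finset.prod_range_succ, if_neg h]
  rfl

theorem se_q_shift (σ : L →+* L) (θ : ℕ → L) (hσ : ∀ l, σ (θ l) = θ (l + 1)) (j k : ℕ) :
    σ (se_q θ j k) * (θ (j + 1) - θ 0) = se_q θ (j + 1) (k + 1) := by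
  unfold se_q
  rw [Finset.prod_range_succ', if_neg (Nat.succ_ne_zero j).symm, map_prod]
  congr 1
  refine Finset.prod_congr rfl fun l _ => ?_
  by_cases h : l = j
  · rw [if_pos h, if_pos (by omega), map_one]
  · rw [if_neg h, if_neg (by omega), map_sub, hσ, hσ]

/-- the coefficients -/
noncomputable def se_b (θ : ℕ → L) (k j : ℕ) : L :=
  if j ≤ k then se_q θ 0 (k + 1) / se_q θ j (k + 1) else 0

/-- the factors -/
noncomputable def se_beta (σ : L →+* L) (θ : ℕ → L) (k : ℕ) : L :=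
  -(se_q θ 0 (k + 1) / σ (se_q θ 0 (k + 1)))

theorem se_beta_mul (σ : L →+* L) (θ : ℕ → L) {N : ℕ}
    (hd : ∀ i j, i < N → j < N → i ≠ j → θ i ≠ θ j) {k j : ℕ} (hk : k < N) (hj : j ≤ k) :
    se_beta σ θ k * σ (se_b θ k j) = -(se_q θ 0 (k + 1) / σ (se_q θ j (k + 1))) := by
  have h0 : σ (se_q θ 0 (k + 1)) ≠ 0 :=
    (map_ne_zero_iff σ σ.injective).mpr (se_q_ne θ hd (by omega) hk)
  have h1 : σ (se_q θ j (k + 1)) ≠ 0 :=
    (map_ne_zero_iff σ σ.injective).mpr (se_q_ne θ hd (by omega) hk)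
  rw [se_beta, se_b, if_pos hj, map_div₀]
  field_simp

theorem se_rec (σ : L →+* L) (θ : ℕ → L) (hσ : ∀ l, σ (θ l) = θ (l + 1)) {N : ℕ}
    (hd : ∀ i j, i < N → j < N → i ≠ j → θ i ≠ θ j) {k j : ℕ} (hk : k + 1 < N) :
    se_b θ k (j + 1) + se_beta σ θ k * σ (se_b θ k j) = se_b θ (k + 1) (j + 1) := by
  by_cases hj : j ≤ k
  · rw [se_beta_mul σ θ hd (by omega) hj]
    have e1 := se_q_shift σ θ hσ j (k + 1)
    have e2 := se_q_succ θ 0 (k + 1) (Nat.succ_ne_zero k)
    have n1 : σ (se_q θ j (k + 1)) ≠ 0 :=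
      (map_ne_zero_iff σ σ.injective).mpr (se_q_ne θ hd (by omega) (by omega))
    have n2 : se_q θ (j + 1) (k + 2) ≠ 0 := se_q_ne θ hd (by omega) (by omega)
    have e3 : se_q θ 0 (k + 1) / σ (se_q θ j (k + 1)) =
        se_q θ 0 (k + 1) * (θ (j + 1) - θ 0) / se_q θ (j + 1) (k + 2) := by
      rw [div_eq_div_iff n1 n2, ← e1]
      ring
    rw [e3]
    by_cases hj2 : j + 1 ≤ k
    · have e4 := se_q_succ θ (j + 1) (k + 1) (by omega)
      have n3 : se_q θ (j + 1) (k + 1) ≠ 0 := se_q_ne θ hd (by omega) (by omega)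
      rw [se_b, se_b, if_pos hj2, if_pos (by omega)]
      rw [show k + 1 + 1 = k + 2 from rfl] at e4 e2 ⊢
      have e5 : se_q θ 0 (k + 1) / se_q θ (j + 1) (k + 1) =
          se_q θ 0 (k + 1) * (θ (j + 1) - θ (k + 1)) / se_q θ (j + 1) (k + 2) := by
        rw [div_eq_div_iff n3 n2, e4]
        ring
      rw [e5, e2, ← neg_div, ← add_div]
      congr 1
      ring
    · have hjk : j = k := by omega
      subst hjk
      rw [se_b, se_b, if_neg hj2, if_pos le_rfl, zero_add, ← neg_div]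
      rw [show j + 1 + 1 = j + 2 from rfl] at e2 ⊢
      rw [e2]
      congr 1
      ring
  · rw [se_b, se_b, se_b, if_neg (by omega), if_neg hj, if_neg (by omega), map_zero, mul_zero,
      add_zero]

theorem se_last (σ : L →+* L) (θ : ℕ → L) (hσ : ∀ l, σ (θ l) = θ (l + 1)) {k : ℕ}
    (hd : ∀ i j, i < k + 1 → j < k + 1 → i ≠ j → θ i ≠ θ j) (hN : θ (k + 1) = θ 0) {j : ℕ}
    (hj : j < k) : se_b θ k (j + 1) + se_beta σ θ k * σ (se_b θ k j) = 0 := by
  rw [se_beta_mul σ θ hd (by omega) hj.le]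
  have e1 := se_q_shift σ θ hσ j (k + 1)
  have e4 := se_q_succ θ (j + 1) (k + 1) (by omega)
  rw [e4, hN] at e1
  have n4 : θ (j + 1) - θ 0 ≠ 0 :=
    sub_ne_zero.mpr (hd _ _ (by omega) (by omega) (Nat.succ_ne_zero j))
  rw [mul_right_cancel₀ n4 e1, se_b, if_pos (by omega), add_neg_cancel]

end se

/-- existence of sequences -/
theorem hasSeq (K : Type u) [Field K] {N : ℕ} (hN : 0 < N) : HasSeq K N := by
  have : NeZero N := ⟨hN.ne'⟩
  let sg : FractionRing (MvPolynomial (ZMod N) K) ≃ₐ[K] FractionRing (MvPolynomial (ZMod N) K) :=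
    IsFractionRing.algEquivOfAlgEquiv (MvPolynomial.renameEquiv K (Equiv.addRight (1 : ZMod N)))
  obtain ⟨D, _, _, i, T, hT, hi⟩ := exists_skew K (FractionRing (MvPolynomial (ZMod N) K)) sg
  let σ : FractionRing (MvPolynomial (ZMod N) K) →+* FractionRing (MvPolynomial (ZMod N) K) :=
    (sg : FractionRing (MvPolynomial (ZMod N) K) →+* FractionRing (MvPolynomial (ZMod N) K))
  let θ : ℕ → FractionRing (MvPolynomial (ZMod N) K) := fun l =>
    algebraMap (MvPolynomial (ZMod N) K) _ (MvPolynomial.X (l : ZMod N))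
  have hσ : ∀ l, σ (θ l) = θ (l + 1) := by
    intro l
    change sg (algebraMap (MvPolynomial (ZMod N) K) _ (MvPolynomial.X (l : ZMod N))) = _
    rw [IsFractionRing.algEquivOfAlgEquiv_algebraMap, MvPolynomial.renameEquiv_apply,
      MvPolynomial.rename_X, Equiv.coe_addRight]
    change _ = algebraMap (MvPolynomial (ZMod N) K) _ (MvPolynomial.X ((l + 1 : ℕ) : ZMod N))
    rw [Nat.cast_succ]
  have hd : ∀ i j, i < N → j < N → i ≠ j → θ i ≠ θ j := by
    intro a b ha hb hab h
    have h1 := IsFractionRing.injective (MvPolynomial (ZMod N) K)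
      (FractionRing (MvPolynomial (ZMod N) K)) h
    have h2 := MvPolynomial.X_injective h1
    have h3 := (ZMod.natCast_eq_natCast_iff' a b N).mp h2
    rw [Nat.mod_eq_of_lt ha, Nat.mod_eq_of_lt hb] at h3
    exact hab h3
  have hθN : θ N = θ 0 := by
    change algebraMap (MvPolynomial (ZMod N) K) _ (MvPolynomial.X ((N : ℕ) : ZMod N)) =
      algebraMap (MvPolynomial (ZMod N) K) _ (MvPolynomial.X ((0 : ℕ) : ZMod N))
    rw [ZMod.natCast_self, Nat.cast_zero]
  let α : ℕ → D := fun k => if k < N then i (se_beta σ θ k) * T else 0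
  have hα : ∀ k, k < N → α k = i (se_beta σ θ k) * T := fun k hk => if_pos hk
  have hα0 : ∀ k, N ≤ k → α k = 0 := fun k hk => if_neg (not_lt.mpr hk)
  have hmul : ∀ k j, k < N → sw α k j = i (se_b θ k j) * T ^ j →
      α k * sw α k j = i (se_beta σ θ k * σ (se_b θ k j)) * T ^ (j + 1) := by
    intro k j hk h
    rw [h, hα k hk, mul_assoc, ← mul_assoc T, hi, map_mul, pow_succ', mul_assoc, mul_assoc]
    rfl
  have hsw : ∀ k, k < N → ∀ j, sw α k j = i (se_b θ k j) * T ^ j := by
    intro k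
    induction k with
    | zero =>
      intro _ j
      cases j with
      | zero =>
        rw [sw_zero_right, se_b, if_pos le_rfl, div_self (se_q_ne θ hd hN (by omega)), map_one,
          pow_zero, one_mul]
      | succ j =>
        rw [sw_lt α (Nat.succ_pos j), se_b, if_neg (by omega), map_zero, zero_mul]
    | succ k ih =>
      intro hk j
      cases j with
      | zero =>
        rw [sw_zero_right, se_b, if_pos (Nat.zero_le _), div_self (se_q_ne θ hd hN (by omega)),
          map_one, pow_zero, one_mul]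
      | succ j =>
        rw [sw_succ, hmul k j (by omega) (ih (by omega) j), ih (by omega) (j + 1), ← add_mul,
          ← map_add, se_rec σ θ hσ hd hk]
  refine ⟨D, inferInstance, inferInstance, α, ?_, ?_⟩
  · intro k t hk ht htN
    induction k, hk using Nat.le_induction with
    | base =>
      rcases lt_or_gt_of_ne htN with h | h
      · obtain ⟨k, hk⟩ : ∃ k, N = k + 1 := ⟨N - 1, by omega⟩
        obtain ⟨j, rfl⟩ : ∃ j, t = j + 1 := ⟨t - 1, by omega⟩
        have e := se_last σ θ hσ (k := k) (by rw [← hk]; exact hd) (by rw [← hk]; exact hθN)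
          (j := j) (by omega)
        have e2 : sw α N (j + 1) = sw α (k + 1) (j + 1) := by rw [hk]
        rw [e2, sw_succ, hmul k j (by omega) (hsw k (by omega) j), hsw k (by omega) (j + 1),
          ← add_mul, ← map_add, e, map_zero, zero_mul]
      · exact sw_lt α h
    | succ k hk ih =>
      obtain ⟨j, rfl⟩ : ∃ j, t = j + 1 := ⟨t - 1, by omega⟩
      rw [sw_succ, hα0 k hk, zero_mul, add_zero]
      exact ih
  · intro k hk hkN
    rw [hsw k hkN 1, pow_one]
    refine mul_ne_zero ?_ hT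
    rw [Ne, map_eq_zero_iff i i.injective, se_b, if_pos (by omega)]
    exact div_ne_zero (se_q_ne θ hd hN (by omega)) (se_q_ne θ hd (by omega) (by omega))

end Vale.Agent.P200.V
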