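import Vale.Agent.P200.V.QEgh
import Vale.Agent.P200.V.SeqZle

/-!
The lex-plus-powers conjecture over every field.
-/

namespace Vale.Agent.P200.V

open MvPolynomial Module
open Vale.Agent.P200.B Vale.Agent.P200.G Vale.Agent.P200.L Vale.Agent.P200.M Vale.Agent.P200.W
open Vale.Agent.P200.Y

universe u

/-- as many forms as variables -/
theorem sf_zle_base {k : Type u} [Field k] [IsAlgClosed k] {n : ℕ} (a : Fin n → ℕ)
    (ha : Monotone a) (h2 : ∀ i, 2 ≤ a i)
    (f : Fin n → MvPolynomial (Fin n) k) (hf : ∀ i, (f i).IsHomogeneous (a i))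
    (hreg : IsRegularSeq f) (p : ℕ) : ZLE k le_rfl a p f := by
  intro d V hV1 hV2
  obtain ⟨K, _, _, D, _, _, E, Lc, Gf, hR, hG⟩ := eOut_all k n a ha h2 f hf
    (isMPrimary_of_regular a f hf hreg)
  let _ : Algebra k D := ((algebraMap K D).comp (algebraMap k K)).toAlgebra' fun c x =>
    Algebra.commutes (algebraMap k K c) x
  have : IsScalarTower k K D := IsScalarTower.of_algebraMap_eq fun x => rfl
  have ha1 : ∀ i, 1 ≤ a i := fun i => le_trans one_le_two (h2 i)
  obtain ⟨M, hM, hcard, hZ⟩ := qb_degen (K := k) a E hR.comm (hR.tgData.ind ha1)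
    (Ideal.span (Set.range f)) (fun i => ⟨hR.tgData.init i, by
      rw [show theta E = theta hR.tgData.E from rfl, hR.tgData.theta_init]
      exact qf_mem_VD _ (hR.hom i) (hG i), qf_init hR.tgData ha1 i⟩) V hV1 hV2
  refine (hZ p).trans ((seq_zle n a ha h2 d p M hM).trans ?_)
  rw [hcard]
  exact le_rfl

/-- **Cycle inequalities.** -/
theorem sf_zle (K : Type u) [Field K] {n c : ℕ}
    (h : c ≤ n) (a : Fin c → ℕ) (ha : Monotone a) (h2 : ∀ i, 2 ≤ a i)
    (f : Fin c → MvPolynomial (Fin n) K)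
    (hf : ∀ i, (f i).IsHomogeneous (a i)) (hreg : IsRegularSeq f) (p : ℕ) : ZLE K h a p f := by
  have hinf : Infinite (AlgebraicClosure K) := IsAlgClosed.instInfinite
  refine zle_of_baseChange (L := AlgebraicClosure K) h _ p f hf ?_
  refine zle_all a (fun i => le_trans one_le_two (h2 i)) p (fun _ _ => True)
    (fun _ _ _ _ => trivial) ?_ ?_ n h _
    (fun i => (hf i).map _) (isRegSeq_baseChange f _ hf hreg) trivial
  · intro n h f hf hreg _ I hI hfI
    exact egh (AlgebraicClosure K) h a ha h2 f hf hreg I hI hfI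
  · intro f hf hreg _
    exact sf_zle_base a ha h2 f hf hreg p

/-- **The lex-plus-powers conjecture.** -/
theorem lpp (K : Type u) [Field K] {n c : ℕ}
    (h : c ≤ n) (a : Fin c → ℕ) (ha : Monotone a) (h2 : ∀ i, 2 ≤ a i)
    (f : Fin c → MvPolynomial (Fin n) K)
    (hf : ∀ i, (f i).IsHomogeneous (a i)) (hreg : IsRegularSeq f)
    (I : Ideal (MvPolynomial (Fin n) K)) (hI : ∀ g ∈ I, ∀ d, homogeneousComponent d g ∈ I)
    (hfI : ∀ i, f i ∈ I) :
    ∃ J : Ideal (MvPolynomial (Fin n) K), J.restrictScalars K = lexPlusPowers h a I ∧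
      ∀ p j, bettiNumber I p j ≤ bettiNumber J p j := by
  obtain ⟨J, hJ⟩ := egh K h a ha h2 f hf hreg I hI hfI
  refine ⟨J, hJ, fun p j => ?_⟩
  rw [B.bettiNumber_eq, B.bettiNumber_eq]
  exact betti_le_of_zle h a (fun i => le_trans one_le_two (h2 i)) f hf hreg p
    (sf_zle K h a ha h2 f hf hreg p) (sf_zle K h a ha h2 f hf hreg (p + 1))
    I hI hfI J hJ j

end Vale.Agent.P200.V
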