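import Vale.Agent.P200.M.Defs

/-!
Families of cycles for a twisted last variable: if `ψ (u x_l) = ψ u x_l` (`l < n`) and
`ψ (u x_n) = ψ u x_n + ψ (δ u) x_j`, then the spaces `rd x W Y p` and `rd x (ψ W) Y p` have the same
dimension.
-/

namespace Vale.Agent.P200.V

open MvPolynomial Module
open Vale.Agent.P200.B Vale.Agent.P200.G Vale.Agent.P200.L Vale.Agent.P200.M

section sr
variable {D R : Type*} [DivisionRing D] [Ring R] [Module D R] [IsScalarTower D R R] {n : ℕ}

/-- the sign exponent -/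
def sr_sg (j : Fin n) (s : Finset (Fin (n + 1))) : ℕ :=
  s.card + (s.filter fun k => k < j.castSucc).card

/-- the change of basis -/
def sr_G (j : Fin n) (δ : R →ₗ[D] R) (c : Finset (Fin (n + 1)) → R) (s : Finset (Fin (n + 1))) : R :=
  if j.castSucc ∈ s ∧ Fin.last n ∉ s then
    c s - (-1 : ℤ) ^ sr_sg j s • δ (c (insert (Fin.last n) (s.erase j.castSucc)))
  else c s

/-- the inverse change of basis -/
def sr_H (j : Fin n) (δ : R →ₗ[D] R) (c : Finset (Fin (n + 1)) → R) (s : Finset (Fin (n + 1))) : R :=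
  if j.castSucc ∈ s ∧ Fin.last n ∉ s then
    c s + (-1 : ℤ) ^ sr_sg j s • δ (c (insert (Fin.last n) (s.erase j.castSucc)))
  else c s

theorem sr_G_pos {j : Fin n} {δ : R →ₗ[D] R} {c : Finset (Fin (n + 1)) → R}
    {s : Finset (Fin (n + 1))} (h1 : j.castSucc ∈ s) (h2 : Fin.last n ∉ s) :
    sr_G j δ c s = c s - (-1 : ℤ) ^ sr_sg j s •
      δ (c (insert (Fin.last n) (s.erase j.castSucc))) := if_pos ⟨h1, h2⟩

theorem sr_G_last {j : Fin n} {δ : R →ₗ[D] R} {c : Finset (Fin (n + 1)) → R}
    {s : Finset (Fin (n + 1))} (h2 : Fin.last n ∈ s) : sr_G j δ c s = c s :=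
  if_neg fun h => h.2 h2

theorem sr_G_neg {j : Fin n} {δ : R →ₗ[D] R} {c : Finset (Fin (n + 1)) → R}
    {s : Finset (Fin (n + 1))} (h2 : j.castSucc ∉ s) : sr_G j δ c s = c s :=
  if_neg fun h => h2 h.1

theorem sr_H_pos {j : Fin n} {δ : R →ₗ[D] R} {c : Finset (Fin (n + 1)) → R}
    {s : Finset (Fin (n + 1))} (h1 : j.castSucc ∈ s) (h2 : Fin.last n ∉ s) :
    sr_H j δ c s = c s + (-1 : ℤ) ^ sr_sg j s •
      δ (c (insert (Fin.last n) (s.erase j.castSucc))) := if_pos ⟨h1, h2⟩

theorem sr_H_last {j : Fin n} {δ : R →ₗ[D] R} {c : Finset (Fin (n + 1)) → R}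
    {s : Finset (Fin (n + 1))} (h2 : Fin.last n ∈ s) : sr_H j δ c s = c s :=
  if_neg fun h => h.2 h2

theorem sr_H_neg {j : Fin n} {δ : R →ₗ[D] R} {c : Finset (Fin (n + 1)) → R}
    {s : Finset (Fin (n + 1))} (h2 : j.castSucc ∉ s) : sr_H j δ c s = c s :=
  if_neg fun h => h2 h.1

theorem sr_GH (j : Fin n) (δ : R →ₗ[D] R) (c : Finset (Fin (n + 1)) → R) :
    sr_G j δ (sr_H j δ c) = c := by
  funext s
  by_cases h1 : j.castSucc ∈ s
  · by_cases h2 : Fin.last n ∈ s
    · rw [sr_G_last h2, sr_H_last h2]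
    · rw [sr_G_pos h1 h2, sr_H_pos h1 h2, sr_H_last (Finset.mem_insert_self _ _),
        add_sub_cancel_right]
  · rw [sr_G_neg h1, sr_H_neg h1]

theorem sr_HG (j : Fin n) (δ : R →ₗ[D] R) (c : Finset (Fin (n + 1)) → R) :
    sr_H j δ (sr_G j δ c) = c := by
  funext s
  by_cases h1 : j.castSucc ∈ s
  · by_cases h2 : Fin.last n ∈ s
    · rw [sr_H_last h2, sr_G_last h2]
    · rw [sr_H_pos h1 h2, sr_G_pos h1 h2, sr_G_last (Finset.mem_insert_self _ _),
        sub_add_cancel]
  · rw [sr_H_neg h1, sr_G_neg h1]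

theorem sr_zsmul_mem {U : Submodule D R} (k : ℕ) {u : R} (hu : u ∈ U) : (-1 : ℤ) ^ k • u ∈ U :=
  U.toAddSubgroup.zsmul_mem hu _

theorem sr_G_mem {j : Fin n} {δ : R →ₗ[D] R} {U : Submodule D R} (hU : ∀ u ∈ U, δ u ∈ U)
    {c : Finset (Fin (n + 1)) → R} (hc : ∀ s, c s ∈ U) (s : Finset (Fin (n + 1))) :
    sr_G j δ c s ∈ U := by
  by_cases h1 : j.castSucc ∈ s
  · by_cases h2 : Fin.last n ∈ s
    · rw [sr_G_last h2]
      exact hc s
    · rw [sr_G_pos h1 h2]
      exact U.sub_mem (hc s) (sr_zsmul_mem _ (hU _ (hc _)))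
  · rw [sr_G_neg h1]
    exact hc s

theorem sr_H_mem {j : Fin n} {δ : R →ₗ[D] R} {U : Submodule D R} (hU : ∀ u ∈ U, δ u ∈ U)
    {c : Finset (Fin (n + 1)) → R} (hc : ∀ s, c s ∈ U) (s : Finset (Fin (n + 1))) :
    sr_H j δ c s ∈ U := by
  by_cases h1 : j.castSucc ∈ s
  · by_cases h2 : Fin.last n ∈ s
    · rw [sr_H_last h2]
      exact hc s
    · rw [sr_H_pos h1 h2]
      exact U.add_mem (hc s) (sr_zsmul_mem _ (hU _ (hc _)))
  · rw [sr_H_neg h1]
    exact hc s

theorem sr_card {j : Fin n} {s : Finset (Fin (n + 1))} (h1 : j.castSucc ∈ s)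
    (h2 : Fin.last n ∉ s) : (insert (Fin.last n) (s.erase j.castSucc)).card = s.card := by
  rw [Finset.card_insert_of_notMem fun h => h2 (Finset.mem_of_mem_erase h),
    Finset.card_erase_add_one h1]

theorem sr_G_zero {j : Fin n} {δ : R →ₗ[D] R} {p : ℕ} {c : Finset (Fin (n + 1)) → R}
    (hc : ∀ s, s.card ≠ p → c s = 0) (s : Finset (Fin (n + 1))) (hs : s.card ≠ p) :
    sr_G j δ c s = 0 := by
  by_cases h1 : j.castSucc ∈ s
  · by_cases h2 : Fin.last n ∈ s
    · rw [sr_G_last h2]
      exact hc s hs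
    · rw [sr_G_pos h1 h2, hc s hs, hc _ (by rw [sr_card h1 h2]; exact hs), map_zero, smul_zero,
        sub_zero]
  · rw [sr_G_neg h1]
    exact hc s hs

theorem sr_H_zero {j : Fin n} {δ : R →ₗ[D] R} {p : ℕ} {c : Finset (Fin (n + 1)) → R}
    (hc : ∀ s, s.card ≠ p → c s = 0) (s : Finset (Fin (n + 1))) (hs : s.card ≠ p) :
    sr_H j δ c s = 0 := by
  by_cases h1 : j.castSucc ∈ s
  · by_cases h2 : Fin.last n ∈ s
    · rw [sr_H_last h2]
      exact hc s hs
    · rw [sr_H_pos h1 h2, hc s hs, hc _ (by rw [sr_card h1 h2]; exact hs), map_zero, smul_zero,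
        add_zero]
  · rw [sr_H_neg h1]
    exact hc s hs

/-- `kr` with integer signs -/
theorem sr_kr {N : ℕ} (x : Fin N → R) (c : Finset (Fin N) → R) (t : Finset (Fin N)) :
    kr x c t = ∑ i ∈ tᶜ, (-1 : ℤ) ^ (t.filter fun k => k < i).card • (c (insert i t) * x i) := by
  rw [kr_apply]
  refine Finset.sum_congr rfl fun i _ => ?_
  rcases Nat.even_or_odd (t.filter fun k => k < i).card with h | h
  · rw [h.neg_one_pow, h.neg_one_pow, one_mul, one_smul]
  · rw [h.neg_one_pow, h.neg_one_pow, neg_one_mul, neg_one_smul]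

/-- the sign rule -/
theorem sr_sign {j : Fin n} {t : Finset (Fin (n + 1))} (h1 : j.castSucc ∈ t)
    {i : Fin (n + 1)} (hi : i ∉ t) :
    (-1 : ℤ) ^ (t.filter fun k => k < i).card * (-1 : ℤ) ^ sr_sg j (insert i t) =
      (-1 : ℤ) ^ sr_sg j t *
        (-1 : ℤ) ^ ((insert (Fin.last n) (t.erase j.castSucc)).filter fun k => k < i).card := by
  have hij : i ≠ j.castSucc := fun h => hi (h ▸ h1)
  have e1 : ((insert (Fin.last n) (t.erase j.castSucc)).filter fun k => k < i) =
      (t.erase j.castSucc).filter fun k => k < i := by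
    rw [Finset.filter_insert, if_neg (not_lt.2 (Fin.le_last i))]
  have e2 : (t.filter fun k => k < i).card =
      ((t.erase j.castSucc).filter fun k => k < i).card + (if j.castSucc < i then 1 else 0) := by
    conv_lhs => rw [← Finset.insert_erase h1]
    rw [Finset.filter_insert]
    split_ifs with h
    · rw [Finset.card_insert_of_notMem]
      intro h'
      exact Finset.notMem_erase _ _ (Finset.mem_of_mem_filter _ h')
    · rfl
  have e3 : sr_sg j (insert i t) = sr_sg j t + 1 + (if i < j.castSucc then 1 else 0) := by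
    unfold sr_sg
    rw [Finset.card_insert_of_notMem hi, Finset.filter_insert]
    split_ifs with h
    · rw [Finset.card_insert_of_notMem fun h' => hi (Finset.mem_of_mem_filter _ h')]
      ring
    · ring
  rw [e1, e2, e3]
  rcases lt_or_gt_of_ne hij with h | h
  · rw [if_neg (not_lt.2 h.le), if_pos h]
    ring
  · rw [if_pos h, if_neg (not_lt.2 h.le)]
    ring

variable {ψ δ : R →ₗ[D] R} {x : Fin (n + 1) → R}

theorem sr_main {j : Fin n}
    (h1 : ∀ u (l : Fin n), ψ (u * x l.castSucc) = ψ u * x l.castSucc)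
    (h2 : ∀ u, ψ (u * x (Fin.last n)) = ψ u * x (Fin.last n) + ψ (δ u) * x j.castSucc)
    (h3 : ∀ u (l : Fin n), δ (u * x l.castSucc) = δ u * x l.castSucc)
    (c : Finset (Fin (n + 1)) → R) (t : Finset (Fin (n + 1))) :
    kr x (fun s => ψ (sr_G j δ c s)) t = ψ (sr_G j δ (kr x c) t) := by
  have h1' : ∀ u (i : Fin (n + 1)), i ≠ Fin.last n → ψ (u * x i) = ψ u * x i := by
    intro u i hi
    obtain ⟨l, rfl⟩ := Fin.exists_castSucc_eq.2 hi
    exact h1 u l
  have h3' : ∀ u (i : Fin (n + 1)), i ≠ Fin.last n → δ (u * x i) = δ u * x i := by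
    intro u i hi
    obtain ⟨l, rfl⟩ := Fin.exists_castSucc_eq.2 hi
    exact h3 u l
  have hjn : j.castSucc ≠ Fin.last n := (Fin.castSucc_lt_last j).ne
  by_cases hn : Fin.last n ∈ t
  · rw [sr_G_last hn, sr_kr, sr_kr, map_sum]
    refine Finset.sum_congr rfl fun i hi => ?_
    have hi' : i ≠ Fin.last n := fun h => (Finset.mem_compl.1 hi) (h ▸ hn)
    rw [sr_G_last (Finset.mem_insert_of_mem hn), map_zsmul, h1' _ _ hi']
  · have hnc : Fin.last n ∈ tᶜ := Finset.mem_compl.2 hn
    have hcard : (t.filter fun k => k < Fin.last n) = t := by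
      refine Finset.filter_true_of_mem fun k hk => ?_
      exact lt_of_le_of_ne (Fin.le_last k) fun h => hn (h ▸ hk)
    by_cases hj : j.castSucc ∈ t
    · -- `j ∈ t`
      have hcompl : (insert (Fin.last n) (t.erase j.castSucc))ᶜ =
          insert j.castSucc (tᶜ.erase (Fin.last n)) := by
        ext i
        simp only [Finset.mem_compl, Finset.mem_insert, Finset.mem_erase, not_or, not_and, ne_eq]
        constructor
        · rintro ⟨g1, g2⟩
          by_cases hij : i = j.castSucc
          · exact Or.inl hij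
          · exact Or.inr ⟨g1, g2 hij⟩
        · rintro (g1 | ⟨g1, g2⟩)
          · exact ⟨fun h => hjn (g1 ▸ h), fun h => absurd g1 h⟩
          · exact ⟨g1, fun _ => g2⟩
      have hjc : j.castSucc ∉ tᶜ.erase (Fin.last n) := fun h =>
        (Finset.mem_compl.1 (Finset.mem_of_mem_erase h)) hj
      have hins : insert j.castSucc (insert (Fin.last n) (t.erase j.castSucc)) =
          insert (Fin.last n) t := by
        rw [Finset.insert_comm, Finset.insert_erase hj]
      have hfil : ((insert (Fin.last n) (t.erase j.castSucc)).filter fun k => k < j.castSucc) =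
          t.filter fun k => k < j.castSucc := by
        rw [Finset.filter_insert, if_neg (not_lt.2 (Fin.le_last _)), Finset.filter_erase,
          Finset.erase_eq_of_notMem]
        intro h
        exact lt_irrefl _ (Finset.mem_filter.1 h).2
      have hR : ψ (sr_G j δ (kr x c) t) =
          (-1 : ℤ) ^ t.card • (ψ (c (insert (Fin.last n) t)) * x (Fin.last n)) +
          (∑ i ∈ tᶜ.erase (Fin.last n), (-1 : ℤ) ^ (t.filter fun k => k < i).card •
            (ψ (c (insert i t)) * x i) -
          ∑ i ∈ tᶜ.erase (Fin.last n), ((-1 : ℤ) ^ sr_sg j t * (-1 : ℤ) ^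
            ((insert (Fin.last n) (t.erase j.castSucc)).filter fun k => k < i).card) •
            (ψ (δ (c (insert i (insert (Fin.last n) (t.erase j.castSucc))))) * x i)) := by
        rw [sr_G_pos hj hn, map_sub, map_zsmul, sr_kr, ← Finset.add_sum_erase _ _ hnc, hcard,
          map_add, map_zsmul, h2, sr_kr, hcompl, Finset.sum_insert hjc, map_add, map_zsmul, hins,
          hfil, h3' _ _ hjn, map_add, map_zsmul, h1' _ _ hjn, map_sum, map_sum, map_sum]
        have e1 : ∑ i ∈ tᶜ.erase (Fin.last n), ψ ((-1 : ℤ) ^ (t.filter fun k => k < i).card •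
            (c (insert i t) * x i)) = ∑ i ∈ tᶜ.erase (Fin.last n),
            (-1 : ℤ) ^ (t.filter fun k => k < i).card • (ψ (c (insert i t)) * x i) := by
          refine Finset.sum_congr rfl fun i hi => ?_
          rw [map_zsmul, h1' _ _ (Finset.ne_of_mem_erase hi)]
        have e2 : ∑ i ∈ tᶜ.erase (Fin.last n), ψ (δ ((-1 : ℤ) ^
            ((insert (Fin.last n) (t.erase j.castSucc)).filter fun k => k < i).card •
            (c (insert i (insert (Fin.last n) (t.erase j.castSucc))) * x i))) =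
            ∑ i ∈ tᶜ.erase (Fin.last n), (-1 : ℤ) ^
            ((insert (Fin.last n) (t.erase j.castSucc)).filter fun k => k < i).card •
            (ψ (δ (c (insert i (insert (Fin.last n) (t.erase j.castSucc))))) * x i) := by
          refine Finset.sum_congr rfl fun i hi => ?_
          rw [map_zsmul, map_zsmul, h3' _ _ (Finset.ne_of_mem_erase hi),
            h1' _ _ (Finset.ne_of_mem_erase hi)]
        rw [e1, e2, smul_add, smul_add, smul_smul, Finset.smul_sum]
        have e3 : (-1 : ℤ) ^ sr_sg j t * (-1 : ℤ) ^ (t.filter fun k => k < j.castSucc).card =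
            (-1 : ℤ) ^ t.card := by
          unfold sr_sg
          rw [pow_add, mul_assoc, ← pow_add, ← two_mul, pow_mul, neg_one_sq, one_pow, mul_one]
        rw [e3]
        have e4 : ∑ i ∈ tᶜ.erase (Fin.last n), (-1 : ℤ) ^ sr_sg j t • (-1 : ℤ) ^
            ((insert (Fin.last n) (t.erase j.castSucc)).filter fun k => k < i).card •
            (ψ (δ (c (insert i (insert (Fin.last n) (t.erase j.castSucc))))) * x i) =
            ∑ i ∈ tᶜ.erase (Fin.last n), ((-1 : ℤ) ^ sr_sg j t * (-1 : ℤ) ^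
            ((insert (Fin.last n) (t.erase j.castSucc)).filter fun k => k < i).card) •
            (ψ (δ (c (insert i (insert (Fin.last n) (t.erase j.castSucc))))) * x i) :=
          Finset.sum_congr rfl fun i _ => smul_smul _ _ _
        rw [e4]
        abel
      rw [hR, sr_kr, ← Finset.add_sum_erase _ _ hnc, hcard,
        sr_G_last (Finset.mem_insert_self _ _), ← Finset.sum_sub_distrib]
      congr 1
      refine Finset.sum_congr rfl fun i hi => ?_
      have hi1 : i ≠ Fin.last n := Finset.ne_of_mem_erase hi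
      have hi2 : i ∉ t := Finset.mem_compl.1 (Finset.mem_of_mem_erase hi)
      have hij : i ≠ j.castSucc := fun h => hi2 (h ▸ hj)
      have hni : Fin.last n ∉ insert i t := by
        rw [Finset.mem_insert, not_or]
        exact ⟨hi1.symm, hn⟩
      rw [sr_G_pos (Finset.mem_insert_of_mem hj) hni, map_sub, map_zsmul, sub_mul, smul_sub,
        smul_mul_assoc, smul_smul, sr_sign hj hi2, Finset.erase_insert_of_ne hij,
        Finset.insert_comm]
    · -- `j ∉ t`
      have hjc : j.castSucc ∈ tᶜ.erase (Fin.last n) :=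
        Finset.mem_erase.2 ⟨hjn, Finset.mem_compl.2 hj⟩
      have hnj : Fin.last n ∉ insert j.castSucc t := by
        rw [Finset.mem_insert, not_or]
        exact ⟨hjn.symm, hn⟩
      have hsg : (-1 : ℤ) ^ (t.filter fun k => k < j.castSucc).card *
          (-1 : ℤ) ^ sr_sg j (insert j.castSucc t) = - (-1 : ℤ) ^ t.card := by
        unfold sr_sg
        rw [Finset.card_insert_of_notMem hj, Finset.filter_insert, if_neg (lt_irrefl _), pow_add,
          pow_succ, mul_comm ((-1 : ℤ) ^ t.card * -1), ← mul_assoc, ← pow_add, ← two_mul, pow_mul,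
          neg_one_sq, one_pow, one_mul, mul_neg_one]
      have hC : ∑ i ∈ (tᶜ.erase (Fin.last n)).erase j.castSucc,
          (-1 : ℤ) ^ (t.filter fun k => k < i).card • (ψ (sr_G j δ c (insert i t)) * x i) =
          ∑ i ∈ (tᶜ.erase (Fin.last n)).erase j.castSucc,
          ψ ((-1 : ℤ) ^ (t.filter fun k => k < i).card • (c (insert i t) * x i)) := by
        refine Finset.sum_congr rfl fun i hi => ?_
        have hij : i ≠ j.castSucc := Finset.ne_of_mem_erase hi
        have hi1 : i ≠ Fin.last n := Finset.ne_of_mem_erase (Finset.mem_of_mem_erase hi)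
        have hji : j.castSucc ∉ insert i t := by
          rw [Finset.mem_insert, not_or]
          exact ⟨hij.symm, hj⟩
        rw [sr_G_neg hji, map_zsmul, h1' _ _ hi1]
      rw [sr_G_neg hj, sr_kr, sr_kr, ← Finset.add_sum_erase _ _ hnc, ← Finset.add_sum_erase _ _ hjc,
        hC, ← Finset.add_sum_erase _ _ hnc, ← Finset.add_sum_erase _ _ hjc, map_add, map_add,
        map_sum, hcard, sr_G_last (Finset.mem_insert_self _ _), map_zsmul, h2,
        sr_G_pos (Finset.mem_insert_self _ _) hnj, Finset.erase_insert hj, map_zsmul,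
        h1' _ _ hjn, map_sub, map_zsmul, sub_mul, smul_sub, smul_mul_assoc, smul_smul, hsg,
        smul_add, neg_smul]
      abel

/-- the linear map `c ↦ ψ (G c)` -/
def sr_L (j : Fin n) (ψ δ : R →ₗ[D] R) :
    (Finset (Fin (n + 1)) → R) →ₗ[D] (Finset (Fin (n + 1)) → R) where
  toFun c := fun s => ψ (sr_G j δ c s)
  map_add' := by
    intro a b
    funext s
    rw [Pi.add_apply, ← map_add]
    congr 1
    by_cases h1 : j.castSucc ∈ s
    · by_cases h2 : Fin.last n ∈ s
      · rw [sr_G_last h2, sr_G_last h2, sr_G_last h2]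
        rfl
      · rw [sr_G_pos h1 h2, sr_G_pos h1 h2, sr_G_pos h1 h2, Pi.add_apply, Pi.add_apply, map_add,
          smul_add]
        abel
    · rw [sr_G_neg h1, sr_G_neg h1, sr_G_neg h1]
      rfl
  map_smul' := by
    intro k a
    funext s
    rw [Pi.smul_apply, RingHom.id_apply, ← map_smul]
    congr 1
    by_cases h1 : j.castSucc ∈ s
    · by_cases h2 : Fin.last n ∈ s
      · rw [sr_G_last h2, sr_G_last h2]
        rfl
      · rw [sr_G_pos h1 h2, sr_G_pos h1 h2, Pi.smul_apply, Pi.smul_apply, map_smul, smul_sub,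
          smul_comm]
    · rw [sr_G_neg h1, sr_G_neg h1]
      rfl

theorem sr_finrank {j : Fin n}
    (h1 : ∀ u (l : Fin n), ψ (u * x l.castSucc) = ψ u * x l.castSucc)
    (h2 : ∀ u, ψ (u * x (Fin.last n)) = ψ u * x (Fin.last n) + ψ (δ u) * x j.castSucc)
    (h3 : ∀ u (l : Fin n), δ (u * x l.castSucc) = δ u * x l.castSucc)
    {W Y : Submodule D R} (hA : ∀ u ∈ W, δ u ∈ W) (hY : ∀ u ∈ Y, δ u ∈ Y)
    (hp : ∀ u ∈ Y, ψ u ∈ Y) (hi : Function.Injective ψ) (hs : ∀ v ∈ Y, ∃ u ∈ Y, ψ u = v) (p : ℕ) :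
    finrank D (rd x W Y p) = finrank D (rd x (W.map ψ) Y p) := by
  have hinj : Function.Injective (sr_L j ψ δ) := by
    intro a b hab
    have h4 : sr_G j δ a = sr_G j δ b := by
      funext s
      exact hi (congrFun hab s)
    rw [← sr_HG j δ a, h4, sr_HG]
  have hmap : (rd x W Y p).map (sr_L j ψ δ) = rd x (W.map ψ) Y p := by
    ext c'
    rw [Submodule.mem_map]
    constructor
    · rintro ⟨c, ⟨hc, hc'⟩, rfl⟩
      refine ⟨⟨fun s hs' => ?_, fun s => ?_⟩, fun t => ?_⟩
      · change ψ (sr_G j δ c s) = 0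
        rw [sr_G_zero hc.1 s hs', map_zero]
      · exact hp _ (sr_G_mem hY hc.2 s)
      · change kr x (fun s => ψ (sr_G j δ c s)) t ∈ _
        rw [sr_main h1 h2 h3]
        exact Submodule.mem_map_of_mem (sr_G_mem hA hc' t)
    · rintro ⟨hc, hc'⟩
      choose u hu hu' using fun s => hs (c' s) (hc.2 s)
      have hΦ : sr_L j ψ δ (sr_H j δ u) = c' := by
        funext s
        change ψ (sr_G j δ (sr_H j δ u) s) = c' s
        rw [sr_GH, hu']
      refine ⟨sr_H j δ u, ⟨⟨fun s hs' => ?_, fun s => ?_⟩, fun t => ?_⟩, hΦ⟩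
      · refine sr_H_zero (fun s hs' => ?_) s hs'
        exact hi (by rw [hu', hc.1 s hs', map_zero])
      · exact sr_H_mem hY hu s
      · have h5 : ∀ t, sr_G j δ (kr x (sr_H j δ u)) t ∈ W := by
          intro t
          have h6 := hc' t
          rw [← hΦ] at h6
          change kr x (fun s => ψ (sr_G j δ (sr_H j δ u) s)) t ∈ _ at h6
          rw [sr_main h1 h2 h3] at h6
          obtain ⟨w, hw, hw'⟩ := h6
          rw [← hi hw']
          exact hw
        have h7 := sr_H_mem (j := j) hA h5 t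
        rwa [sr_HG] at h7
  rw [← hmap]
  exact (Submodule.equivMapOfInjective _ hinj _).finrank_eq

end sr

end Vale.Agent.P200.V
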