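import Vale.Agent.P200.V.SeqA
import Vale.Agent.P200.V.SeqRdA

/-!
The number of cycles does not change under `psi`.
-/

namespace Vale.Agent.P200.V

open MvPolynomial Module
open Vale.Agent.P200.B Vale.Agent.P200.G Vale.Agent.P200.L Vale.Agent.P200.M Vale.Agent.P200.W
open Vale.Agent.P200.Y

/-- `kr z (psi c) = psi (kr' c)` where `kr'` is the Koszul differential of the commuting operators
`u ↦ u x_l` (`l < n`), `u ↦ u z - (dia u) x_j`; and `kr'` is isomorphic to `kr z` by
`c' + c'' e_n ↦ c' + c'' e_n ∓ (dia c'') e_j` (`dia` commutes with `x_l`, `l < n`). -/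
theorem seq_finrank_rd {D : Type*} [DivisionRing D] {n : ℕ} (j : Fin n) (α : ℕ → D) {d p : ℕ}
    (W : Submodule D (YR D (n + 1))) (hA : ∀ u ∈ W, dia α u ∈ W) (hW : W ≤ YD D (n + 1) (d + 1)) :
    finrank D (M.rd (zv D (n + 1)) W (YD D (n + 1) d) p) =
      finrank D (M.rd (zv D (n + 1)) (W.map (psi j α)) (YD D (n + 1) d) p) := by
  have hdY : ∀ u ∈ YD D (n + 1) d, dia α u ∈ YD D (n + 1) d := by
    intro u hu m hm
    refine hu m fun h => hm ?_
    rw [dia_coeff, h, zero_mul]
  exact sr_finrank (psi_mul_castSucc j α) (psi_mul_last j α) (dia_mul_castSucc α) hA hdY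
    (fun _ hu => psi_mem_YD j α hu) (psi_injective j α) (fun _ hv => psi_surj_YD j α hv) p

end Vale.Agent.P200.V
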