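import Vale.Agent.P200.V.SeqDefs
import Vale.Agent.P200.V.Skew

/-!
Specification (statements only) of the files SeqA, SeqEx, SeqRd, SeqStep.
-/

namespace Vale.Agent.P200.V.SeqSpec

open MvPolynomial Module
open Vale.Agent.P200.B Vale.Agent.P200.G Vale.Agent.P200.L Vale.Agent.P200.M Vale.Agent.P200.W
open Vale.Agent.P200.Y

universe u

section A
variable {D : Type*} [DivisionRing D] {n : ℕ}

/-! ### file V/SeqA.lean -/

theorem psi_mul_castSucc (j : Fin n) (α : ℕ → D) (u : YR D (n + 1)) (l : Fin n) :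
    psi j α (u * zv D (n + 1) l.castSucc) = psi j α u * zv D (n + 1) l.castSucc := sorry

/-- `π_{k+1} = (z + α_k t) π_k` -/
theorem psi_mul_last (j : Fin n) (α : ℕ → D) (u : YR D (n + 1)) :
    psi j α (u * zv D (n + 1) (Fin.last n)) =
      psi j α u * zv D (n + 1) (Fin.last n) + psi j α (dia α u) * zv D (n + 1) j.castSucc := sorry

theorem dia_mul_castSucc (α : ℕ → D) (u : YR D (n + 1)) (l : Fin n) :
    dia α (u * zv D (n + 1) l.castSucc) = dia α u * zv D (n + 1) l.castSucc := sorry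

/-- `dia` does not enlarge supports -/
theorem dia_coeff (α : ℕ → D) (u : YR D (n + 1)) (m : Fin (n + 1) →₀ ℕ) :
    (dia α u).coeff m = u.coeff m * α (m (Fin.last n)) := sorry

theorem dia_monD (α : ℕ → D) (M : Set (Fin (n + 1) →₀ ℕ)) {u : YR D (n + 1)}
    (hu : u ∈ monD D M) : dia α u ∈ monD D M := sorry

theorem psi_mem_YD (j : Fin n) (α : ℕ → D) {e : ℕ} {u : YR D (n + 1)}
    (hu : u ∈ YD D (n + 1) e) : psi j α u ∈ YD D (n + 1) e := sorry

/-- the part of the highest last exponent is not changed -/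
theorem psi_coeff_top (j : Fin n) (α : ℕ → D) {e k : ℕ} {u : YR D (n + 1)}
    (hu : u ∈ monD D (y5_W n e k)) (m : Fin n →₀ ℕ) :
    (psi j α u).coeff (sn m k) = u.coeff (sn m k) := sorry

theorem psi_injective (j : Fin n) (α : ℕ → D) : Function.Injective (psi j α) := sorry

theorem psi_mem_W (j : Fin n) (α : ℕ → D) {e k : ℕ} {u : YR D (n + 1)}
    (hu : u ∈ monD D (y5_W n e k)) : psi j α u ∈ monD D (y5_W n e k) := sorry

theorem psi_surj_YD (j : Fin n) (α : ℕ → D) {e : ℕ} {v : YR D (n + 1)}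
    (hv : v ∈ YD D (n + 1) e) : ∃ u ∈ YD D (n + 1) e, psi j α u = v := sorry

/-- the same for the monomials of degree `e` with exponent of `x_i` at least `b` (`i < n`) -/
theorem psi_surj_pow (j : Fin n) (α : ℕ → D) {e b : ℕ} (i : Fin n) {v : YR D (n + 1)}
    (hv : v ∈ monD D {m | ∑ k, m k = e ∧ b ≤ m i.castSucc}) :
    ∃ u ∈ monD D {m : Fin (n + 1) →₀ ℕ | ∑ k, m k = e ∧ b ≤ m i.castSucc}, psi j α u = v := sorry

end A

/-! ### file V/SeqEx.lean -/

/-- existence of sequences.  `L` = field of fractions of the polynomial ring in variables `X_i`, `i : ZMod N`, `σ` the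
shift, `θ_i = X_i`, `D`, `i`, `T` from `exists_skew`; `b k j = ∏_{l=1}^k (θ_0 - θ_l) / ∏_{l ≠ j, 0 ≤ l ≤ k} (θ_j - θ_l)`,
`β k = - ∏_{l=1}^k (θ_0 - θ_l) / ∏_{l=2}^{k+1} (θ_1 - θ_l)`, `k < N`, `α_k = i (β_k) T` (`k < N`), `α_k = 0` (`k ≥ N`).
Then `sw α k j = i (b k j) T^j` for `k < N`, as `b (k+1) (j+1) = b k (j+1) + β_k σ(b k j)`, and for `k + 1 = N`
(`θ_N = θ_0`) the same computation gives `0` for `0 < j + 1 < N`. -/
theorem hasSeq (K : Type u) [Field K] {N : ℕ} (hN : 0 < N) : HasSeq K N := sorry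

/-! ### file V/SeqRd.lean -/

/-- `kr z (psi c) = psi (kr' c)` where `kr'` is the Koszul differential of the commuting operators
`u ↦ u x_l` (`l < n`), `u ↦ u z - (dia u) x_j`; and `kr'` is isomorphic to `kr z` by
`c' + c'' e_n ↦ c' + c'' e_n ∓ (dia c'') e_j` (`dia` commutes with `x_l`, `l < n`). -/
theorem seq_finrank_rd {D : Type*} [DivisionRing D] {n : ℕ} (j : Fin n) (α : ℕ → D) {d p : ℕ}
    (W : Submodule D (YR D (n + 1))) (hA : ∀ u ∈ W, dia α u ∈ W) (hW : W ≤ YD D (n + 1) (d + 1)) :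
    finrank D (M.rd (zv D (n + 1)) W (YD D (n + 1) d) p) =
      finrank D (M.rd (zv D (n + 1)) (W.map (psi j α)) (YD D (n + 1) d) p) := sorry

/-! ### file V/SeqStep.lean -/

/-- analogue of `Y.pw_step` (file Y/Step.lean) with `W = map psi (monD M)` instead of
`comap theta (monD M)` and `M' = inm (d + 2) W` -/
theorem seq_step {K : Type u} [Field K] {n : ℕ} {D : Type*} [DivisionRing D] [Algebra K D]
    {a : Fin (n + 1) → ℕ} (h2 : ∀ i, 1 ≤ a i) (hle : ∀ i, a i ≤ a (Fin.last n)) {α : ℕ → D}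
    (hz : ∀ k t, a (Fin.last n) ≤ k → 0 < t → t ≠ a (Fin.last n) → sw α k t = 0)
    (h1 : ∀ i, 0 < i → i < a (Fin.last n) → sw α i 1 ≠ 0) {d : ℕ}
    {M : Set (Fin (n + 1) →₀ ℕ)} (hM : PwSet (n + 1) a (d + 1) M) {i : ℕ}
    (hi : i + 1 < a (Fin.last n)) {m0 : Fin n →₀ ℕ} (hm0 : m0 ∈ layS M (i + 1)) {j : Fin n}
    (hj : m0 + Finsupp.single j 1 ∉ layS M i) :
    ∃ M' : Set (Fin (n + 1) →₀ ℕ), PwSet (n + 1) a (d + 1) M' ∧ M'.ncard = M.ncard ∧
      (∀ p, ZS K M d p ≤ ZS K M' d p) ∧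
      (∀ k, {m | m ∈ M ∧ m (Fin.last n) ≤ k}.ncard ≤ {m | m ∈ M' ∧ m (Fin.last n) ≤ k}.ncard) ∧
      {m | m ∈ M ∧ m (Fin.last n) ≤ i}.ncard < {m | m ∈ M' ∧ m (Fin.last n) ≤ i}.ncard := sorry

end Vale.Agent.P200.V.SeqSpec
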