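import Vale.Agent.P200.V.SeqA
import Vale.Agent.P200.V.SeqRd

/-! One step of the stabilisation, for every field. -/

namespace Vale.Agent.P200.V

open MvPolynomial Module
open Vale.Agent.P200.B Vale.Agent.P200.G Vale.Agent.P200.L Vale.Agent.P200.M Vale.Agent.P200.W
open Vale.Agent.P200.Y

universe u

variable {K : Type u} [Field K] {n : ℕ}

theorem sth_zs (D : Type*) [DivisionRing D] [Algebra K D] (M : Set (Fin n →₀ ℕ)) (d p : ℕ) :
    ZS K M d p = finrank D (Vale.Agent.P200.M.rd (zv D n) (monD D M) (YD D n d) p) := by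
  have h2 := finrank_rd_VD (D := D) (restrictSupport K M) (homogeneousSubmodule (Fin n) K d) p
  rw [VD_homogeneous, VD_restrictSupport] at h2
  exact h2.symm

theorem sth_finrank_map {D : Type*} [DivisionRing D] (j : Fin n) (α : ℕ → D)
    (S : Submodule D (YR D (n + 1))) : finrank D (S.map (psi j α)) = finrank D S :=
  (Submodule.equivMapOfInjective (psi j α) (psi_injective j α) S).finrank_eq.symm

theorem sth_mem_inm {D : Type*} [DivisionRing D] {B : ℕ} {W : Submodule D (YR D n)}
    {m : Fin n →₀ ℕ} (hm : (AddMonoidAlgebra.single m 1 : YR D n) ∈ W) : m ∈ inm B W := by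
  refine ⟨AddMonoidAlgebra.single m 1, hm, ?_, fun m' hm' => ?_⟩
  · rw [AddMonoidAlgebra.coeff_single, Finsupp.single_eq_same]
    exact one_ne_zero
  · rw [AddMonoidAlgebra.coeff_single, Finsupp.single_eq_of_ne]
    rintro rfl
    exact lt_irrefl _ hm'

theorem seq_step {D : Type*} [DivisionRing D] [Algebra K D]
    {a : Fin (n + 1) → ℕ} (h2 : ∀ i, 1 ≤ a i) (hle : ∀ i, a i ≤ a (Fin.last n)) {α : ℕ → D}
    (hz : ∀ k t, a (Fin.last n) ≤ k → 0 < t → t ≠ a (Fin.last n) → sw α k t = 0)
    (h1 : ∀ i, 0 < i → i < a (Fin.last n) → sw α i 1 ≠ 0) {d : ℕ}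
    {M : Set (Fin (n + 1) →₀ ℕ)} (hM : PwSet (n + 1) a (d + 1) M) {i : ℕ}
    (hi : i + 1 < a (Fin.last n)) {m0 : Fin n →₀ ℕ} (hm0 : m0 ∈ layS M (i + 1)) {j : Fin n}
    (hj : m0 + Finsupp.single j 1 ∉ layS M i) :
    ∃ M' : Set (Fin (n + 1) →₀ ℕ), PwSet (n + 1) a (d + 1) M' ∧ M'.ncard = M.ncard ∧
      (∀ p, ZS K M d p ≤ ZS K M' d p) ∧
      (∀ k, {m | m ∈ M ∧ m (Fin.last n) ≤ k}.ncard ≤ {m | m ∈ M' ∧ m (Fin.last n) ≤ k}.ncard) ∧
      {m | m ∈ M ∧ m (Fin.last n) ≤ i}.ncard < {m | m ∈ M' ∧ m (Fin.last n) ≤ i}.ncard := by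
  classical
  have hMY : monD D M ≤ YD D (n + 1) (d + 1) := fun u hu m hm => hM.1 m (hu m hm)
  set W : Submodule D (YR D (n + 1)) := (monD D M).map (psi j α) with hW
  have hWY : W ≤ YD D (n + 1) (d + 1) := by
    rintro _ ⟨u, hu, rfl⟩
    exact psi_mem_YD j α (hMY hu)
  -- the part with last exponents at most `k`
  set Mk : ℕ → Set (Fin (n + 1) →₀ ℕ) := fun k => {m | m ∈ M ∧ m (Fin.last n) ≤ k} with hMk
  set Wk : ℕ → Submodule D (YR D (n + 1)) := fun k => (monD D (Mk k)).map (psi j α) with hWk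
  have hMkW : ∀ k, Mk k ⊆ y5_W n (d + 1) k := fun k m hm => ⟨hM.1 m hm.1, hm.2⟩
  have hWW : ∀ k, ∀ u ∈ Wk k, u ∈ monD D (y5_W n (d + 1) k) := by
    rintro k _ ⟨u, hu, rfl⟩
    exact psi_mem_W j α (monD_mono (hMkW k) hu)
  have hUU : ∀ k, ∀ u ∈ Wk k, u ∈ W := by
    rintro k _ ⟨u, hu, rfl⟩
    exact ⟨u, monD_mono (fun m hm => hm.1) hu, rfl⟩
  have hrank : ∀ k, finrank D (Wk k) = (Mk k).ncard := fun k => by
    rw [hWk]
    show finrank D ((monD D (Mk k)).map (psi j α)) = _
    rw [sth_finrank_map, finrank_monD (e := d + 1) (Mk k) fun m hm => hM.1 m hm.1]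
  -- the powers
  have hpow : ∀ (l : Fin n) (m : Fin (n + 1) →₀ ℕ) (c : D), ∑ k, m k = d + 1 →
      a l.castSucc ≤ m l.castSucc → (AddMonoidAlgebra.single m c : YR D (n + 1)) ∈ W := by
    intro l m c hm hl
    obtain ⟨u, hu, hu2⟩ := psi_surj_pow (D := D) j α (e := d + 1) (b := a l.castSucc) l
      (v := AddMonoidAlgebra.single m c) (y5_single_mem
        (show m ∈ {m : Fin (n + 1) →₀ ℕ | ∑ k, m k = d + 1 ∧ a l.castSucc ≤ m l.castSucc} from
          ⟨hm, hl⟩) c)
    rw [← hu2]
    exact ⟨u, monD_mono (fun m hm => hM.2 m hm.1 ⟨l.castSucc, hm.2⟩) hu, rfl⟩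
  have hpowl : ∀ (m : Fin n →₀ ℕ) (k : ℕ), ∑ i, sn m k i = d + 1 → a (Fin.last n) ≤ k →
      (AddMonoidAlgebra.single (sn m k) 1 : YR D (n + 1)) ∈ W := by
    intro m k hm hk
    have e1 := psi_sn j α m k (1 : D)
    rw [Finset.sum_range_succ', Nat.sub_zero, zero_smul, add_zero, sw_zero_right, mul_one] at e1
    have e2 : psi j α (AddMonoidAlgebra.single (sn m k) (1 : D)) ∈ W :=
      ⟨_, y5_single_mem (hM.2 _ hm ⟨Fin.last n, by rw [sn_last]; exact hk⟩) _, rfl⟩
    rw [e1] at e2
    refine (Submodule.add_mem_iff_right W (Submodule.sum_mem _ fun t ht => ?_)).1 e2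
    have ht' : t < k := Finset.mem_range.1 ht
    by_cases h3 : t + 1 = a (Fin.last n)
    · refine hpow j _ _ ?_ ?_
      · rw [y5_deg_sn_add m j (by omega)]
        exact hm
      · rw [sn_castSucc, Finsupp.add_apply, Finsupp.smul_apply, Finsupp.single_eq_same,
          smul_eq_mul, mul_one, h3]
        exact (hle _).trans (Nat.le_add_left _ _)
    · rw [hz k (t + 1) hk (Nat.succ_pos t) h3, mul_zero, AddMonoidAlgebra.single_zero]
      exact Submodule.zero_mem _
  refine ⟨inm (d + 2) W, ⟨fun m hm => inm_subset hWY hm, ?_⟩, ?_, ?_, ?_, ?_⟩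
  · intro m hm ⟨l, hl⟩
    apply sth_mem_inm
    obtain ⟨m', k, rfl⟩ := exists_sn m
    induction l using Fin.lastCases with
    | last =>
      rw [sn_last] at hl
      exact hpowl m' k hm hl
    | cast l => exact hpow l _ _ hm hl
  · rw [ncard_inm (Nat.lt_succ_self _) hWY, hW, sth_finrank_map,
      finrank_monD (e := d + 1) M hM.1]
  · intro p
    rw [sth_zs D, sth_zs D, seq_finrank_rd j α (monD D M) (fun u hu => dia_monD α M hu) hMY]
    exact finrank_rd_inm (Nat.lt_succ_self _) hWY
  · intro k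
    have h3 := ncard_inm_le (B := d + 2) (Nat.lt_succ_self _) hWY k (Wk k) (by
      intro u hu
      refine ⟨fun m hm => ?_, u, hUU k u hu, fun m _ => rfl⟩
      by_contra h0
      have h4 := (hWW k u hu m h0).2
      omega)
    rw [hrank] at h3
    exact h3
  · -- the layer `i`
    have hdeg : ∑ k, sn m0 (i + 1) k = d + 1 := hM.1 _ hm0
    set w : YR D (n + 1) := ∑ t ∈ Finset.range (i + 1), AddMonoidAlgebra.single
        (sn (m0 + (t + 1) • Finsupp.single j 1) (i + 1 - (t + 1))) (sw α (i + 1) (t + 1)) with hw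
    have hu : psi j α (AddMonoidAlgebra.single (sn m0 (i + 1)) (1 : D)) =
        w + AddMonoidAlgebra.single (sn m0 (i + 1)) 1 := by
      rw [psi_sn, Finset.sum_range_succ', Nat.sub_zero, zero_smul, add_zero, sw_zero_right,
        mul_one, hw]
      congr 1
      refine Finset.sum_congr rfl fun t _ => ?_
      rw [one_mul]
    have hwW : w ∈ monD D (y5_W n (d + 1) i) := by
      rw [hw]
      refine Submodule.sum_mem _ fun t ht => ?_
      have ht' : t < i + 1 := Finset.mem_range.1 ht
      refine y5_single_mem (show _ ∈ y5_W n (d + 1) i from ⟨?_, ?_⟩) _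
      · rw [y5_deg_sn_add m0 j (by omega), hdeg]
      · rw [sn_last]
        omega
    have hwc : w.coeff (sn (m0 + Finsupp.single j 1) i) = sw α (i + 1) 1 := by
      rw [hw, AddMonoidAlgebra.coeff_sum, Finsupp.finsetSum_apply, Finset.sum_eq_single 0]
      · rw [AddMonoidAlgebra.coeff_single, zero_add, one_smul, Nat.add_sub_cancel,
          Finsupp.single_eq_same]
      · intro t ht ht0
        have ht' : t < i + 1 := Finset.mem_range.1 ht
        rw [AddMonoidAlgebra.coeff_single, Finsupp.single_eq_of_ne]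
        intro h
        have := (sn_injective h).2
        omega
      · intro h
        exact absurd (Finset.mem_range.2 (Nat.succ_pos i)) h
    have hwU : w ∉ Wk i := by
      rintro ⟨v, hv, hvw⟩
      have e1 := psi_coeff_top j α (monD_mono (hMkW i) hv) (m0 + Finsupp.single j 1)
      rw [hvw, hwc] at e1
      refine hj (hv (sn (m0 + Finsupp.single j 1) i) ?_).1
      rw [← e1]
      exact h1 (i + 1) (Nat.succ_pos i) hi
    -- the element with truncation `w`
    have huW : w + AddMonoidAlgebra.single (sn m0 (i + 1)) 1 ∈ W := by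
      rw [← hu]
      exact ⟨_, y5_single_mem (show sn m0 (i + 1) ∈ M from hm0) _, rfl⟩
    have hwlast : ∀ m : Fin (n + 1) →₀ ℕ, i < m (Fin.last n) → w.coeff m = 0 := by
      intro m hm
      by_contra h0
      have h4 := (hwW m h0).2
      omega
    have h3 := ncard_inm_le (B := d + 2) (Nat.lt_succ_self _) hWY i
      (Wk i ⊔ Submodule.span D {w}) (by
      intro u hu
      obtain ⟨u1, hu1, u2, hu2, rfl⟩ := Submodule.mem_sup.1 hu
      obtain ⟨b, rfl⟩ := Submodule.mem_span_singleton.1 hu2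
      refine ⟨fun m hm => ?_, u1 + b • (w + AddMonoidAlgebra.single (sn m0 (i + 1)) 1),
        Submodule.add_mem _ (hUU i u1 hu1) (Submodule.smul_mem _ _ huW), fun m hm => ?_⟩
      · have h5 : u1.coeff m = 0 := by
          by_contra h0
          have h4 := (hWW i u1 hu1 m h0).2
          omega
        rw [AddMonoidAlgebra.coeff_add, Finsupp.add_apply, AddMonoidAlgebra.coeff_smul_apply, h5,
          hwlast m hm, smul_zero, add_zero]
      · have h5 : (AddMonoidAlgebra.single (sn m0 (i + 1)) (1 : D) :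
            YR D (n + 1)).coeff m = 0 := by
          rw [AddMonoidAlgebra.coeff_single, Finsupp.single_eq_of_ne]
          rintro rfl
          rw [sn_last] at hm
          omega
        rw [AddMonoidAlgebra.coeff_add, AddMonoidAlgebra.coeff_add, Finsupp.add_apply,
          Finsupp.add_apply, AddMonoidAlgebra.coeff_smul_apply,
          AddMonoidAlgebra.coeff_smul_apply, AddMonoidAlgebra.coeff_add, Finsupp.add_apply,
          h5, add_zero])
    have hfU : Module.Finite D (Wk i) := by
      have h4 : Module.Finite D (monD D (y5_W n (d + 1) i)) := finite_monD _ fun m hm => hm.1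
      exact Submodule.finiteDimensional_of_le (hWW i)
    have hfw : Module.Finite D (Submodule.span D {w}) := FiniteDimensional.span_singleton D w
    have h4 : finrank D (Wk i) < finrank D (Wk i ⊔ Submodule.span D {w} : Submodule D _) := by
      refine Submodule.finrank_lt_finrank_of_lt (lt_of_le_of_ne le_sup_left fun h => hwU ?_)
      rw [h]
      exact Submodule.mem_sup_right (Submodule.mem_span_singleton_self w)
    rw [hrank] at h4
    exact h4.trans_le h3

end Vale.Agent.P200.V
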