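import Vale.Agent.P200.V.RkDefs

/-!
Transfer (C): the first block is separated from the other blocks.

`jm m0 m` : the monomial with block `0` part `m0 : Mon κ 1` and other blocks `m : Mon κ R`;
`i0 : PA D κ 1 → PA D κ (R + 1)` (block `0`), `tm γ` : the monomial `γ` in the other blocks;
`sl γ` : the coefficient of `tm γ`, a polynomial in block `0`; `isl γ u = i0 u * tm γ`.
`MonN κ R n` : the monomials of degree `n`.
-/

namespace Vale.Agent.P200.V

open Module

universe u

section mon
variable {κ R : ℕ}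

/-- the monomial with block `0` part `m0` and part `m` in the other blocks -/
noncomputable def jm (m0 : Mon κ 1) (m : Mon κ R) : Mon κ (R + 1) :=
  Finsupp.equivFunOnFinite.symm fun v => Fin.cases (m0 (0, v.2)) (fun g => m (g, v.2)) v.1

theorem jm_zero (m0 : Mon κ 1) (m : Mon κ R) (ε : Fin (κ + 2)) : jm m0 m (0, ε) = m0 (0, ε) := rfl

theorem jm_succ (m0 : Mon κ 1) (m : Mon κ R) (g : Fin R) (ε : Fin (κ + 2)) :
    jm m0 m (g.succ, ε) = m (g, ε) := rfl

/-- the block `0` part of a monomial -/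
noncomputable def pm0 (m : Mon κ (R + 1)) : Mon κ 1 :=
  Finsupp.equivFunOnFinite.symm fun v => m (0, v.2)

/-- the part of a monomial in the other blocks -/
noncomputable def pm1 (m : Mon κ (R + 1)) : Mon κ R :=
  Finsupp.equivFunOnFinite.symm fun v => m (v.1.succ, v.2)

theorem jm_pm (m : Mon κ (R + 1)) : jm (pm0 m) (pm1 m) = m := by
  ext ⟨g, ε⟩
  refine Fin.cases ?_ (fun g => ?_) g
  · rfl
  · rfl

theorem pm0_jm (m0 : Mon κ 1) (m : Mon κ R) : pm0 (jm m0 m) = m0 := by
  ext ⟨g, ε⟩
  have : g = 0 := Subsingleton.elim _ _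
  subst this
  rfl

theorem pm1_jm (m0 : Mon κ 1) (m : Mon κ R) : pm1 (jm m0 m) = m := by
  ext ⟨g, ε⟩
  rfl

theorem jm_add (m0 m0' : Mon κ 1) (m m' : Mon κ R) :
    jm (m0 + m0') (m + m') = jm m0 m + jm m0' m' := by
  ext ⟨g, ε⟩
  refine Fin.cases ?_ (fun g => ?_) g
  · rfl
  · rfl

theorem jm_inj {m0 m0' : Mon κ 1} {m m' : Mon κ R} (h : jm m0 m = jm m0' m') :
    m0 = m0' ∧ m = m' :=
  ⟨by rw [← pm0_jm m0 m, h, pm0_jm], by rw [← pm1_jm m0 m, h, pm1_jm]⟩

theorem mdeg_jm (m0 : Mon κ 1) (m : Mon κ R) :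
    mdeg (jm m0 m) = Fin.cons (mdeg m0 0) (mdeg m) := by
  funext g
  refine Fin.cases ?_ (fun g => ?_) g
  · rfl
  · rfl

theorem mdeg_add (m m' : Mon κ R) : mdeg (m + m') = mdeg m + mdeg m' := by
  funext g
  simp only [mdeg, Finsupp.add_apply, Pi.add_apply, Finset.sum_add_distrib]

/-- the monomials of degree `n` -/
abbrev MonN (κ R : ℕ) (n : Fin R → ℕ) : Type := {m : Mon κ R // mdeg m = n}

instance finite_monN (n : Fin R → ℕ) : Finite (MonN κ R n) := by
  have h : Set.Finite {m : Mon κ R | mdeg m = n} := by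
    refine Set.Finite.subset (Set.finite_Iic
      (Finsupp.equivFunOnFinite.symm fun v : Fin R × Fin (κ + 2) => n v.1)) ?_
    intro m hm
    rw [Set.mem_Iic]
    rintro ⟨g, ε⟩
    rw [← (show mdeg m = n from hm)]
    simp only [Finsupp.equivFunOnFinite_symm_apply_apply, mdeg]
    exact Finset.single_le_sum (f := fun v => m (g, v)) (fun _ _ => Nat.zero_le _)
      (Finset.mem_univ ε)
  exact h.to_subtype

/-- multiplication of a monomial of degree `n` by a monomial -/
noncomputable def msh (γ : Mon κ R) {n : Fin R → ℕ} (m : MonN κ R n) : MonN κ R (n + mdeg γ) :=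
  ⟨m.1 + γ, by rw [mdeg_add, m.2]⟩

end mon

section slices
variable (D : Type u) [DivisionRing D] {κ R : ℕ}

/-- the vector space of polynomials in block `0`, times a monomial in the other blocks -/
noncomputable def isl (γ : Mon κ R) : PA D κ 1 →ₗ[D] PA D κ (R + 1) where
  toFun u := AddMonoidAlgebra.ofCoeff (u.coeff.mapDomain fun m0 => jm m0 γ)
  map_add' u v := by
    apply AddMonoidAlgebra.ext
    exact Finsupp.mapDomain_add
  map_smul' k u := by
    apply AddMonoidAlgebra.ext
    exact Finsupp.mapDomain_smul _ _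

/-- the coefficient of `tm γ` -/
noncomputable def sl (γ : Mon κ R) : PA D κ (R + 1) →ₗ[D] PA D κ 1 where
  toFun u := AddMonoidAlgebra.ofCoeff (u.coeff.comapDomain (fun m0 => jm m0 γ)
    (fun _ _ _ _ h => (jm_inj h).1))
  map_add' u v := by
    apply AddMonoidAlgebra.ext
    ext m
    rfl
  map_smul' k u := by
    apply AddMonoidAlgebra.ext
    ext m
    rfl

/-- block `0` as an additive homomorphism -/
noncomputable def jmHom (κ R : ℕ) : Mon κ 1 →+ Mon κ (R + 1) where
  toFun m0 := jm m0 0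
  map_zero' := by
    ext ⟨g, ε⟩
    refine Fin.cases ?_ (fun g => ?_) g
    · rfl
    · rfl
  map_add' a b := by rw [← jm_add, add_zero]

variable (κ R)

/-- block `0` -/
noncomputable def i0 : PA D κ 1 →+* PA D κ (R + 1) :=
  AddMonoidAlgebra.mapDomainRingHom D (jmHom κ R)

variable {κ R}

/-- a monomial in the other blocks -/
noncomputable def tm (γ : Mon κ R) : PA D κ (R + 1) := AddMonoidAlgebra.single (jm 0 γ) 1

theorem sl_coeff (γ : Mon κ R) (u : PA D κ (R + 1)) (m : Mon κ 1) :
    (sl D γ u).coeff m = u.coeff (jm m γ) := rfl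

theorem isl_coeff (γ : Mon κ R) (u : PA D κ 1) (m : Mon κ 1) :
    (isl D γ u).coeff (jm m γ) = u.coeff m :=
  Finsupp.mapDomain_apply (fun _ _ h => (jm_inj h).1) _ _

theorem isl_coeff_ne (γ γ' : Mon κ R) (h : γ' ≠ γ) (u : PA D κ 1) (m : Mon κ 1) :
    (isl D γ u).coeff (jm m γ') = 0 := by
  refine Finsupp.mapDomain_of_notMem_range _ _ ?_
  rintro ⟨m', hm'⟩
  exact h (jm_inj hm').2.symm

theorem sl_isl (γ : Mon κ R) (u : PA D κ 1) : sl D γ (isl D γ u) = u := by
  apply AddMonoidAlgebra.ext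
  ext m
  rw [sl_coeff, isl_coeff]

theorem sl_isl_ne (γ γ' : Mon κ R) (h : γ' ≠ γ) (u : PA D κ 1) : sl D γ' (isl D γ u) = 0 := by
  apply AddMonoidAlgebra.ext
  ext m
  rw [sl_coeff, isl_coeff_ne D γ γ' h]
  rfl

/-- a polynomial is determined by its slices -/
theorem ext_sl {u v : PA D κ (R + 1)} (h : ∀ γ, sl D γ u = sl D γ v) : u = v := by
  apply AddMonoidAlgebra.ext
  ext m
  rw [← jm_pm m, ← sl_coeff, ← sl_coeff, h]

theorem i0_single (m : Mon κ 1) (d : D) :
    i0 D κ R (AddMonoidAlgebra.single m d) = AddMonoidAlgebra.single (jm m 0) d :=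
  AddMonoidAlgebra.mapDomain_single

theorem isl_single (γ : Mon κ R) (m : Mon κ 1) (d : D) :
    isl D γ (AddMonoidAlgebra.single m d) = AddMonoidAlgebra.single (jm m γ) d := by
  apply AddMonoidAlgebra.ext
  exact Finsupp.mapDomain_single

theorem i0_mul_tm (γ : Mon κ R) (u : PA D κ 1) : i0 D κ R u * tm D γ = isl D γ u := by
  induction u using AddMonoidAlgebra.induction_linear with
  | zero => rw [map_zero, map_zero, zero_mul]
  | add f g hf hg => rw [map_add, map_add, add_mul, hf, hg]
  | single m d =>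
    rw [i0_single, isl_single, tm, AddMonoidAlgebra.single_mul_single, ← jm_add, add_zero, zero_add,
      mul_one]

/-- `i0` and `tm` commute -/
theorem tm_mul_i0 (γ : Mon κ R) (u : PA D κ 1) : tm D γ * i0 D κ R u = isl D γ u := by
  induction u using AddMonoidAlgebra.induction_linear with
  | zero => rw [map_zero, map_zero, mul_zero]
  | add f g hf hg => rw [map_add, map_add, mul_add, hf, hg]
  | single m d =>
    rw [i0_single, isl_single, tm, AddMonoidAlgebra.single_mul_single, ← jm_add, add_zero, zero_add,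
      one_mul]

theorem tm_mul_tm (γ γ' : Mon κ R) : tm D γ * tm D γ' = tm D (γ + γ') := by
  rw [tm, tm, tm, AddMonoidAlgebra.single_mul_single, ← jm_add, add_zero, one_mul]

/-- the slices of `i0 a * u` -/
theorem sl_i0_mul (γ : Mon κ R) (a : PA D κ 1) (u : PA D κ (R + 1)) :
    sl D γ (i0 D κ R a * u) = a * sl D γ u := by
  induction u using AddMonoidAlgebra.induction_linear with
  | zero => rw [mul_zero, map_zero, mul_zero]
  | add f g hf hg => rw [mul_add, map_add, map_add, mul_add, hf, hg]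
  | single m d =>
    have h1 : (AddMonoidAlgebra.single m d : PA D κ (R + 1)) =
        i0 D κ R (AddMonoidAlgebra.single (pm0 m) d) * tm D (pm1 m) := by
      rw [i0_mul_tm, isl_single, jm_pm]
    rw [h1, ← mul_assoc, ← map_mul, i0_mul_tm, i0_mul_tm]
    by_cases h : γ = pm1 m
    · rw [h, sl_isl, sl_isl]
    · rw [sl_isl_ne _ _ _ h, sl_isl_ne _ _ _ h, mul_zero]

/-- the slices of `tm γ * u` -/
theorem sl_tm_mul (γ γ' : Mon κ R) (u : PA D κ (R + 1)) :
    sl D (γ' + γ) (tm D γ * u) = sl D γ' u := by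
  induction u using AddMonoidAlgebra.induction_linear with
  | zero => rw [mul_zero, map_zero, map_zero]
  | add f g hf hg => rw [mul_add, map_add, map_add, hf, hg]
  | single m d =>
    have h1 : (AddMonoidAlgebra.single m d : PA D κ (R + 1)) =
        tm D (pm1 m) * i0 D κ R (AddMonoidAlgebra.single (pm0 m) d) := by
      rw [tm_mul_i0, isl_single, jm_pm]
    rw [h1, ← mul_assoc, tm_mul_tm, tm_mul_i0, tm_mul_i0]
    by_cases h : γ' = pm1 m
    · rw [h, add_comm γ (pm1 m), sl_isl, sl_isl]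
    · rw [sl_isl_ne _ _ _ h, sl_isl_ne]
      intro h'
      exact h (add_left_cancel (a := γ) (by rw [add_comm γ γ', h']))

/-- the slices of `tm γ * u` which vanish -/
theorem sl_tm_mul_ne (γ γ' : Mon κ R) (h : ¬ γ ≤ γ') (u : PA D κ (R + 1)) :
    sl D γ' (tm D γ * u) = 0 := by
  induction u using AddMonoidAlgebra.induction_linear with
  | zero => rw [mul_zero, map_zero]
  | add f g hf hg => rw [mul_add, map_add, hf, hg, add_zero]
  | single m d =>
    have h1 : (AddMonoidAlgebra.single m d : PA D κ (R + 1)) =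
        tm D (pm1 m) * i0 D κ R (AddMonoidAlgebra.single (pm0 m) d) := by
      rw [tm_mul_i0, isl_single, jm_pm]
    rw [h1, ← mul_assoc, tm_mul_tm, tm_mul_i0, sl_isl_ne]
    intro h'
    exact h (h' ▸ le_self_add)

end slices

end Vale.Agent.P200.V
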