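import Vale.Agent.P200.V.Circ
import Vale.Agent.P200.V.DStep

/-!
The statement of the assembly of the levels: there are a field `K`, algebraically independent parameters
and blocks over `K` with integrality satisfying the relations of the circuit.
-/

namespace Vale.Agent.P200.V

open MvPolynomial

universe u

/-- the commutative algebra of a block -/
abbrev Blk.Q {K : Type u} [Field K] {κ : ℕ} (β : Blk K κ) : Type u :=
  MvPolynomial (Fin (κ + 2)) K ⧸ Ideal.span (Set.range β.rel)

/-- the variables in the algebra of the block -/
noncomputable def Blk.q {K : Type u} [Field K] {κ : ℕ} (β : Blk K κ) (v : Fin (κ + 2)) : β.Q :=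
  Ideal.Quotient.mk _ (X v)

namespace CData

/-- **Blocks of the circuit.**  `pos g i` is the variable which stands for the element of index `i` of the
block `g`. -/
def HasBlocks {k : Type u} [Field k] (C : CData k) : Prop :=
  ∃ (K : Type u) (_ : Field K) (_ : Algebra k K) (par : PIx → K) (κ : ℕ) (β : Fin C.R → Blk K κ)
    (pos : Fin C.R → ℕ → Fin (κ + 2)),
    IntAll K β ∧
    AlgebraicIndependent k (fun p : {p // p ∈ C.upto C.n} => par p) ∧
    ∀ g : Fin C.R, C.Spec par C.n C.n g ![(β g).q 0, (β g).q 1] fun i => (β g).q (pos g i)

end CData

end Vale.Agent.P200.V
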