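import Vale.Agent.P200.V.RkAx
import Vale.Agent.P200.E.Alg

/-!
# The small category of the presentations of one block

`sysB D β` : the objects are the submodules `N` of `(PA D κ 1)^m` with `IsGi (fun _ => β) N`.
-/

open CategoryTheory CategoryTheory.Limits

universe u

namespace Vale.Agent.P200.V.SB

open Module Vale.Agent.P200.E

variable {K : Type u} [Field K] {D : Type u} [DivisionRing D] [Algebra K D] {κ R : ℕ}

/-! ### homogeneous components -/

theorem cp_coeff (n : Fin R → ℕ) (u : PA D κ R) (m : Mon κ R) :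
    (cp D κ R n u).coeff m = if mdeg m = n then u.coeff m else 0 := by
  change (u.coeff.filter fun m => mdeg m = n) m = _
  rw [Finsupp.filter_apply]

theorem cp_mem (n : Fin R → ℕ) (u : PA D κ R) : cp D κ R n u ∈ pp D κ R n := by
  intro m hm
  rw [cp_coeff] at hm
  by_contra h
  rw [if_neg h] at hm
  exact hm rfl

theorem cp_of_mem {n : Fin R → ℕ} {u : PA D κ R} (hu : u ∈ pp D κ R n) :
    cp D κ R n u = u := by
  apply AddMonoidAlgebra.ext
  ext m
  rw [cp_coeff]
  split_ifs with h
  · rfl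
  · by_contra h'
    exact h (hu m (fun h0 => h' h0.symm))

theorem cp_of_mem_ne {n n' : Fin R → ℕ} {u : PA D κ R} (hu : u ∈ pp D κ R n) (h : n' ≠ n) :
    cp D κ R n' u = 0 := by
  apply AddMonoidAlgebra.ext
  ext m
  rw [cp_coeff, AddMonoidAlgebra.coeff_zero, Finsupp.zero_apply]
  split_ifs with h1
  · by_contra h'
    exact h (h1.symm.trans (hu m h'))
  · rfl

theorem mdeg_add (m m' : Mon κ R) : mdeg (m + m') = mdeg m + mdeg m' := by
  funext g
  rw [Pi.add_apply]
  unfold mdeg
  rw [← Finset.sum_add_distrib]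
  rfl

theorem single_mem (m : Mon κ R) (d : D) : AddMonoidAlgebra.single m d ∈ pp D κ R (mdeg m) := by
  intro m' hm'
  rw [AddMonoidAlgebra.coeff_single] at hm'
  by_contra h
  rw [Finsupp.single_eq_of_ne (fun h' => h (by rw [h']))] at hm'
  exact hm' rfl

/-- products of homogeneous polynomials -/
theorem mul_mem {d d' : Fin R → ℕ} {p q : PA D κ R} (hp : p ∈ pp D κ R d)
    (hq : q ∈ pp D κ R d') : p * q ∈ pp D κ R (d + d') := by
  classical
  intro m hm
  have h1 := AddMonoidAlgebra.support_coeff_mul_subset p q (Finsupp.mem_support_iff.2 hm)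
  obtain ⟨a, ha, b, hb, rfl⟩ := Finset.mem_add.1 h1
  rw [mdeg_add, hp a (Finsupp.mem_support_iff.1 ha), hq b (Finsupp.mem_support_iff.1 hb)]

theorem bm_monomial (g : Fin R) (m : Fin (κ + 2) →₀ ℕ) (a : K) :
    bm K D κ g (MvPolynomial.monomial m a) =
      AddMonoidAlgebra.single (Finsupp.mapDomain (fun v : Fin (κ + 2) => (g, v)) m)
        (algebraMap K D a) := by
  have h1 : AddMonoidAlgebra.mapDomainAlgHom K K
      (Finsupp.mapDomain.addMonoidHom fun v : Fin (κ + 2) => (g, v))
        (AddMonoidAlgebra.single m a) =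
      AddMonoidAlgebra.single (Finsupp.mapDomain (fun v : Fin (κ + 2) => (g, v)) m) a := by
    exact AddMonoidAlgebra.mapDomain_single
  change AddMonoidAlgebra.mapAlgHom (R := K) (Mon κ R) (Algebra.ofId K D)
    (AddMonoidAlgebra.mapDomainAlgHom K K
      (Finsupp.mapDomain.addMonoidHom fun v : Fin (κ + 2) => (g, v))
        (AddMonoidAlgebra.single m a)) = _
  rw [h1, AddMonoidAlgebra.mapAlgHom_single]
  rfl

theorem bm_X (g : Fin R) (v : Fin (κ + 2)) :
    bm K D κ g (MvPolynomial.X v) = va D κ R (g, v) := by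
  rw [MvPolynomial.X, bm_monomial, Finsupp.mapDomain_single, map_one]
  rfl

/-- the multidegree of a monomial of the block `g` -/
theorem mdeg_mapDomain (g : Fin R) (m : Fin (κ + 2) →₀ ℕ) :
    mdeg (Finsupp.mapDomain (fun v : Fin (κ + 2) => (g, v)) m : Mon κ R) =
      Pi.single g m.degree := by
  funext g'
  unfold mdeg
  by_cases h : g' = g
  · subst h
    rw [Pi.single_eq_same, Finsupp.degree_eq_sum]
    apply Finset.sum_congr rfl
    intro v _
    exact Finsupp.mapDomain_apply (fun a b hab => (Prod.ext_iff.1 hab).2) m v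
  · rw [Pi.single_eq_of_ne h]
    apply Finset.sum_eq_zero
    intro v _
    apply Finsupp.mapDomain_of_notMem_range
    rintro ⟨w, hw⟩
    exact h (Prod.ext_iff.1 hw).1.symm

/-- homogeneous polynomials over `K` in one block -/
theorem bm_mem (g : Fin R) {p : MvPolynomial (Fin (κ + 2)) K} {e : ℕ}
    (hp : p.IsHomogeneous e) : bm K D κ g p ∈ pp D κ R (Pi.single g e) := by
  rw [p.as_sum, map_sum]
  apply Submodule.sum_mem
  intro m hm
  rw [bm_monomial]
  have h1 : m.degree = e := by
    by_contra h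
    exact (MvPolynomial.mem_support_iff.1 hm) (hp.coeff_eq_zero h)
  have h2 := single_mem (Finsupp.mapDomain (fun v : Fin (κ + 2) => (g, v)) m : Mon κ R)
    (algebraMap K D (MvPolynomial.coeff m p))
  rw [mdeg_mapDomain, h1] at h2
  exact h2

theorem bm_rel_mem (β : Fin R → Blk K κ) (g : Fin R) (i : Fin κ) :
    bm K D κ g ((β g).rel i) ∈ pp D κ R (Pi.single g ((β g).e i)) := by
  apply bm_mem
  unfold Blk.rel
  exact (MvPolynomial.isHomogeneous_X_pow _ _).sub ((β g).hom i)

section vec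
variable {s : ℕ}

/-- every vector is the sum of its components -/
theorem sum_cvi (u : Fin s → PA D κ R) :
    ∃ S : Finset (Fin R → ℕ), u = ∑ n ∈ S, cvi D κ R (Fin s) n u := by
  classical
  refine ⟨Finset.univ.biUnion fun i => (u i).coeff.support.image mdeg, ?_⟩
  funext i
  apply AddMonoidAlgebra.ext
  ext m
  rw [Finset.sum_apply]
  have h1 : ∀ n, (cvi D κ R (Fin s) n u i).coeff m = if mdeg m = n then (u i).coeff m else 0 :=
    fun n => cp_coeff n (u i) m
  rw [AddMonoidAlgebra.coeff_sum, Finsupp.finsetSum_apply, Finset.sum_congr rfl fun n _ => h1 n,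
    Finset.sum_ite_eq]
  split_ifs with h
  · rfl
  · by_contra h'
    apply h
    rw [Finset.mem_biUnion]
    exact ⟨i, Finset.mem_univ _, Finset.mem_image_of_mem _ (Finsupp.mem_support_iff.2 h')⟩

theorem sum_cp (u : PA D κ R) : ∃ S : Finset (Fin R → ℕ), u = ∑ n ∈ S, cp D κ R n u := by
  obtain ⟨S, hS⟩ := sum_cvi (fun _ : Fin 1 => u)
  refine ⟨S, ?_⟩
  have h := congrFun hS 0
  rw [Finset.sum_apply] at h
  exact h

theorem cvi_of_mem {n : Fin R → ℕ} {u : Fin s → PA D κ R} (hu : u ∈ pvi D κ R (Fin s) n) :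
    cvi D κ R (Fin s) n u = u := funext fun i => cp_of_mem (hu i)

theorem cvi_of_mem_ne {n n' : Fin R → ℕ} {u : Fin s → PA D κ R}
    (hu : u ∈ pvi D κ R (Fin s) n) (h : n' ≠ n) : cvi D κ R (Fin s) n' u = 0 :=
  funext fun i => cp_of_mem_ne (hu i) h

theorem cvi_mem_of {N : Submodule (PA D κ R) (Fin s → PA D κ R)}
    {u : Fin s → PA D κ R} {n : Fin R → ℕ} (hu : u ∈ N) (hn : u ∈ pvi D κ R (Fin s) n)
    (n' : Fin R → ℕ) : cvi D κ R (Fin s) n' u ∈ N := by
  by_cases h : n' = n
  · subst h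
    rwa [cvi_of_mem hn]
  · rw [cvi_of_mem_ne hn h]
    exact N.zero_mem

/-- a submodule generated by homogeneous vectors is homogeneous -/
theorem span_hom {S : Set (Fin s → PA D κ R)} (hS : ∀ u ∈ S, ∃ n, u ∈ pvi D κ R (Fin s) n) :
    ∀ u ∈ Submodule.span (PA D κ R) S, ∀ n,
      cvi D κ R (Fin s) n u ∈ Submodule.span (PA D κ R) S := by
  intro u hu
  induction hu using Submodule.span_induction with
  | mem x hx =>
    obtain ⟨n, hn⟩ := hS x hx
    exact cvi_mem_of (Submodule.subset_span hx) hn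
  | zero =>
    intro n
    rw [map_zero]
    exact Submodule.zero_mem _
  | add a b _ _ ha hb =>
    intro n
    rw [map_add]
    exact Submodule.add_mem _ (ha n) (hb n)
  | smul a x _ hx =>
    intro n
    obtain ⟨T, hT⟩ := sum_cvi x
    obtain ⟨T', hT'⟩ := sum_cp a
    rw [hT, hT', Finset.sum_smul, map_sum]
    apply Submodule.sum_mem
    intro n1 _
    rw [Finset.smul_sum, map_sum]
    apply Submodule.sum_mem
    intro n2 _
    exact cvi_mem_of (Submodule.smul_mem _ _ (hx n2))
      (fun i => mul_mem (cp_mem n1 a) (cp_mem n2 (x i))) n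

theorem isGi_sup_span {β : Fin R → Blk K κ} {N : Submodule (PA D κ R) (Fin s → PA D κ R)}
    (h : IsGi β N) {S : Set (Fin s → PA D κ R)}
    (hS : ∀ u ∈ S, ∃ n, u ∈ pvi D κ R (Fin s) n) :
    IsGi β (N ⊔ Submodule.span _ S) := by
  refine ⟨?_, fun g i w => Submodule.mem_sup_left (h.rel g i w)⟩
  intro u hu n
  obtain ⟨a, ha, b, hb, rfl⟩ := Submodule.mem_sup.1 hu
  rw [map_add]
  exact Submodule.add_mem_sup (h.hom a ha n) (span_hom hS b hb n)

theorem isGi_N0 (β : Fin R → Blk K κ) : IsGi β (N0 D β s) := by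
  rw [isGi_iff]
  refine ⟨?_, fun g i j => Submodule.subset_span ⟨g, i, j, rfl⟩⟩
  have h1 : ∀ u ∈ {u : Fin s → PA D κ R |
      ∃ g i j, u = Pi.single j (bm K D κ g ((β g).rel i))}, ∃ n, u ∈ pvi D κ R (Fin s) n := by
    rintro u ⟨g, i, j, rfl⟩
    refine ⟨Pi.single g ((β g).e i), fun j' => ?_⟩
    by_cases h : j' = j
    · subst h
      rw [Pi.single_eq_same]
      exact bm_rel_mem β g i
    · rw [Pi.single_eq_of_ne h]
      exact Submodule.zero_mem _
  exact fun u hu n => span_hom h1 u hu n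

end vec

/-! ### the category -/

theorem const_mem {s : ℕ} (v : Fin s → D) :
    cst κ R v ∈ pvi D κ R (Fin s) 0 := by
  intro i
  have h : mdeg (0 : Mon κ R) = 0 := by
    funext g
    simp [mdeg]
  have h1 := single_mem (0 : Mon κ R) (v i)
  rw [h] at h1
  exact h1

/-- **the small category of the presentations of one block** -/
noncomputable def sysB (D : Type u) [DivisionRing D] [Algebra K D] (β : Blk K κ) :
    Sys D (PA D κ 1) where
  C := AddMonoidAlgebra.singleZeroRingHom
  good m N := IsGi (fun _ : Fin 1 => β) N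
  good_sup m k N v hN := by
    apply isGi_sup_span hN
    rintro u ⟨i, rfl⟩
    exact ⟨0, const_mem (v i)⟩
  good_prod m m' N N' hN hN' := by
    refine ⟨?_, ?_⟩
    · intro u hu n
      exact ⟨hN.hom _ hu.1 n, hN'.hom _ hu.2 n⟩
    · intro g i w
      exact ⟨hN.rel g i _, hN'.rel g i _⟩

theorem sysB_C (β : Blk K κ) (d : D) : (sysB D β).C d = AddMonoidAlgebra.single 0 d := rfl

theorem Ob.kill {β : Blk K κ} (Z : Ob (sysB D β)) (i : Fin κ) (z : Z.M) :
    bm K D κ (0 : Fin 1) (β.rel i) • z = 0 := by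
  obtain ⟨p, rfl⟩ := Z.N.mkQ_surjective z
  rw [← map_smul]
  exact (Submodule.Quotient.mk_eq_zero _).2 (Z.h.rel 0 i p)

theorem N0_kill {β : Blk K κ} (Z : Ob (sysB D β)) {s : ℕ} (z : Fin s → Z.M)
    (p : Fin s → PA D κ 1) (hp : p ∈ N0 D (fun _ : Fin 1 => β) s) : ∑ j, p j • z j = 0 := by
  induction hp using Submodule.span_induction with
  | mem x hx =>
    obtain ⟨g, i, j, rfl⟩ := hx
    apply Finset.sum_eq_zero
    intro j' _
    by_cases h : j' = j
    · subst h
      rw [Pi.single_eq_same]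
      have hg : g = 0 := Subsingleton.elim _ _
      subst hg
      exact Ob.kill Z i (z j')
    · rw [Pi.single_eq_of_ne h, zero_smul]
  | zero => simp
  | add a b _ _ ha hb =>
    have h : ∀ j, (a + b) j • z j = a j • z j + b j • z j := fun j => add_smul _ _ _
    rw [Finset.sum_congr rfl fun j _ => h j, Finset.sum_add_distrib, ha, hb, add_zero]
  | smul c a _ ha =>
    have h : ∀ j, (c • a) j • z j = c • (a j • z j) := fun j => mul_smul _ _ _
    rw [Finset.sum_congr rfl fun j _ => h j, ← Finset.smul_sum, ha, smul_zero]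

/-- the free object of rank one -/
noncomputable def free1 (D : Type u) [DivisionRing D] [Algebra K D] (β : Blk K κ) :
    Ob.Free1 (sysB D β) where
  N := N0 D (fun _ : Fin 1 => β) 1
  h := isGi_N0 _
  kill Z p hp z := by
    have h := N0_kill Z (fun _ : Fin 1 => z) p hp
    rwa [Fin.sum_univ_one] at h

/-- the rank data -/
noncomputable def rkD {β : Blk K κ} (h : RkAx D β) : Ob.RkData (sysB D β) where
  rk X := Classical.choose (h.ex X.m X.N ((isGi_iff _).1 X.h))
  rk_coker {X Y} f := by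
    choose w hw using fun i => Ob.lin_cst f (Pi.single i 1)
    refine h.coker X.m Y.m X.N Y.N w ((isGi_iff _).1 X.h) ((isGi_iff _).1 Y.h) ?_ _ _ _
      (Classical.choose_spec (h.ex X.m X.N ((isGi_iff _).1 X.h)))
      (Classical.choose_spec (h.ex Y.m Y.N ((isGi_iff _).1 Y.h))) ?_
    · intro p hp
      have h1 : Ob.lin f (X.N.mkQ p) = 0 := by
        have : X.N.mkQ p = 0 := (Submodule.Quotient.mk_eq_zero _).2 hp
        rw [this, map_zero]
      rw [Ob.mkQ_eq_sum, map_sum] at h1
      have h2 : Y.N.mkQ (cmat κ 1 w p) = 0 := by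
        rw [← h1, cmat, Fintype.linearCombination_apply, map_sum]
        refine Finset.sum_congr rfl fun i _ => ?_
        rw [map_smul, map_smul, hw]
        rfl
      exact (Submodule.Quotient.mk_eq_zero Y.N).1 h2
    · have h1 := Classical.choose_spec (h.ex (Ob.coker f).m (Ob.coker f).N
        ((isGi_iff _).1 (Ob.coker f).h))
      have h2 := Ob.rangeSub_eq f w hw
      have h3 : Y.N ⊔ Submodule.span (PA D κ 1) (Set.range fun i => cst κ 1 (w i)) =
          Ob.rangeSub f := h2.symm
      rw [h3]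
      exact h1
  rk_dsum X Y := by
    have h1 := h.prod X.m Y.m X.N Y.N ((isGi_iff _).1 X.h) ((isGi_iff _).1 Y.h) _ _
      (Classical.choose_spec (h.ex X.m X.N ((isGi_iff _).1 X.h)))
      (Classical.choose_spec (h.ex Y.m Y.N ((isGi_iff _).1 Y.h)))
    exact IsRk.unique (Classical.choose_spec (h.ex (Ob.dsum X Y).m (Ob.dsum X Y).N
        ((isGi_iff _).1 (Ob.dsum X Y).h))) h1
  rk_top X hX := by
    have h1 := Classical.choose_spec (h.ex X.m X.N ((isGi_iff _).1 X.h))
    refine IsRk.unique h1 ?_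
    rw [hX]
    exact h.top X.m

theorem rkD_spec {β : Blk K κ} (h : RkAx D β) (X : Ob (sysB D β)) :
    IsRk β X.N ((rkD h).rk X) := Classical.choose_spec (h.ex X.m X.N ((isGi_iff _).1 X.h))

theorem rkD_eq {β : Blk K κ} (h : RkAx D β) (X : Ob (sysB D β)) {k : ℕ} (hk : IsRk β X.N k) :
    (rkD h).rk X = k := IsRk.unique (rkD_spec h X) hk

theorem rk_O {β : Blk K κ} (h : RkAx D β) : (rkD h).rk (free1 D β).O = 1 :=
  rkD_eq h _ h.one

end Vale.Agent.P200.V.SB
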