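import Vale.Agent.P200.V.TgtTheta
import Vale.Agent.P200.M.Degen
import Vale.Agent.P200.B.Lpp

/-!
Linear forms `ξ_i` over a division ring, commuting in the polynomial ring, such that the left ideal
generated by them contains all forms of large degree, have independent coefficient rows: the
number of monomials in fewer variables grows too slowly.
-/

namespace Vale.Agent.P200.V

open MvPolynomial Module
open Vale.Agent.P200.B Vale.Agent.P200.G Vale.Agent.P200.L Vale.Agent.P200.M

/-- growth of the number of monomials -/
theorem tg_growth (m C : ℕ) : C * m.multichoose (m * C + 1) < (m + 1).multichoose (m * C + 1) := by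
  rcases Nat.eq_zero_or_pos m with rfl | hm
  · simp
  · obtain ⟨p, rfl⟩ := Nat.exists_eq_add_of_le' hm
    rw [Nat.multichoose_eq, Nat.multichoose_eq]
    generalize ht : (p + 1) * C + 1 = t
    have e1 : p + 1 + t - 1 = p + t := by omega
    have e2 : p + 1 + 1 + t - 1 = p + t + 1 := by omega
    rw [e1, e2]
    have h1 : (p + t).choose t = (p + t).choose p := by
      rw [← Nat.choose_symm (Nat.le_add_right p t)]
      congr 1
      omega
    have h2 : (p + t + 1).choose t = (p + t + 1).choose (p + 1) := by
      have h3 : p + 1 ≤ p + t + 1 := by omega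
      rw [← Nat.choose_symm h3]
      congr 1
      omega
    have h3 := Nat.add_one_mul_choose_eq (p + t) p
    rw [h1, h2]
    have h4 : 0 < (p + t).choose p := Nat.choose_pos (Nat.le_add_right p t)
    have h5 : (p + 1) * (C * (p + t).choose p) < (p + 1) * (p + t + 1).choose (p + 1) := by
      rw [mul_comm (p + 1) ((p + t + 1).choose (p + 1)), ← h3]
      have h6 : (p + 1) * (C * (p + t).choose p) = ((p + 1) * C) * (p + t).choose p := by ring
      rw [h6]
      exact Nat.mul_lt_mul_of_pos_right (by omega) h4
    exact Nat.lt_of_mul_lt_mul_left h5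

theorem tg_multichoose_mono (m : ℕ) {s t : ℕ} (h : s ≤ t) :
    (m + 1).multichoose s ≤ (m + 1).multichoose t := by
  rw [Nat.multichoose_eq, Nat.multichoose_eq]
  have e1 : ∀ s, m + 1 + s - 1 = m + s := fun s => by omega
  have e2 : ∀ s, (m + s).choose s = (m + s).choose m := by
    intro s
    rw [← Nat.choose_symm (Nat.le_add_right m s)]
    congr 1
    omega
  rw [e1, e1, e2, e2]
  exact Nat.choose_le_choose m (by omega)

section ind

variable {D : Type*} [DivisionRing D] {n : ℕ}

theorem tg_monD_eq (d : ℕ) : YD D n d = monD D {m : Fin n →₀ ℕ | ∑ i, m i = d} := rfl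

theorem tg_mem_antidiag {d : ℕ} {m : Fin n →₀ ℕ} :
    m ∈ (Finset.univ : Finset (Fin n)).finsuppAntidiag d ↔ ∑ i, m i = d := by
  rw [Finset.mem_finsuppAntidiag]
  exact ⟨fun h => h.1, fun h => ⟨h, Finset.subset_univ _⟩⟩

theorem tg_finrank_YD (d : ℕ) : finrank D (YD D n d) = n.multichoose d := by
  rw [tg_monD_eq, finrank_monD (e := d) {m : Fin n →₀ ℕ | ∑ i, m i = d} fun m hm => hm]
  have h1 : {m : Fin n →₀ ℕ | ∑ i, m i = d} =
      (((Finset.univ : Finset (Fin n)).finsuppAntidiag d : Finset (Fin n →₀ ℕ)) :
        Set (Fin n →₀ ℕ)) := by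
    ext m
    rw [Finset.mem_coe, tg_mem_antidiag]
    exact Iff.rfl
  rw [h1, Set.ncard_coe_finset, Finset.card_finsuppAntidiag_nat_eq_multichoose, Finset.card_univ,
    Fintype.card_fin]

/-- forms of large degree are left combinations of the `ξ_i` -/
def TgGen (E : Fin n → Fin n → D) (N : ℕ) : Prop :=
  ∀ d, N ≤ d → ∀ u ∈ YD D n (d + 1), ∃ w : Fin n → YR D n, (∀ i, w i ∈ YD D n d) ∧
    u = ∑ i, w i * M.lin (E i)

/-- the finite generating set of the forms of degree `N + t` -/
noncomputable def tgSet [DecidableEq (YR D n)] (E : Fin n → Fin n → D) (k : Fin n) (N t : ℕ) :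
    Finset (YR D n) :=
  ((Finset.univ : Finset (Fin n)).finsuppAntidiag N ×ˢ
    ((Finset.univ : Finset (Fin n)).erase k).finsuppAntidiag t).image
      fun p => AddMonoidAlgebra.single p.1 1 * xim E p.2

theorem tg_ind (E : Fin n → Fin n → D) (hc : LinComm E) (N : ℕ) (hN : TgGen E N) :
    LinearIndependent D E := by
  classical
  rw [Fintype.linearIndependent_iff]
  intro c hc0 k
  by_contra hk
  -- one form is a combination of the others
  obtain ⟨b, hb⟩ : ∃ b : Fin n → D, (M.lin (E k) : YR D n) =
      ∑ i ∈ Finset.univ.erase k, AddMonoidAlgebra.single 0 (b i) * M.lin (E i) := by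
    refine ⟨fun i => -((c k)⁻¹ * c i), ?_⟩
    have h1 : ∀ l, ∑ i, c i * E i l = 0 := by
      intro l
      have h2 := congrFun hc0 l
      rw [Finset.sum_apply] at h2
      exact h2
    have h2 : ∀ i (a : D), (AddMonoidAlgebra.single 0 a * M.lin (E i) : YR D n) =
        ∑ l, AddMonoidAlgebra.single (Finsupp.single l 1) (a * E i l) := by
      intro i a
      unfold M.lin
      rw [Finset.mul_sum]
      refine Finset.sum_congr rfl fun l _ => ?_
      rw [AddMonoidAlgebra.single_mul_single, zero_add]
    rw [Finset.sum_congr rfl fun i _ => h2 i _, Finset.sum_comm]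
    unfold M.lin
    refine Finset.sum_congr rfl fun l _ => ?_
    have h3 : ∑ i ∈ Finset.univ.erase k, -((c k)⁻¹ * c i) * E i l = E k l := by
      have h4 := h1 l
      rw [← Finset.add_sum_erase _ _ (Finset.mem_univ k)] at h4
      have h5 : ∑ i ∈ Finset.univ.erase k, c i * E i l = -(c k * E k l) :=
        eq_neg_of_add_eq_zero_right h4
      have h6 : ∑ i ∈ Finset.univ.erase k, -((c k)⁻¹ * c i) * E i l =
          -((c k)⁻¹ * ∑ i ∈ Finset.univ.erase k, c i * E i l) := by
        rw [Finset.mul_sum, ← Finset.sum_neg_distrib]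
        refine Finset.sum_congr rfl fun i _ => ?_
        rw [neg_mul, mul_assoc]
      rw [h6, h5, mul_neg, neg_neg, ← mul_assoc, inv_mul_cancel₀ hk, one_mul]
    rw [← h3]
    exact map_sum (AddMonoidAlgebra.singleAddHom (Finsupp.single l 1)) _ _
  -- generation without the form `k`
  have hgen : ∀ d, N ≤ d → ∀ u ∈ YD D n (d + 1), ∃ w : Fin n → YR D n,
      (∀ i, w i ∈ YD D n d) ∧ u = ∑ i ∈ Finset.univ.erase k, w i * M.lin (E i) := by
    intro d hd u hu
    obtain ⟨w, hw, rfl⟩ := hN d hd u hu
    refine ⟨fun i => w i + w k * AddMonoidAlgebra.single 0 (b i), fun i => ?_, ?_⟩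
    · refine Submodule.add_mem _ (hw i) ?_
      have h1 := mul_mem_YD (hw k) (m4_single_mem (n := n) (d := 0) (m := 0) (by simp) (b i))
      rwa [add_zero] at h1
    · rw [← Finset.sum_erase_add _ _ (Finset.mem_univ k), hb, Finset.mul_sum,
        ← Finset.sum_add_distrib]
      refine Finset.sum_congr rfl fun i _ => ?_
      rw [add_mul, mul_assoc]
  -- the generating sets
  have hspan : ∀ t, YD D n (N + t) ≤ Submodule.span D (tgSet E k N t : Set (YR D n)) := by
    intro t
    induction t with
    | zero =>
      intro u hu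
      rw [add_zero] at hu
      rw [m4_sum_single u]
      refine Submodule.sum_mem _ fun m hm => ?_
      have h1 : (AddMonoidAlgebra.single m (u.coeff m) : YR D n) =
          u.coeff m • (AddMonoidAlgebra.single m 1 * xim E 0) := by
        rw [m4_xim_zero, mul_one, AddMonoidAlgebra.smul_single', mul_one]
      rw [h1]
      refine Submodule.smul_mem _ _ (Submodule.subset_span ?_)
      rw [Finset.mem_coe, tgSet, Finset.mem_image]
      refine ⟨(m, 0), ?_, rfl⟩
      rw [Finset.mem_product]
      refine ⟨tg_mem_antidiag.2 (hu m (Finsupp.mem_support_iff.1 hm)), ?_⟩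
      rw [Finset.mem_finsuppAntidiag]
      exact ⟨by simp, by simp⟩
    | succ t ih =>
      intro u hu
      obtain ⟨w, hw, rfl⟩ := hgen (N + t) (by omega) u hu
      refine Submodule.sum_mem _ fun i hi => ?_
      have h1 : ∀ v ∈ Submodule.span D (tgSet E k N t : Set (YR D n)),
          v * M.lin (E i) ∈ Submodule.span D (tgSet E k N (t + 1) : Set (YR D n)) := by
        intro v hv
        induction hv using Submodule.span_induction with
        | mem v hv =>
          rw [Finset.mem_coe, tgSet, Finset.mem_image] at hv
          obtain ⟨⟨β, α⟩, hp, rfl⟩ := hv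
          rw [Finset.mem_product] at hp
          refine Submodule.subset_span ?_
          rw [Finset.mem_coe, tgSet, Finset.mem_image]
          refine ⟨(β, α + Finsupp.single i 1), ?_, ?_⟩
          · rw [Finset.mem_product]
            refine ⟨hp.1, ?_⟩
            have h2 := Finset.mem_finsuppAntidiag.1 hp.2
            rw [Finset.mem_finsuppAntidiag]
            constructor
            · have h3 : ∑ j ∈ Finset.univ.erase k, (Finsupp.single i 1 : Fin n →₀ ℕ) j = 1 := by
                rw [Finset.sum_eq_single_of_mem i hi, Finsupp.single_eq_same]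
                intro j _ hj
                exact Finsupp.single_eq_of_ne hj
              have h4 : ∑ j ∈ Finset.univ.erase k, α j = t := h2.1
              change ∑ j ∈ Finset.univ.erase k, (α + Finsupp.single i 1 : Fin n →₀ ℕ) j = t + 1
              rw [Finset.sum_congr rfl fun j _ => Finsupp.add_apply α (Finsupp.single i 1) j,
                Finset.sum_add_distrib, h3, h4]
            · refine (Finsupp.support_add).trans (Finset.union_subset h2.2 ?_)
              refine Finsupp.support_single_subset.trans ?_
              rw [Finset.singleton_subset_iff]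
              exact hi
          · rw [tg_xim_add E hc, mul_assoc]
        | zero =>
          rw [zero_mul]
          exact Submodule.zero_mem _
        | add x y _ _ hx hy =>
          rw [add_mul]
          exact Submodule.add_mem _ hx hy
        | smul r x _ hx =>
          rw [smul_mul_assoc]
          exact Submodule.smul_mem _ _ hx
      exact h1 _ (ih (hw i))
  -- counting
  obtain ⟨m, rfl⟩ : ∃ m, n = m + 1 := ⟨n - 1, by have := k.pos; omega⟩
  set C := ((Finset.univ : Finset (Fin (m + 1))).finsuppAntidiag N).card with hC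
  have h1 := tg_growth m C
  have h2 : finrank D (YD D (m + 1) (N + (m * C + 1))) ≤ (tgSet E k N (m * C + 1)).card := by
    refine (Submodule.finrank_mono (hspan (m * C + 1))).trans ?_
    exact finrank_span_finset_le_card _
  have h3 : (tgSet E k N (m * C + 1)).card ≤ C * m.multichoose (m * C + 1) := by
    refine Finset.card_image_le.trans ?_
    rw [Finset.card_product, Finset.card_finsuppAntidiag_nat_eq_multichoose
      (s := (Finset.univ : Finset (Fin (m + 1))).erase k), Finset.card_erase_of_mem
      (Finset.mem_univ k), Finset.card_univ, Fintype.card_fin, Nat.add_sub_cancel]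
  rw [tg_finrank_YD] at h2
  have h4 := tg_multichoose_mono m (show m * C + 1 ≤ N + (m * C + 1) by omega)
  omega

end ind

section gen

variable {K : Type*} [Field K] {D : Type*} [DivisionRing D] [Algebra K D] {n : ℕ}

/-- left combinations of the `ξ_i` with coefficients of degree `d` -/
def tgComb (E : Fin n → Fin n → D) (d : ℕ) : Submodule D (YR D n) where
  carrier := {u | ∃ w : Fin n → YR D n, (∀ i, w i ∈ YD D n d) ∧ u = ∑ i, w i * M.lin (E i)}
  add_mem' := by
    rintro _ _ ⟨w, hw, rfl⟩ ⟨w', hw', rfl⟩
    refine ⟨fun i => w i + w' i, fun i => Submodule.add_mem _ (hw i) (hw' i), ?_⟩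
    rw [← Finset.sum_add_distrib]
    exact Finset.sum_congr rfl fun i _ => (add_mul _ _ _).symm
  zero_mem' := ⟨fun _ => 0, fun _ => Submodule.zero_mem _, by simp⟩
  smul_mem' := by
    rintro r _ ⟨w, hw, rfl⟩
    refine ⟨fun i => r • w i, fun i => Submodule.smul_mem _ _ (hw i), ?_⟩
    rw [Finset.smul_sum]
    exact Finset.sum_congr rfl fun i _ => (smul_mul_assoc _ _ _).symm

theorem tg_bD_mem {e : ℕ} {v : MvPolynomial (Fin n) K} (hv : v.IsHomogeneous e) :
    bD D v ∈ YD D n e := by
  rw [← VD_homogeneous (K := K)]
  exact Submodule.subset_span ⟨v, hv, rfl⟩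

/-- the relations give all forms of large degree -/
theorem tg_gen (a : Fin n → ℕ) (ha : ∀ i, 1 ≤ a i) (E : Fin n → Fin n → D)
    (G : Fin n → MvPolynomial (Fin n) K) (hG : ∀ i, (G i).IsHomogeneous (a i))
    (hprim : IsMPrimary (Ideal.span (Set.range G)))
    (hrel : ∀ i, (bD D (G i) : YR D n) ∈ tgComb E (a i - 1)) : ∃ N, TgGen E N := by
  obtain ⟨N, hN⟩ := hprim
  refine ⟨N, fun d hd u hu => ?_⟩
  -- the polynomials over `K` which are combinations
  let W : Submodule K (MvPolynomial (Fin n) K) :=
    { carrier := {v | bD D v ∈ tgComb E d}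
      add_mem' := by
        intro v v' hv hv'
        change bD D (v + v') ∈ tgComb E d
        rw [map_add]
        exact Submodule.add_mem _ hv hv'
      zero_mem' := by
        change bD D 0 ∈ tgComb E d
        rw [map_zero]
        exact Submodule.zero_mem _
      smul_mem' := by
        intro r v hv
        change bD D (r • v) ∈ tgComb E d
        rw [bD_smul]
        exact Submodule.smul_mem _ _ hv }
  have hW : piece (Ideal.span (Set.range G)) (d + 1) ≤ W := by
    refine piece_span_le ?_
    rintro _ ⟨i, rfl⟩ w
    change bD D (homogeneousComponent (d + 1) (w * G i)) ∈ tgComb E d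
    rw [mul_comm]
    rcases lt_or_ge (d + 1) (a i) with hlt | hge
    · rw [comp_mul_of_lt (hG i) w hlt, map_zero]
      exact Submodule.zero_mem _
    · obtain ⟨e, he⟩ := Nat.exists_eq_add_of_le' hge
      rw [he, comp_mul_add (hG i), mul_comm, map_mul]
      obtain ⟨v, hv, hv'⟩ := hrel i
      rw [hv', Finset.mul_sum]
      refine ⟨fun j => bD D (homogeneousComponent e w) * v j, fun j => ?_, ?_⟩
      · have h1 := mul_mem_YD (tg_bD_mem (D := D) (homogeneousComponent_isHomogeneous e w)) (hv j)
        have h2 : e + (a i - 1) = d := by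
          have := ha i
          omega
        rwa [h2] at h1
      · exact Finset.sum_congr rfl fun j _ => (mul_assoc _ _ _).symm
  have hall : VD D (homogeneousSubmodule (Fin n) K (d + 1)) ≤ tgComb E d := by
    refine Submodule.span_le.2 ?_
    rintro _ ⟨v, hv, rfl⟩
    exact hW ⟨hN (d + 1) (by omega) v hv, hv⟩
  rw [VD_homogeneous] at hall
  exact hall hu

end gen

end Vale.Agent.P200.V
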