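import Vale.Agent.P200.M.Theta

/-!
The left linear bijection `z ^ m ↦ ξ ^ m` for linear forms `ξ_i` over a division ring which commute
as elements of the polynomial ring (`M/Theta.lean` assumes that the coefficients commute).
-/

namespace Vale.Agent.P200.V

open MvPolynomial Module
open Vale.Agent.P200.B Vale.Agent.P200.G Vale.Agent.P200.L Vale.Agent.P200.M

variable {D : Type*} [DivisionRing D] {n : ℕ}

/-- the forms commute in the polynomial ring -/
def LinComm (E : Fin n → Fin n → D) : Prop :=
  ∀ i j, (M.lin (E i) * M.lin (E j) : YR D n) = M.lin (E j) * M.lin (E i)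

theorem tg_xim_add (E : Fin n → Fin n → D) (hc : LinComm E) (m : Fin n →₀ ℕ) (i : Fin n) :
    xim E (m + Finsupp.single i 1) = xim E m * M.lin (E i) := by
  refine m4_prod_ofFn (M.lin (E i)) n _ _ i (fun j hj => ?_) ?_ fun j => ?_
  · rw [Finsupp.add_apply, Finsupp.single_apply, if_neg (Ne.symm hj), add_zero]
  · rw [Finsupp.add_apply, Finsupp.single_apply, if_pos rfl, pow_succ]
  · exact (Commute.pow_left (hc j i) (m j)).eq

theorem tg_xim_pow (E : Fin n → Fin n → D) (hc : LinComm E) (m : Fin n →₀ ℕ) (i : Fin n)
    (k : ℕ) : xim E (m + Finsupp.single i k) = xim E m * M.lin (E i) ^ k := by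
  induction k with
  | zero => rw [Finsupp.single_zero, add_zero, pow_zero, mul_one]
  | succ k ih =>
    rw [Finsupp.single_add, ← add_assoc, tg_xim_add E hc, ih, pow_succ, mul_assoc]

theorem tg_xim_single (E : Fin n → Fin n → D) (hc : LinComm E) (i : Fin n) (k : ℕ) :
    xim E (Finsupp.single i k) = M.lin (E i) ^ k := by
  have h := tg_xim_pow E hc 0 i k
  rwa [zero_add, m4_xim_zero, one_mul] at h

theorem tg_theta_mul_zv (E : Fin n → Fin n → D) (hc : LinComm E) (u : YR D n) (i : Fin n) :
    theta E (u * zv D n i) = theta E u * M.lin (E i) := by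
  induction u using AddMonoidAlgebra.induction_linear with
  | zero => rw [zero_mul, map_zero, zero_mul]
  | add a b ha hb => rw [add_mul, map_add, map_add, add_mul, ha, hb]
  | single m c =>
    unfold zv
    rw [AddMonoidAlgebra.single_mul_single, mul_one, theta_single, theta_single,
      tg_xim_add E hc, smul_mul_assoc]

theorem tg_single_range (E : Fin n → Fin n → D) (hc : LinComm E)
    (hind : LinearIndependent D E) : ∀ (d : ℕ) (m : Fin n →₀ ℕ) (c : D), ∑ i, m i = d →
      (AddMonoidAlgebra.single m c : YR D n) ∈ (YD D n d).map (theta E) := by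
  intro d
  induction d with
  | zero =>
    intro m c hm
    have h0 : m = 0 := by
      ext i
      exact (Finset.sum_eq_zero_iff.1 hm) i (Finset.mem_univ i)
    subst h0
    refine ⟨AddMonoidAlgebra.single 0 c, m4_single_mem (by simp) c, ?_⟩
    rw [theta_single, m4_xim_zero, AddMonoidAlgebra.one_def, AddMonoidAlgebra.smul_single',
      mul_one]
  | succ d ih =>
    intro m c hm
    obtain ⟨k, hk⟩ : ∃ k, m k ≠ 0 := by
      by_contra hcon
      push Not at hcon
      rw [Finset.sum_eq_zero fun i _ => hcon i] at hm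
      omega
    obtain ⟨m', hm'⟩ : ∃ m' : Fin n →₀ ℕ, m = m' + Finsupp.single k 1 := by
      refine ⟨m - Finsupp.single k 1, ?_⟩
      rw [tsub_add_cancel_of_le]
      rw [Finsupp.single_le_iff]
      omega
    have hd : ∑ i, m' i = d := by
      rw [hm', m4_deg_add, m4_deg_single] at hm
      omega
    have h1 : (AddMonoidAlgebra.single m c : YR D n) =
        AddMonoidAlgebra.single m' c * zv D n k := by
      unfold zv
      rw [AddMonoidAlgebra.single_mul_single, mul_one, hm']
    obtain ⟨a, ha⟩ := m4_zv_eq E hind k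
    rw [h1, ha]
    refine Submodule.sum_mem _ fun i _ => ?_
    obtain ⟨w, hw, hw'⟩ := ih m' (c * a i) hd
    refine ⟨w * zv D n i, mul_mem_YD hw (m4_zv_mem i), ?_⟩
    rw [tg_theta_mul_zv E hc, hw']

theorem tg_map_theta (E : Fin n → Fin n → D) (hc : LinComm E)
    (hind : LinearIndependent D E) (d : ℕ) : (YD D n d).map (theta E) = YD D n d := by
  apply le_antisymm
  · rintro _ ⟨u, hu, rfl⟩
    exact theta_mem E hu
  · intro u hu
    rw [m4_sum_single u]
    refine Submodule.sum_mem _ fun m hm => ?_
    exact tg_single_range E hc hind d m _ (hu m (Finsupp.mem_support_iff.1 hm))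

theorem tg_theta_injective (E : Fin n → Fin n → D) (hc : LinComm E)
    (hind : LinearIndependent D E) : Function.Injective (theta E) := by
  rw [← LinearMap.ker_eq_bot, LinearMap.ker_eq_bot']
  intro u hu
  obtain ⟨N, hN⟩ := m4_exists_W u
  have hmaps : ∀ w ∈ m4W D n N, theta E w ∈ m4W D n N := by
    intro w hw
    rw [m4_sum_single w, map_sum]
    refine Submodule.sum_mem _ fun m hm => ?_
    exact m4_YD_le (hw m (Finsupp.mem_support_iff.1 hm))
      (theta_mem E (m4_single_mem rfl _))
  have hsurj : Function.Surjective ((theta E).restrict hmaps) := by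
    rintro ⟨w, hw⟩
    have h1 : w ∈ (m4W D n N).map (theta E) := by
      rw [m4_sum_single w]
      refine Submodule.sum_mem _ fun m hm => ?_
      exact Submodule.map_mono (m4_YD_le (hw m (Finsupp.mem_support_iff.1 hm)))
        (tg_single_range E hc hind _ m _ rfl)
    obtain ⟨y, hy, hy'⟩ := h1
    exact ⟨⟨y, hy⟩, Subtype.ext hy'⟩
  have hfin := m4_finite_W (D := D) (n := n) N
  have hinj : Function.Injective ((theta E).restrict hmaps) :=
    LinearMap.injective_iff_surjective.2 hsurj
  have h2 : (⟨u, hN⟩ : m4W D n N) = 0 := by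
    apply hinj
    rw [map_zero]
    exact Subtype.ext hu
  exact congrArg Subtype.val h2

theorem tg_finrank_comap (E : Fin n → Fin n → D) (hc : LinComm E)
    (hind : LinearIndependent D E) {d : ℕ} (V : Submodule D (YR D n)) (hV : V ≤ YD D n d) :
    V.comap (theta E) ≤ YD D n d ∧ finrank D (V.comap (theta E)) = finrank D V := by
  have hinj := tg_theta_injective E hc hind
  constructor
  · intro u hu
    have h1 : theta E u ∈ YD D n d := hV hu
    rw [← tg_map_theta E hc hind d] at h1
    obtain ⟨w, hw, hw'⟩ := h1
    rwa [← hinj hw']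
  · have hle : V ≤ LinearMap.range (theta E) := by
      intro v hv
      have h1 := hV hv
      rw [← tg_map_theta E hc hind d] at h1
      obtain ⟨w, _, hw'⟩ := h1
      exact ⟨w, hw'⟩
    exact (Submodule.comap_equiv_self_of_inj_of_le hinj hle).finrank_eq

end Vale.Agent.P200.V
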