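import Vale.Agent.P200.V.Sl

/-!
Transfer (C), definitions.  Indices: `α` (positions of the vectors on the `U`-side), `π` (copies).

`slp n v` : the part of degree `n` in the other blocks of `v : α × π → PA D κ (R + 1)`;
`unsl n` : its inverse; `sh γ n n'` : multiplication by the monomial `γ` of the other blocks, from
degree `n` to degree `n'` (zero if `n' ≠ n + mdeg γ`); `glue C hC` : the submodule of all `v` with all
parts in `C n`.
`cof n P` : the coefficients in degree `n` of a vector of polynomials.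
`zz`, `aa` : the coefficients of the rows, `RSn` : the objects of degree `n` over `D`.
-/

namespace Vale.Agent.P200.V

open Module

universe u

section slices
variable (D : Type u) [DivisionRing D] {κ R : ℕ} {α π : Type}

noncomputable instance fintype_monN (n : Fin R → ℕ) : Fintype (MonN κ R n) := Fintype.ofFinite _

/-- the part of degree `n` in the other blocks -/
noncomputable def slp (n : Fin R → ℕ) :
    (α × π → PA D κ (R + 1)) →ₗ[D] ((α × MonN κ R n) × π → PA D κ 1) where
  toFun v J := sl D J.1.2.1 (v (J.1.1, J.2))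
  map_add' u v := by
    funext J
    exact map_add _ _ _
  map_smul' k u := by
    funext J
    exact map_smul (sl D J.1.2.1) _ _

/-- the vector with given part of degree `n` in the other blocks -/
noncomputable def unsl (n : Fin R → ℕ) :
    ((α × MonN κ R n) × π → PA D κ 1) →ₗ[D] (α × π → PA D κ (R + 1)) where
  toFun u I := ∑ γ : MonN κ R n, isl D γ.1 (u ((I.1, γ), I.2))
  map_add' u v := by
    funext I
    simp only [Pi.add_apply, map_add, Finset.sum_add_distrib]
  map_smul' k u := by
    funext I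
    simp only [Pi.smul_apply, RingHom.id_apply, Finset.smul_sum, ← map_smul (isl D _)]

open Classical in
/-- multiplication by the monomial `γ` of the other blocks, from degree `n` to degree `n'` -/
noncomputable def sh (γ : Mon κ R) (n n' : Fin R → ℕ) :
    ((α × MonN κ R n) × π → PA D κ 1) →ₗ[PA D κ 1] ((α × MonN κ R n') × π → PA D κ 1) where
  toFun u J := if h : γ ≤ J.1.2.1 ∧ mdeg (J.1.2.1 - γ) = n then
    u ((J.1.1, ⟨J.1.2.1 - γ, h.2⟩), J.2) else 0
  map_add' u v := by
    funext J
    simp only [Pi.add_apply]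
    split_ifs
    · rfl
    · rw [add_zero]
  map_smul' k u := by
    funext J
    simp only [Pi.smul_apply, RingHom.id_apply]
    split_ifs
    · rfl
    · rw [smul_zero]

variable {D}

theorem slp_unsl (n : Fin R → ℕ) (u : (α × MonN κ R n) × π → PA D κ 1) :
    slp D n (unsl D n u) = u := by
  funext J
  obtain ⟨⟨i, γ⟩, q⟩ := J
  change sl D γ.1 (∑ γ' : MonN κ R n, isl D γ'.1 (u ((i, γ'), q))) = _
  rw [map_sum, Finset.sum_eq_single γ]
  · rw [sl_isl]
  · intro γ' _ h
    exact sl_isl_ne _ _ _ (fun h' => h (Subtype.ext h'.symm)) _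
  · intro h
    exact absurd (Finset.mem_univ _) h

theorem slp_i0_smul (n : Fin R → ℕ) (a : PA D κ 1) (v : α × π → PA D κ (R + 1)) :
    slp D n (i0 D κ R a • v) = a • slp D n v := by
  funext J
  exact sl_i0_mul _ _ _ _

theorem slp_tm_smul (γ : Mon κ R) (n n' : Fin R → ℕ) (h : n' = n + mdeg γ)
    (v : α × π → PA D κ (R + 1)) : slp D n' (tm D γ • v) = sh D γ n n' (slp D n v) := by
  funext J
  obtain ⟨⟨i, γ'⟩, q⟩ := J
  change sl D γ'.1 (tm D γ * v (i, q)) = if h : γ ≤ γ'.1 ∧ mdeg (γ'.1 - γ) = n then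
    sl D (γ'.1 - γ) (v (i, q)) else 0
  by_cases hγ : γ ≤ γ'.1
  · have h1 : γ'.1 - γ + γ = γ'.1 := tsub_add_cancel_of_le hγ
    have h2 : mdeg (γ'.1 - γ) = n := by
      have h3 := mdeg_add (γ'.1 - γ) γ
      rw [h1, γ'.2] at h3
      exact (add_right_cancel (h.symm.trans h3)).symm
    rw [dif_pos ⟨hγ, h2⟩]
    conv_lhs => rw [← h1]
    exact sl_tm_mul _ _ _ _
  · rw [dif_neg (fun h' => hγ h'.1), sl_tm_mul_ne _ _ _ hγ]

theorem slp_tm_smul_ne (γ : Mon κ R) (n' : Fin R → ℕ) (h : ¬ mdeg γ ≤ n')
    (v : α × π → PA D κ (R + 1)) : slp D n' (tm D γ • v) = 0 := by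
  funext J
  obtain ⟨⟨i, γ'⟩, q⟩ := J
  refine sl_tm_mul_ne _ _ _ (fun h' => h ?_) _
  have h1 := mdeg_add (γ'.1 - γ) γ
  rw [tsub_add_cancel_of_le h', γ'.2] at h1
  rw [h1]
  exact le_add_self

/-- every polynomial is a sum of products `tm γ * i0 a` -/
theorem ind_tm_i0 {P : PA D κ (R + 1) → Prop} (h0 : P 0) (hadd : ∀ u v, P u → P v → P (u + v))
    (hm : ∀ (γ : Mon κ R) (a : PA D κ 1), P (tm D γ * i0 D κ R a)) (u : PA D κ (R + 1)) : P u := by
  induction u using AddMonoidAlgebra.induction_linear with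
  | zero => exact h0
  | add f g hf hg => exact hadd _ _ hf hg
  | single m d =>
    have h1 : (AddMonoidAlgebra.single m d : PA D κ (R + 1)) =
        tm D (pm1 m) * i0 D κ R (AddMonoidAlgebra.single (pm0 m) d) := by
      rw [tm_mul_i0, isl_single, jm_pm]
    rw [h1]
    exact hm _ _

/-- the submodule of the vectors with all parts in `C` -/
noncomputable def glue (C : ∀ n : Fin R → ℕ, Submodule (PA D κ 1) ((α × MonN κ R n) × π → PA D κ 1))
    (hC : ∀ γ n n', n' = n + mdeg γ → ∀ u ∈ C n, sh D γ n n' u ∈ C n') :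
    Submodule (PA D κ (R + 1)) (α × π → PA D κ (R + 1)) where
  carrier := {v | ∀ n, slp D n v ∈ C n}
  add_mem' ha hb n := by
    rw [map_add]
    exact (C n).add_mem (ha n) (hb n)
  zero_mem' n := by
    rw [map_zero]
    exact (C n).zero_mem
  smul_mem' c v hv := by
    refine ind_tm_i0 (P := fun c => ∀ n, slp D n (c • v) ∈ C n) ?_ ?_ ?_ c
    · intro n
      rw [zero_smul, map_zero]
      exact (C n).zero_mem
    · intro a b ha hb n
      rw [add_smul, map_add]
      exact (C n).add_mem (ha n) (hb n)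
    · intro γ a n
      rw [mul_smul]
      by_cases h : mdeg γ ≤ n
      · have h1 : n = (n - mdeg γ) + mdeg γ := (tsub_add_cancel_of_le h).symm
        rw [slp_tm_smul γ (n - mdeg γ) n h1]
        refine hC _ _ _ h1 _ ?_
        rw [slp_i0_smul]
        exact (C _).smul_mem _ (hv _)
      · rw [slp_tm_smul_ne _ _ h]
        exact (C n).zero_mem

theorem mem_glue (C : ∀ n : Fin R → ℕ, Submodule (PA D κ 1) ((α × MonN κ R n) × π → PA D κ 1))
    (hC : ∀ γ n n', n' = n + mdeg γ → ∀ u ∈ C n, sh D γ n n' u ∈ C n')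
    (v : α × π → PA D κ (R + 1)) : v ∈ glue C hC ↔ ∀ n, slp D n v ∈ C n := Iff.rfl

end slices

section rows
variable {κ R : ℕ} {α : Type}

/-- the coefficients in degree `n` of a vector of polynomials -/
noncomputable def cof (D : Type u) [DivisionRing D] (n : Fin R → ℕ) :
    (α → PA D κ R) →ₗ[D] (α × MonN κ R n → D) where
  toFun P I := (P I.1).coeff I.2.1
  map_add' P Q := by
    funext I
    rfl
  map_smul' k P := by
    funext I
    exact AddMonoidAlgebra.coeff_smul_apply _ _ _

/-- the monomials of degree at most `n` -/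
abbrev MonL (κ R : ℕ) (n : Fin R → ℕ) : Type := {m : Mon κ R // mdeg m ≤ n}

instance finite_monL (n : Fin R → ℕ) : Finite (MonL κ R n) := by
  have h : Set.Finite {m : Mon κ R | mdeg m ≤ n} := by
    refine Set.Finite.subset (Set.finite_Iic
      (Finsupp.equivFunOnFinite.symm fun v : Fin R × Fin (κ + 2) => n v.1)) ?_
    intro m hm
    rw [Set.mem_Iic]
    rintro ⟨g, ε⟩
    refine le_trans ?_ ((show mdeg m ≤ n from hm) g)
    exact Finset.single_le_sum (f := fun v => m (g, v)) (fun _ _ => Nat.zero_le _)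
      (Finset.mem_univ ε)
  exact h.to_subtype

/-- the coefficients (in the elements `u k`) of the row `γ • P l` in degree `n`, `P l = ∑ k, κc l k u_k` -/
noncomputable def zz {K : Type u} [Field K] {L t : ℕ} (κc : Fin L → Fin t → α → PA K κ R)
    (n : Fin R → ℕ) (j : Fin L × MonL κ R n) (I : α × MonN κ R n) (k : Fin t) : K :=
  (AddMonoidAlgebra.single j.2.1 (1 : K) * κc j.1 k I.1).coeff I.2.1

open Classical in
/-- the coefficients of the row `γ * rel`, at the position `i` -/
noncomputable def aa {K : Type u} [Field K] (β : Fin R → Blk K κ)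
    (n : Fin R → ℕ) (j : (Fin R × Fin κ) × (α × MonL κ R n)) (I : α × MonN κ R n) : K :=
  if j.2.1 = I.1 then
    (AddMonoidAlgebra.single j.2.2.1 (1 : K) * bm K K κ j.1.1 ((β j.1.1).rel j.1.2)).coeff I.2.1
  else 0

/-- the objects of degree `n` over `D` -/
noncomputable def RSn {K : Type u} [Field K] {D : Type u} [DivisionRing D] [Algebra K D]
    (β : Fin R → Blk K κ) {L t p : ℕ} (N : Submodule (PA D κ 1) (Fin p → PA D κ 1))
    (f : Fin t → Fin p → D) (κc : Fin L → Fin t → α → PA K κ R) (n : Fin R → ℕ) :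
    Submodule (PA D κ 1) ((α × MonN κ R n) × Fin p → PA D κ 1) :=
  RS K N f (zz κc n) (aa β n)

end rows

end Vale.Agent.P200.V
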