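import Vale.Agent.P200.V.Tr

/-!
Transfer (C), part A: `glue C hC` is an object.
-/

namespace Vale.Agent.P200.V

open Module

universe u

variable {K : Type u} [Field K] {D : Type u} [DivisionRing D] [Algebra K D] {κ R : ℕ} {α π : Type}

private theorem tra_bm_C (g : Fin R) (k : K) :
    bm K D κ (R := R) g (MvPolynomial.C k) = AddMonoidAlgebra.single 0 (algebraMap K D k) := by
  have : bm K D κ (R := R) g (MvPolynomial.C k) = algebraMap K (PA D κ R) k := by
    rw [← MvPolynomial.algebraMap_eq]
    exact AlgHom.commutes _ _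
  rw [this]
  rfl

private theorem tra_bm_X (g : Fin R) (v : Fin (κ + 2)) :
    bm K D κ (R := R) g (MvPolynomial.X v) = va D κ R (g, v) := by
  rw [bm, AlgHom.comp_apply]
  have h2 : (AddMonoidAlgebra.mapDomainAlgHom K K
      (Finsupp.mapDomain.addMonoidHom fun v : Fin (κ + 2) => (g, v)))
        (MvPolynomial.X v : MvPolynomial (Fin (κ + 2)) K) =
      (AddMonoidAlgebra.single (Finsupp.single (g, v) 1) (1 : K) :
        AddMonoidAlgebra K (Mon κ R)) := by
    change AddMonoidAlgebra.mapDomain _ (AddMonoidAlgebra.single (Finsupp.single v 1) (1 : K)) = _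
    rw [AddMonoidAlgebra.mapDomain_single]
    congr 1
    exact Finsupp.mapDomain_single
  rw [h2, AddMonoidAlgebra.mapAlgHom_single, map_one]
  rfl

private theorem tra_jm_single (v : Fin (κ + 2)) :
    jm (Finsupp.single ((0 : Fin 1), v) 1) (0 : Mon κ R) = Finsupp.single ((0 : Fin (R + 1)), v) 1 := by
  classical
  ext ⟨g, ε⟩
  refine Fin.cases ?_ (fun g => ?_) g
  · rw [jm_zero, Finsupp.single_apply, Finsupp.single_apply]
    simp only [Prod.mk.injEq, true_and]
  · rw [jm_succ, Finsupp.single_apply, if_neg]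
    · rfl
    · intro h
      exact absurd (congrArg Prod.fst h) (Fin.succ_ne_zero g).symm

/-- the multiples of the relations of the block `0` -/
private theorem tra_bm_zero (p : MvPolynomial (Fin (κ + 2)) K) :
    bm K D κ (0 : Fin (R + 1)) p = i0 D κ R (bm K D κ (0 : Fin 1) p) := by
  induction p using MvPolynomial.induction_on with
  | C k =>
    rw [tra_bm_C, tra_bm_C, i0_single]
    congr 1
    exact (map_zero (jmHom κ R)).symm
  | add p q hp hq => rw [map_add, map_add, map_add, hp, hq]
  | mul_X p v hp =>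
    rw [map_mul, map_mul, map_mul, hp, tra_bm_X, tra_bm_X, va, va, i0_single, tra_jm_single]

/-- the parts of the components -/
private theorem tra_slp_cvi (n : Fin R → ℕ) (n' : Fin (R + 1) → ℕ) (h : n = Fin.tail n')
    (u : α × π → PA D κ (R + 1)) :
    slp D n (cvi D κ (R + 1) (α × π) n' u) =
      cvi D κ 1 ((α × MonN κ R n) × π) (fun _ => n' 0) (slp D n u) := by
  classical
  funext J
  obtain ⟨⟨i, γ⟩, q⟩ := J
  apply AddMonoidAlgebra.ext
  ext m
  change (Finsupp.filter (fun m => mdeg m = n') (u (i, q)).coeff) (jm m γ.1) =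
    (Finsupp.filter (fun m => mdeg m = fun _ => n' 0) (sl D γ.1 (u (i, q))).coeff) m
  have h1 : (mdeg (jm m γ.1) = n') ↔ (mdeg m = fun _ => n' 0) := by
    rw [mdeg_jm, γ.2, h]
    constructor
    · intro h2
      funext g
      have hg : g = 0 := Subsingleton.elim _ _
      subst hg
      exact congrFun h2 0
    · intro h2
      rw [h2]
      exact Fin.cons_self_tail n'
  by_cases h2 : mdeg m = fun _ => n' 0
  · rw [Finsupp.filter_apply, Finsupp.filter_apply, if_pos h2, if_pos (h1.2 h2)]
    rfl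
  · rw [Finsupp.filter_apply, Finsupp.filter_apply, if_neg h2, if_neg (fun h3 => h2 (h1.1 h3))]

private theorem tra_slp_cvi_ne (n : Fin R → ℕ) (n' : Fin (R + 1) → ℕ) (h : n ≠ Fin.tail n')
    (u : α × π → PA D κ (R + 1)) :
    slp D n (cvi D κ (R + 1) (α × π) n' u) = 0 := by
  classical
  funext J
  obtain ⟨⟨i, γ⟩, q⟩ := J
  apply AddMonoidAlgebra.ext
  ext m
  change (Finsupp.filter (fun m => mdeg m = n') (u (i, q)).coeff) (jm m γ.1) = 0
  rw [Finsupp.filter_apply, if_neg]
  intro h2
  apply h
  rw [← h2, mdeg_jm, Fin.tail_cons, γ.2]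

/-- Proof: `slp n (cvi n' v)` is `cvi (n' 0) (slp n v)` if `n = tail n'` and `0` otherwise; the relations of
the block `0` are `i0 (bm 0 rel)` and `slp n (i0 a • v) = a • slp n v`. -/
theorem isGi_glue {β0 : Blk K κ} {β : Fin R → Blk K κ}
    (C : ∀ n : Fin R → ℕ, Submodule (PA D κ 1) ((α × MonN κ R n) × π → PA D κ 1))
    (hC : ∀ γ n n', n' = n + mdeg γ → ∀ u ∈ C n, sh D γ n n' u ∈ C n')
    (hG : ∀ n, IsGi (fun _ : Fin 1 => β0) (C n))
    (hrel : ∀ g i n (w : α × π → PA D κ (R + 1)),
      slp D n (bm K D κ (Fin.succ g) ((β g).rel i) • w) ∈ C n) :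
    IsGi (Fin.cons β0 β : Fin (R + 1) → Blk K κ) (glue C hC) := by
  constructor
  · intro u hu n'
    rw [mem_glue] at hu ⊢
    intro n
    by_cases h : n = Fin.tail n'
    · rw [tra_slp_cvi n n' h]
      exact (hG n).hom _ (hu n) _
    · rw [tra_slp_cvi_ne n n' h]
      exact (C n).zero_mem
  · intro g
    refine Fin.cases ?_ (fun g => ?_) g
    · intro i w
      rw [mem_glue]
      intro n
      change slp D n (bm K D κ (0 : Fin (R + 1)) (β0.rel i) • w) ∈ C n
      rw [tra_bm_zero, slp_i0_smul]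
      exact (hG n).rel 0 i _
    · intro i w
      rw [mem_glue]
      intro n
      exact hrel g i n w

end Vale.Agent.P200.V
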