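import Vale.Agent.P200.V.Tr

/-!
Transfer (C), part B: the dimensions of `glue C hC`.
-/

namespace Vale.Agent.P200.V

open Module

universe u

variable {D : Type u} [DivisionRing D] {κ R : ℕ} {α π : Type}

theorem trb_sl_mem {n : Fin R → ℕ} {m : ℕ} {w : PA D κ (R + 1)}
    (hw : w ∈ pp D κ (R + 1) (Fin.cons m n)) (γ : Mon κ R) :
    sl D γ w ∈ pp D κ 1 (fun _ : Fin 1 => m) := by
  intro m0 hm0
  rw [sl_coeff] at hm0
  have h1 := hw _ hm0
  rw [mdeg_jm] at h1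
  funext g
  have hg : g = 0 := Subsingleton.elim _ _
  subst hg
  have h2 := congrFun h1 0
  rwa [Fin.cons_zero, Fin.cons_zero] at h2

theorem trb_sl_ne {n : Fin R → ℕ} {m : ℕ} {w : PA D κ (R + 1)}
    (hw : w ∈ pp D κ (R + 1) (Fin.cons m n)) {γ : Mon κ R} (hγ : mdeg γ ≠ n) :
    sl D γ w = 0 := by
  apply AddMonoidAlgebra.ext
  ext m0
  rw [sl_coeff]
  by_contra hm0
  have h1 := hw _ hm0
  rw [mdeg_jm] at h1
  apply hγ
  funext g
  have h2 := congrFun h1 g.succ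
  rwa [Fin.cons_succ, Fin.cons_succ] at h2

theorem trb_isl_mem {n : Fin R → ℕ} {m : ℕ} {w : PA D κ 1}
    (hw : w ∈ pp D κ 1 (fun _ : Fin 1 => m)) {γ : Mon κ R} (hγ : mdeg γ = n) :
    isl D γ w ∈ pp D κ (R + 1) (Fin.cons m n) := by
  intro M hM
  rw [← jm_pm M] at hM ⊢
  by_cases h : pm1 M = γ
  · rw [h, isl_coeff] at hM
    have h1 := congrFun (hw _ hM) 0
    rw [mdeg_jm, h, hγ, h1]
  · exact absurd (isl_coeff_ne D γ (pm1 M) h w (pm0 M)) hM

theorem trb_slp_mem {n : Fin R → ℕ} {m : ℕ} {v : α × π → PA D κ (R + 1)}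
    (hv : v ∈ pvi D κ (R + 1) (α × π) (Fin.cons m n)) (n' : Fin R → ℕ) :
    slp D n' v ∈ pvi D κ 1 ((α × MonN κ R n') × π) (fun _ : Fin 1 => m) :=
  fun J => trb_sl_mem (hv (J.1.1, J.2)) J.1.2.1

theorem trb_slp_ne {n : Fin R → ℕ} {m : ℕ} {v : α × π → PA D κ (R + 1)}
    (hv : v ∈ pvi D κ (R + 1) (α × π) (Fin.cons m n)) {n' : Fin R → ℕ} (h : n' ≠ n) :
    slp D n' v = 0 := by
  funext J
  refine trb_sl_ne (hv (J.1.1, J.2)) ?_
  rw [J.1.2.2]
  exact h

theorem trb_unsl_mem {n : Fin R → ℕ} {m : ℕ} {u : (α × MonN κ R n) × π → PA D κ 1}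
    (hu : u ∈ pvi D κ 1 ((α × MonN κ R n) × π) (fun _ : Fin 1 => m)) :
    unsl D n u ∈ pvi D κ (R + 1) (α × π) (Fin.cons m n) := by
  intro I
  exact Submodule.sum_mem _ fun γ _ => trb_isl_mem (hu ((I.1, γ), I.2)) γ.2

theorem trb_unsl_slp {n : Fin R → ℕ} {m : ℕ} {v : α × π → PA D κ (R + 1)}
    (hv : v ∈ pvi D κ (R + 1) (α × π) (Fin.cons m n)) : unsl D n (slp D n v) = v := by
  funext I
  refine ext_sl D fun γ' => ?_
  change sl D γ' (∑ γ : MonN κ R n, isl D γ.1 (sl D γ.1 (v (I.1, I.2)))) = sl D γ' (v I)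
  rw [map_sum]
  by_cases h : mdeg γ' = n
  · rw [Finset.sum_eq_single (⟨γ', h⟩ : MonN κ R n)]
    · rw [sl_isl]
    · intro γ _ hγ
      exact sl_isl_ne _ _ _ (fun h' => hγ (Subtype.ext h'.symm)) _
    · intro h'
      exact absurd (Finset.mem_univ _) h'
  · rw [trb_sl_ne (hv I) h]
    refine Finset.sum_eq_zero fun γ _ => sl_isl_ne _ _ _ (fun h' => h ?_) _
    rw [h', γ.2]

/-- Proof: `slp n` and `unsl n` are inverse linear bijections between `pvi (Fin.cons m n)` and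
`pvi (fun _ => m)`; for `v ∈ pvi (Fin.cons m n)` the parts `slp n' v`, `n' ≠ n`, vanish, so
`v ∈ glue C hC ↔ slp n v ∈ C n`. -/
theorem qdi_glue
    (C : ∀ n : Fin R → ℕ, Submodule (PA D κ 1) ((α × MonN κ R n) × π → PA D κ 1))
    (hC : ∀ γ n n', n' = n + mdeg γ → ∀ u ∈ C n, sh D γ n n' u ∈ C n')
    (n : Fin R → ℕ) (m : ℕ) :
    qdi (glue C hC) (Fin.cons m n) = qdi (C n) (fun _ : Fin 1 => m) := by
  have hgl : ∀ v : α × π → PA D κ (R + 1), v ∈ pvi D κ (R + 1) (α × π) (Fin.cons m n) →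
      (v ∈ glue C hC ↔ slp D n v ∈ C n) := by
    intro v hv
    rw [mem_glue]
    constructor
    · intro h
      exact h n
    · intro h n'
      by_cases hn : n' = n
      · subst hn
        exact h
      · rw [trb_slp_ne hv hn]
        exact (C n').zero_mem
  let E : pvi D κ (R + 1) (α × π) (Fin.cons m n) ≃ₗ[D]
      pvi D κ 1 ((α × MonN κ R n) × π) (fun _ : Fin 1 => m) :=
    { toFun := fun v => ⟨slp D n v.1, trb_slp_mem v.2 n⟩
      map_add' := fun v w => Subtype.ext (map_add (slp D n) v.1 w.1)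
      map_smul' := fun k v => Subtype.ext (map_smul (slp D n) k v.1)
      invFun := fun u => ⟨unsl D n u.1, trb_unsl_mem u.2⟩
      left_inv := fun v => Subtype.ext (trb_unsl_slp v.2)
      right_inv := fun u => Subtype.ext (slp_unsl n u.1) }
  let F : (pvi D κ (R + 1) (α × π) (Fin.cons m n) ⊓
        (glue C hC).restrictScalars D : Submodule D _) ≃ₗ[D]
      (pvi D κ 1 ((α × MonN κ R n) × π) (fun _ : Fin 1 => m) ⊓
        (C n).restrictScalars D : Submodule D _) :=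
    { toFun := fun v => ⟨slp D n v.1, trb_slp_mem v.2.1 n, (hgl v.1 v.2.1).1 v.2.2⟩
      map_add' := fun v w => Subtype.ext (map_add (slp D n) v.1 w.1)
      map_smul' := fun k v => Subtype.ext (map_smul (slp D n) k v.1)
      invFun := fun u => ⟨unsl D n u.1, trb_unsl_mem u.2.1,
        (hgl _ (trb_unsl_mem u.2.1)).2 (by rw [slp_unsl]; exact u.2.2)⟩
      left_inv := fun v => Subtype.ext (trb_unsl_slp v.2.1)
      right_inv := fun u => Subtype.ext (slp_unsl n u.1) }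
  rw [qdi, qdi, E.finrank_eq, F.finrank_eq]

end Vale.Agent.P200.V
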