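import Vale.Agent.P200.V.Tr

/-!
Transfer (C), part D: the shifts and the objects `RSn`.
-/

namespace Vale.Agent.P200.V

open Module

universe u

variable {K : Type u} [Field K] {D : Type u} [DivisionRing D] [Algebra K D] {κ R : ℕ} {α π : Type}

theorem sh_cvi (γ : Mon κ R) (n n' : Fin R → ℕ) (m : Fin 1 → ℕ)
    (u : (α × MonN κ R n) × π → PA D κ 1) :
    sh D γ n n' (cvi D κ 1 ((α × MonN κ R n) × π) m u) =
      cvi D κ 1 ((α × MonN κ R n') × π) m (sh D γ n n' u) := by
  classical
  funext J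
  change (if h : γ ≤ J.1.2.1 ∧ mdeg (J.1.2.1 - γ) = n then
      cp D κ 1 m (u ((J.1.1, ⟨J.1.2.1 - γ, h.2⟩), J.2)) else 0) =
    cp D κ 1 m (if h : γ ≤ J.1.2.1 ∧ mdeg (J.1.2.1 - γ) = n then
      u ((J.1.1, ⟨J.1.2.1 - γ, h.2⟩), J.2) else 0)
  by_cases h : γ ≤ J.1.2.1 ∧ mdeg (J.1.2.1 - γ) = n
  · rw [dif_pos h, dif_pos h]
  · rw [dif_neg h, dif_neg h, map_zero]

/-- the coefficients of a product with a monomial -/
theorem trD_coeff_add (γ m : Mon κ R) (P : PA D κ R) :
    (AddMonoidAlgebra.single γ (1 : D) * P).coeff (γ + m) = P.coeff m := by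
  induction P using AddMonoidAlgebra.induction_linear with
  | zero => rw [mul_zero]; rfl
  | add f g hf hg =>
    rw [mul_add, AddMonoidAlgebra.coeff_add, AddMonoidAlgebra.coeff_add, Finsupp.add_apply,
      Finsupp.add_apply, hf, hg]
  | single m' d =>
    rw [AddMonoidAlgebra.single_mul_single, one_mul, AddMonoidAlgebra.coeff_single,
      AddMonoidAlgebra.coeff_single]
    by_cases h : m' = m
    · rw [h, Finsupp.single_eq_same, Finsupp.single_eq_same]
    · rw [Finsupp.single_eq_of_ne (fun h' => h h'.symm),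
        Finsupp.single_eq_of_ne (fun h' => h (add_left_cancel h').symm)]

/-- the coefficients of a product with a monomial which vanish -/
theorem trD_coeff_ne (γ m : Mon κ R) (h : ¬ γ ≤ m) (P : PA D κ R) :
    (AddMonoidAlgebra.single γ (1 : D) * P).coeff m = 0 := by
  induction P using AddMonoidAlgebra.induction_linear with
  | zero => rw [mul_zero, AddMonoidAlgebra.coeff_zero]; rfl
  | add f g hf hg =>
    rw [mul_add, AddMonoidAlgebra.coeff_add, Finsupp.add_apply, hf, hg, add_zero]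
  | single m' d =>
    rw [AddMonoidAlgebra.single_mul_single, one_mul, AddMonoidAlgebra.coeff_single,
      Finsupp.single_eq_of_ne]
    intro h'
    exact h (h' ▸ le_self_add)

/-- the row `γ1` becomes the row `γ1 + γ` -/
theorem trD_shift (γ γ1 m : Mon κ R) (h : γ ≤ m) (P : PA D κ R) :
    (AddMonoidAlgebra.single γ1 (1 : D) * P).coeff (m - γ) =
      (AddMonoidAlgebra.single (γ1 + γ) (1 : D) * P).coeff m := by
  have h1 : AddMonoidAlgebra.single (γ1 + γ) (1 : D) * P =
      AddMonoidAlgebra.single γ (1 : D) * (AddMonoidAlgebra.single γ1 (1 : D) * P) := by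
    rw [← mul_assoc, AddMonoidAlgebra.single_mul_single, one_mul, add_comm γ γ1]
  rw [h1]
  conv_rhs => rw [← add_tsub_cancel_of_le h]
  rw [trD_coeff_add]

theorem trD_shift_ne (γ γ1 m : Mon κ R) (h : ¬ γ ≤ m) (P : PA D κ R) :
    (AddMonoidAlgebra.single (γ1 + γ) (1 : D) * P).coeff m = 0 := by
  refine trD_coeff_ne _ _ (fun h' => h (le_trans ?_ h')) _
  exact le_add_self

theorem trD_mdeg_sub {γ : Mon κ R} {n n' : Fin R → ℕ} (h : n' = n + mdeg γ) (m : MonN κ R n')
    (hm : γ ≤ m.1) : mdeg (m.1 - γ) = n := by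
  have h3 := mdeg_add (m.1 - γ) γ
  rw [tsub_add_cancel_of_le hm, m.2] at h3
  exact (add_right_cancel (h.symm.trans h3)).symm

/-- Proof: copies of `N` go to copies of `N`; the row `(l, γ1)` goes to the row `(l, γ1 + γ)`:
`(single γ 1 * P).coeff γ2 = if γ ≤ γ2 then P.coeff (γ2 - γ) else 0`; the same for the rows of the relations. -/
theorem sh_RSn (β : Fin R → Blk K κ) {L t p : ℕ} (N : Submodule (PA D κ 1) (Fin p → PA D κ 1))
    (f : Fin t → Fin p → D) (κc : Fin L → Fin t → α → PA K κ R) (γ : Mon κ R) (n n' : Fin R → ℕ)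
    (h : n' = n + mdeg γ) (u : (α × MonN κ R n) × Fin p → PA D κ 1)
    (hu : u ∈ RSn β N f κc n) : sh D γ n n' u ∈ RSn β N f κc n' := by
  classical
  have hL : ∀ γ1 : Mon κ R, mdeg γ1 ≤ n → mdeg (γ1 + γ) ≤ n' := by
    intro γ1 h1
    rw [mdeg_add, h]
    exact add_le_add_left h1 _
  have key : RSn β N f κc n ≤ (RSn β N f κc n').comap (sh D γ n n') := by
    unfold RSn RS
    refine sup_le ?_ (sup_le ?_ ?_)
    · intro w hw
      rw [Submodule.mem_comap]
      refine Submodule.mem_sup_left ?_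
      intro i
      by_cases h1 : γ ≤ i.2.1 ∧ mdeg (i.2.1 - γ) = n
      · have h2 : (fun q => sh D γ n n' w (i, q)) = fun q => w ((i.1, ⟨i.2.1 - γ, h1.2⟩), q) := by
          funext q
          exact dif_pos h1
        rw [h2]
        exact hw _
      · have h2 : (fun q => sh D γ n n' w (i, q)) = 0 := by
          funext q
          exact dif_neg h1
        rw [h2]
        exact N.zero_mem
    · rw [Submodule.span_le]
      rintro _ ⟨⟨l, γ1⟩, rfl⟩
      rw [SetLike.mem_coe, Submodule.mem_comap]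
      refine Submodule.mem_sup_right (Submodule.mem_sup_left (Submodule.subset_span ?_))
      refine ⟨(l, ⟨γ1.1 + γ, hL _ γ1.2⟩), ?_⟩
      funext J
      by_cases h1 : γ ≤ J.1.2.1
      · have h2 : γ ≤ J.1.2.1 ∧ mdeg (J.1.2.1 - γ) = n := ⟨h1, trD_mdeg_sub h _ h1⟩
        refine Eq.trans ?_ (dif_pos h2).symm
        simp only [zz]
        refine congrArg _ (Finset.sum_congr rfl fun k _ => ?_)
        rw [trD_shift (D := K) γ γ1.1 _ h1]
      · refine Eq.trans ?_ (dif_neg (fun h2 => h1 h2.1)).symm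
        simp only [zz]
        have h3 : ∑ k, algebraMap K D ((AddMonoidAlgebra.single (γ1.1 + γ) (1 : K) *
            κc l k J.1.1).coeff J.1.2.1) * f k J.2 = 0 := by
          refine Finset.sum_eq_zero fun k _ => ?_
          rw [trD_shift_ne (D := K) γ γ1.1 _ h1, map_zero, zero_mul]
        rw [h3]
        exact AddMonoidAlgebra.single_zero _
    · rw [Submodule.span_le]
      rintro _ ⟨⟨gi, ⟨ps, γ1⟩⟩, b, rfl⟩
      rw [SetLike.mem_coe, Submodule.mem_comap]
      refine Submodule.mem_sup_right (Submodule.mem_sup_right (Submodule.subset_span ?_))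
      refine ⟨(gi, (ps, ⟨γ1.1 + γ, hL _ γ1.2⟩)), b, ?_⟩
      funext J
      by_cases h1 : γ ≤ J.1.2.1
      · have h2 : γ ≤ J.1.2.1 ∧ mdeg (J.1.2.1 - γ) = n := ⟨h1, trD_mdeg_sub h _ h1⟩
        refine (dif_pos h2).trans ?_
        simp only [aa]
        rw [trD_shift (D := K) γ γ1.1 _ h1]
      · refine (dif_neg (fun h2 => h1 h2.1)).trans ?_
        simp only [aa]
        rw [trD_shift_ne (D := K) γ γ1.1 _ h1, ite_self, map_zero]
        have h3 : cpo D κ 1 (0 : D) = 0 := AddMonoidAlgebra.single_zero _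
        rw [h3, zero_mul]
  exact key hu

end Vale.Agent.P200.V
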