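import Vale.Agent.P200.V.Tr

/-!
Transfer (C), part E: the relations of the other blocks.
-/

namespace Vale.Agent.P200.V

open Module

universe u

variable {K : Type u} [Field K] {D : Type u} [DivisionRing D] [Algebra K D] {κ R : ℕ} {α : Type}

theorem jm_mapDomain (g : Fin R) (s : Fin (κ + 2) →₀ ℕ) :
    jm 0 (Finsupp.mapDomain (fun v => (g, v)) s : Mon κ R) =
      (Finsupp.mapDomain (fun v => (Fin.succ g, v)) s : Mon κ (R + 1)) := by
  induction s using Finsupp.induction_linear with
  | zero =>
    rw [Finsupp.mapDomain_zero, Finsupp.mapDomain_zero]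
    exact (jmHom κ R).map_zero
  | add s t hs ht =>
    rw [Finsupp.mapDomain_add, Finsupp.mapDomain_add, ← hs, ← ht, ← jm_add, add_zero]
  | single v k =>
    rw [Finsupp.mapDomain_single, Finsupp.mapDomain_single]
    ext ⟨g', ε⟩
    refine Fin.cases ?_ (fun g' => ?_) g'
    · rw [jm_zero, Finsupp.single_apply, if_neg]
      · rfl
      · intro h
        exact Fin.succ_ne_zero g (Prod.mk.inj h).1
    · rw [jm_succ, Finsupp.single_apply, Finsupp.single_apply]
      simp only [Prod.mk.injEq, Fin.succ_inj]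

theorem bm_monomial (g : Fin R) (s : Fin (κ + 2) →₀ ℕ) (k : K) :
    bm K D κ g (MvPolynomial.monomial s k) =
      AddMonoidAlgebra.single (Finsupp.mapDomain (fun v => (g, v)) s) (algebraMap K D k) := by
  rw [bm, AlgHom.comp_apply]
  have h2 : (AddMonoidAlgebra.mapDomainAlgHom K K
      (Finsupp.mapDomain.addMonoidHom fun v : Fin (κ + 2) => (g, v)))
        (MvPolynomial.monomial s k : MvPolynomial (Fin (κ + 2)) K) =
      (AddMonoidAlgebra.single (Finsupp.mapDomain (fun v => (g, v)) s) k :
        AddMonoidAlgebra K (Mon κ R)) := by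
    change AddMonoidAlgebra.mapDomain _ (AddMonoidAlgebra.single s k) = _
    rw [AddMonoidAlgebra.mapDomain_single]
    rfl
  rw [h2, AddMonoidAlgebra.mapAlgHom_single]
  rfl

theorem cpo_mul (d : D) (u : PA D κ R) : cpo D κ R d * u = d • u := by
  induction u using AddMonoidAlgebra.induction_linear with
  | zero => rw [mul_zero, smul_zero]
  | add f g hf hg => rw [mul_add, smul_add, hf, hg]
  | single m e =>
    rw [cpo, AddMonoidAlgebra.single_mul_single, zero_add, AddMonoidAlgebra.smul_single]
    rfl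

theorem single_jm (m : Mon κ R) (d : D) (u : PA D κ (R + 1)) :
    (AddMonoidAlgebra.single (jm 0 m) d : PA D κ (R + 1)) * u = d • (tm D m * u) := by
  rw [← smul_mul_assoc, tm, AddMonoidAlgebra.smul_single, smul_eq_mul, mul_one]

/-- the slices of a multiple of the image of a polynomial in a block different from `0` -/
theorem sl_bm_mul (n : Fin R → ℕ) [Fintype (MonL κ R n)] (γ : MonN κ R n) (g : Fin R)
    (p : MvPolynomial (Fin (κ + 2)) K) (u : PA D κ (R + 1)) :
    sl D γ.1 (bm K D κ (Fin.succ g) p * u) = ∑ γ1 : MonL κ R n,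
      cpo D κ 1 (algebraMap K D
        ((AddMonoidAlgebra.single γ1.1 (1 : K) * bm K K κ g p).coeff γ.1)) * sl D γ1.1 u := by
  classical
  induction p using MvPolynomial.induction_on' with
  | add p q hp hq =>
    rw [map_add, add_mul, map_add, hp, hq, ← Finset.sum_add_distrib]
    refine Finset.sum_congr rfl fun γ1 _ => ?_
    rw [map_add, mul_add, AddMonoidAlgebra.coeff_add, Finsupp.add_apply, map_add, cpo_mul, cpo_mul,
      cpo_mul, add_smul]
  | monomial s k =>
    rw [bm_monomial, bm_monomial, ← jm_mapDomain]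
    set m : Mon κ R := Finsupp.mapDomain (fun v => (g, v)) s with hm
    rw [single_jm, map_smul]
    have hco : ∀ γ1 : MonL κ R n, (AddMonoidAlgebra.single γ1.1 (1 : K) *
        AddMonoidAlgebra.single m (algebraMap K K k)).coeff γ.1 = if γ1.1 + m = γ.1 then k else 0 := by
      intro γ1
      rw [AddMonoidAlgebra.single_mul_single, one_mul]
      exact Finsupp.single_apply
    simp only [hco, cpo_mul]
    by_cases hγ : m ≤ γ.1
    · have h1 : γ.1 - m + m = γ.1 := tsub_add_cancel_of_le hγ
      have h2 : mdeg (γ.1 - m) ≤ n := by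
        have h3 := mdeg_add (γ.1 - m) m
        rw [h1, γ.2] at h3
        exact le_of_le_of_eq le_self_add h3.symm
      rw [Finset.sum_eq_single (⟨γ.1 - m, h2⟩ : MonL κ R n)]
      · rw [if_pos h1]
        congr 1
        conv_lhs => rw [← h1]
        exact sl_tm_mul _ _ _ _
      · intro γ1 _ hne
        rw [if_neg, map_zero, zero_smul]
        intro h
        apply hne
        apply Subtype.ext
        exact eq_tsub_of_add_eq h
      · intro h
        exact absurd (Finset.mem_univ _) h
    · rw [sl_tm_mul_ne _ _ _ hγ, smul_zero]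
      symm
      refine Finset.sum_eq_zero fun γ1 _ => ?_
      rw [if_neg, map_zero, zero_smul]
      intro h
      exact hγ (h ▸ le_add_self)

/-- Proof: with `ρ = bm K K κ g rel`,
`slp n (bm .. • w) ((i, γ2), q) = ∑_(γ1 ≤ γ2) ρ.coeff (γ2 - γ1) • sl γ1 (w (i, q))`, so that
`slp n (bm .. • w)` is the sum over `(i, γ1) : α × MonL κ R n` of the rows
`fun W => cpo (aa β n ((g, i'), (i, γ1)) W.1) * b W.2`, `b q = sl γ1 (w (i, q))`. -/
theorem slp_rel_mem [Finite α] (β : Fin R → Blk K κ) {L t p : ℕ}
    (N : Submodule (PA D κ 1) (Fin p → PA D κ 1))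
    (f : Fin t → Fin p → D) (κc : Fin L → Fin t → α → PA K κ R) (g : Fin R) (i : Fin κ)
    (n : Fin R → ℕ) (w : α × Fin p → PA D κ (R + 1)) :
    slp D n (bm K D κ (Fin.succ g) ((β g).rel i) • w) ∈ RSn β N f κc n := by
  classical
  let _ := Fintype.ofFinite α
  let _ := Fintype.ofFinite (MonL κ R n)
  have key : slp D n (bm K D κ (Fin.succ g) ((β g).rel i) • w) =
      ∑ j : α × MonL κ R n, fun W : (α × MonN κ R n) × Fin p =>
        cpo D κ 1 (algebraMap K D (aa β n ((g, i), j) W.1)) * sl D j.2.1 (w (j.1, W.2)) := by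
    funext J
    obtain ⟨⟨i', γ⟩, q⟩ := J
    change sl D γ.1 (bm K D κ (Fin.succ g) ((β g).rel i) * w (i', q)) = _
    rw [sl_bm_mul, Finset.sum_apply, Fintype.sum_prod_type, Finset.sum_eq_single i']
    · refine Finset.sum_congr rfl fun γ1 _ => ?_
      simp only [aa, if_true]
    · intro i'' _ hne
      refine Finset.sum_eq_zero fun γ1 _ => ?_
      simp only [aa, if_neg hne]
      rw [map_zero, cpo_mul, zero_smul]
    · intro h
      exact absurd (Finset.mem_univ _) h
  rw [key]
  refine Submodule.sum_mem _ fun j _ => ?_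
  refine Submodule.mem_sup_right (Submodule.mem_sup_right (Submodule.subset_span ?_))
  exact ⟨((g, i), j), fun q => sl D j.2.1 (w (j.1, q)), rfl⟩

end Vale.Agent.P200.V
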