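import Vale.Agent.P200.V.Tr
import Vale.Agent.P200.U.Noeth

/-!
Transfer (C), part F: generators of an object over a division algebra `E`.
-/

namespace Vale.Agent.P200.V

open Module

universe u

variable {K : Type u} [Field K] {E : Type u} [DivisionRing E] [Algebra K E] {κ R : ℕ} {α : Type}

/-- the vector of polynomials `∑ k, κc k * u k` -/
noncomputable def gn (E : Type u) [DivisionRing E] [Algebra K E] {t : ℕ} (u : Fin t → E)
    (κc : Fin t → α → PA K κ R) (i : α) : PA E κ R :=
  ∑ k, AddMonoidAlgebra.mapRingHom (Mon κ R) (algebraMap K E) (κc k i) * cpo E κ R (u k)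

theorem trf_sum (a : PA E κ R) (S : Finset (Mon κ R)) (hS : ∀ m, a.coeff m ≠ 0 → m ∈ S) :
    ∑ m ∈ S, AddMonoidAlgebra.single m (a.coeff m) = a := by
  classical
  apply AddMonoidAlgebra.ext
  ext m
  rw [AddMonoidAlgebra.coeff_sum, Finsupp.finsetSum_apply]
  by_cases h : m ∈ S
  · rw [Finset.sum_eq_single m]
    · exact Finsupp.single_eq_same
    · intro m' _ h'
      exact Finsupp.single_eq_of_ne h'.symm
    · intro h'
      exact absurd h h'
  · rw [Finset.sum_eq_zero]
    · by_contra h'
      exact h (hS m (Ne.symm h'))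
    · intro m' hm'
      refine Finsupp.single_eq_of_ne ?_
      rintro rfl
      exact h hm'

/-- Proof: `PA E κ R` is noetherian (`U/Noeth`); the `u k` are all coefficients of the generators, the
`κc l k i` are monomials or zero. -/
theorem exists_gn [Finite α] {β : Fin R → Blk K κ} {N : Submodule (PA E κ R) (α → PA E κ R)}
    (hN : IsGi β N) :
    ∃ (L t : ℕ) (u : Fin t → E) (κc : Fin L → Fin t → α → PA K κ R),
      N = Submodule.span (PA E κ R) (Set.range fun l => gn E u (κc l)) := by
  classical
  have := Fintype.ofFinite α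
  have h0 : IsNoetherianRing (PA E κ R) := U.isNoetherianRing_pa
  have h1 : IsNoetherian (PA E κ R) (α → PA E κ R) := inferInstance
  obtain ⟨L, v, hv⟩ := Submodule.fg_iff_exists_fin_generating_family.1 (h1.noetherian N)
  let S : Finset (Mon κ R) :=
    Finset.univ.biUnion fun l : Fin L => Finset.univ.biUnion fun i : α => (v l i).coeff.support
  have hS : ∀ l i m, (v l i).coeff m ≠ 0 → m ∈ S := by
    intro l i m hm
    simp only [S, Finset.mem_biUnion]
    exact ⟨l, Finset.mem_univ _, i, Finset.mem_univ _, Finsupp.mem_support_iff.2 hm⟩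
  obtain ⟨t, ⟨e⟩⟩ := Finite.exists_equiv_fin (Fin L × α × S)
  refine ⟨L, t, fun k => (v (e.symm k).1 (e.symm k).2.1).coeff (e.symm k).2.2.1,
    fun l k i => if (e.symm k).1 = l ∧ (e.symm k).2.1 = i then
      AddMonoidAlgebra.single (e.symm k).2.2.1 1 else 0, ?_⟩
  rw [← hv]
  congr 2
  funext l
  funext i
  rw [gn]
  rw [← Equiv.sum_comp e]
  simp only [Equiv.symm_apply_apply]
  rw [Fintype.sum_prod_type, Finset.sum_eq_single l]
  · rw [Fintype.sum_prod_type, Finset.sum_eq_single i]
    · rw [← trf_sum (v l i) S (hS l i), ← Finset.sum_coe_sort]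
      refine Finset.sum_congr rfl fun m _ => ?_
      rw [if_pos ⟨rfl, rfl⟩]
      have h2 : AddMonoidAlgebra.mapRingHom (Mon κ R) (algebraMap K E)
          (AddMonoidAlgebra.single m.1 (1 : K)) = AddMonoidAlgebra.single m.1 (1 : E) := by
        rw [AddMonoidAlgebra.mapRingHom_single, map_one]
      rw [h2, cpo, AddMonoidAlgebra.single_mul_single, add_zero, one_mul]
    · intro i' _ h'
      refine Finset.sum_eq_zero fun m _ => ?_
      rw [if_neg (fun h2 => h' h2.2), map_zero, zero_mul]
    · intro h'
      exact absurd (Finset.mem_univ _) h'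
  · intro l' _ h'
    refine Finset.sum_eq_zero fun p _ => ?_
    rw [if_neg (fun h2 => h' h2.1), map_zero, zero_mul]
  · intro h'
    exact absurd (Finset.mem_univ _) h'

section qdi

theorem trf_cp_coeff (n : Fin R → ℕ) (u : PA E κ R) (m : Mon κ R) :
    (cp E κ R n u).coeff m = open scoped Classical in if mdeg m = n then u.coeff m else 0 := by
  classical
  change (u.coeff.filter fun m => mdeg m = n) m = _
  rw [Finsupp.filter_apply]

theorem trf_cvi_mem (n : Fin R → ℕ) (u : α → PA E κ R) : cvi E κ R α n u ∈ pvi E κ R α n := by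
  classical
  intro i m hm
  change (cp E κ R n (u i)).coeff m ≠ 0 at hm
  rw [trf_cp_coeff] at hm
  by_contra h
  rw [if_neg h] at hm
  exact hm rfl

theorem trf_cvi_eq {n : Fin R → ℕ} {u : α → PA E κ R} (hu : u ∈ pvi E κ R α n) :
    cvi E κ R α n u = u := by
  classical
  funext i
  apply AddMonoidAlgebra.ext
  ext m
  change (cp E κ R n (u i)).coeff m = _
  rw [trf_cp_coeff]
  by_cases h : mdeg m = n
  · rw [if_pos h]
  · rw [if_neg h]
    by_contra h'
    exact h (hu i m (Ne.symm h'))

theorem trf_co_cvi (n : Fin R → ℕ) (x : α → PA E κ R) :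
    cof E n (cvi E κ R α n x) = cof E n x := by
  classical
  funext w
  change (cp E κ R n (x w.1)).coeff w.2.1 = (x w.1).coeff w.2.1
  rw [trf_cp_coeff, if_pos w.2.2]

theorem trf_co_inj {n : Fin R → ℕ} {u : α → PA E κ R} (hu : u ∈ pvi E κ R α n)
    (h : cof E n u = 0) : u = 0 := by
  funext i
  apply AddMonoidAlgebra.ext
  ext m
  by_contra h'
  have h1 : mdeg m = n := hu i m h'
  exact h' (congrFun h (i, ⟨m, h1⟩))

theorem trf_co_surj (n : Fin R → ℕ) (c : α × MonN κ R n → E) :
    ∃ u ∈ pvi E κ R α n, cof E n u = c := by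
  classical
  refine ⟨fun i => AddMonoidAlgebra.ofCoeff (Finsupp.mapDomain (fun m : MonN κ R n => m.1)
    (Finsupp.equivFunOnFinite.symm fun m => c (i, m))), ?_, ?_⟩
  · intro i m hm
    by_contra h
    refine hm ?_
    refine Finsupp.mapDomain_of_notMem_range _ _ ?_
    rintro ⟨m', hm'⟩
    exact h (hm' ▸ m'.2)
  · funext p
    change (Finsupp.mapDomain (fun m : MonN κ R n => m.1)
      (Finsupp.equivFunOnFinite.symm fun m => c (p.1, m))) p.2.1 = c p
    rw [Finsupp.mapDomain_apply (f := fun m : MonN κ R n => m.1) (fun a b h => Subtype.ext h)]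
    rfl

/-- the dimension of the quotient in degree `n`, in coordinates -/
theorem trf_qdi [Finite α] (N : Submodule (PA E κ R) (α → PA E κ R)) (n : Fin R → ℕ) :
    qdi N n = finrank E ((α × MonN κ R n → E) ⧸
      (pvi E κ R α n ⊓ N.restrictScalars E : Submodule E _).map (cof E n)) := by
  have hinj : Function.Injective
      ((cof E n).domRestrict (pvi E κ R α n)) := by
    rw [injective_iff_map_eq_zero]
    intro u hu
    exact Subtype.ext (trf_co_inj u.2 hu)
  have h1 : finrank E (pvi E κ R α n) = finrank E (α × MonN κ R n → E) := by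
    refine LinearEquiv.finrank_eq (LinearEquiv.ofBijective
      ((cof E n).domRestrict (pvi E κ R α n)) ⟨hinj, fun c => ?_⟩)
    obtain ⟨u, hu, huc⟩ := trf_co_surj n c
    exact ⟨⟨u, hu⟩, huc⟩
  have h2 : finrank E (pvi E κ R α n ⊓ N.restrictScalars E : Submodule E _) =
      finrank E ((pvi E κ R α n ⊓ N.restrictScalars E : Submodule E _).map (cof E n)) := by
    refine LinearEquiv.finrank_eq (LinearEquiv.ofBijective
      (((cof E n).domRestrict
        (pvi E κ R α n ⊓ N.restrictScalars E : Submodule E _)).codRestrict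
        ((pvi E κ R α n ⊓ N.restrictScalars E : Submodule E _).map (cof E n)) fun u =>
        Submodule.mem_map_of_mem (f := cof E n) u.2) ⟨?_, ?_⟩)
    · rw [injective_iff_map_eq_zero]
      intro u hu
      exact Subtype.ext (trf_co_inj u.2.1 (congrArg Subtype.val hu))
    · rintro ⟨_, u, hu, rfl⟩
      exact ⟨⟨u, hu⟩, rfl⟩
  have h3 := Submodule.finrank_quotient_add_finrank
    ((pvi E κ R α n ⊓ N.restrictScalars E : Submodule E _).map (cof E n))
  rw [qdi, h1, h2]
  omega

theorem trf_bm_coeff (g : Fin R) (P : MvPolynomial (Fin (κ + 2)) K) :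
    bm K E κ g P = AddMonoidAlgebra.mapRingHom (Mon κ R) (algebraMap K E) (bm K K κ g P) := by
  apply AddMonoidAlgebra.ext
  ext m
  rw [bm, bm, AlgHom.comp_apply, AlgHom.comp_apply, AddMonoidAlgebra.coeff_mapAlgHom]
  rfl

/-- the coefficients of a product with a constant on the right -/
theorem trf_mul_cpo (a : PA E κ R) (d : E) (m : Mon κ R) :
    (a * cpo E κ R d).coeff m = a.coeff m * d := by
  rw [cpo, AddMonoidAlgebra.coeff_mul_single_zero]

/-- the row of `single γ 1 • gn` -/
theorem trf_row {t : ℕ} (u : Fin t → E) {L : ℕ} (κc : Fin L → Fin t → α → PA K κ R)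
    (n : Fin R → ℕ) (j : Fin L × MonL κ R n) :
    (fun I : α × MonN κ R n => ∑ k, algebraMap K E (zz κc n j I k) * u k) =
      cof E n ((AddMonoidAlgebra.single j.2.1 (1 : E) : PA E κ R) • gn E u (κc j.1)) := by
  funext I
  change _ = ((AddMonoidAlgebra.single j.2.1 (1 : E) : PA E κ R) *
    ∑ k, AddMonoidAlgebra.mapRingHom (Mon κ R) (algebraMap K E) (κc j.1 k I.1) *
      cpo E κ R (u k)).coeff I.2.1
  rw [Finset.mul_sum, AddMonoidAlgebra.coeff_sum, Finsupp.finsetSum_apply]
  refine Finset.sum_congr rfl fun k _ => ?_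
  rw [← mul_assoc, trf_mul_cpo]
  congr 1
  have h1 : (AddMonoidAlgebra.single j.2.1 (1 : E) : PA E κ R) =
      AddMonoidAlgebra.mapRingHom (Mon κ R) (algebraMap K E)
        (AddMonoidAlgebra.single j.2.1 (1 : K)) := by
    rw [AddMonoidAlgebra.mapRingHom_single, map_one]
  rw [h1, ← map_mul]
  rfl

theorem trf_map_coeff (a : PA K κ R) (m : Mon κ R) :
    (AddMonoidAlgebra.mapRingHom (Mon κ R) (algebraMap K E) a).coeff m =
      algebraMap K E (a.coeff m) := by
  rw [AddMonoidAlgebra.coeff_mapRingHom]

/-- the row of `single γ 1 • bm .. • single i 1` -/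
theorem trf_row2 [DecidableEq α] (β : Fin R → Blk K κ) (n : Fin R → ℕ)
    (j : (Fin R × Fin κ) × (α × MonL κ R n)) :
    (fun I : α × MonN κ R n => algebraMap K E (aa β n j I)) =
      cof E n ((AddMonoidAlgebra.single j.2.2.1 (1 : E) : PA E κ R) •
        (bm K E κ j.1.1 ((β j.1.1).rel j.1.2) • (Pi.single j.2.1 1 : α → PA E κ R))) := by
  funext I
  change _ = ((AddMonoidAlgebra.single j.2.2.1 (1 : E) : PA E κ R) *
    (bm K E κ j.1.1 ((β j.1.1).rel j.1.2) * (Pi.single j.2.1 1 : α → PA E κ R) I.1)).coeff I.2.1
  by_cases h : j.2.1 = I.1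
  · rw [aa, if_pos h, ← h, Pi.single_eq_same, mul_one, ← trf_map_coeff, map_mul,
      ← trf_bm_coeff, AddMonoidAlgebra.mapRingHom_single, map_one]
  · rw [aa, if_neg h, Pi.single_eq_of_ne (Ne.symm h), mul_zero, mul_zero, map_zero]
    rfl

/-- Proof: the image of `N` under `cof n` is the span of the rows: `cof n (c • gn l)` is a combination of
the `cof n (single γ 1 • gn l)`, `mdeg γ ≤ n`; conversely `cof n v = cof n (cvi n v)` and `cvi n v ∈ N`.
`cof n` is a bijection from `pvi n` to `α × MonN κ R n → E`. -/
theorem qdi_eq_finrank [Finite α] {β : Fin R → Blk K κ} {N : Submodule (PA E κ R) (α → PA E κ R)}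
    (hN : IsGi β N) {L t : ℕ} (u : Fin t → E) (κc : Fin L → Fin t → α → PA K κ R)
    (hκ : N = Submodule.span (PA E κ R) (Set.range fun l => gn E u (κc l))) (n : Fin R → ℕ) :
    qdi N n = finrank E ((α × MonN κ R n → E) ⧸
      (Submodule.span E (Set.range fun (j : Fin L × MonL κ R n) (I : α × MonN κ R n) =>
          ∑ k, algebraMap K E (zz κc n j I k) * u k) ⊔
        Submodule.span E (Set.range fun (j : (Fin R × Fin κ) × (α × MonL κ R n))
          (I : α × MonN κ R n) => algebraMap K E (aa β n j I)))) := by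
  classical
  have hmem : ∀ x ∈ N, cof E n x ∈
      (pvi E κ R α n ⊓ N.restrictScalars E : Submodule E _).map (cof E n) := by
    intro x hx
    rw [← trf_co_cvi]
    exact Submodule.mem_map_of_mem ⟨trf_cvi_mem n x, hN.hom x hx n⟩
  have heq : (pvi E κ R α n ⊓ N.restrictScalars E : Submodule E _).map (cof E n) =
      Submodule.span E (Set.range fun (j : Fin L × MonL κ R n) (I : α × MonN κ R n) =>
          ∑ k, algebraMap K E (zz κc n j I k) * u k) ⊔
        Submodule.span E (Set.range fun (j : (Fin R × Fin κ) × (α × MonL κ R n))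
          (I : α × MonN κ R n) => algebraMap K E (aa β n j I)) := by
    apply le_antisymm
    · refine le_trans ?_ le_sup_left
      rintro _ ⟨x, ⟨_, hx⟩, rfl⟩
      have hx' : x ∈ N := hx
      rw [hκ, Submodule.mem_span_range_iff_exists_fun] at hx'
      obtain ⟨c, hc⟩ := hx'
      have h1 : ∀ (b : PA E κ R) (l : Fin L), cof E n (b • gn E u (κc l)) ∈
          Submodule.span E (Set.range fun (j : Fin L × MonL κ R n) (I : α × MonN κ R n) =>
            ∑ k, algebraMap K E (zz κc n j I k) * u k) := by
        intro b l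
        induction b using AddMonoidAlgebra.induction_linear with
        | zero =>
          rw [zero_smul, map_zero]
          exact Submodule.zero_mem _
        | add f g hf hg =>
          rw [add_smul, map_add]
          exact Submodule.add_mem _ hf hg
        | single γ d =>
          have h2 : (AddMonoidAlgebra.single γ d : PA E κ R) • gn E u (κc l) =
              d • ((AddMonoidAlgebra.single γ (1 : E) : PA E κ R) • gn E u (κc l)) := by
            funext i
            change AddMonoidAlgebra.single γ d * gn E u (κc l) i =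
              d • (AddMonoidAlgebra.single γ (1 : E) * gn E u (κc l) i)
            rw [← smul_mul_assoc, AddMonoidAlgebra.smul_single, smul_eq_mul, mul_one]
          rw [h2, map_smul]
          refine Submodule.smul_mem _ _ ?_
          by_cases h : mdeg γ ≤ n
          · refine Submodule.subset_span ⟨(l, ⟨γ, h⟩), ?_⟩
            exact trf_row u κc n (l, ⟨γ, h⟩)
          · have h3 : cof E n ((AddMonoidAlgebra.single γ (1 : E) : PA E κ R) • gn E u (κc l)) =
                0 := by
              funext I
              change (AddMonoidAlgebra.single γ (1 : E) * gn E u (κc l) I.1).coeff I.2.1 = 0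
              rw [AddMonoidAlgebra.coeff_single_mul_of_forall_add_ne]
              intro m' hm'
              refine h ?_
              rw [← I.2.2, ← hm', mdeg_add]
              exact le_self_add
            rw [h3]
            exact Submodule.zero_mem _
      rw [← hc, map_sum]
      exact Submodule.sum_mem _ fun l _ => h1 (c l) l
    · refine sup_le ?_ ?_
      · rw [Submodule.span_le]
        rintro _ ⟨j, rfl⟩
        have h1 := trf_row (E := E) u κc n j
        rw [SetLike.mem_coe]
        beta_reduce
        rw [h1]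
        refine hmem _ (N.smul_mem _ ?_)
        rw [hκ]
        exact Submodule.subset_span ⟨j.1, rfl⟩
      · rw [Submodule.span_le]
        rintro _ ⟨j, rfl⟩
        have h1 := trf_row2 (E := E) β n j
        rw [SetLike.mem_coe]
        beta_reduce
        rw [h1]
        exact hmem _ (N.smul_mem _ (hN.rel _ _ _))
  rw [trf_qdi, heq]

end qdi

end Vale.Agent.P200.V
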