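import Vale.Agent.P200.V.Tr

/-!
Transfer (C), part G: the lattice.
-/

namespace Vale.Agent.P200.V

open Module

universe u

theorem lam_sub {κ : ℕ} (R : ℕ) (e : Fin R → Fin κ → ℕ) (f g : (Fin R → ℤ) → ℤ) (hf : Lam R e f)
    (hg : Lam R e g) : Lam R e (f - g) := by
  induction R with
  | zero => exact (lam_zero e _).2 trivial
  | succ R ih =>
    rw [lam_succ] at hf hg ⊢
    obtain ⟨A, B, hA, hB, h⟩ := hf
    obtain ⟨A', B', hA', hB', h'⟩ := hg
    refine ⟨A - A', B - B', ih _ _ _ hA hA', ih _ _ _ hB hB', fun n => ?_⟩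
    rw [Pi.sub_apply, Pi.sub_apply, Pi.sub_apply, h, h']
    ring

end Vale.Agent.P200.V
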