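import Vale.Agent.P200.V.Sl
import Vale.Agent.P200.U.Noeth

/-!
Transfer (C): homogeneous generators; the part of degree `n` of the module generated by homogeneous
vectors.
-/

namespace Vale.Agent.P200.V

open Module

universe u

section gen
variable {D : Type u} [DivisionRing D] {κ R s : ℕ}

theorem tg_cp_coeff (n : Fin R → ℕ) (u : PA D κ R) (m : Mon κ R) :
    (cp D κ R n u).coeff m = open scoped Classical in if mdeg m = n then u.coeff m else 0 := by
  classical
  change (u.coeff.filter fun m => mdeg m = n) m = _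
  rw [Finsupp.filter_apply]

theorem tg_cp_mem (n : Fin R → ℕ) (u : PA D κ R) : cp D κ R n u ∈ pp D κ R n := by
  classical
  intro m hm
  rw [tg_cp_coeff] at hm
  by_contra h
  rw [if_neg h] at hm
  exact hm rfl

theorem tg_cp_eq {n : Fin R → ℕ} {u : PA D κ R} (hu : u ∈ pp D κ R n) : cp D κ R n u = u := by
  classical
  apply AddMonoidAlgebra.ext
  ext m
  rw [tg_cp_coeff]
  by_cases h : mdeg m = n
  · rw [if_pos h]
  · rw [if_neg h]
    by_contra h'
    exact h (hu m (Ne.symm h'))

theorem tg_cp_ne {n n' : Fin R → ℕ} (h : n' ≠ n) {u : PA D κ R} (hu : u ∈ pp D κ R n') :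
    cp D κ R n u = 0 := by
  classical
  apply AddMonoidAlgebra.ext
  ext m
  rw [tg_cp_coeff]
  by_cases h1 : mdeg m = n
  · rw [if_pos h1]
    by_contra h'
    exact h ((hu m h').symm.trans h1)
  · rw [if_neg h1]
    rfl

theorem tg_cp_sum (u : PA D κ R) (T : Finset (Fin R → ℕ)) (hT : ∀ m, u.coeff m ≠ 0 → mdeg m ∈ T) :
    ∑ n ∈ T, cp D κ R n u = u := by
  classical
  apply AddMonoidAlgebra.ext
  ext m
  have h1 : (∑ n ∈ T, cp D κ R n u).coeff m = ∑ n ∈ T, (cp D κ R n u).coeff m := by
    rw [AddMonoidAlgebra.coeff_sum, Finsupp.finsetSum_apply]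
  rw [h1]
  simp only [tg_cp_coeff]
  by_cases h : u.coeff m = 0
  · rw [h]
    simp
  · rw [Finset.sum_ite_eq, if_pos (hT m h)]

theorem tg_cv_mem (n : Fin R → ℕ) (u : Fin s → PA D κ R) : cv D κ R s n u ∈ pv D κ R s n :=
  fun i => tg_cp_mem n (u i)

theorem tg_cv_eq {n : Fin R → ℕ} {u : Fin s → PA D κ R} (hu : u ∈ pv D κ R s n) :
    cv D κ R s n u = u := by
  funext i
  exact tg_cp_eq (hu i)

theorem tg_cv_ne {n n' : Fin R → ℕ} (h : n' ≠ n) {u : Fin s → PA D κ R} (hu : u ∈ pv D κ R s n') :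
    cv D κ R s n u = 0 := by
  funext i
  exact tg_cp_ne h (hu i)

theorem tg_cv_sum (u : Fin s → PA D κ R) :
    ∃ T : Finset (Fin R → ℕ), ∑ n ∈ T, cv D κ R s n u = u := by
  classical
  refine ⟨Finset.univ.biUnion fun i => (u i).coeff.support.image mdeg, ?_⟩
  funext i
  rw [Finset.sum_apply]
  refine tg_cp_sum (u i) _ fun m hm => ?_
  rw [Finset.mem_biUnion]
  exact ⟨i, Finset.mem_univ i, Finset.mem_image_of_mem _ (Finsupp.mem_support_iff.2 hm)⟩

/-- **(C1)** homogeneous generators -/
theorem exists_hom_gen (N : Submodule (PA D κ R) (Fin s → PA D κ R))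
    (hN : ∀ u ∈ N, ∀ n, cv D κ R s n u ∈ N) :
    ∃ (q : ℕ) (v : Fin q → Fin s → PA D κ R) (n : Fin q → Fin R → ℕ),
      (∀ j, v j ∈ pv D κ R s (n j)) ∧ Submodule.span (PA D κ R) (Set.range v) = N := by
  classical
  have h0 : IsNoetherianRing (PA D κ R) := U.isNoetherianRing_pa
  have h1 : IsNoetherian (PA D κ R) (Fin s → PA D κ R) := inferInstance
  obtain ⟨S, hS⟩ := h1.noetherian N
  choose T hT using fun u : Fin s → PA D κ R => tg_cv_sum u
  let ι0 := Σ u : S, T u.1
  let v0 : ι0 → Fin s → PA D κ R := fun p => cv D κ R s p.2.1 p.1.1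
  obtain ⟨q, ⟨e⟩⟩ := Finite.exists_equiv_fin ι0
  refine ⟨q, fun j => v0 (e.symm j), fun j => (e.symm j).2.1, fun j => tg_cv_mem _ _, ?_⟩
  have hr : Set.range (fun j => v0 (e.symm j)) = Set.range v0 := by
    have : (fun j => v0 (e.symm j)) = v0 ∘ e.symm := rfl
    rw [this, e.symm.surjective.range_comp]
  rw [hr]
  apply le_antisymm
  · rw [Submodule.span_le]
    rintro _ ⟨p, rfl⟩
    refine hN _ ?_ _
    rw [← hS]
    exact Submodule.subset_span p.1.2
  · rw [← hS, Submodule.span_le]
    intro u hu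
    have h2 : u = ∑ n ∈ T u, cv D κ R s n u := (hT u).symm
    rw [SetLike.mem_coe, h2]
    refine Submodule.sum_mem _ fun n hn => ?_
    exact Submodule.subset_span ⟨⟨⟨u, hu⟩, ⟨n, hn⟩⟩, rfl⟩

/-- a monomial -/
noncomputable def tgm (D : Type u) [DivisionRing D] {κ R : ℕ} (γ : Mon κ R) : PA D κ R :=
  AddMonoidAlgebra.single γ 1

theorem tgm_mul_coeff (γ : Mon κ R) (u : PA D κ R) (m : Mon κ R) :
    (tgm D γ * u).coeff (γ + m) = u.coeff m := by
  rw [tgm, AddMonoidAlgebra.coeff_single_mul_add, one_mul]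

theorem tgm_mul_coeff_ne (γ : Mon κ R) (u : PA D κ R) (m : Mon κ R) (h : ∀ d, γ + d ≠ m) :
    (tgm D γ * u).coeff m = 0 := by
  rw [tgm, AddMonoidAlgebra.coeff_single_mul_of_forall_add_ne _ _ h]

theorem tgm_mul_mem (γ : Mon κ R) {n : Fin R → ℕ} {u : PA D κ R} (hu : u ∈ pp D κ R n) :
    tgm D γ * u ∈ pp D κ R (mdeg γ + n) := by
  intro m hm
  by_cases h : ∃ d, γ + d = m
  · obtain ⟨d, rfl⟩ := h
    rw [tgm_mul_coeff] at hm
    rw [mdeg_add, hu d hm]
  · rw [tgm_mul_coeff_ne γ u m (fun d hd => h ⟨d, hd⟩)] at hm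
    exact absurd rfl hm

theorem tgm_smul_mem (γ : Mon κ R) {n : Fin R → ℕ} {u : Fin s → PA D κ R}
    (hu : u ∈ pv D κ R s n) : tgm D γ • u ∈ pv D κ R s (mdeg γ + n) :=
  fun i => tgm_mul_mem γ (hu i)

theorem tg_single_mul (γ : Mon κ R) (d : D) (u : PA D κ R) :
    AddMonoidAlgebra.single γ d * u = d • (tgm D γ * u) := by
  rw [tgm, ← smul_mul_assoc, AddMonoidAlgebra.smul_single, smul_eq_mul, mul_one]

/-- the part of degree `n` of the module generated by homogeneous vectors -/
theorem pv_inf_span {q : ℕ} {v : Fin q → Fin s → PA D κ R} {dg : Fin q → Fin R → ℕ}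
    (hv : ∀ j, v j ∈ pv D κ R s (dg j)) (n : Fin R → ℕ) :
    pv D κ R s n ⊓ (Submodule.span (PA D κ R) (Set.range v)).restrictScalars D =
      Submodule.span D (Set.range fun p : {p : Fin q × Mon κ R // mdeg p.2 + dg p.1 = n} =>
        tgm D p.1.2 • v p.1.1) := by
  classical
  apply le_antisymm
  · rintro u ⟨hu, huN⟩
    have huN' : u ∈ Submodule.span (PA D κ R) (Set.range v) := huN
    rw [Submodule.mem_span_range_iff_exists_fun] at huN'
    obtain ⟨a, ha⟩ := huN'
    have h1 : ∀ (b : PA D κ R) (j : Fin q), cv D κ R s n (b • v j) ∈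
        Submodule.span D (Set.range fun p : {p : Fin q × Mon κ R // mdeg p.2 + dg p.1 = n} =>
          tgm D p.1.2 • v p.1.1) := by
      intro b j
      induction b using AddMonoidAlgebra.induction_linear with
      | zero =>
        rw [zero_smul, map_zero]
        exact Submodule.zero_mem _
      | add f g hf hg =>
        rw [add_smul, map_add]
        exact Submodule.add_mem _ hf hg
      | single γ d =>
        have h2 : (AddMonoidAlgebra.single γ d : PA D κ R) • v j = d • (tgm D γ • v j) := by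
          funext i
          exact tg_single_mul γ d (v j i)
        rw [h2, map_smul]
        refine Submodule.smul_mem _ _ ?_
        by_cases h : mdeg γ + dg j = n
        · rw [tg_cv_eq (h ▸ tgm_smul_mem γ (hv j))]
          exact Submodule.subset_span ⟨⟨(j, γ), h⟩, rfl⟩
        · rw [tg_cv_ne h (tgm_smul_mem γ (hv j))]
          exact Submodule.zero_mem _
    rw [← tg_cv_eq hu, ← ha, map_sum]
    exact Submodule.sum_mem _ fun j _ => h1 (a j) j
  · rw [Submodule.span_le]
    rintro _ ⟨p, rfl⟩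
    have h1 : tgm D p.1.2 • v p.1.1 ∈ pv D κ R s n := by
      have h2 := tgm_smul_mem p.1.2 (hv p.1.1)
      rw [p.2] at h2
      exact h2
    have h3 : tgm D p.1.2 • v p.1.1 ∈ Submodule.span (PA D κ R) (Set.range v) :=
      Submodule.smul_mem _ _ (Submodule.subset_span ⟨p.1.1, rfl⟩)
    exact ⟨h1, h3⟩

/-- coordinates in degree `n` -/
noncomputable def gco (D : Type u) [DivisionRing D] (κ R s : ℕ) (n : Fin R → ℕ) :
    (Fin s → PA D κ R) →ₗ[D] (Fin s × MonN κ R n → D) where
  toFun u p := (u p.1).coeff p.2.1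
  map_add' u v := by
    funext p
    rfl
  map_smul' k u := by
    funext p
    rfl

theorem gco_inj {n : Fin R → ℕ} {u : Fin s → PA D κ R} (hu : u ∈ pv D κ R s n)
    (h : gco D κ R s n u = 0) : u = 0 := by
  funext i
  apply AddMonoidAlgebra.ext
  ext m
  by_contra h'
  have h1 : mdeg m = n := hu i m h'
  exact h' (congrFun h (i, ⟨m, h1⟩))

theorem gco_surj (n : Fin R → ℕ) (c : Fin s × MonN κ R n → D) :
    ∃ u ∈ pv D κ R s n, gco D κ R s n u = c := by
  classical
  have : Fintype (MonN κ R n) := Fintype.ofFinite _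
  refine ⟨fun i => AddMonoidAlgebra.ofCoeff (Finsupp.mapDomain (fun m : MonN κ R n => m.1)
    (Finsupp.equivFunOnFinite.symm fun m => c (i, m))), ?_, ?_⟩
  · intro i m hm
    by_contra h
    refine hm ?_
    refine Finsupp.mapDomain_of_notMem_range _ _ ?_
    rintro ⟨m', hm'⟩
    exact h (hm' ▸ m'.2)
  · funext p
    change (Finsupp.mapDomain (fun m : MonN κ R n => m.1)
      (Finsupp.equivFunOnFinite.symm fun m => c (p.1, m))) p.2.1 = c p
    rw [Finsupp.mapDomain_apply (f := fun m : MonN κ R n => m.1) (fun a b h => Subtype.ext h)]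
    rfl

/-- the coordinates of the part of degree `n` of the module generated by homogeneous vectors -/
theorem gco_span {q : ℕ} {v : Fin q → Fin s → PA D κ R} {dg : Fin q → Fin R → ℕ}
    (hv : ∀ j, v j ∈ pv D κ R s (dg j)) (n : Fin R → ℕ) :
    (pv D κ R s n ⊓ (Submodule.span (PA D κ R) (Set.range v)).restrictScalars D).map
      (gco D κ R s n) =
      Submodule.span D (Set.range fun p : {p : Fin q × Mon κ R // mdeg p.2 + dg p.1 = n} =>
        gco D κ R s n (tgm D p.1.2 • v p.1.1)) := by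
  rw [pv_inf_span hv, Submodule.map_span, ← Set.range_comp]
  rfl

/-- the dimension of the quotient in degree `n` -/
theorem qd_eq_finrank (N : Submodule (PA D κ R) (Fin s → PA D κ R)) (n : Fin R → ℕ) :
    qd N n = finrank D ((Fin s × MonN κ R n → D) ⧸
      (pv D κ R s n ⊓ N.restrictScalars D : Submodule D _).map (gco D κ R s n)) := by
  have : Fintype (MonN κ R n) := Fintype.ofFinite _
  have hinj : Function.Injective ((gco D κ R s n).domRestrict (pv D κ R s n)) := by
    rw [injective_iff_map_eq_zero]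
    intro u hu
    exact Subtype.ext (gco_inj u.2 hu)
  have h1 : finrank D (pv D κ R s n) = finrank D (Fin s × MonN κ R n → D) := by
    refine LinearEquiv.finrank_eq (LinearEquiv.ofBijective
      ((gco D κ R s n).domRestrict (pv D κ R s n)) ⟨hinj, fun c => ?_⟩)
    obtain ⟨u, hu, huc⟩ := gco_surj n c
    exact ⟨⟨u, hu⟩, huc⟩
  have h2 : finrank D (pv D κ R s n ⊓ N.restrictScalars D : Submodule D _) =
      finrank D ((pv D κ R s n ⊓ N.restrictScalars D : Submodule D _).map (gco D κ R s n)) := by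
    refine LinearEquiv.finrank_eq (LinearEquiv.ofBijective
      (((gco D κ R s n).domRestrict
        (pv D κ R s n ⊓ N.restrictScalars D : Submodule D _)).codRestrict
        ((pv D κ R s n ⊓ N.restrictScalars D : Submodule D _).map (gco D κ R s n)) fun u =>
        Submodule.mem_map_of_mem (f := gco D κ R s n) u.2) ⟨?_, ?_⟩)
    · rw [injective_iff_map_eq_zero]
      intro u hu
      exact Subtype.ext (gco_inj u.2.1 (congrArg Subtype.val hu))
    · rintro ⟨_, u, hu, rfl⟩
      exact ⟨⟨u, hu⟩, rfl⟩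
  have h3 := Submodule.finrank_quotient_add_finrank
    ((pv D κ R s n ⊓ N.restrictScalars D : Submodule D _).map (gco D κ R s n))
  rw [qd, h1, h2]
  omega

end gen

section rows
variable {K : Type u} [Field K] {D : Type u} [DivisionRing D] [Algebra K D] {κ R s : ℕ}

open scoped Classical in
/-- the coefficients of the product with the monomial `γ` -/
noncomputable def shc {A : Type*} [Zero A] (γ : Mon κ R) (c : Mon κ R → A) (m : Mon κ R) : A :=
  if γ ≤ m then c (m - γ) else 0

theorem shc_add {A : Type*} [Zero A] (γ : Mon κ R) (c : Mon κ R → A) (m : Mon κ R) :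
    shc γ c (γ + m) = c m := by
  rw [shc, if_pos le_self_add, add_tsub_cancel_left]

theorem shc_ne {A : Type*} [Zero A] (γ : Mon κ R) (c : Mon κ R → A) (m : Mon κ R)
    (h : ¬ γ ≤ m) : shc γ c m = 0 := if_neg h

theorem shc_shc {A : Type*} [Zero A] (γ γ' : Mon κ R) (c : Mon κ R → A) (m : Mon κ R) :
    shc γ (shc γ' c) m = shc (γ + γ') c m := by
  by_cases h : γ + γ' ≤ m
  · obtain ⟨m', rfl⟩ := exists_add_of_le h
    rw [shc_add, add_assoc, shc_add, shc_add]
  · rw [shc_ne _ _ _ h]
    by_cases h1 : γ ≤ m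
    · obtain ⟨m', rfl⟩ := exists_add_of_le h1
      rw [shc_add, shc_ne]
      intro h2
      exact h (add_le_add_right h2 γ)
    · rw [shc_ne _ _ _ h1]

theorem tgm_mul_coeff_shc (γ : Mon κ R) (u : PA D κ R) (m : Mon κ R) :
    (tgm D γ * u).coeff m = shc γ (fun m => u.coeff m) m := by
  by_cases h : γ ≤ m
  · obtain ⟨m', rfl⟩ := exists_add_of_le h
    rw [tgm_mul_coeff, shc_add]
  · rw [shc_ne _ _ _ h, tgm_mul_coeff_ne]
    rintro d rfl
    exact h le_self_add

theorem bm_coeff (g : Fin R) (P : MvPolynomial (Fin (κ + 2)) K) (m : Mon κ R) :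
    (bm K D κ g P).coeff m = algebraMap K D ((bm K K κ g P).coeff m) := by
  rw [bm, bm, AlgHom.comp_apply, AlgHom.comp_apply, AddMonoidAlgebra.coeff_mapAlgHom,
    AddMonoidAlgebra.coeff_mapAlgHom]
  rfl

theorem gco_cv (n : Fin R → ℕ) (x : Fin s → PA D κ R) :
    gco D κ R s n (cv D κ R s n x) = gco D κ R s n x := by
  classical
  funext w
  change (cp D κ R n (x w.1)).coeff w.2.1 = (x w.1).coeff w.2.1
  rw [tg_cp_coeff, if_pos w.2.2]

theorem shc_sum {t : ℕ} (γ : Mon κ R) (c : Mon κ R → Fin t → K) (u : Fin t → D) (m : Mon κ R) :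
    ∑ k, algebraMap K D (shc γ (fun m => c m k) m) * u k =
      shc γ (fun m => ∑ k, algebraMap K D (c m k) * u k) m := by
  by_cases h : γ ≤ m
  · obtain ⟨m', rfl⟩ := exists_add_of_le h
    rw [shc_add]
    simp only [shc_add]
  · rw [shc_ne _ _ _ h]
    simp only [shc_ne _ _ _ h, map_zero, zero_mul, Finset.sum_const_zero]

/-- **(C2)** the dimensions of an object, by rows with coefficients in `K` and finitely many
elements of `D` -/
theorem exists_rows (β : Fin R → Blk K κ) (N : Submodule (PA D κ R) (Fin s → PA D κ R))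
    (hN : IsG β N) :
    ∃ (q t : ℕ) (dg : Fin q → Fin R → ℕ) (u : Fin t → D)
      (zz : Fin q → Fin s → Mon κ R → Fin t → K),
      (∀ j i m k, zz j i m k ≠ 0 → mdeg m = dg j) ∧
      ∀ n : Fin R → ℕ, qd N n = finrank D ((Fin s × MonN κ R n → D) ⧸
        (Submodule.span D (Set.range fun (p : Fin q × {γ : Mon κ R // mdeg γ ≤ n})
            (w : Fin s × MonN κ R n) =>
            ∑ k, algebraMap K D (shc p.2.1 (fun m => zz p.1 w.1 m k) w.2.1) * u k) ⊔
          Submodule.span D (Set.range fun (p : (Fin R × Fin κ × Fin s) ×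
              {γ : Mon κ R // mdeg γ ≤ n}) (w : Fin s × MonN κ R n) =>
            algebraMap K D (shc p.2.1 (fun m => if w.1 = p.1.2.2 then
              (bm K K κ p.1.1 ((β p.1.1).rel p.1.2.1)).coeff m else 0) w.2.1)))) := by
  classical
  obtain ⟨q, v, dg, hv, hsp⟩ := exists_hom_gen N hN.hom
  -- the list of all coefficients
  let T := (j : Fin q) × (Fin s × MonN κ R (dg j))
  obtain ⟨t, ⟨e⟩⟩ := Finite.exists_equiv_fin T
  let u : Fin t → D := fun k => (v (e.symm k).1 (e.symm k).2.1).coeff (e.symm k).2.2.1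
  let zz : Fin q → Fin s → Mon κ R → Fin t → K := fun j i m k =>
    if ∃ h : mdeg m = dg j, e ⟨j, (i, ⟨m, h⟩)⟩ = k then 1 else 0
  have hzz : ∀ j i m, ∑ k, algebraMap K D (zz j i m k) * u k = (v j i).coeff m := by
    intro j i m
    by_cases h : mdeg m = dg j
    · rw [Finset.sum_eq_single (e ⟨j, (i, ⟨m, h⟩)⟩)]
      · have h1 : zz j i m (e ⟨j, (i, ⟨m, h⟩)⟩) = 1 := if_pos ⟨h, rfl⟩
        rw [h1, map_one, one_mul]
        change (v (e.symm (e _)).1 (e.symm (e _)).2.1).coeff (e.symm (e _)).2.2.1 = _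
        rw [Equiv.symm_apply_apply]
      · intro k _ hk
        have h1 : zz j i m k = 0 := by
          refine if_neg ?_
          rintro ⟨_, h2⟩
          exact hk h2.symm
        rw [h1, map_zero, zero_mul]
      · intro h2
        exact absurd (Finset.mem_univ _) h2
    · have h1 : (v j i).coeff m = 0 := by
        by_contra h2
        exact h (hv j i m h2)
      rw [h1]
      refine Finset.sum_eq_zero fun k _ => ?_
      have h3 : zz j i m k = 0 := by
        refine if_neg ?_
        rintro ⟨h2, _⟩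
        exact h h2
      rw [h3, map_zero, zero_mul]
  refine ⟨q, t, dg, u, zz, ?_, fun n => ?_⟩
  · intro j i m k h
    by_contra h1
    refine h (if_neg ?_)
    rintro ⟨h2, _⟩
    exact h1 h2
  rw [qd_eq_finrank]
  have hmem : ∀ x ∈ N, gco D κ R s n x ∈
      (pv D κ R s n ⊓ N.restrictScalars D : Submodule D _).map (gco D κ R s n) := by
    intro x hx
    rw [← gco_cv]
    exact Submodule.mem_map_of_mem ⟨tg_cv_mem n x, hN.hom x hx n⟩
  have hrow1 : ∀ (j : Fin q) (γ : Mon κ R), (fun w : Fin s × MonN κ R n =>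
      ∑ k, algebraMap K D (shc γ (fun m => zz j w.1 m k) w.2.1) * u k) =
      gco D κ R s n (tgm D γ • v j) := by
    intro j γ
    funext w
    rw [shc_sum]
    change _ = (tgm D γ * v j w.1).coeff w.2.1
    rw [tgm_mul_coeff_shc]
    congr 1
    funext m
    exact hzz j w.1 m
  have hrow2 : ∀ (g : Fin R) (i : Fin κ) (j : Fin s) (γ : Mon κ R),
      (fun w : Fin s × MonN κ R n => algebraMap K D (shc γ (fun m => if w.1 = j then
        (bm K K κ g ((β g).rel i)).coeff m else 0) w.2.1)) =
      gco D κ R s n (tgm D γ • Pi.single j (bm K D κ g ((β g).rel i))) := by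
    intro g i j γ
    funext w
    change _ = (tgm D γ * (Pi.single j (bm K D κ g ((β g).rel i)) : Fin s → PA D κ R) w.1).coeff
      w.2.1
    rw [tgm_mul_coeff_shc]
    by_cases h : w.1 = j
    · rw [h, Pi.single_eq_same]
      simp only [if_pos]
      by_cases h1 : γ ≤ w.2.1
      · obtain ⟨m', hm'⟩ := exists_add_of_le h1
        rw [hm', shc_add, shc_add, ← bm_coeff g _ m']
      · rw [shc_ne _ _ _ h1, shc_ne _ _ _ h1, map_zero]
    · rw [Pi.single_eq_of_ne h]
      simp only [if_neg h]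
      by_cases h1 : γ ≤ w.2.1
      · obtain ⟨m', hm'⟩ := exists_add_of_le h1
        rw [hm', shc_add, shc_add, map_zero]
        rfl
      · rw [shc_ne _ _ _ h1, shc_ne _ _ _ h1, map_zero]
  have heq : (pv D κ R s n ⊓ N.restrictScalars D : Submodule D _).map (gco D κ R s n) =
      Submodule.span D (Set.range fun (p : Fin q × {γ : Mon κ R // mdeg γ ≤ n})
            (w : Fin s × MonN κ R n) =>
            ∑ k, algebraMap K D (shc p.2.1 (fun m => zz p.1 w.1 m k) w.2.1) * u k) ⊔
          Submodule.span D (Set.range fun (p : (Fin R × Fin κ × Fin s) ×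
              {γ : Mon κ R // mdeg γ ≤ n}) (w : Fin s × MonN κ R n) =>
            algebraMap K D (shc p.2.1 (fun m => if w.1 = p.1.2.2 then
              (bm K K κ p.1.1 ((β p.1.1).rel p.1.2.1)).coeff m else 0) w.2.1)) := by
    apply le_antisymm
    · refine le_trans ?_ le_sup_left
      have h1 := gco_span (D := D) hv n
      rw [hsp] at h1
      rw [h1, Submodule.span_le]
      rintro _ ⟨p, rfl⟩
      have h2 : mdeg p.1.2 ≤ n := le_trans le_self_add p.2.le
      refine Submodule.subset_span ⟨(p.1.1, ⟨p.1.2, h2⟩), ?_⟩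
      exact hrow1 p.1.1 p.1.2
    · refine sup_le ?_ ?_
      · rw [Submodule.span_le]
        rintro _ ⟨p, rfl⟩
        have h1 := hrow1 p.1 p.2.1
        rw [SetLike.mem_coe]
        beta_reduce
        rw [h1]
        refine hmem _ (N.smul_mem _ ?_)
        rw [← hsp]
        exact Submodule.subset_span ⟨p.1, rfl⟩
      · rw [Submodule.span_le]
        rintro _ ⟨p, rfl⟩
        have h1 := hrow2 p.1.1 p.1.2.1 p.1.2.2 p.2.1
        rw [SetLike.mem_coe]
        beta_reduce
        rw [h1]
        exact hmem _ (N.smul_mem _ (hN.rel _ _ _))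
  rw [heq]

end rows

end Vale.Agent.P200.V
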