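import Vale.Agent.P200.V.TrA
import Vale.Agent.P200.V.TrB
import Vale.Agent.P200.V.TrC
import Vale.Agent.P200.V.TrD
import Vale.Agent.P200.V.TrE
import Vale.Agent.P200.V.TrF
import Vale.Agent.P200.V.TrG
import Vale.Agent.P200.V.RkCl

/-!
**Transfer** of the integrality from `D` and the blocks `β0, β` to `U` and the blocks `β`.
-/

namespace Vale.Agent.P200.V

open Module

universe u

/-- The dimensions of quotients of `U^I` by rows with entries `∑ z u` and `a` (`z`, `a` in `K`) are ranks of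
objects over `D`. -/
def RKL {K : Type u} [Field K] (D : Type u) [DivisionRing D] [Algebra K D] {κ : ℕ} (β0 : Blk K κ)
    (U : Type u) [DivisionRing U] [Algebra K U] : Prop :=
  ∀ (t : ℕ) (u : Fin t → U), ∃ (p : ℕ) (N : Submodule (PA D κ 1) (Fin p → PA D κ 1))
    (f : Fin t → Fin p → D), IsGi (fun _ : Fin 1 => β0) N ∧
      ∀ (I J J' : Type) [Finite I] [Finite J] [Finite J'] (z : J → I → Fin t → K)
        (a : J' → I → K),
        IsRk β0 (RS K N f z a) (finrank U ((I → U) ⧸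
          (Submodule.span U (Set.range fun (j : J) (i : I) => ∑ k, algebraMap K U (z j i k) * u k) ⊔
            Submodule.span U (Set.range fun (j : J') (i : I) => algebraMap K U (a j i)))))

theorem intP_transfer {K : Type u} [Field K] {D : Type u} [DivisionRing D] [Algebra K D] {κ R : ℕ}
    (β0 : Blk K κ) (β : Fin R → Blk K κ) {U : Type u} [DivisionRing U] [Algebra K U]
    (hU : RKL D β0 U) (hI : IntP D (Fin.cons β0 β : Fin (R + 1) → Blk K κ))
    (hI1 : IntP D (fun _ : Fin 1 => β0)) : IntP U β := by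
  intro s N hN
  obtain ⟨L, t, u, κc, hκ⟩ := exists_gn ((isGi_iff N).2 hN)
  obtain ⟨p, N1, f, hN1, hRk⟩ := hU t u
  have hcl : ∀ n : Fin R → ℕ, ∃ C, IsCl β0 (RSn (α := Fin s) β N1 f κc n) C := fun n =>
    exists_isCl hI1 (isGi_RS hN1 f (zz κc n) (aa β n))
  choose C hC using hcl
  have hCs : ∀ γ n n', n' = n + mdeg γ → ∀ u ∈ C n, sh D γ n n' u ∈ C n' := by
    intro γ n n' h
    exact isCl_comap hI1 (Φ := sh D γ n n') (fun m u => sh_cvi γ n n' m u)
      (N1 := RSn β N1 f κc n) (N2 := RSn β N1 f κc n')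
      (fun u hu => Submodule.mem_comap.2 (sh_RSn β N1 f κc γ n n' h u hu)) (hC n) (hC n')
  have hG : IsGi (Fin.cons β0 β : Fin (R + 1) → Blk K κ) (glue C hCs) :=
    isGi_glue C hCs (fun n => (hC n).2.1) fun g i n w =>
      (hC n).1 (slp_rel_mem β N1 f κc g i n w)
  obtain ⟨F, hF, n0, hn0⟩ := hI.gen hG
  rw [lam_succ] at hF
  obtain ⟨A, B, hA, hB, hAB⟩ := hF
  have he : (Fin.tail fun g => ((Fin.cons β0 β : Fin (R + 1) → Blk K κ) g).e) =
      fun g => (β g).e := by
    funext g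
    rfl
  rw [he] at hA hB
  refine ⟨A - B, lam_sub R _ _ _ hA hB, n0, fun n hn => ?_⟩
  have h1 : IsRho β0 (C n) ((A - B) fun g => (n g : ℤ)) := by
    refine ⟨A fun g => (n g : ℤ), B fun g => (n g : ℤ), rfl, n0, fun m hm => ?_⟩
    rw [← qdi_glue C hCs n m, hn0 (Fin.cons m n) ?_, hAB]
    · rfl
    · intro g
      refine Fin.cases ?_ (fun g => ?_) g
      · exact hm
      · exact hn g
  obtain ⟨k, hk1, hk2, -⟩ := (hC n).2.2
  have h2 := isRk_unique hk1 (hRk _ _ _ (zz κc n) (aa β n))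
  have h3 := isRho_unique hk2 h1
  rw [← qdi_fin, qdi_eq_finrank ((isGi_iff N).2 hN) u κc hκ n, ← h2, ← h3]

end Vale.Agent.P200.V
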